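import Claimed.Agent.R292.Height

/-!
# Row 292 (S0540), Model/Dict21 : THE DICTIONARY  Ashkin-Teller spins of Def_0468  <->  six-vertex heights      (owner helper21; prefix `mdl21_`, defs `mdl21*` / `Mdl21*`)

AT paper Sec. 2.2 (l.31-151).   `K = 2 H` on the corner graph of `F` (primal vertices = `cornersOf F`, faces = `F`).      0 sorry
* `mdl21_induct`        NE-induction on the corner graph (any finite `F`): a property that passes between a face and its corners and holds on the polygon holds everywhere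
* `mdl21_dis_add`, **`mdl21_weight`**   `t ^ atDisagreements = t ^ (interior edges) * (t⁻¹) ^ (flat plaquettes)` for admissible spins
* `mdl21Sg` the sign rule; **`Mdl21Ht F K`** six-vertex height (`K.1` on vertices, `K.2` on faces, total functions, `0` off the domain), `.parity`, `.flat_h/v` (ice rule), `.adm`, `.isATHeight`
* `mdl21_height_int`    `2 H` is an even / odd integer and the spins are its signs;   `mdl21K τ τd`, `mdl21_K_spec`
* `mdl21_tau_K`, `mdl21_K_tau`   the two maps are inverse to each other;   `mdl21Hts F` (finset of the heights), `mdl21_mem_hts`, `mdl21_sum` (change of variables)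
* **`mdl21_expect`** / **`mdl21_expect_approx`**   `atExpect t δ F φ ψ = (∑_K c^{NC K} ψ(X K)) / ∑_K c^{NC K}`, `c = t⁻¹`, `NC` = number of `c`-vertices, `X K = δ² ∑_v (K v / 2) φ(δ v)`
-/

set_option autoImplicit false

namespace Claimed.Agent.R292

open Claims Claims.C0468

/-! ## 0. geometry of the corner graph -/

/-- the four corners of the face `f` -/
def mdl21Cor (f : ℤ × ℤ) : Finset (ℤ × ℤ) := {f, (f.1 + 1, f.2), (f.1, f.2 + 1), (f.1 + 1, f.2 + 1)}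

theorem mdl21_mem_cor (f v : ℤ × ℤ) :
    v ∈ mdl21Cor f ↔ v = f ∨ v = (f.1 + 1, f.2) ∨ v = (f.1, f.2 + 1) ∨ v = (f.1 + 1, f.2 + 1) := by
  simp [mdl21Cor]

theorem mdl21_mem_corners (F : Finset (ℤ × ℤ)) (v : ℤ × ℤ) : v ∈ cornersOf F ↔ ∃ f ∈ F, v ∈ mdl21Cor f := by
  simp [cornersOf, mdl21Cor]

theorem mdl21_cor_sub {F : Finset (ℤ × ℤ)} {f v : ℤ × ℤ} (hf : f ∈ F) (hv : v ∈ mdl21Cor f) : v ∈ cornersOf F :=
  (mdl21_mem_corners F v).2 ⟨f, hf, hv⟩

/-- **NE-induction**: a property that passes between a face and its corners and holds on the polygon holds everywhere.   No hypothesis on the shape of `F`. -/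
theorem mdl21_induct (F : Finset (ℤ × ℤ)) (P Q : ℤ × ℤ → Prop)
    (h0 : ∀ v ∈ cornersOf F, OnPolygon F v → Q v)
    (h1 : ∀ f ∈ F, ∀ v ∈ mdl21Cor f, Q v → P f)
    (h2 : ∀ f ∈ F, ∀ v ∈ mdl21Cor f, P f → Q v) :
    (∀ f ∈ F, P f) ∧ ∀ v ∈ cornersOf F, Q v := by
  classical
  have hP : ∀ f ∈ F, P f := by
    by_contra hne
    push Not at hne
    obtain ⟨f0, hf0, hP0⟩ := hne
    obtain ⟨f, hf, hmax⟩ := (F.filter fun f => ¬ P f).exists_max_image (fun f => f.1 + f.2)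
      ⟨f0, Finset.mem_filter.2 ⟨hf0, hP0⟩⟩
    obtain ⟨hfF, hPf⟩ := Finset.mem_filter.1 hf
    have hv : ((f.1 + 1, f.2 + 1) : ℤ × ℤ) ∈ mdl21Cor f := by simp [mdl21Cor]
    have hQ : ¬ Q (f.1 + 1, f.2 + 1) := fun h => hPf (h1 f hfF _ hv h)
    have hpol : ¬ OnPolygon F (f.1 + 1, f.2 + 1) := fun h => hQ (h0 _ (mdl21_cor_sub hfF hv) h)
    unfold OnPolygon at hpol
    rw [not_not] at hpol
    have hg := hpol.1
    have hPg : ¬ P (f.1 + 1, f.2 + 1) := fun h => hQ (h2 _ hg _ (by simp [mdl21Cor]) h)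
    have := hmax _ (Finset.mem_filter.2 ⟨hg, hPg⟩)
    simp only at this
    omega
  refine ⟨hP, fun v hv => ?_⟩
  obtain ⟨f, hf, hvf⟩ := (mdl21_mem_corners F v).1 hv
  exact h2 f hf v hvf (hP f hf)

/-- the horizontal primal edge `v — v + e₁` is interior: the faces above and below are in `F` -/
def mdl21Ih (F : Finset (ℤ × ℤ)) (v : ℤ × ℤ) : Prop := v ∈ F ∧ (v.1, v.2 - 1) ∈ F

/-- the vertical primal edge `v — v + e₂` is interior: the faces to the right and to the left are in `F` -/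
def mdl21Iv (F : Finset (ℤ × ℤ)) (v : ℤ × ℤ) : Prop := v ∈ F ∧ (v.1 - 1, v.2) ∈ F

instance (F : Finset (ℤ × ℤ)) (v : ℤ × ℤ) : Decidable (mdl21Ih F v) := inferInstanceAs (Decidable (_ ∧ _))
instance (F : Finset (ℤ × ℤ)) (v : ℤ × ℤ) : Decidable (mdl21Iv F v) := inferInstanceAs (Decidable (_ ∧ _))

/-- spins are `1` on the polygon and off the domain -/
theorem mdl21_spin_pol {F : Finset (ℤ × ℤ)} {τ : cornersOf F → Bool} {τd : F → Bool} (h : IsAdmissibleSpins τ τd)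
    {v : ℤ × ℤ} (hv : OnPolygon F v) : atSpin τ v = 1 := by
  by_cases hc : v ∈ cornersOf F
  · exact h.1 v hc hv
  · unfold atSpin
    rw [dif_neg hc]

theorem mdl21_pol_h {F : Finset (ℤ × ℤ)} {v : ℤ × ℤ} (h : ¬ mdl21Ih F v) : OnPolygon F v ∧ OnPolygon F (v.1 + 1, v.2) := by
  unfold OnPolygon mdl21Ih at *
  refine ⟨fun h' => h ⟨h'.1, h'.2.2.1⟩, fun h' => h ⟨?_, ?_⟩⟩
  · have := h'.2.1
    simpa using this
  · have := h'.2.2.2
    simpa using this

theorem mdl21_pol_v {F : Finset (ℤ × ℤ)} {v : ℤ × ℤ} (h : ¬ mdl21Iv F v) : OnPolygon F v ∧ OnPolygon F (v.1, v.2 + 1) := by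
  unfold OnPolygon mdl21Iv at *
  refine ⟨fun h' => h ⟨h'.1, h'.2.1⟩, fun h' => h ⟨?_, ?_⟩⟩
  · have := h'.2.2.1
    simpa using this
  · have := h'.2.2.2
    simpa using this

/-! ## 1. the weight: `t ^ disagreements = t ^ (interior edges) * c ^ (flat plaquettes)` -/

/-- the number of interior primal edges (= plaquettes of the corner graph = vertices of the six-vertex model) -/
def mdl21NE (F : Finset (ℤ × ℤ)) : ℕ :=
  ∑ v ∈ cornersOf F, ((if mdl21Ih F v then 1 else 0) + (if mdl21Iv F v then 1 else 0))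

open Classical in
/-- the number of plaquettes without disagreement (the `c`-vertices), in terms of the spins -/
noncomputable def mdl21NCs {F : Finset (ℤ × ℤ)} (τ : cornersOf F → Bool) (τd : F → Bool) : ℕ :=
  ∑ v ∈ cornersOf F,
    ((if mdl21Ih F v ∧ atSpin τ v = atSpin τ (v.1 + 1, v.2) ∧ atDual τd v = atDual τd (v.1, v.2 - 1) then 1 else 0) +
     (if mdl21Iv F v ∧ atSpin τ v = atSpin τ (v.1, v.2 + 1) ∧ atDual τd v = atDual τd (v.1 - 1, v.2) then 1 else 0))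

theorem mdl21_count (E I a b : Prop) {_ : Decidable (E ∧ ¬ a)} {_ : Decidable (I ∧ ¬ b)} {_ : Decidable (I ∧ a ∧ b)} {_ : Decidable I}
    (h1 : ¬ I → a) (hE : I → E) (h2 : I → a ∨ b) :
    (if E ∧ ¬ a then 1 else 0) + (if I ∧ ¬ b then 1 else 0) + (if I ∧ a ∧ b then 1 else 0) = (if I then 1 else 0 : ℕ) := by
  by_cases hI : I
  · by_cases ha : a
    · by_cases hb : b
      · simp [hI, ha, hb]
      · simp [hI, ha, hb]
    · have hb : b := (h2 hI).resolve_left ha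
      simp [hI, ha, hb, hE hI]
  · simp [hI, h1 hI]

theorem mdl21_adm_h {F : Finset (ℤ × ℤ)} {τ : cornersOf F → Bool} {τd : F → Bool} (h : IsAdmissibleSpins τ τd)
    {v : ℤ × ℤ} (hI : mdl21Ih F v) :
    atSpin τ v = atSpin τ (v.1 + 1, v.2) ∨ atDual τd v = atDual τd (v.1, v.2 - 1) := by
  have hv : v ∈ cornersOf F := mdl21_cor_sub hI.1 (by simp [mdl21Cor])
  rcases mul_eq_zero.1 ((h.2 v hv).1 hI) with h' | h'
  · exact Or.inl (sub_eq_zero.1 h')
  · exact Or.inr (sub_eq_zero.1 h')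

theorem mdl21_adm_v {F : Finset (ℤ × ℤ)} {τ : cornersOf F → Bool} {τd : F → Bool} (h : IsAdmissibleSpins τ τd)
    {v : ℤ × ℤ} (hI : mdl21Iv F v) :
    atSpin τ v = atSpin τ (v.1, v.2 + 1) ∨ atDual τd v = atDual τd (v.1 - 1, v.2) := by
  have hv : v ∈ cornersOf F := mdl21_cor_sub hI.1 (by simp [mdl21Cor])
  rcases mul_eq_zero.1 ((h.2 v hv).2 hI) with h' | h'
  · exact Or.inl (sub_eq_zero.1 h')
  · exact Or.inr (sub_eq_zero.1 h')

/-- **every interior edge carries exactly one of: a primal disagreement, a dual disagreement, a flat plaquette; boundary edges carry nothing** -/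
theorem mdl21_dis_add {F : Finset (ℤ × ℤ)} {τ : cornersOf F → Bool} {τd : F → Bool} (h : IsAdmissibleSpins τ τd) :
    atDisagreements τ τd + mdl21NCs τ τd = mdl21NE F := by
  classical
  unfold atDisagreements mdl21NCs mdl21NE
  rw [← Finset.sum_add_distrib]
  refine Finset.sum_congr rfl fun v _ => ?_
  have key : ∀ x1 x2 x3 x4 y1 y2 z1 z2 : ℕ, x1 + x3 + y1 = z1 → x2 + x4 + y2 = z2 →
      x1 + x2 + x3 + x4 + (y1 + y2) = z1 + z2 := by
    intros; omega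
  exact key _ _ _ _ _ _ _ _
    (mdl21_count (v ∈ F ∨ (v.1, v.2 - 1) ∈ F) (mdl21Ih F v) (atSpin τ v = atSpin τ (v.1 + 1, v.2))
      (atDual τd v = atDual τd (v.1, v.2 - 1))
      (fun hI => by rw [mdl21_spin_pol h (mdl21_pol_h hI).1, mdl21_spin_pol h (mdl21_pol_h hI).2])
      (fun hI => Or.inl hI.1) (fun hI => mdl21_adm_h h hI))
    (mdl21_count (v ∈ F ∨ (v.1 - 1, v.2) ∈ F) (mdl21Iv F v) (atSpin τ v = atSpin τ (v.1, v.2 + 1))
      (atDual τd v = atDual τd (v.1 - 1, v.2))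
      (fun hI => by rw [mdl21_spin_pol h (mdl21_pol_v hI).1, mdl21_spin_pol h (mdl21_pol_v hI).2])
      (fun hI => Or.inl hI.1) (fun hI => mdl21_adm_v h hI))

/-- **the weight identity**, `c = t⁻¹` -/
theorem mdl21_weight {t : ℝ} (ht : t ≠ 0) {F : Finset (ℤ × ℤ)} {τ : cornersOf F → Bool} {τd : F → Bool}
    (h : IsAdmissibleSpins τ τd) : t ^ atDisagreements τ τd = t ^ mdl21NE F * (t⁻¹) ^ mdl21NCs τ τd := by
  rw [← mdl21_dis_add h, pow_add, mul_assoc, ← mul_pow, mul_inv_cancel₀ ht, one_pow, mul_one]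

/-! ## 2. six-vertex heights and the sign rule -/

/-- the sign rule: `(-1)^(k/2)` for even `k`, `(-1)^((k-1)/2)` for odd `k` -/
def mdl21Sg (k : ℤ) : ℤ := if k % 4 = 0 ∨ k % 4 = 1 then 1 else -1

theorem mdl21_sg_zero : mdl21Sg 0 = 1 := rfl

theorem mdl21_sg_sq (k : ℤ) : mdl21Sg k = 1 ∨ mdl21Sg k = -1 := by
  unfold mdl21Sg
  split_ifs <;> simp

theorem mdl21_sg_even_add {k : ℤ} (hk : k % 2 = 0) : mdl21Sg (k + 1) = mdl21Sg k := by
  unfold mdl21Sg
  split_ifs <;> first | rfl | omega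

theorem mdl21_sg_even_sub {k : ℤ} (hk : k % 2 = 0) : mdl21Sg (k - 1) = - mdl21Sg k := by
  unfold mdl21Sg
  split_ifs <;> first | rfl | omega

theorem mdl21_sg_odd_sub {k : ℤ} (hk : k % 2 = 1) : mdl21Sg (k - 1) = mdl21Sg k := by
  unfold mdl21Sg
  split_ifs <;> first | rfl | omega

theorem mdl21_sg_odd_add {k : ℤ} (hk : k % 2 = 1) : mdl21Sg (k + 1) = - mdl21Sg k := by
  unfold mdl21Sg
  split_ifs <;> first | rfl | omega

/-- the corner increment is the product of the two signs -/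
theorem mdl21_sg_mul {a b : ℤ} (ha : a % 2 = 0) (h : b - a = 1 ∨ b - a = -1) : mdl21Sg a * mdl21Sg b = b - a := by
  rcases h with h | h
  · have : b = a + 1 := by omega
    rw [this, mdl21_sg_even_add ha]
    rcases mdl21_sg_sq a with e | e <;> rw [e] <;> omega
  · have : b = a - 1 := by omega
    rw [this, mdl21_sg_even_sub ha]
    rcases mdl21_sg_sq a with e | e <;> rw [e] <;> omega

/-- two values of the same parity at distance at most two: same sign iff equal -/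
theorem mdl21_sg_eq_iff {a b : ℤ} (hp : a % 2 = b % 2) (h1 : a - b ≤ 2) (h2 : b - a ≤ 2) : mdl21Sg a = mdl21Sg b ↔ a = b := by
  constructor
  · unfold mdl21Sg
    split_ifs <;> intro h <;> first | omega | exact absurd h (by decide)
  · rintro rfl
    rfl

/-- **A six-vertex height on the corner graph of `F`** (`K = 2 H`): `K.1` on the primal vertices, `K.2` on the faces; `0` on the polygon, steps `± 1` between a face and its corners;
normalised to `0` off the domain. -/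
structure Mdl21Ht (F : Finset (ℤ × ℤ)) (K : (ℤ × ℤ → ℤ) × (ℤ × ℤ → ℤ)) : Prop where
  bdry : ∀ v ∈ cornersOf F, OnPolygon F v → K.1 v = 0
  step : ∀ f ∈ F, ∀ v ∈ mdl21Cor f, K.2 f - K.1 v = 1 ∨ K.2 f - K.1 v = -1
  offv : ∀ v, v ∉ cornersOf F → K.1 v = 0
  offf : ∀ f, f ∉ F → K.2 f = 0

/-- parity: odd on the faces, even on the primal vertices -/
theorem Mdl21Ht.parity {F : Finset (ℤ × ℤ)} {K : (ℤ × ℤ → ℤ) × (ℤ × ℤ → ℤ)} (h : Mdl21Ht F K) :
    (∀ f ∈ F, K.2 f % 2 = 1) ∧ ∀ v ∈ cornersOf F, K.1 v % 2 = 0 :=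
  mdl21_induct F (fun f => K.2 f % 2 = 1) (fun v => K.1 v % 2 = 0)
    (fun v hv hp => by rw [h.bdry v hv hp]; rfl)
    (fun f hf v hv hq => by have := h.step f hf v hv; omega)
    (fun f hf v hv hq => by have := h.step f hf v hv; omega)

theorem Mdl21Ht.even {F : Finset (ℤ × ℤ)} {K : (ℤ × ℤ → ℤ) × (ℤ × ℤ → ℤ)} (h : Mdl21Ht F K) (v : ℤ × ℤ) : K.1 v % 2 = 0 := by
  by_cases hv : v ∈ cornersOf F
  · exact h.parity.2 v hv
  · rw [h.offv v hv]; rfl

/-- the primal spins of a height -/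
def mdl21Tau {F : Finset (ℤ × ℤ)} (K : (ℤ × ℤ → ℤ) × (ℤ × ℤ → ℤ)) : cornersOf F → Bool := fun v => decide (mdl21Sg (K.1 v) = 1)

/-- the dual spins of a height -/
def mdl21TauD {F : Finset (ℤ × ℤ)} (K : (ℤ × ℤ → ℤ) × (ℤ × ℤ → ℤ)) : F → Bool := fun f => decide (mdl21Sg (K.2 f) = 1)

theorem mdl21_spin_tau {F : Finset (ℤ × ℤ)} {K : (ℤ × ℤ → ℤ) × (ℤ × ℤ → ℤ)} (h : Mdl21Ht F K) (v : ℤ × ℤ) :
    atSpin (mdl21Tau (F := F) K) v = mdl21Sg (K.1 v) := by
  unfold atSpin mdl21Tau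
  by_cases hv : v ∈ cornersOf F
  · rw [dif_pos hv]
    rcases mdl21_sg_sq (K.1 v) with e | e <;> simp [e]
  · rw [dif_neg hv, h.offv v hv, mdl21_sg_zero]

theorem mdl21_dual_tau {F : Finset (ℤ × ℤ)} {K : (ℤ × ℤ → ℤ) × (ℤ × ℤ → ℤ)} (h : Mdl21Ht F K) (f : ℤ × ℤ) :
    atDual (mdl21TauD (F := F) K) f = mdl21Sg (K.2 f) := by
  unfold atDual mdl21TauD
  by_cases hf : f ∈ F
  · rw [dif_pos hf]
    rcases mdl21_sg_sq (K.2 f) with e | e <;> simp [e]
  · rw [dif_neg hf, h.offf f hf, mdl21_sg_zero]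

/-- around an interior horizontal edge: one of the two diagonals of the plaquette is flat -/
theorem Mdl21Ht.flat_h {F : Finset (ℤ × ℤ)} {K : (ℤ × ℤ → ℤ) × (ℤ × ℤ → ℤ)} (h : Mdl21Ht F K) {v : ℤ × ℤ} (hI : mdl21Ih F v) :
    (K.1 v = K.1 (v.1 + 1, v.2) ∨ K.2 v = K.2 (v.1, v.2 - 1)) ∧
      K.1 v - K.1 (v.1 + 1, v.2) ≤ 2 ∧ K.1 (v.1 + 1, v.2) - K.1 v ≤ 2 ∧
      K.2 v - K.2 (v.1, v.2 - 1) ≤ 2 ∧ K.2 (v.1, v.2 - 1) - K.2 v ≤ 2 := by
  have a1 := h.step v hI.1 v (by simp [mdl21Cor])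
  have a2 := h.step v hI.1 (v.1 + 1, v.2) (by simp [mdl21Cor])
  have a3 := h.step _ hI.2 v (by simp [mdl21Cor])
  have a4 := h.step _ hI.2 (v.1 + 1, v.2) (by simp [mdl21Cor])
  omega

/-- around an interior vertical edge: one of the two diagonals of the plaquette is flat -/
theorem Mdl21Ht.flat_v {F : Finset (ℤ × ℤ)} {K : (ℤ × ℤ → ℤ) × (ℤ × ℤ → ℤ)} (h : Mdl21Ht F K) {v : ℤ × ℤ} (hI : mdl21Iv F v) :
    (K.1 v = K.1 (v.1, v.2 + 1) ∨ K.2 v = K.2 (v.1 - 1, v.2)) ∧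
      K.1 v - K.1 (v.1, v.2 + 1) ≤ 2 ∧ K.1 (v.1, v.2 + 1) - K.1 v ≤ 2 ∧
      K.2 v - K.2 (v.1 - 1, v.2) ≤ 2 ∧ K.2 (v.1 - 1, v.2) - K.2 v ≤ 2 := by
  have a1 := h.step v hI.1 v (by simp [mdl21Cor])
  have a2 := h.step v hI.1 (v.1, v.2 + 1) (by simp [mdl21Cor])
  have a3 := h.step _ hI.2 v (by simp [mdl21Cor])
  have a4 := h.step _ hI.2 (v.1, v.2 + 1) (by simp [mdl21Cor])
  omega

/-- **heights give admissible spins** -/
theorem Mdl21Ht.adm {F : Finset (ℤ × ℤ)} {K : (ℤ × ℤ → ℤ) × (ℤ × ℤ → ℤ)} (h : Mdl21Ht F K) :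
    IsAdmissibleSpins (mdl21Tau (F := F) K) (mdl21TauD (F := F) K) := by
  refine ⟨fun v hv hp => by rw [mdl21_spin_tau h, h.bdry v hv hp, mdl21_sg_zero], fun v _ => ⟨fun hI => ?_, fun hI => ?_⟩⟩
  · simp only [mdl21_spin_tau h, mdl21_dual_tau h]
    rcases (h.flat_h hI).1 with e | e <;> rw [e] <;> simp
  · simp only [mdl21_spin_tau h, mdl21_dual_tau h]
    rcases (h.flat_v hI).1 with e | e <;> rw [e] <;> simp

/-- **... whose frozen height is `K / 2`** -/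
theorem Mdl21Ht.isATHeight {F : Finset (ℤ × ℤ)} {K : (ℤ × ℤ → ℤ) × (ℤ × ℤ → ℤ)} (h : Mdl21Ht F K) :
    IsATHeight (mdl21Tau (F := F) K) (mdl21TauD (F := F) K) (fun v => (K.1 v : ℝ) / 2) (fun f => (K.2 f : ℝ) / 2) := by
  refine ⟨fun v hv hp => by simp [h.bdry v hv hp], fun f hf v hv => ?_⟩
  have e := mdl21_sg_mul (h.even v) (h.step f hf v hv)
  rw [mdl21_spin_tau h, mdl21_dual_tau h]
  have e' : ((mdl21Sg (K.1 v) : ℝ) * (mdl21Sg (K.2 f) : ℝ)) = (K.2 f : ℝ) - (K.1 v : ℝ) := by exact_mod_cast e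
  rw [e']
  ring

/-! ## 3. from the spins to the height -/

/-- **uniqueness of the frozen height** on the domain; no hypothesis on the shape of `F` -/
theorem mdl21_height_unique {F : Finset (ℤ × ℤ)} {τ : cornersOf F → Bool} {τd : F → Bool} {Hv Hf Hv' Hf' : ℤ × ℤ → ℝ}
    (h : IsATHeight τ τd Hv Hf) (h' : IsATHeight τ τd Hv' Hf') :
    (∀ f ∈ F, Hf f = Hf' f) ∧ ∀ v ∈ cornersOf F, Hv v = Hv' v :=
  mdl21_induct F (fun f => Hf f = Hf' f) (fun v => Hv v = Hv' v)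
    (fun v hv hp => by rw [h.1 v hv hp, h'.1 v hv hp])
    (fun f hf v hv hq => by
      have a := h.2 f hf v hv
      have b := h'.2 f hf v hv
      linarith)
    (fun f hf v hv hq => by
      have a := h.2 f hf v hv
      have b := h'.2 f hf v hv
      linarith)

/-- **integrality and the sign rule**: `2 H` is an even integer on the primal vertices, an odd integer on the faces, and the spins are its signs -/
theorem mdl21_height_int {F : Finset (ℤ × ℤ)} {τ : cornersOf F → Bool} {τd : F → Bool} {Hv Hf : ℤ × ℤ → ℝ}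
    (ha : IsAdmissibleSpins τ τd) (h : IsATHeight τ τd Hv Hf) :
    (∀ f ∈ F, ∃ k : ℤ, Hf f = (k : ℝ) / 2 ∧ k % 2 = 1 ∧ atDual τd f = mdl21Sg k) ∧
      ∀ v ∈ cornersOf F, ∃ k : ℤ, Hv v = (k : ℝ) / 2 ∧ k % 2 = 0 ∧ atSpin τ v = mdl21Sg k := by
  refine mdl21_induct F (fun f => ∃ k : ℤ, Hf f = (k : ℝ) / 2 ∧ k % 2 = 1 ∧ atDual τd f = mdl21Sg k)
    (fun v => ∃ k : ℤ, Hv v = (k : ℝ) / 2 ∧ k % 2 = 0 ∧ atSpin τ v = mdl21Sg k) ?_ ?_ ?_
  · intro v hv hp
    exact ⟨0, by simp [h.1 v hv hp], rfl, by rw [ha.1 v hv hp, mdl21_sg_zero]⟩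
  · rintro f hf v hv ⟨k, e1, e2, e3⟩
    have a := h.2 f hf v hv
    rw [e1, e3] at a
    rcases at92_dual_sq τd f with d | d <;> rcases mdl21_sg_sq k with g | g
    · refine ⟨k + 1, ?_, by omega, by rw [mdl21_sg_even_add e2, d, g]⟩
      rw [d, g] at a; push_cast at a ⊢; linarith
    · refine ⟨k - 1, ?_, by omega, by rw [mdl21_sg_even_sub e2, d, g]; rfl⟩
      rw [d, g] at a; push_cast at a ⊢; linarith
    · refine ⟨k - 1, ?_, by omega, by rw [mdl21_sg_even_sub e2, d, g]⟩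
      rw [d, g] at a; push_cast at a ⊢; linarith
    · refine ⟨k + 1, ?_, by omega, by rw [mdl21_sg_even_add e2, d, g]⟩
      rw [d, g] at a; push_cast at a ⊢; linarith
  · rintro f hf v hv ⟨k, e1, e2, e3⟩
    have a := h.2 f hf v hv
    rw [e1, e3] at a
    rcases at92_spin_sq τ v with d | d <;> rcases mdl21_sg_sq k with g | g
    · refine ⟨k - 1, ?_, by omega, by rw [mdl21_sg_odd_sub e2, d, g]⟩
      rw [d, g] at a; push_cast at a ⊢; linarith
    · refine ⟨k + 1, ?_, by omega, by rw [mdl21_sg_odd_add e2, d, g]; rfl⟩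
      rw [d, g] at a; push_cast at a ⊢; linarith
    · refine ⟨k + 1, ?_, by omega, by rw [mdl21_sg_odd_add e2, d, g]⟩
      rw [d, g] at a; push_cast at a ⊢; linarith
    · refine ⟨k - 1, ?_, by omega, by rw [mdl21_sg_odd_sub e2, d, g]⟩
      rw [d, g] at a; push_cast at a ⊢; linarith

/-- the pair has a frozen height -/
def Mdl21Has {F : Finset (ℤ × ℤ)} (τ : cornersOf F → Bool) (τd : F → Bool) : Prop :=
  ∃ Hv Hf : ℤ × ℤ → ℝ, IsATHeight τ τd Hv Hf

/-- the frozen `atHeight` is a height as soon as there is one -/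
theorem mdl21_atHeight_spec {F : Finset (ℤ × ℤ)} {τ : cornersOf F → Bool} {τd : F → Bool} (h : Mdl21Has τ τd) :
    ∃ Hf : ℤ × ℤ → ℝ, IsATHeight τ τd (atHeight τ τd) Hf := by
  have h' : ∃ Hv Hf : ℤ × ℤ → ℝ, IsATHeight τ τd Hv Hf := h
  unfold atHeight
  rw [dif_pos h']
  exact Classical.choose_spec h'

open Classical in
/-- the six-vertex height `K = 2 H` of a pair of spins -/
noncomputable def mdl21K {F : Finset (ℤ × ℤ)} (τ : cornersOf F → Bool) (τd : F → Bool) : (ℤ × ℤ → ℤ) × (ℤ × ℤ → ℤ) :=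
  (fun v => if v ∈ cornersOf F then round (2 * atHeight τ τd v) else 0,
   fun f => if f ∈ F then round (2 * atHeight τ τd f) + atSpin τ f * atDual τd f else 0)

/-- everything about `mdl21K` -/
theorem mdl21_K_spec {F : Finset (ℤ × ℤ)} {τ : cornersOf F → Bool} {τd : F → Bool}
    (ha : IsAdmissibleSpins τ τd) (h : Mdl21Has τ τd) :
    Mdl21Ht F (mdl21K τ τd) ∧ (∀ v ∈ cornersOf F, atHeight τ τd v = ((mdl21K τ τd).1 v : ℝ) / 2) ∧
      (∀ v, atSpin τ v = mdl21Sg ((mdl21K τ τd).1 v)) ∧ ∀ f, atDual τd f = mdl21Sg ((mdl21K τ τd).2 f) := by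
  classical
  obtain ⟨Hf, hH⟩ := mdl21_atHeight_spec h
  obtain ⟨hf, hv⟩ := mdl21_height_int ha hH
  -- the values
  have kv : ∀ v ∈ cornersOf F, ∀ k : ℤ, atHeight τ τd v = (k : ℝ) / 2 → (mdl21K τ τd).1 v = k := by
    intro v hvc k e
    show (if v ∈ cornersOf F then round (2 * atHeight τ τd v) else 0) = k
    rw [if_pos hvc, e]
    have : (2 : ℝ) * ((k : ℝ) / 2) = (k : ℝ) := by ring
    rw [this, round_intCast]
  have kf : ∀ f ∈ F, ∀ k : ℤ, Hf f = (k : ℝ) / 2 → (mdl21K τ τd).2 f = k := by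
    intro f hfF k e
    have hc : f ∈ mdl21Cor f := by simp [mdl21Cor]
    obtain ⟨j, e1, -, -⟩ := hv f (mdl21_cor_sub hfF hc)
    show (if f ∈ F then round (2 * atHeight τ τd f) + atSpin τ f * atDual τd f else 0) = k
    rw [if_pos hfF, e1]
    have : (2 : ℝ) * ((j : ℝ) / 2) = (j : ℝ) := by ring
    rw [this, round_intCast]
    have a := hH.2 f hfF f hc
    rw [e, e1] at a
    have a' : ((k - j : ℤ) : ℝ) = ((atSpin τ f * atDual τd f : ℤ) : ℝ) := by push_cast; linarith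
    have := Int.cast_injective a'
    omega
  refine ⟨⟨?_, ?_, ?_, ?_⟩, ?_, ?_, ?_⟩
  · intro v hvc hp
    exact kv v hvc 0 (by simp [hH.1 v hvc hp])
  · intro f hfF v hvf
    obtain ⟨k, e1, e2, e3⟩ := hf f hfF
    obtain ⟨j, d1, d2, d3⟩ := hv v (mdl21_cor_sub hfF hvf)
    rw [kf f hfF k e1, kv v (mdl21_cor_sub hfF hvf) j d1]
    have a := hH.2 f hfF v hvf
    rw [e1, d1] at a
    have a' : ((k - j : ℤ) : ℝ) = ((atSpin τ v * atDual τd f : ℤ) : ℝ) := by push_cast; linarith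
    have a'' := Int.cast_injective a'
    rcases at92_spin_sq τ v with s | s <;> rcases at92_dual_sq τd f with d | d <;> rw [s, d] at a'' <;> omega
  · intro v hvc
    show (if v ∈ cornersOf F then round (2 * atHeight τ τd v) else 0) = 0
    rw [if_neg hvc]
  · intro f hfF
    show (if f ∈ F then round (2 * atHeight τ τd f) + atSpin τ f * atDual τd f else 0) = 0
    rw [if_neg hfF]
  · intro v hvc
    obtain ⟨j, d1, -, -⟩ := hv v hvc
    rw [kv v hvc j d1, d1]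
  · intro v
    by_cases hvc : v ∈ cornersOf F
    · obtain ⟨j, d1, -, d3⟩ := hv v hvc
      rw [kv v hvc j d1, d3]
    · have e : (mdl21K τ τd).1 v = 0 := by
        show (if v ∈ cornersOf F then round (2 * atHeight τ τd v) else 0) = 0
        rw [if_neg hvc]
      rw [e, mdl21_sg_zero]
      unfold atSpin
      rw [dif_neg hvc]
  · intro f
    by_cases hfF : f ∈ F
    · obtain ⟨k, e1, -, e3⟩ := hf f hfF
      rw [kf f hfF k e1, e3]
    · have e : (mdl21K τ τd).2 f = 0 := by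
        show (if f ∈ F then round (2 * atHeight τ τd f) + atSpin τ f * atDual τd f else 0) = 0
        rw [if_neg hfF]
      rw [e, mdl21_sg_zero]
      unfold atDual
      rw [dif_neg hfF]

/-! ## 4. the bijection and the expectation -/

/-- the spins are recovered from the height -/
theorem mdl21_tau_K {F : Finset (ℤ × ℤ)} {τ : cornersOf F → Bool} {τd : F → Bool}
    (ha : IsAdmissibleSpins τ τd) (h : Mdl21Has τ τd) :
    mdl21Tau (F := F) (mdl21K τ τd) = τ ∧ mdl21TauD (F := F) (mdl21K τ τd) = τd := by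
  obtain ⟨-, -, hs, hd⟩ := mdl21_K_spec ha h
  constructor
  · funext ⟨v, hv⟩
    have e := hs v
    unfold atSpin at e
    rw [dif_pos hv] at e
    show decide (mdl21Sg ((mdl21K τ τd).1 v) = 1) = τ ⟨v, hv⟩
    rw [← e]
    cases τ ⟨v, hv⟩ <;> simp
  · funext ⟨f, hf⟩
    have e := hd f
    unfold atDual at e
    rw [dif_pos hf] at e
    show decide (mdl21Sg ((mdl21K τ τd).2 f) = 1) = τd ⟨f, hf⟩
    rw [← e]
    cases τd ⟨f, hf⟩ <;> simp

theorem Mdl21Ht.has {F : Finset (ℤ × ℤ)} {K : (ℤ × ℤ → ℤ) × (ℤ × ℤ → ℤ)} (h : Mdl21Ht F K) :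
    Mdl21Has (mdl21Tau (F := F) K) (mdl21TauD (F := F) K) := ⟨_, _, h.isATHeight⟩

/-- the height is recovered from its spins -/
theorem mdl21_K_tau {F : Finset (ℤ × ℤ)} {K : (ℤ × ℤ → ℤ) × (ℤ × ℤ → ℤ)} (h : Mdl21Ht F K) :
    mdl21K (mdl21Tau (F := F) K) (mdl21TauD (F := F) K) = K := by
  have h' := (mdl21_K_spec h.adm h.has).1
  have a := h'.isATHeight
  obtain ⟨e1, e2⟩ := mdl21_tau_K h.adm h.has
  rw [e1, e2] at a
  obtain ⟨uf, uv⟩ := mdl21_height_unique a h.isATHeight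
  refine Prod.ext (funext fun v => ?_) (funext fun f => ?_)
  · by_cases hv : v ∈ cornersOf F
    · have := uv v hv
      have e : (((mdl21K (mdl21Tau (F := F) K) (mdl21TauD (F := F) K)).1 v : ℤ) : ℝ) = ((K.1 v : ℤ) : ℝ) := by linarith
      exact Int.cast_injective e
    · rw [h'.offv v hv, h.offv v hv]
  · by_cases hf : f ∈ F
    · have := uf f hf
      have e : (((mdl21K (mdl21Tau (F := F) K) (mdl21TauD (F := F) K)).2 f : ℤ) : ℝ) = ((K.2 f : ℤ) : ℝ) := by linarith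
      exact Int.cast_injective e
    · rw [h'.offf f hf, h.offf f hf]

/-- the number of flat plaquettes (`c`-vertices of the six-vertex model) of a height -/
def mdl21NC (F : Finset (ℤ × ℤ)) (K : (ℤ × ℤ → ℤ) × (ℤ × ℤ → ℤ)) : ℕ :=
  ∑ v ∈ cornersOf F,
    ((if mdl21Ih F v ∧ K.1 v = K.1 (v.1 + 1, v.2) ∧ K.2 v = K.2 (v.1, v.2 - 1) then 1 else 0) +
     (if mdl21Iv F v ∧ K.1 v = K.1 (v.1, v.2 + 1) ∧ K.2 v = K.2 (v.1 - 1, v.2) then 1 else 0))

theorem mdl21_NCs_eq {F : Finset (ℤ × ℤ)} {τ : cornersOf F → Bool} {τd : F → Bool}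
    (ha : IsAdmissibleSpins τ τd) (h : Mdl21Has τ τd) : mdl21NCs τ τd = mdl21NC F (mdl21K τ τd) := by
  obtain ⟨hK, -, hs, hd⟩ := mdl21_K_spec ha h
  unfold mdl21NCs mdl21NC
  refine Finset.sum_congr rfl fun v _ => ?_
  congr 1
  · refine if_congr (and_congr_right fun hI => ?_) rfl rfl
    obtain ⟨-, b1, b2, b3, b4⟩ := hK.flat_h hI
    rw [hs, hs, hd, hd, mdl21_sg_eq_iff (by rw [hK.even, hK.even]) b1 b2,
      mdl21_sg_eq_iff (by rw [hK.parity.1 _ hI.1, hK.parity.1 _ hI.2]) b3 b4]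
  · refine if_congr (and_congr_right fun hI => ?_) rfl rfl
    obtain ⟨-, b1, b2, b3, b4⟩ := hK.flat_v hI
    rw [hs, hs, hd, hd, mdl21_sg_eq_iff (by rw [hK.even, hK.even]) b1 b2,
      mdl21_sg_eq_iff (by rw [hK.parity.1 _ hI.1, hK.parity.1 _ hI.2]) b3 b4]

/-- HYPOTHESIS ON THE SHAPE OF `F` (true for simple polygons; unit TOP): every admissible pair of spins has a height -/
def Mdl21Ex (F : Finset (ℤ × ℤ)) : Prop :=
  ∀ (τ : cornersOf F → Bool) (τd : F → Bool), IsAdmissibleSpins τ τd → Mdl21Has τ τd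

open Classical in
/-- the finite set of the six-vertex heights of `F` -/
noncomputable def mdl21Hts (F : Finset (ℤ × ℤ)) : Finset ((ℤ × ℤ → ℤ) × (ℤ × ℤ → ℤ)) :=
  (at92Adm F).image fun p => mdl21K p.1 p.2

theorem mdl21_mem_hts_of {F : Finset (ℤ × ℤ)} {K : (ℤ × ℤ → ℤ) × (ℤ × ℤ → ℤ)} (h : Mdl21Ht F K) : K ∈ mdl21Hts F := by
  classical
  exact Finset.mem_image.2 ⟨(mdl21Tau (F := F) K, mdl21TauD (F := F) K), (at92_mem_adm _).2 h.adm, mdl21_K_tau h⟩

theorem mdl21_mem_hts {F : Finset (ℤ × ℤ)} (hex : Mdl21Ex F) (K : (ℤ × ℤ → ℤ) × (ℤ × ℤ → ℤ)) :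
    K ∈ mdl21Hts F ↔ Mdl21Ht F K := by
  classical
  refine ⟨fun h => ?_, mdl21_mem_hts_of⟩
  obtain ⟨p, hp, rfl⟩ := Finset.mem_image.1 h
  have ha := (at92_mem_adm p).1 hp
  exact (mdl21_K_spec ha (hex _ _ ha)).1

theorem mdl21_K_injOn {F : Finset (ℤ × ℤ)} (hex : Mdl21Ex F) :
    Set.InjOn (fun p : at92Cfg F => mdl21K p.1 p.2) (at92Adm F : Set (at92Cfg F)) := by
  intro p hp q hq e
  have hp' := (at92_mem_adm p).1 (Finset.mem_coe.1 hp)
  have hq' := (at92_mem_adm q).1 (Finset.mem_coe.1 hq)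
  obtain ⟨a1, a2⟩ := mdl21_tau_K hp' (hex _ _ hp')
  obtain ⟨b1, b2⟩ := mdl21_tau_K hq' (hex _ _ hq')
  simp only at e
  refine Prod.ext ?_ ?_
  · rw [← a1, ← b1, e]
  · rw [← a2, ← b2, e]

/-- change of variables: sums over the admissible pairs are sums over the heights -/
theorem mdl21_sum {F : Finset (ℤ × ℤ)} (hex : Mdl21Ex F) (g : (ℤ × ℤ → ℤ) × (ℤ × ℤ → ℤ) → ℝ) :
    ∑ p ∈ at92Adm F, g (mdl21K p.1 p.2) = ∑ K ∈ mdl21Hts F, g K := by
  classical
  unfold mdl21Hts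
  rw [Finset.sum_image (mdl21_K_injOn hex)]

/-- the smeared height of a six-vertex height (`H = K / 2`) -/
noncomputable def mdl21X (δ : ℝ) (F : Finset (ℤ × ℤ)) (φ : ℝ × ℝ → ℝ) (K : (ℤ × ℤ → ℤ) × (ℤ × ℤ → ℤ)) : ℝ :=
  δ ^ 2 * ∑ v ∈ cornersOf F, (K.1 v : ℝ) / 2 * φ (δ * v.1, δ * v.2)

/-- **THE DICTIONARY**: the frozen Ashkin-Teller expectation is the expectation of the six-vertex height model with weights `(1, 1, c)`, `c = t⁻¹`, zero boundary values -/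
theorem mdl21_expect {t : ℝ} (ht : t ≠ 0) (δ : ℝ) {F : Finset (ℤ × ℤ)} (hex : Mdl21Ex F) (φ : ℝ × ℝ → ℝ) (ψ : ℝ → ℝ) :
    atExpect t δ F φ ψ =
      (∑ K ∈ mdl21Hts F, (t⁻¹) ^ mdl21NC F K * ψ (mdl21X δ F φ K)) / ∑ K ∈ mdl21Hts F, (t⁻¹) ^ mdl21NC F K := by
  rw [at92_expect_eq, ← mdl21_sum hex, ← mdl21_sum hex]
  have e1 : ∀ p ∈ at92Adm F, at92W t p = t ^ mdl21NE F * (t⁻¹) ^ mdl21NC F (mdl21K p.1 p.2) := by
    intro p hp
    have ha := (at92_mem_adm p).1 hp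
    unfold at92W
    rw [mdl21_weight ht ha, mdl21_NCs_eq ha (hex _ _ ha)]
  have e2 : ∀ p ∈ at92Adm F, at92X δ φ p = mdl21X δ F φ (mdl21K p.1 p.2) := by
    intro p hp
    have ha := (at92_mem_adm p).1 hp
    unfold at92X mdl21X
    congr 1
    refine Finset.sum_congr rfl fun v hv => ?_
    rw [(mdl21_K_spec ha (hex _ _ ha)).2.1 v hv]
  rw [Finset.sum_congr rfl fun p hp => by rw [e1 p hp, e2 p hp, mul_assoc], Finset.sum_congr rfl e1,
    ← Finset.mul_sum, ← Finset.mul_sum, mul_div_mul_left _ _ (pow_ne_zero _ ht)]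

theorem mdl21_ex_of_ext {F : Finset (ℤ × ℤ)} (h : At92hExt F) : Mdl21Ex F := fun _ _ ha => at92h_exists h ha

theorem mdl21_ex_of_approx {D : Set (ℝ × ℝ)} {δ : ℕ → ℝ} {F : ℕ → Finset (ℤ × ℤ)} (h : IsAdmissibleApprox D δ F) (n : ℕ) :
    Mdl21Ex (F n) := mdl21_ex_of_ext (at92h_ext_of_approx h n)

/-- **THE DICTIONARY along an admissible approximation** (no further hypothesis) -/
theorem mdl21_expect_approx {t : ℝ} (ht : t ≠ 0) {D : Set (ℝ × ℝ)} {δ : ℕ → ℝ} {F : ℕ → Finset (ℤ × ℤ)}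
    (h : IsAdmissibleApprox D δ F) (n : ℕ) (φ : ℝ × ℝ → ℝ) (ψ : ℝ → ℝ) :
    atExpect t (δ n) (F n) φ ψ =
      (∑ K ∈ mdl21Hts (F n), (t⁻¹) ^ mdl21NC (F n) K * ψ (mdl21X (δ n) (F n) φ K)) /
        ∑ K ∈ mdl21Hts (F n), (t⁻¹) ^ mdl21NC (F n) K :=
  mdl21_expect ht (δ n) (mdl21_ex_of_approx h n) φ ψ

end Claimed.Agent.R292
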