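import Mathlib
import Claimed.Agent.R292.Defs.MODEL

/-!
# Row 292 (S0540), Model/Fkg231 : ORDER, ASSOCIATION, SYMMETRIES, GIBBS PROPERTY OF SIX-VERTEX HEIGHTS AT `c ≥ 1`      (owner helper231; prefix `mdl231_` / `Mdl231`)      no sorry

Unit MODEL (head 191), post "FKG + Holley for the height `h` at `c ≥ 1`" (AT paper Sec. 3, `prop:comparison`, height part; DKLM / Glazman-Lammers input of the RSW port).

The heights `K = 2 H` of the Ashkin-Teller / six-vertex model are TOTAL functions `K : V → ℤ` on ANY vertex type `V` (corner graph: primal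
vertices and faces).  A system `S : Mdl231Sys V` is a finite set `S.E` of edges (step `± 1`), a finite set `S.P` of plaquettes `(u, f, v, g)` (4-cycles; diagonals
`u v` and `f g`), and a parity class `S.par`.  A plaquette is of type `c` when BOTH diagonals are flat; weight `c ^ (number of type-c plaquettes)`
(`= t ^ (-|P|) * t ^ (disagreements)`, `c = 1 / t`).  A law has a finite FREE set `A` and a boundary function `b` (`K = b` off `A`).  Same vocabulary as `R291/Defs/Ht`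
(`HtAdm htCfg htE`), so that the ports of `R291/Dis/HtOrd` consumers need no new ideas.

* `mdl231_ff`, `mdl231_two`, `mdl231_one`      four functions / Holley (two weights) / FKG on FINITE SUBSETS of any distributive lattice, signed observables, monotone only where needed
* `mdl231_step_inf_sup`, `mdl231_plaq`          sorting of steps (needs the common parity) and of one plaquette
* `Mdl231Sys.Adm`, `.cfg`, `.nC`, `.Sm`, `.Z`, `.Ex`;   `mdl231_mem_cfg`, `mdl231_finite_of_reach`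
* `mdl231_adm_inf_sup`, `mdl231_nC_inf_sup`, `mdl231_wt_inf_sup`     the lattice condition, `1 ≤ c`
* **`mdl231_order`** (`_S`)      `b₁ ≤ b₂`, `F` increasing: `S.Ex c A b₁ F ≤ S.Ex c A b₂ F`
* **`mdl231_fkg`** (`_S`)        association;   `mdl231_fkg_event`  conditioning on an increasing event raises increasing observables
* `mdl231_shift`, `mdl231_neg` (`_S`)      symmetries `K ↦ K + 2 m`, `K ↦ - K`
* **`mdl231_dlr`** (`_S`, `_mul`)          Gibbs property, `A' ⊆ A`;   `mdl231_local`  edges and plaquettes off the free set may be dropped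
* `mdl231Lat Q A`, `mdl231_lat_adm`, `mdl231_lat_cfg`, `mdl231_lat_nC`, `mdl231_lat_EQ`      the corner lattice of `Defs/MODEL`: `mdlEQ c Q A b = (mdl231Lat Q A).Ex c A b` for `MdlHt b`;
  `mdl231_lat_ht` every configuration is a global height, `mdl231_lat_fin`, `mdl231_lat_ne`
* **`mdl231_exit_fkg`**      = the contract (M3) `exit_mdl_fkg` of `Exit/MODEL`, word for word
-/

set_option autoImplicit false
set_option linter.unusedVariables false

namespace Claimed.Agent.R292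

open Finset
open scoped FinsetFamily

/-! ## 1. Four functions on two finite subsets of a distributive lattice -/

section FF
variable {α : Type*} [DistribLattice α]

theorem mdl231_ff (S₁ S₂ : Finset α) (f₁ f₂ f₃ f₄ : α → ℝ) (h₁ : ∀ a ∈ S₁, 0 ≤ f₁ a) (h₂ : ∀ a ∈ S₂, 0 ≤ f₂ a)
    (h₃ : ∀ a ∈ S₁, 0 ≤ f₃ a) (h₄ : ∀ a ∈ S₂, 0 ≤ f₄ a)
    (h : ∀ a ∈ S₁, ∀ c ∈ S₂, a ⊓ c ∈ S₁ ∧ a ⊔ c ∈ S₂ ∧ f₁ a * f₂ c ≤ f₃ (a ⊓ c) * f₄ (a ⊔ c)) :
    (∑ a ∈ S₁, f₁ a) * ∑ c ∈ S₂, f₂ c ≤ (∑ a ∈ S₁, f₃ a) * ∑ c ∈ S₂, f₄ c := by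
  classical
  have nn : ∀ (S : Finset α) (f : α → ℝ), (∀ a ∈ S, 0 ≤ f a) → (0 : α → ℝ) ≤ fun a => if a ∈ S then f a else 0 := by
    intro S f hf a
    show (0 : ℝ) ≤ if a ∈ S then f a else 0
    split_ifs with ha
    · exact hf a ha
    · exact le_rfl
  have key := four_functions_theorem (fun a => if a ∈ S₁ then f₁ a else 0) (fun a => if a ∈ S₂ then f₂ a else 0)
    (fun a => if a ∈ S₁ then f₃ a else 0) (fun a => if a ∈ S₂ then f₄ a else 0) (nn _ _ h₁) (nn _ _ h₂) (nn _ _ h₃) (nn _ _ h₄)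
    (by
      intro a c
      by_cases ha : a ∈ S₁
      · by_cases hc : c ∈ S₂
        · obtain ⟨i1, i2, i3⟩ := h a ha c hc
          simp only [ha, hc, i1, i2, if_true]
          exact i3
        · simp only [hc, if_false, mul_zero]
          exact mul_nonneg (nn _ _ h₃ _) (nn _ _ h₄ _)
      · simp only [ha, if_false, zero_mul]
        exact mul_nonneg (nn _ _ h₃ _) (nn _ _ h₄ _)) S₁ S₂
  have e : ∀ (S : Finset α) (f : α → ℝ), ∑ a ∈ S, (if a ∈ S then f a else 0) = ∑ a ∈ S, f a :=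
    fun S f => Finset.sum_congr rfl fun a ha => if_pos ha
  rw [e, e] at key
  have s1 : S₁ ⊼ S₂ ⊆ S₁ := by
    intro x hx
    obtain ⟨a, ha, c, hc, rfl⟩ := Finset.mem_infs.1 hx
    exact (h a ha c hc).1
  have s2 : S₁ ⊻ S₂ ⊆ S₂ := by
    intro x hx
    obtain ⟨a, ha, c, hc, rfl⟩ := Finset.mem_sups.1 hx
    exact (h a ha c hc).2.1
  have b1 : ∑ a ∈ S₁ ⊼ S₂, (if a ∈ S₁ then f₃ a else 0) ≤ ∑ a ∈ S₁, f₃ a := by
    rw [← e S₁ f₃]
    exact Finset.sum_le_sum_of_subset_of_nonneg s1 fun a _ _ => nn _ _ h₃ a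
  have b2 : ∑ a ∈ S₁ ⊻ S₂, (if a ∈ S₂ then f₄ a else 0) ≤ ∑ a ∈ S₂, f₄ a := by
    rw [← e S₂ f₄]
    exact Finset.sum_le_sum_of_subset_of_nonneg s2 fun a _ _ => nn _ _ h₄ a
  refine key.trans (mul_le_mul b1 b2 (Finset.sum_nonneg fun a _ => nn _ _ h₄ a) (Finset.sum_nonneg h₃))

omit [DistribLattice α] in
theorem mdl231_shift_exists (S : Finset α) (F : α → ℝ) : ∃ K : ℝ, ∀ a ∈ S, 0 ≤ F a + K := by
  refine ⟨∑ a ∈ S, |F a|, fun a ha => ?_⟩
  have h1 : |F a| ≤ ∑ a ∈ S, |F a| := Finset.single_le_sum (f := fun a => |F a|) (fun _ _ => abs_nonneg _) ha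
  have h2 := neg_abs_le (F a)
  linarith

/-- **two laws** (Holley), unnormalised, two weights -/
theorem mdl231_two (S₁ S₂ : Finset α) (w₁ w₂ F : α → ℝ) (hw₁ : ∀ a ∈ S₁, 0 ≤ w₁ a) (hw₂ : ∀ a ∈ S₂, 0 ≤ w₂ a)
    (h : ∀ a ∈ S₁, ∀ c ∈ S₂, a ⊓ c ∈ S₁ ∧ a ⊔ c ∈ S₂ ∧ w₁ a * w₂ c ≤ w₁ (a ⊓ c) * w₂ (a ⊔ c))
    (hF : ∀ a ∈ S₁, ∀ c ∈ S₂, a ≤ c → F a ≤ F c) :
    (∑ a ∈ S₁, w₁ a * F a) * ∑ c ∈ S₂, w₂ c ≤ (∑ a ∈ S₁, w₁ a) * ∑ c ∈ S₂, w₂ c * F c := by
  classical
  obtain ⟨K, hK⟩ := mdl231_shift_exists (S₁ ∪ S₂) F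
  have key := mdl231_ff S₁ S₂ (fun a => w₁ a * (F a + K)) w₂ w₁ (fun a => w₂ a * (F a + K))
    (fun a ha => mul_nonneg (hw₁ a ha) (hK a (Finset.mem_union_left _ ha))) hw₂ hw₁
    (fun a ha => mul_nonneg (hw₂ a ha) (hK a (Finset.mem_union_right _ ha)))
    (fun a ha c hc => by
      obtain ⟨i1, i2, i3⟩ := h a ha c hc
      refine ⟨i1, i2, ?_⟩
      have h3 : F a + K ≤ F (a ⊔ c) + K := by have := hF a ha (a ⊔ c) i2 le_sup_left; linarith
      calc w₁ a * (F a + K) * w₂ c = (w₁ a * w₂ c) * (F a + K) := by ring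
        _ ≤ (w₁ (a ⊓ c) * w₂ (a ⊔ c)) * (F (a ⊔ c) + K) :=
            mul_le_mul i3 h3 (hK a (Finset.mem_union_left _ ha)) (mul_nonneg (hw₁ _ i1) (hw₂ _ i2))
        _ = w₁ (a ⊓ c) * (w₂ (a ⊔ c) * (F (a ⊔ c) + K)) := by ring)
  simp only [mul_add, Finset.sum_add_distrib, ← Finset.sum_mul] at key
  nlinarith [key]

/-- **association** (FKG), unnormalised -/
theorem mdl231_one (S : Finset α) (w F G : α → ℝ) (hw : ∀ a ∈ S, 0 ≤ w a)
    (h : ∀ a ∈ S, ∀ c ∈ S, a ⊓ c ∈ S ∧ a ⊔ c ∈ S ∧ w a * w c ≤ w (a ⊓ c) * w (a ⊔ c))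
    (hF : ∀ a ∈ S, ∀ c ∈ S, a ≤ c → F a ≤ F c) (hG : ∀ a ∈ S, ∀ c ∈ S, a ≤ c → G a ≤ G c) :
    (∑ a ∈ S, w a * F a) * ∑ c ∈ S, w c * G c ≤ (∑ a ∈ S, w a) * ∑ c ∈ S, w c * (F c * G c) := by
  classical
  obtain ⟨K, hK⟩ := mdl231_shift_exists S F
  obtain ⟨L, hL⟩ := mdl231_shift_exists S G
  have key := mdl231_ff S S (fun a => w a * (F a + K)) (fun a => w a * (G a + L)) w (fun a => w a * ((F a + K) * (G a + L)))
    (fun a ha => mul_nonneg (hw a ha) (hK a ha)) (fun a ha => mul_nonneg (hw a ha) (hL a ha)) hw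
    (fun a ha => mul_nonneg (hw a ha) (mul_nonneg (hK a ha) (hL a ha)))
    (fun a ha c hc => by
      obtain ⟨i1, i2, i3⟩ := h a ha c hc
      refine ⟨i1, i2, ?_⟩
      have h3 : F a + K ≤ F (a ⊔ c) + K := by have := hF a ha (a ⊔ c) i2 le_sup_left; linarith
      have h4 : G c + L ≤ G (a ⊔ c) + L := by have := hG c hc (a ⊔ c) i2 le_sup_right; linarith
      calc w a * (F a + K) * (w c * (G c + L)) = (w a * w c) * ((F a + K) * (G c + L)) := by ring
        _ ≤ (w (a ⊓ c) * w (a ⊔ c)) * ((F (a ⊔ c) + K) * (G (a ⊔ c) + L)) :=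
            mul_le_mul i3 (mul_le_mul h3 h4 (hL c hc) (hK _ i2)) (mul_nonneg (hK a ha) (hL c hc)) (mul_nonneg (hw _ i1) (hw _ i2))
        _ = w (a ⊓ c) * (w (a ⊔ c) * ((F (a ⊔ c) + K) * (G (a ⊔ c) + L))) := by ring)
  have e1 : ∑ a ∈ S, w a * (F a + K) = (∑ a ∈ S, w a * F a) + (∑ a ∈ S, w a) * K := by
    simp only [mul_add, Finset.sum_add_distrib, ← Finset.sum_mul]
  have e2 : ∑ a ∈ S, w a * (G a + L) = (∑ a ∈ S, w a * G a) + (∑ a ∈ S, w a) * L := by
    simp only [mul_add, Finset.sum_add_distrib, ← Finset.sum_mul]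
  have e3 : ∑ a ∈ S, w a * ((F a + K) * (G a + L)) = (∑ a ∈ S, w a * (F a * G a))
      + (∑ a ∈ S, w a * F a) * L + (∑ a ∈ S, w a * G a) * K + (∑ a ∈ S, w a) * (K * L) := by
    simp only [Finset.sum_mul, ← Finset.sum_add_distrib]
    refine Finset.sum_congr rfl fun a _ => ?_
    ring
  rw [e1, e2, e3] at key
  nlinarith [key]

end FF

/-! ## 2. Integers: sorting of a step and of a plaquette -/

/-- two steps `± 1` with the same parities sort to two steps -/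
theorem mdl231_step_inf_sup (x y x' y' : ℤ) (h : x - y = 1 ∨ x - y = -1) (h' : x' - y' = 1 ∨ x' - y' = -1)
    (px : (x - x') % 2 = 0) :
    (min x x' - min y y' = 1 ∨ min x x' - min y y' = -1) ∧ (max x x' - max y y' = 1 ∨ max x x' - max y y' = -1) := by
  omega

/-- **the lattice condition of one plaquette**: the number of type-c plaquettes does not decrease under sorting -/
theorem mdl231_plaq (u f v g u' f' v' g' : ℤ)
    (h1 : u - f = 1 ∨ u - f = -1) (h2 : v - f = 1 ∨ v - f = -1) (h3 : v - g = 1 ∨ v - g = -1) (h4 : u - g = 1 ∨ u - g = -1)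
    (h1' : u' - f' = 1 ∨ u' - f' = -1) (h2' : v' - f' = 1 ∨ v' - f' = -1) (h3' : v' - g' = 1 ∨ v' - g' = -1)
    (h4' : u' - g' = 1 ∨ u' - g' = -1) (pu : (u - u') % 2 = 0) :
    (if u = v ∧ f = g then 1 else 0) + (if u' = v' ∧ f' = g' then (1 : ℕ) else 0)
      ≤ (if min u u' = min v v' ∧ min f f' = min g g' then 1 else 0)
        + (if max u u' = max v v' ∧ max f f' = max g g' then 1 else 0) := by
  split_ifs <;> omega

/-! ## 3. Systems, admissible heights, laws -/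

/-- adjacency in a finite set of (unoriented) edges -/
def Mdl231Adj {V : Type} (E : Finset (V × V)) (x y : V) : Prop := (x, y) ∈ E ∨ (y, x) ∈ E

/-- a finite piece of a corner graph: edges, plaquettes `(u, f, v, g)` (4-cycle `u f v g`), parity class -/
structure Mdl231Sys (V : Type) where
  E : Finset (V × V)
  P : Finset (V × V × V × V)
  par : V → ℤ
  side : ∀ p ∈ P, Mdl231Adj E p.1 p.2.1 ∧ Mdl231Adj E p.2.2.1 p.2.1 ∧ Mdl231Adj E p.2.2.1 p.2.2.2 ∧ Mdl231Adj E p.1 p.2.2.2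

variable {V : Type}

/-- `K` is a height of the system: right parity everywhere, steps `± 1` along the edges -/
def Mdl231Sys.Ht (S : Mdl231Sys V) (K : V → ℤ) : Prop :=
  (∀ x, (K x - S.par x) % 2 = 0) ∧ ∀ e ∈ S.E, K e.1 - K e.2 = 1 ∨ K e.1 - K e.2 = -1

/-- `K` is admissible for the free set `A` and the boundary function `b` -/
def Mdl231Sys.Adm (S : Mdl231Sys V) (A : Finset V) (b K : V → ℤ) : Prop :=
  (∀ x, x ∉ A → K x = b x) ∧ S.Ht K

open Classical in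
/-- the finite set of admissible heights (`∅` if there are infinitely many: `mdl231_finite_of_reach`) -/
noncomputable def Mdl231Sys.cfg (S : Mdl231Sys V) (A : Finset V) (b : V → ℤ) : Finset (V → ℤ) :=
  if hf : {K | S.Adm A b K}.Finite then hf.toFinset else ∅

/-- number of plaquettes of type `c` (both diagonals flat) -/
def Mdl231Sys.nC (S : Mdl231Sys V) (K : V → ℤ) : ℕ :=
  ∑ p ∈ S.P, if K p.1 = K p.2.2.1 ∧ K p.2.1 = K p.2.2.2 then 1 else 0

/-- unnormalised expectation -/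
noncomputable def Mdl231Sys.Sm (S : Mdl231Sys V) (c : ℝ) (A : Finset V) (b : V → ℤ) (G : (V → ℤ) → ℝ) : ℝ :=
  ∑ K ∈ S.cfg A b, c ^ S.nC K * G K

/-- partition function -/
noncomputable def Mdl231Sys.Z (S : Mdl231Sys V) (c : ℝ) (A : Finset V) (b : V → ℤ) : ℝ :=
  ∑ K ∈ S.cfg A b, c ^ S.nC K

/-- expectation (`0` when the boundary function is infeasible) -/
noncomputable def Mdl231Sys.Ex (S : Mdl231Sys V) (c : ℝ) (A : Finset V) (b : V → ℤ) (G : (V → ℤ) → ℝ) : ℝ :=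
  S.Sm c A b G / S.Z c A b

/-- `G` is increasing -/
def Mdl231Mono (G : (V → ℤ) → ℝ) : Prop := ∀ K K' : V → ℤ, (∀ x, K x ≤ K' x) → G K ≤ G K'

theorem mdl231_Z_eq (S : Mdl231Sys V) (c : ℝ) (A : Finset V) (b : V → ℤ) : S.Z c A b = S.Sm c A b fun _ => 1 := by
  unfold Mdl231Sys.Z Mdl231Sys.Sm; simp

theorem mdl231_adm_of_mem {S : Mdl231Sys V} {A : Finset V} {b K : V → ℤ} (h : K ∈ S.cfg A b) : S.Adm A b K := by
  unfold Mdl231Sys.cfg at h
  split_ifs at h with hf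
  · exact hf.mem_toFinset.1 h
  · exact absurd h (Finset.notMem_empty _)

theorem mdl231_fin_of_mem {S : Mdl231Sys V} {A : Finset V} {b K : V → ℤ} (h : K ∈ S.cfg A b) : {K | S.Adm A b K}.Finite := by
  unfold Mdl231Sys.cfg at h
  split_ifs at h with hf
  · exact hf
  · exact absurd h (Finset.notMem_empty _)

theorem mdl231_mem_cfg {S : Mdl231Sys V} {A : Finset V} {b : V → ℤ} (hf : {K | S.Adm A b K}.Finite) {K : V → ℤ} :
    K ∈ S.cfg A b ↔ S.Adm A b K := by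
  unfold Mdl231Sys.cfg
  rw [dif_pos hf]
  exact hf.mem_toFinset

theorem mdl231_step {S : Mdl231Sys V} {K : V → ℤ} (h : S.Ht K) {x y : V} (hxy : Mdl231Adj S.E x y) :
    K x - K y = 1 ∨ K x - K y = -1 := by
  rcases hxy with hxy | hxy
  · exact h.2 _ hxy
  · have := h.2 _ hxy
    simp only at this
    omega

theorem mdl231_par {S : Mdl231Sys V} {K K' : V → ℤ} (h : S.Ht K) (h' : S.Ht K') (x : V) : (K x - K' x) % 2 = 0 := by
  have h1 := h.1 x
  have h2 := h'.1 x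
  omega

/-! ### finiteness -/

/-- along a chain of edges the height varies by a bounded amount -/
theorem mdl231_chain_bound (S : Mdl231Sys V) {x y : V} (h : Relation.ReflTransGen (Mdl231Adj S.E) x y) :
    ∃ n : ℤ, ∀ K, S.Ht K → |K x - K y| ≤ n := by
  induction h with
  | refl => exact ⟨0, fun K _ => by simp⟩
  | tail _ hbc ih =>
    obtain ⟨n, hn⟩ := ih
    refine ⟨n + 1, fun K hK => ?_⟩
    have h1 := hn K hK
    have h2 := mdl231_step hK hbc
    rw [abs_le] at h1 ⊢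
    constructor <;> omega

/-- **finiteness**: every free vertex is joined by edges to a vertex which is not free -/
theorem mdl231_finite_of_reach (S : Mdl231Sys V) (A : Finset V) (b : V → ℤ)
    (hr : ∀ x ∈ A, ∃ y, y ∉ A ∧ Relation.ReflTransGen (Mdl231Adj S.E) x y) : {K | S.Adm A b K}.Finite := by
  classical
  have hb : ∀ x ∈ A, ∃ n : ℤ, ∀ K, S.Adm A b K → |K x| ≤ n := by
    intro x hx
    obtain ⟨y, hy, hxy⟩ := hr x hx
    obtain ⟨n, hn⟩ := mdl231_chain_bound S hxy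
    refine ⟨n + |b y|, fun K hK => ?_⟩
    have h1 := hn K hK.2
    rw [hK.1 y hy] at h1
    have h2 : |K x| ≤ |K x - b y| + |b y| := by
      have := abs_add_le (K x - b y) (b y)
      simpa using this
    linarith
  choose! n hn using hb
  -- the heights are determined by their values on `A`, which lie in a finite box
  let T : Finset (V → ℤ) := (A.pi fun x => Finset.Icc (-(n x)) (n x)).image
    (fun g => fun x => if hx : x ∈ A then g x hx else b x)
  refine T.finite_toSet.subset fun K hK => ?_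
  refine Finset.mem_coe.2 (Finset.mem_image.2 ⟨fun x _ => K x, Finset.mem_pi.2 fun x hx => ?_, ?_⟩)
  · have := hn x hx K hK
    rw [abs_le] at this
    exact Finset.mem_Icc.2 this
  · funext x
    by_cases hx : x ∈ A
    · simp [hx]
    · simp [hx, hK.1 x hx]

/-! ## 4. The lattice condition -/

theorem mdl231_ht_inf_sup {S : Mdl231Sys V} {K K' : V → ℤ} (h : S.Ht K) (h' : S.Ht K') : S.Ht (K ⊓ K') ∧ S.Ht (K ⊔ K') := by
  refine ⟨⟨fun x => ?_, fun e he => ?_⟩, ⟨fun x => ?_, fun e he => ?_⟩⟩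
  · have h1 := h.1 x
    have h2 := h'.1 x
    rw [Pi.inf_apply]
    omega
  · exact (mdl231_step_inf_sup _ _ _ _ (h.2 e he) (h'.2 e he) (mdl231_par h h' _)).1
  · have h1 := h.1 x
    have h2 := h'.1 x
    rw [Pi.sup_apply]
    omega
  · exact (mdl231_step_inf_sup _ _ _ _ (h.2 e he) (h'.2 e he) (mdl231_par h h' _)).2

theorem mdl231_adm_inf_sup {S : Mdl231Sys V} {A : Finset V} {b₁ b₂ K K' : V → ℤ} (hb : ∀ x, b₁ x ≤ b₂ x)
    (h : S.Adm A b₁ K) (h' : S.Adm A b₂ K') : S.Adm A b₁ (K ⊓ K') ∧ S.Adm A b₂ (K ⊔ K') := by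
  obtain ⟨h1, h2⟩ := mdl231_ht_inf_sup h.2 h'.2
  refine ⟨⟨fun x hx => ?_, h1⟩, ⟨fun x hx => ?_, h2⟩⟩
  · rw [Pi.inf_apply, h.1 x hx, h'.1 x hx]; exact inf_eq_left.2 (hb x)
  · rw [Pi.sup_apply, h.1 x hx, h'.1 x hx]; exact sup_eq_right.2 (hb x)

theorem mdl231_nC_inf_sup {S : Mdl231Sys V} {K K' : V → ℤ} (h : S.Ht K) (h' : S.Ht K') :
    S.nC K + S.nC K' ≤ S.nC (K ⊓ K') + S.nC (K ⊔ K') := by
  unfold Mdl231Sys.nC
  rw [← Finset.sum_add_distrib, ← Finset.sum_add_distrib]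
  refine Finset.sum_le_sum fun p hp => ?_
  obtain ⟨s1, s2, s3, s4⟩ := S.side p hp
  exact mdl231_plaq _ _ _ _ _ _ _ _ (mdl231_step h s1) (mdl231_step h s2) (mdl231_step h s3) (mdl231_step h s4)
    (mdl231_step h' s1) (mdl231_step h' s2) (mdl231_step h' s3) (mdl231_step h' s4) (mdl231_par h h' _)

theorem mdl231_wt_inf_sup {c : ℝ} (hc : 1 ≤ c) {S : Mdl231Sys V} {K K' : V → ℤ} (h : S.Ht K) (h' : S.Ht K') :
    c ^ S.nC K * c ^ S.nC K' ≤ c ^ S.nC (K ⊓ K') * c ^ S.nC (K ⊔ K') := by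
  rw [← pow_add, ← pow_add]
  exact pow_le_pow_right₀ hc (mdl231_nC_inf_sup h h')

/-! ## 5. Order and association -/

/-- **order in the boundary function**, unnormalised -/
theorem mdl231_order_S {c : ℝ} (hc : 1 ≤ c) (S : Mdl231Sys V) (A : Finset V) {b₁ b₂ : V → ℤ} (hb : ∀ x, b₁ x ≤ b₂ x)
    {F : (V → ℤ) → ℝ} (hF : Mdl231Mono F) : S.Sm c A b₁ F * S.Z c A b₂ ≤ S.Z c A b₁ * S.Sm c A b₂ F := by
  have hc0 : (0 : ℝ) ≤ c := by linarith
  refine mdl231_two (S.cfg A b₁) (S.cfg A b₂) (fun K => c ^ S.nC K) (fun K => c ^ S.nC K) F (fun _ _ => pow_nonneg hc0 _)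
    (fun _ _ => pow_nonneg hc0 _) (fun K hK K' hK' => ?_) (fun K _ K' _ h => hF K K' h)
  have f1 := mdl231_fin_of_mem hK
  have f2 := mdl231_fin_of_mem hK'
  rw [mdl231_mem_cfg f1] at hK ⊢
  rw [mdl231_mem_cfg f2] at hK' ⊢
  obtain ⟨h1, h2⟩ := mdl231_adm_inf_sup hb hK hK'
  exact ⟨h1, h2, mdl231_wt_inf_sup hc hK.2 hK'.2⟩

/-- **association**, unnormalised -/
theorem mdl231_fkg_S {c : ℝ} (hc : 1 ≤ c) (S : Mdl231Sys V) (A : Finset V) (b : V → ℤ)
    {F G : (V → ℤ) → ℝ} (hF : Mdl231Mono F) (hG : Mdl231Mono G) :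
    S.Sm c A b F * S.Sm c A b G ≤ S.Z c A b * S.Sm c A b (fun K => F K * G K) := by
  have hc0 : (0 : ℝ) ≤ c := by linarith
  refine mdl231_one (S.cfg A b) (fun K => c ^ S.nC K) F G (fun _ _ => pow_nonneg hc0 _) (fun K hK K' hK' => ?_)
    (fun K _ K' _ h => hF K K' h) (fun K _ K' _ h => hG K K' h)
  have f1 := mdl231_fin_of_mem hK
  rw [mdl231_mem_cfg f1] at hK hK' ⊢
  rw [mdl231_mem_cfg f1]
  obtain ⟨h1, h2⟩ := mdl231_adm_inf_sup (fun _ => le_rfl) hK hK'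
  exact ⟨h1, h2, mdl231_wt_inf_sup hc hK.2 hK'.2⟩

theorem mdl231_Z_pos {c : ℝ} (hc : 0 < c) {S : Mdl231Sys V} {A : Finset V} {b : V → ℤ} (hne : (S.cfg A b).Nonempty) :
    0 < S.Z c A b :=
  Finset.sum_pos (fun _ _ => pow_pos hc _) hne

theorem mdl231_Z_nonneg {c : ℝ} (hc : 0 ≤ c) (S : Mdl231Sys V) (A : Finset V) (b : V → ℤ) : 0 ≤ S.Z c A b :=
  Finset.sum_nonneg (fun _ _ => pow_nonneg hc _)

/-- **order in the boundary function**, normalised -/
theorem mdl231_order {c : ℝ} (hc : 1 ≤ c) (S : Mdl231Sys V) (A : Finset V) {b₁ b₂ : V → ℤ} (hb : ∀ x, b₁ x ≤ b₂ x)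
    (h₁ : (S.cfg A b₁).Nonempty) (h₂ : (S.cfg A b₂).Nonempty) {F : (V → ℤ) → ℝ} (hF : Mdl231Mono F) :
    S.Ex c A b₁ F ≤ S.Ex c A b₂ F := by
  have hc0 : (0 : ℝ) < c := by linarith
  unfold Mdl231Sys.Ex
  rw [div_le_div_iff₀ (mdl231_Z_pos hc0 h₁) (mdl231_Z_pos hc0 h₂)]
  have := mdl231_order_S hc S A hb hF
  linarith

/-- **association**, normalised -/
theorem mdl231_fkg {c : ℝ} (hc : 1 ≤ c) (S : Mdl231Sys V) (A : Finset V) (b : V → ℤ) (hne : (S.cfg A b).Nonempty)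
    {F G : (V → ℤ) → ℝ} (hF : Mdl231Mono F) (hG : Mdl231Mono G) :
    S.Ex c A b F * S.Ex c A b G ≤ S.Ex c A b (fun K => F K * G K) := by
  have hc0 : (0 : ℝ) < c := by linarith
  have hZ := mdl231_Z_pos hc0 hne
  unfold Mdl231Sys.Ex
  rw [div_mul_div_comm, div_le_div_iff₀ (mul_pos hZ hZ) hZ]
  have := mdl231_fkg_S hc S A b hF hG
  nlinarith

open Classical in
/-- conditioning on an increasing event raises the expectation of an increasing observable (product form) -/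
theorem mdl231_fkg_event {c : ℝ} (hc : 1 ≤ c) (S : Mdl231Sys V) (A : Finset V) (b : V → ℤ) (hne : (S.cfg A b).Nonempty)
    {F : (V → ℤ) → ℝ} (hF : Mdl231Mono F) {I : (V → ℤ) → Prop} (hI : ∀ K K' : V → ℤ, (∀ x, K x ≤ K' x) → I K → I K') :
    S.Ex c A b F * S.Ex c A b (fun K => if I K then 1 else 0) ≤ S.Ex c A b (fun K => if I K then F K else 0) := by
  have hm : Mdl231Mono (fun K : V → ℤ => if I K then (1 : ℝ) else 0) := by
    intro K K' h
    by_cases h1 : I K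
    · simp [h1, hI K K' h h1]
    · simp only [h1, if_false]
      split_ifs <;> norm_num
  have := mdl231_fkg hc S A b hne hF hm
  have e : (fun K : V → ℤ => F K * (if I K then (1 : ℝ) else 0)) = fun K => if I K then F K else 0 := by
    funext K; split_ifs <;> simp
  rwa [e] at this

/-! ## 6. Transport, symmetries -/

/-- transport of the configurations by a bijection of the heights -/
theorem mdl231_cfg_map {W : Type} {S : Mdl231Sys V} {S' : Mdl231Sys W} {A : Finset V} {A' : Finset W} {b : V → ℤ} {b' : W → ℤ}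
    (Φ : (V → ℤ) ≃ (W → ℤ)) (h : ∀ K, S.Adm A b K ↔ S'.Adm A' b' (Φ K)) :
    S'.cfg A' b' = (S.cfg A b).map Φ.toEmbedding := by
  classical
  have hset : {K | S'.Adm A' b' K} = Φ '' {K | S.Adm A b K} := by
    ext K
    constructor
    · intro hK
      exact ⟨Φ.symm K, by simpa [h] using hK, by simp⟩
    · rintro ⟨K₀, hK₀, rfl⟩
      exact (h K₀).1 hK₀
  by_cases hf : {K | S.Adm A b K}.Finite
  · have hf' : {K | S'.Adm A' b' K}.Finite := by rw [hset]; exact hf.image _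
    ext K
    rw [mdl231_mem_cfg hf', Finset.mem_map]
    constructor
    · intro hK
      exact ⟨Φ.symm K, (mdl231_mem_cfg hf).2 (by simpa [h] using hK), by simp⟩
    · rintro ⟨K₀, hK₀, rfl⟩
      exact (h K₀).1 ((mdl231_mem_cfg hf).1 hK₀)
  · have hf' : ¬ {K | S'.Adm A' b' K}.Finite := by
      rw [hset]
      intro hc
      exact hf (Set.Finite.of_finite_image hc Φ.injective.injOn)
    unfold Mdl231Sys.cfg
    rw [dif_neg hf, dif_neg hf']
    rfl

/-- transport of the unnormalised expectation -/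
theorem mdl231_Sm_map {W : Type} {S : Mdl231Sys V} {S' : Mdl231Sys W} {A : Finset V} {A' : Finset W} {b : V → ℤ} {b' : W → ℤ}
    (Φ : (V → ℤ) ≃ (W → ℤ)) (h : ∀ K, S.Adm A b K ↔ S'.Adm A' b' (Φ K)) (hn : ∀ K, S.Adm A b K → S'.nC (Φ K) = S.nC K)
    (c : ℝ) (G : (W → ℤ) → ℝ) : S'.Sm c A' b' G = S.Sm c A b (fun K => G (Φ K)) := by
  unfold Mdl231Sys.Sm
  rw [mdl231_cfg_map Φ h, Finset.sum_map]
  refine Finset.sum_congr rfl fun K hK => ?_
  simp only [Equiv.coe_toEmbedding]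
  rw [hn K (mdl231_adm_of_mem hK)]

theorem mdl231_Ex_map {W : Type} {S : Mdl231Sys V} {S' : Mdl231Sys W} {A : Finset V} {A' : Finset W} {b : V → ℤ} {b' : W → ℤ}
    (Φ : (V → ℤ) ≃ (W → ℤ)) (h : ∀ K, S.Adm A b K ↔ S'.Adm A' b' (Φ K)) (hn : ∀ K, S.Adm A b K → S'.nC (Φ K) = S.nC K)
    (c : ℝ) (G : (W → ℤ) → ℝ) : S'.Ex c A' b' G = S.Ex c A b (fun K => G (Φ K)) := by
  unfold Mdl231Sys.Ex
  rw [mdl231_Z_eq, mdl231_Z_eq, mdl231_Sm_map Φ h hn, mdl231_Sm_map Φ h hn]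

/-- the bijection of the heights induced by a bijection of `ℤ` -/
def mdl231Post (φ : ℤ ≃ ℤ) : (V → ℤ) ≃ (V → ℤ) where
  toFun K := fun x => φ (K x)
  invFun K := fun x => φ.symm (K x)
  left_inv K := by funext x; simp
  right_inv K := by funext x; simp

/-- symmetries of `ℤ` which keep the parity: `a ↦ σ a + 2 m`, `σ = ± 1` -/
theorem mdl231_iso (S : Mdl231Sys V) (c : ℝ) (A : Finset V) (b : V → ℤ) (G : (V → ℤ) → ℝ) (φ : ℤ ≃ ℤ)
    (hφ : (∃ m : ℤ, ∀ a, φ a = a + 2 * m) ∨ (∃ m : ℤ, ∀ a, φ a = - a + 2 * m)) :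
    S.Sm c A (fun x => φ (b x)) G = S.Sm c A b (fun K => G (fun x => φ (K x))) := by
  refine mdl231_Sm_map (mdl231Post φ) (fun K => ?_) (fun K _ => ?_) c G
  · show S.Adm A b K ↔ S.Adm A (fun x => φ (b x)) (fun x => φ (K x))
    unfold Mdl231Sys.Adm Mdl231Sys.Ht
    rcases hφ with ⟨m, hm⟩ | ⟨m, hm⟩
    · simp only [hm]
      constructor
      · rintro ⟨h1, h2, h3⟩
        refine ⟨fun x hx => by rw [h1 x hx], fun x => ?_, fun e he => ?_⟩
        · have := h2 x; omega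
        · have := h3 e he; omega
      · rintro ⟨h1, h2, h3⟩
        refine ⟨fun x hx => ?_, fun x => ?_, fun e he => ?_⟩
        · have := h1 x hx; omega
        · have := h2 x; omega
        · have := h3 e he; omega
    · simp only [hm]
      constructor
      · rintro ⟨h1, h2, h3⟩
        refine ⟨fun x hx => by rw [h1 x hx], fun x => ?_, fun e he => ?_⟩
        · have := h2 x; omega
        · have := h3 e he; omega
      · rintro ⟨h1, h2, h3⟩
        refine ⟨fun x hx => ?_, fun x => ?_, fun e he => ?_⟩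
        · have := h1 x hx; omega
        · have := h2 x; omega
        · have := h3 e he; omega
  · show S.nC (fun x => φ (K x)) = S.nC K
    unfold Mdl231Sys.nC
    refine Finset.sum_congr rfl fun p _ => ?_
    simp only [φ.injective.eq_iff]

theorem mdl231_shift_S (S : Mdl231Sys V) (c : ℝ) (A : Finset V) (b : V → ℤ) (m : ℤ) (G : (V → ℤ) → ℝ) :
    S.Sm c A (fun x => b x + 2 * m) G = S.Sm c A b (fun K => G (fun x => K x + 2 * m)) :=
  mdl231_iso S c A b G (Equiv.addRight (2 * m)) (Or.inl ⟨m, fun a => by simp⟩)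

theorem mdl231_neg_S (S : Mdl231Sys V) (c : ℝ) (A : Finset V) (b : V → ℤ) (G : (V → ℤ) → ℝ) :
    S.Sm c A (fun x => - b x) G = S.Sm c A b (fun K => G (fun x => - K x)) :=
  mdl231_iso S c A b G (Equiv.neg ℤ) (Or.inr ⟨0, fun a => by simp⟩)

theorem mdl231_shift (S : Mdl231Sys V) (c : ℝ) (A : Finset V) (b : V → ℤ) (m : ℤ) (G : (V → ℤ) → ℝ) :
    S.Ex c A (fun x => b x + 2 * m) G = S.Ex c A b (fun K => G (fun x => K x + 2 * m)) := by
  unfold Mdl231Sys.Ex
  rw [mdl231_Z_eq, mdl231_Z_eq, mdl231_shift_S, mdl231_shift_S]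

theorem mdl231_neg (S : Mdl231Sys V) (c : ℝ) (A : Finset V) (b : V → ℤ) (G : (V → ℤ) → ℝ) :
    S.Ex c A (fun x => - b x) G = S.Ex c A b (fun K => G (fun x => - K x)) := by
  unfold Mdl231Sys.Ex
  rw [mdl231_Z_eq, mdl231_Z_eq, mdl231_neg_S, mdl231_neg_S]

/-! ## 7. The Gibbs property (DLR) -/

theorem mdl231_cfg_of_iff {S S' : Mdl231Sys V} {A A' : Finset V} {b b' : V → ℤ} (h : ∀ K, S.Adm A b K ↔ S'.Adm A' b' K) :
    S'.cfg A' b' = S.cfg A b := by
  rw [mdl231_cfg_map (Equiv.refl _) h]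
  ext K
  simp

theorem mdl231_cfg_congr {S : Mdl231Sys V} {A : Finset V} {b b' : V → ℤ} (h : ∀ x, x ∉ A → b x = b' x) : S.cfg A b = S.cfg A b' := by
  refine mdl231_cfg_of_iff fun K => ?_
  unfold Mdl231Sys.Adm
  constructor
  · rintro ⟨h1, h2⟩; exact ⟨fun x hx => (h1 x hx).trans (h x hx).symm, h2⟩
  · rintro ⟨h1, h2⟩; exact ⟨fun x hx => (h1 x hx).trans (h x hx), h2⟩

open Classical in
theorem mdl231_cfg_sub {S : Mdl231Sys V} {A' A : Finset V} (hA : A' ⊆ A) {b g : V → ℤ} (hg : g ∈ S.cfg A b) :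
    S.cfg A' g = (S.cfg A b).filter (fun K => ∀ x, x ∉ A' → K x = g x) := by
  have hf := mdl231_fin_of_mem hg
  have hg' := mdl231_adm_of_mem hg
  have hsub : ∀ K, S.Adm A' g K → S.Adm A b K := fun K hK =>
    ⟨fun x hx => (hK.1 x (fun hc => hx (hA hc))).trans (hg'.1 x hx), hK.2⟩
  have hf' : {K | S.Adm A' g K}.Finite := hf.subset hsub
  ext K
  rw [Finset.mem_filter, mdl231_mem_cfg hf, mdl231_mem_cfg hf']
  exact ⟨fun hK => ⟨hsub K hK, hK.1⟩, fun hK => ⟨hK.2, hK.1.2⟩⟩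

/-- **DLR**: the law in `A` is a mixture of the laws in `A' ⊆ A` with the boundary function read on the configuration -/
theorem mdl231_dlr_S {c : ℝ} (hc : 0 < c) (S : Mdl231Sys V) {A' A : Finset V} (hA : A' ⊆ A) (b : V → ℤ) (F : (V → ℤ) → ℝ) :
    S.Sm c A b (fun g => S.Ex c A' g F) = S.Sm c A b F := by
  classical
  set C := S.cfg A b with hC
  have e1 : S.Sm c A b (fun g => S.Ex c A' g F)
      = ∑ g ∈ C, ∑ K ∈ C, if (∀ x, x ∉ A' → K x = g x) then c ^ S.nC g * (c ^ S.nC K * F K) / S.Z c A' g else 0 := by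
    unfold Mdl231Sys.Sm
    refine Finset.sum_congr rfl fun g hg => ?_
    show c ^ S.nC g * ((∑ K ∈ S.cfg A' g, c ^ S.nC K * F K) / S.Z c A' g) = _
    rw [mdl231_cfg_sub hA hg, Finset.sum_filter, mul_div_assoc', Finset.mul_sum, Finset.sum_div]
    refine Finset.sum_congr rfl fun K _ => ?_
    split_ifs <;> simp
  rw [e1, Finset.sum_comm]
  unfold Mdl231Sys.Sm
  refine Finset.sum_congr rfl fun K hK => ?_
  have e2 : ∀ g ∈ C, (if (∀ x, x ∉ A' → K x = g x) then c ^ S.nC g * (c ^ S.nC K * F K) / S.Z c A' g else 0)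
      = (if (∀ x, x ∉ A' → g x = K x) then c ^ S.nC g else 0) * (c ^ S.nC K * F K / S.Z c A' K) := by
    intro g _
    by_cases hgK : ∀ x, x ∉ A' → K x = g x
    · have hgK' : ∀ x, x ∉ A' → g x = K x := fun x hx => (hgK x hx).symm
      rw [if_pos hgK, if_pos hgK']
      have z : S.Z c A' g = S.Z c A' K := by unfold Mdl231Sys.Z; rw [mdl231_cfg_congr hgK']
      rw [z]
      ring
    · have hgK' : ¬ ∀ x, x ∉ A' → g x = K x := fun hc => hgK fun x hx => (hc x hx).symm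
      rw [if_neg hgK, if_neg hgK', zero_mul]
  rw [Finset.sum_congr rfl e2, ← Finset.sum_mul, ← Finset.sum_filter, ← mdl231_cfg_sub hA hK]
  have hself : K ∈ S.cfg A' K := by
    rw [mdl231_cfg_sub hA hK]
    exact Finset.mem_filter.2 ⟨hK, fun _ _ => rfl⟩
  have hZ : 0 < S.Z c A' K := mdl231_Z_pos hc ⟨K, hself⟩
  show S.Z c A' K * _ = _
  field_simp

theorem mdl231_dlr {c : ℝ} (hc : 0 < c) (S : Mdl231Sys V) {A' A : Finset V} (hA : A' ⊆ A) (b : V → ℤ) (F : (V → ℤ) → ℝ) :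
    S.Ex c A b (fun g => S.Ex c A' g F) = S.Ex c A b F := by
  unfold Mdl231Sys.Ex
  rw [show S.Sm c A b (fun g => S.Sm c A' g F / S.Z c A' g) = S.Sm c A b F from mdl231_dlr_S hc S hA b F]

/-- DLR with an outside factor -/
theorem mdl231_dlr_mul {c : ℝ} (hc : 0 < c) (S : Mdl231Sys V) {A' A : Finset V} (hA : A' ⊆ A) (b : V → ℤ) (F G : (V → ℤ) → ℝ)
    (hG : ∀ g K : V → ℤ, (∀ x, x ∉ A' → K x = g x) → G K = G g) :
    S.Ex c A b (fun g => G g * S.Ex c A' g F) = S.Ex c A b (fun K => G K * F K) := by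
  rw [← mdl231_dlr hc S hA b (fun K => G K * F K)]
  congr 1
  funext g
  unfold Mdl231Sys.Ex Mdl231Sys.Sm
  rw [mul_div_assoc', Finset.mul_sum]
  congr 1
  refine Finset.sum_congr rfl fun K hK => ?_
  show G g * (c ^ S.nC K * F K) = c ^ S.nC K * (G K * F K)
  rw [hG g K (mdl231_adm_of_mem hK).1]
  ring

/-- **locality**: edges and plaquettes which do not touch the free set may be dropped -/
theorem mdl231_local {c : ℝ} (hc : 0 < c) {S S' : Mdl231Sys V} {A : Finset V} {b : V → ℤ} (hpar : S'.par = S.par)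
    (hE : S'.E ⊆ S.E) (hE' : ∀ e ∈ S.E, e ∉ S'.E → e.1 ∉ A ∧ e.2 ∉ A)
    (hP : S'.P ⊆ S.P) (hP' : ∀ p ∈ S.P, p ∉ S'.P → p.1 ∉ A ∧ p.2.1 ∉ A ∧ p.2.2.1 ∉ A ∧ p.2.2.2 ∉ A)
    (hb : S.Ht b) (F : (V → ℤ) → ℝ) : S'.Ex c A b F = S.Ex c A b F := by
  classical
  have hadm : ∀ K, S'.Adm A b K ↔ S.Adm A b K := by
    intro K
    constructor
    · rintro ⟨h1, h2, h3⟩
      refine ⟨h1, fun x => by rw [← hpar]; exact h2 x, fun e he => ?_⟩
      by_cases he' : e ∈ S'.E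
      · exact h3 e he'
      · obtain ⟨i1, i2⟩ := hE' e he he'
        rw [h1 _ i1, h1 _ i2]
        exact hb.2 e he
    · rintro ⟨h1, h2, h3⟩
      exact ⟨h1, fun x => by rw [hpar]; exact h2 x, fun e he => h3 e (hE he)⟩
  have hcfg : S'.cfg A b = S.cfg A b := mdl231_cfg_of_iff fun K => (hadm K).symm
  -- the number of type-c plaquettes differs by a constant
  let R : ℕ := ∑ p ∈ S.P \ S'.P, if b p.1 = b p.2.2.1 ∧ b p.2.1 = b p.2.2.2 then 1 else 0
  have hn : ∀ K ∈ S.cfg A b, S.nC K = S'.nC K + R := by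
    intro K hK
    have h1 := (mdl231_adm_of_mem hK).1
    unfold Mdl231Sys.nC
    rw [add_comm, ← Finset.sum_sdiff hP]
    congr 1
    refine Finset.sum_congr rfl fun p hp => ?_
    obtain ⟨q1, q2⟩ := Finset.mem_sdiff.1 hp
    obtain ⟨i1, i2, i3, i4⟩ := hP' p q1 q2
    rw [h1 _ i1, h1 _ i2, h1 _ i3, h1 _ i4]
  have hS : ∀ G : (V → ℤ) → ℝ, S.Sm c A b G = c ^ R * S'.Sm c A b G := by
    intro G
    unfold Mdl231Sys.Sm
    rw [hcfg, Finset.mul_sum]
    refine Finset.sum_congr rfl fun K hK => ?_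
    rw [hn K hK, pow_add]
    ring
  unfold Mdl231Sys.Ex
  rw [mdl231_Z_eq, mdl231_Z_eq, hS, hS]
  have : c ^ R ≠ 0 := (pow_pos hc R).ne'
  rw [mul_div_mul_left _ _ this]

/-! ## 8. The corner lattice of `Defs/MODEL`: contract (M3) -/

theorem mdl231_dirs_neg {d : MdlS} (hd : d ∈ mdlDirs) : -d ∈ mdlDirs := by
  simp only [mdlDirs, Finset.mem_insert, Finset.mem_singleton] at hd ⊢
  rcases hd with rfl | rfl | rfl | rfl <;> simp

/-- the system of the free set `A` and the weighted plaquettes `Q` -/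
def mdl231Lat (Q A : Finset MdlS) : Mdl231Sys MdlS where
  E := (A.biUnion fun u => mdlDirs.image fun d => (u + d, u)) ∪
        Q.biUnion fun p => {(p, p + (1, 0)), (p + (1, 1), p + (1, 0)), (p + (1, 1), p + (0, 1)), (p, p + (0, 1))}
  P := Q.image fun p => (p, p + (1, 0), p + (1, 1), p + (0, 1))
  par := fun u => u.1 + u.2
  side := by
    intro p hp
    obtain ⟨q, hq, rfl⟩ := Finset.mem_image.1 hp
    refine ⟨Or.inl ?_, Or.inl ?_, Or.inl ?_, Or.inl ?_⟩ <;>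
    · refine Finset.mem_union_right _ (Finset.mem_biUnion.2 ⟨q, hq, ?_⟩)
      simp

/-- every configuration makes steps `± 1` on EVERY edge -/
theorem mdl231_lat_step {A : Finset MdlS} {b h : MdlS → ℤ} (hb : MdlHt b) (hh : MdlAdm A b h) (u : MdlS) {d : MdlS}
    (hd : d ∈ mdlDirs) : |h (u + d) - h u| = 1 := by
  by_cases hu : u ∈ A
  · exact hh.2 u hu d hd
  · by_cases hv : u + d ∈ A
    · have := hh.2 _ hv _ (mdl231_dirs_neg hd)
      rw [add_neg_cancel_right] at this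
      rwa [abs_sub_comm]
    · rw [hh.1 _ hu, hh.1 _ hv]
      exact hb.1 u d hd

theorem mdl231_lat_exit (A : Finset MdlS) (u : MdlS) : ∃ n : ℕ, u + ((n : ℤ), 0) ∉ A := by
  by_contra hcon
  simp only [not_exists, not_not] at hcon
  have hinj : Function.Injective fun n : ℕ => u + ((n : ℤ), (0 : ℤ)) := by
    intro n m hnm
    have := congrArg Prod.fst hnm
    simpa using this
  exact (Set.infinite_of_injective_forall_mem hinj (s := (↑A : Set MdlS)) (fun n => Finset.mem_coe.2 (hcon n))) A.finite_toSet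

/-- every configuration has the right parity -/
theorem mdl231_lat_par {A : Finset MdlS} {b h : MdlS → ℤ} (hb : MdlHt b) (hh : MdlAdm A b h) (u : MdlS) :
    (h u - (u.1 + u.2)) % 2 = 0 := by
  have key : ∀ k : ℕ, (h (u + ((k : ℤ), 0)) - (u.1 + k + u.2)) % 2 = 0 → (h u - (u.1 + u.2)) % 2 = 0 := by
    intro k
    induction k with
    | zero =>
      intro h0
      have e : u + (((0 : ℕ) : ℤ), (0 : ℤ)) = u := by ext <;> simp
      rw [e] at h0
      simpa using h0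
    | succ k ih =>
      intro h1
      apply ih
      have h2 := mdl231_lat_step hb hh (u + ((k : ℤ), 0)) (d := (1, 0)) (by simp [mdlDirs])
      have e : u + ((k : ℤ), (0 : ℤ)) + (1, 0) = u + (((k + 1 : ℕ) : ℤ), (0 : ℤ)) := by
        ext <;> simp [add_assoc]
      rw [e] at h2
      generalize h (u + (((k + 1 : ℕ) : ℤ), (0 : ℤ))) = a at h1 h2
      push_cast at h1
      rcases (abs_eq (by norm_num : (0 : ℤ) ≤ 1)).1 h2 with h3 | h3 <;> omega
  obtain ⟨n, hn⟩ := mdl231_lat_exit A u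
  apply key n
  rw [hh.1 _ hn]
  have := hb.2 (u + ((n : ℤ), 0))
  simp only [Prod.fst_add, Prod.snd_add, add_zero] at this
  exact this

/-- every configuration is a global height -/
theorem mdl231_lat_ht {A : Finset MdlS} {b h : MdlS → ℤ} (hb : MdlHt b) (hh : MdlAdm A b h) : MdlHt h :=
  ⟨fun u d hd => mdl231_lat_step hb hh u hd, mdl231_lat_par hb hh⟩

theorem mdl231_ht_adj {h : MdlS → ℤ} (hh : MdlHt h) (x y d : MdlS) (hd : d ∈ mdlDirs) (hxy : x = y + d) :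
    h x - h y = 1 ∨ h x - h y = -1 := by
  subst hxy
  exact (abs_eq (by norm_num : (0 : ℤ) ≤ 1)).1 (hh.1 y d hd)

theorem mdl231_lat_adm (Q A : Finset MdlS) {b : MdlS → ℤ} (hb : MdlHt b) (h : MdlS → ℤ) :
    (mdl231Lat Q A).Adm A b h ↔ MdlAdm A b h := by
  constructor
  · rintro ⟨h1, -, h3⟩
    refine ⟨h1, fun u hu d hd => ?_⟩
    have := h3 (u + d, u) (Finset.mem_union_left _ (Finset.mem_biUnion.2 ⟨u, hu, Finset.mem_image.2 ⟨d, hd, rfl⟩⟩))
    exact (abs_eq (by norm_num : (0 : ℤ) ≤ 1)).2 this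
  · intro hh
    have hg := mdl231_lat_ht hb hh
    refine ⟨hh.1, hg.2, fun e he => ?_⟩
    rcases Finset.mem_union.1 he with he | he
    · obtain ⟨u, _, he⟩ := Finset.mem_biUnion.1 he
      obtain ⟨d, hd, rfl⟩ := Finset.mem_image.1 he
      exact mdl231_ht_adj hg _ _ d hd rfl
    · obtain ⟨p, _, he⟩ := Finset.mem_biUnion.1 he
      simp only [Finset.mem_insert, Finset.mem_singleton] at he
      rcases he with rfl | rfl | rfl | rfl
      · exact mdl231_ht_adj hg _ _ (-1, 0) (by simp [mdlDirs]) (by ext <;> simp)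
      · exact mdl231_ht_adj hg _ _ (0, 1) (by simp [mdlDirs]) (by ext <;> simp [add_assoc])
      · exact mdl231_ht_adj hg _ _ (1, 0) (by simp [mdlDirs]) (by ext <;> simp [add_assoc])
      · exact mdl231_ht_adj hg _ _ (0, -1) (by simp [mdlDirs]) (by ext <;> simp)

theorem mdl231_dite_congr {α : Type} {p q : α → Prop} (h : ∀ a, p a ↔ q a) :
    (open Classical in if hf : {a | p a}.Finite then hf.toFinset else (∅ : Finset α))
      = (open Classical in if hf : {a | q a}.Finite then hf.toFinset else (∅ : Finset α)) := by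
  have : p = q := funext fun a => propext (h a)
  subst this
  rfl

theorem mdl231_lat_cfg (Q A : Finset MdlS) {b : MdlS → ℤ} (hb : MdlHt b) : (mdl231Lat Q A).cfg A b = mdlCfg A b := by
  unfold Mdl231Sys.cfg mdlCfg
  exact mdl231_dite_congr (mdl231_lat_adm Q A hb)

theorem mdl231_lat_nC (Q A : Finset MdlS) (h : MdlS → ℤ) : (mdl231Lat Q A).nC h = mdlN Q h := by
  classical
  unfold Mdl231Sys.nC mdlN
  show ∑ p ∈ Q.image (fun p : MdlS => (p, p + ((1 : ℤ), (0 : ℤ)), p + ((1 : ℤ), (1 : ℤ)), p + ((0 : ℤ), (1 : ℤ)))), _ = _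
  rw [Finset.sum_image (fun x _ y _ hxy => congrArg Prod.fst hxy), Finset.card_filter]
  refine Finset.sum_congr rfl fun p _ => ?_
  by_cases hc : MdlC h p
  · rw [if_pos hc, if_pos (show h p = h (p + (1, 1)) ∧ h (p + (1, 0)) = h (p + (0, 1)) from hc)]
  · rw [if_neg hc, if_neg (show ¬ (h p = h (p + (1, 1)) ∧ h (p + (1, 0)) = h (p + (0, 1))) from hc)]

/-- the laws of `Defs/MODEL` are the laws of the system `mdl231Lat Q A` -/
theorem mdl231_lat_EQ (c : ℝ) (Q A : Finset MdlS) {b : MdlS → ℤ} (hb : MdlHt b) (G : (MdlS → ℤ) → ℝ) :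
    mdlEQ c Q A b G = (mdl231Lat Q A).Ex c A b G := by
  unfold mdlEQ mdlZQ mdlWt Mdl231Sys.Ex Mdl231Sys.Sm Mdl231Sys.Z
  rw [mdl231_lat_cfg Q A hb]
  simp only [mdl231_lat_nC]

theorem mdl231_lat_reach (Q A : Finset MdlS) : ∀ (n : ℕ) (x : MdlS), x + ((n : ℤ), 0) ∉ A →
    ∃ y, y ∉ A ∧ Relation.ReflTransGen (Mdl231Adj (mdl231Lat Q A).E) x y := by
  intro n
  induction n with
  | zero =>
    intro x hx
    have e : x + (((0 : ℕ) : ℤ), (0 : ℤ)) = x := by ext <;> simp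
    rw [e] at hx
    exact ⟨x, hx, Relation.ReflTransGen.refl⟩
  | succ n ih =>
    intro x hx
    by_cases hxA : x ∈ A
    · have e : x + (1, 0) + ((n : ℤ), (0 : ℤ)) = x + (((n + 1 : ℕ) : ℤ), (0 : ℤ)) := by
        ext
        · simp only [Prod.fst_add]; push_cast; ring
        · simp
      obtain ⟨y, hy, hxy⟩ := ih (x + (1, 0)) (by rw [e]; exact hx)
      refine ⟨y, hy, Relation.ReflTransGen.head (Or.inr ?_) hxy⟩
      exact Finset.mem_union_left _ (Finset.mem_biUnion.2 ⟨x, hxA, Finset.mem_image.2 ⟨(1, 0), by simp [mdlDirs], rfl⟩⟩)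
    · exact ⟨x, hxA, Relation.ReflTransGen.refl⟩

theorem mdl231_lat_fin (Q A : Finset MdlS) (b : MdlS → ℤ) : {K | (mdl231Lat Q A).Adm A b K}.Finite :=
  mdl231_finite_of_reach _ A b fun x _ => by
    obtain ⟨n, hn⟩ := mdl231_lat_exit A x
    exact mdl231_lat_reach Q A n x hn

theorem mdl231_lat_ne (Q A : Finset MdlS) {b : MdlS → ℤ} (hb : MdlHt b) : ((mdl231Lat Q A).cfg A b).Nonempty :=
  ⟨b, (mdl231_mem_cfg (mdl231_lat_fin Q A b)).2 ((mdl231_lat_adm Q A hb b).2 ⟨fun _ _ => rfl, fun u _ d hd => hb.1 u d hd⟩)⟩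

/-- membership in the configurations of `Defs/MODEL` -/
theorem mdl231_mem_mdlCfg {A : Finset MdlS} {b : MdlS → ℤ} (hb : MdlHt b) {h : MdlS → ℤ} : h ∈ mdlCfg A b ↔ MdlAdm A b h := by
  rw [← mdl231_lat_cfg ∅ A hb, mdl231_mem_cfg (mdl231_lat_fin ∅ A b), mdl231_lat_adm ∅ A hb]

/-- **(M3)** = `exit_mdl_fkg` of `Exit/MODEL`: FKG and monotonicity in the boundary height -/
theorem mdl231_exit_fkg {c : ℝ} (hc : 1 ≤ c) (Q A : Finset MdlS) {b : MdlS → ℤ} (hb : MdlHt b) :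
    (∀ G₁ G₂ : (MdlS → ℤ) → ℝ, MdlMono G₁ → MdlMono G₂ →
      mdlEQ c Q A b G₁ * mdlEQ c Q A b G₂ ≤ mdlEQ c Q A b fun h => G₁ h * G₂ h) ∧
    ∀ b' : MdlS → ℤ, MdlHt b' → (∀ u, b u ≤ b' u) → ∀ G : (MdlS → ℤ) → ℝ, MdlMono G →
      mdlEQ c Q A b G ≤ mdlEQ c Q A b' G := by
  refine ⟨fun G₁ G₂ h₁ h₂ => ?_, fun b' hb' hbb G hG => ?_⟩
  · rw [mdl231_lat_EQ c Q A hb, mdl231_lat_EQ c Q A hb, mdl231_lat_EQ c Q A hb]
    exact mdl231_fkg hc _ A b (mdl231_lat_ne Q A hb) h₁ h₂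
  · rw [mdl231_lat_EQ c Q A hb, mdl231_lat_EQ c Q A hb']
    exact mdl231_order hc _ A hbb (mdl231_lat_ne Q A hb) (mdl231_lat_ne Q A hb') hG

end Claimed.Agent.R292
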