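import Claimed.Agent.R292.Defs.MODEL
import Claimed.Agent.R292.Rsw.Cut91

/-!
# Row 292 (S0540), Model/Basic : FIRST API OF `Defs/MODEL` + THE EDGE REPRESENTATION (M5)      (owner helper191; prefix `mdl_`)      no sorry

* `mdl_ht_step`, `mdl_ht_diag`   a global height has steps `±1`; on every plaquette one of the two diagonals is flat (ice rule)
* `mdl_sf_df`, `mdl_sf_or_df`    the `s`-diagonal and the `d`-diagonal are the two diagonals
* `mdl_fac`                      `1[s flat] + (1[s not flat] + (c-1) 1[s flat]) 1[d flat] = c ^ 1[type c]`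
* **`mdl_edge`**                 (M5) sum over the `W` with `Γ ⊆ W ⊆ Q` of the edge weight `= 1[s flat on Γ] * weight of Q \ Γ`
SPATIAL LAYER (vocabulary `(S, D, O)` of `Defs/RSW`, cut of 91):
* `mdl_sum_idx`, `mdl_sum_sub`, `mdl_sumK_sub`, `mdl_sumK_zero`;   `mdl_mem_ed`, `mdl_ed_fst`, `mdl_ed_end`, `mdl_bd_iff`, `mdl_ed_int`;   `mdl_holds_out`
* `mdl_cut_pos`                  feasible prescriptions off the closed `Λ` are compatible with an open cut of either colour along the polygon of `Λ`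
* `MdlFkgAt t F b a K`           the statement of (S0) for one problem
* **`mdl_base`**                 (S0) + exact cut ⟹ `rswE t Λ (!a) X * mdlSumK K 1 ≤ mdlSumK K X` for `X` inside `Λ`, increasing in colour `a`
* `mdlVext`, `mdlEext`, `mdlAtom F B S₀ O₀`, `mdl_atom_ok`, `mdl_atom_pins`, `mdl_atom_holds`, `mdl_ext_atom`;   **`mdl_atoms`** (c1) decomposition of `1_L Y` into atoms,
  `mdl_of_atoms`, **`mdl_P_of_atoms`**: `p * SumK 1 ≤ SumK 1_E` on every atom ⟹ `p * rswP L ≤ rswP (L ∧ E)`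
* `mdlInd E` (THE indicator: one decidability instance), `MdlIncP a E`, `mdl_inc_ind`;   **`mdl_fkg_prod`** (c2) FKG over a finite family of increasing events
-/

set_option autoImplicit false

namespace Claimed.Agent.R292

open Claims Claims.C0468

theorem mdl_ht_step {h : MdlS → ℤ} (hh : MdlHt h) (u d : MdlS) (hd : d ∈ mdlDirs) :
    h (u + d) - h u = 1 ∨ h (u + d) - h u = -1 := by
  have := hh.1 u d hd
  rcases abs_eq (by norm_num : (0 : ℤ) ≤ 1) |>.1 this with h1 | h1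
  · exact Or.inl h1
  · exact Or.inr h1

/-- ice rule: one of the two diagonals of a plaquette is flat -/
theorem mdl_ht_diag {h : MdlS → ℤ} (hh : MdlHt h) (p : MdlS) : MdlD1 h p ∨ MdlD2 h p := by
  have h1 := mdl_ht_step hh p (1, 0) (by simp [mdlDirs])
  have h2 := mdl_ht_step hh p (0, 1) (by simp [mdlDirs])
  have h3 := mdl_ht_step hh (p + (1, 0)) (0, 1) (by simp [mdlDirs])
  have h4 := mdl_ht_step hh (p + (0, 1)) (1, 0) (by simp [mdlDirs])
  have e3 : p + (1, 0) + (0, 1) = p + ((1, 1) : MdlS) := by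
    ext <;> simp [add_assoc]
  have e4 : p + (0, 1) + (1, 0) = p + ((1, 1) : MdlS) := by
    ext <;> simp [add_assoc]
  rw [e3] at h3
  rw [e4] at h4
  unfold MdlD1 MdlD2
  omega

theorem mdl_sf_df (e : Bool) (h : MdlS → ℤ) (p : MdlS) : (MdlSf e h p ∧ MdlDf e h p) ↔ MdlC h p := by
  unfold MdlDf MdlSf MdlC
  by_cases h1 : (p.1 + p.2) % 2 = 0 <;> cases e <;> simp [h1, and_comm]

theorem mdl_sf_or_df (e : Bool) (h : MdlS → ℤ) (p : MdlS) : (MdlSf e h p ∨ MdlDf e h p) ↔ (MdlD1 h p ∨ MdlD2 h p) := by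
  unfold MdlDf MdlSf
  by_cases h1 : (p.1 + p.2) % 2 = 0 <;> cases e <;> simp [h1, or_comm]

open Classical in
/-- the factor of one plaquette -/
theorem mdl_fac (c : ℝ) (e : Bool) {h : MdlS → ℤ} (hh : MdlHt h) (p : MdlS) :
    (if MdlSf e h p then (1 : ℝ) else 0) + (if MdlDf e h p then (if MdlSf e h p then c - 1 else 1) else 0)
      = if MdlC h p then c else 1 := by
  have h1 := (mdl_sf_or_df e h p).2 (mdl_ht_diag hh p)
  have h2 := mdl_sf_df e h p
  by_cases a : MdlSf e h p <;> by_cases b : MdlDf e h p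
  · rw [if_pos a, if_pos b, if_pos a, if_pos (h2.1 ⟨a, b⟩)]; ring
  · rw [if_pos a, if_neg b, if_neg (fun hc => b (h2.2 hc).2)]; ring
  · rw [if_neg a, if_pos b, if_neg a, if_neg (fun hc => a (h2.2 hc).1)]; ring
  · exact absurd h1 (by tauto)

open Classical in
theorem mdl_wt_prod (c : ℝ) (Q : Finset MdlS) (h : MdlS → ℤ) : mdlWt c Q h = ∏ p ∈ Q, if MdlC h p then c else 1 := by
  unfold mdlWt mdlN
  rw [Finset.prod_ite, Finset.prod_const, Finset.prod_const_one, mul_one]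

open Classical in
/-- **(M5) THE EDGE REPRESENTATION / EXACT CUT** -/
theorem mdl_edge (c : ℝ) (e : Bool) {Γ Q : Finset MdlS} (hΓ : Γ ⊆ Q) {h : MdlS → ℤ} (hh : MdlHt h) :
    ∑ W ∈ Q.powerset.filter (fun W => Γ ⊆ W), mdlWtW c e Q W h =
      (∏ p ∈ Γ, if MdlSf e h p then (1 : ℝ) else 0) * mdlWt c (Q \ Γ) h := by
  rw [mdl_wt_prod]
  rw [← Finset.prod_congr rfl fun p _ => mdl_fac c e hh p, Finset.prod_add, Finset.mul_sum]
  refine Finset.sum_bij' (fun W _ => W \ Γ) (fun W' _ => Γ ∪ W') ?_ ?_ ?_ ?_ ?_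
  · intro W hW
    obtain ⟨h1, _⟩ := Finset.mem_filter.1 hW
    exact Finset.mem_powerset.2 (Finset.sdiff_subset_sdiff (Finset.mem_powerset.1 h1) le_rfl)
  · intro W' hW'
    have := Finset.mem_powerset.1 hW'
    exact Finset.mem_filter.2 ⟨Finset.mem_powerset.2 (Finset.union_subset hΓ (this.trans Finset.sdiff_subset)),
      Finset.subset_union_left⟩
  · intro W hW
    obtain ⟨_, h2⟩ := Finset.mem_filter.1 hW
    exact Finset.union_sdiff_of_subset h2
  · intro W' hW'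
    have := Finset.mem_powerset.1 hW'
    have hd : Disjoint W' Γ := Finset.disjoint_of_subset_left this Finset.sdiff_disjoint
    rw [Finset.union_sdiff_left]
    exact Finset.sdiff_eq_self_of_disjoint hd
  · intro W hW
    obtain ⟨_, h2⟩ := Finset.mem_filter.1 hW
    unfold mdlWtW
    have e1 : ∏ p ∈ W, (if MdlSf e h p then (1 : ℝ) else 0)
        = (∏ p ∈ Γ, if MdlSf e h p then (1 : ℝ) else 0) * ∏ p ∈ W \ Γ, if MdlSf e h p then (1 : ℝ) else 0 := by
      rw [mul_comm, Finset.prod_sdiff h2]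
    have e2 : (Q \ Γ) \ (W \ Γ) = Q \ W := by
      ext p
      simp only [Finset.mem_sdiff]
      constructor
      · rintro ⟨⟨a, b⟩, c'⟩
        exact ⟨a, fun hw => c' ⟨hw, b⟩⟩
      · rintro ⟨a, b⟩
        exact ⟨⟨a, fun hg => b (h2 hg)⟩, fun hw => b hw.1⟩
    rw [e1, e2, mul_assoc]

/-! ## the spatial layer: first lemmas on `rswSum`, `mdlSumK`, `mdlEd` -/

theorem mdl_sum_idx (t : ℝ) (F : Finset (ℤ × ℤ)) (b : Bool) (X : RswCfg → ℝ) :
    rswSum t F b X = ∑ x ∈ (cornersOf F).powerset ×ˢ (F.powerset ×ˢ (rswInt F).powerset),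
      rswWt t F b ⟨x.1, x.2.1, x.2.2⟩ * X ⟨x.1, x.2.1, x.2.2⟩ := by
  unfold rswSum
  rw [Finset.sum_product]
  refine Finset.sum_congr rfl fun S _ => ?_
  rw [Finset.sum_product]

theorem mdl_sum_sub (t : ℝ) (F : Finset (ℤ × ℤ)) (b : Bool) (X Y : RswCfg → ℝ) :
    rswSum t F b (fun ω => X ω - Y ω) = rswSum t F b X - rswSum t F b Y := by
  simp only [mdl_sum_idx, mul_sub, Finset.sum_sub_distrib]

theorem mdl_sumK_sub (t : ℝ) (F : Finset (ℤ × ℤ)) (b : Bool) (K : MdlPin) (X Y : RswCfg → ℝ) :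
    mdlSumK t F b K (fun ω => X ω - Y ω) = mdlSumK t F b K X - mdlSumK t F b K Y := by
  classical
  unfold mdlSumK
  rw [← mdl_sum_sub]
  congr 1
  funext ω
  split_ifs <;> simp

theorem mdl_mem_ed {Q : Finset (ℤ × ℤ)} {e : (ℤ × ℤ) × Bool} : e ∈ mdlEd Q ↔ (e.1 ∈ Q ∨ rswCo e ∈ Q) := by
  obtain ⟨⟨x, y⟩, c⟩ := e
  unfold mdlEd
  simp only [Finset.mem_union, Finset.mem_product, Finset.mem_univ, and_true, Finset.mem_image, Prod.mk.injEq, Prod.exists]
  constructor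
  · rintro ((h | ⟨p, q, h, ⟨rfl, rfl⟩, rfl⟩) | ⟨p, q, h, ⟨rfl, rfl⟩, rfl⟩)
    · exact Or.inl h
    · exact Or.inr (by simpa [rswCo] using h)
    · exact Or.inr (by simpa [rswCo] using h)
  · rintro (h | h)
    · exact Or.inl (Or.inl h)
    · cases c
      · exact Or.inr ⟨x, y - 1, by simpa [rswCo] using h, ⟨rfl, by ring⟩, rfl⟩
      · exact Or.inl (Or.inr ⟨x - 1, y, by simpa [rswCo] using h, ⟨by ring, rfl⟩, rfl⟩)

theorem mdl_ed_fst {Q : Finset (ℤ × ℤ)} {e : (ℤ × ℤ) × Bool} (he : e ∈ mdlEd Q) : e.1 ∈ cornersOf Q := by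
  obtain ⟨⟨x, y⟩, c⟩ := e
  rw [mdl_mem_ed] at he
  rw [rsk_mem_corners]
  rcases he with h | h
  · exact Or.inl h
  · cases c
    · exact Or.inr (Or.inr (Or.inl (by simpa [rswCo] using h)))
    · exact Or.inr (Or.inl (by simpa [rswCo] using h))

theorem mdl_ed_end {Q : Finset (ℤ × ℤ)} {e : (ℤ × ℤ) × Bool} (he : e ∈ mdlEd Q) : rswEnd e ∈ cornersOf Q := by
  obtain ⟨⟨x, y⟩, c⟩ := e
  rw [mdl_mem_ed] at he
  rw [rsk_mem_corners]
  rcases he with h | h
  · cases c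
    · exact Or.inr (Or.inl (by simpa [rswEnd] using h))
    · exact Or.inr (Or.inr (Or.inl (by simpa [rswEnd] using h)))
  · cases c
    · exact Or.inr (Or.inr (Or.inr (by simpa [rswEnd, rswCo] using h)))
    · exact Or.inr (Or.inr (Or.inr (by simpa [rswEnd, rswCo] using h)))

theorem mdl_bd_iff {Q : Finset (ℤ × ℤ)} {e : (ℤ × ℤ) × Bool} : RskBd Q e ↔ (e ∈ mdlEd Q ∧ e ∉ rswInt Q) := by
  rw [mdl_mem_ed, rsk_mem_int]
  unfold RskBd
  tauto

/-- an edge of `Λ` is an interior edge of `F` as soon as the corners of `Λ` are inner corners of `F` -/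
theorem mdl_ed_int {F Q : Finset (ℤ × ℤ)} (hin : ∀ v ∈ cornersOf Q, ¬ OnPolygon F v) {e : (ℤ × ℤ) × Bool}
    (he : e ∈ mdlEd Q) : e ∈ rswInt F := by
  have h := hin _ (mdl_ed_fst he)
  unfold OnPolygon at h
  rw [not_not] at h
  obtain ⟨⟨x, y⟩, c⟩ := e
  rw [rsk_mem_int]
  refine ⟨h.1, ?_⟩
  cases c
  · simpa [rswCo] using h.2.2.1
  · simpa [rswCo] using h.2.1

/-- prescriptions which do not touch the closed region `Λ` are read off the strict inside of `Λ` -/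
theorem mdl_holds_out {Λ : Finset (ℤ × ℤ)} {K : MdlPin} (hK : K.Ok) (hKs : ∀ v ∈ cornersOf Λ, v ∉ K.Sp ∪ K.Sm)
    (ω : RswCfg) : K.Holds (rskOut Λ ω) ↔ K.Holds ω := by
  have hv : ∀ v ∈ K.Sp ∪ K.Sm, v ∉ rskCore Λ := fun v hv hc => hKs v (rsk_core_sub Λ hc) hv
  have he : ∀ e ∈ K.Oo ∪ K.Oc, e ∉ rswInt Λ := fun e he hi => hKs _ (rsk_int_fst hi) (hK e he).1
  unfold MdlPin.Holds
  constructor
  · rintro ⟨h1, h2, h3, h4⟩
    exact ⟨fun v hv' => (rsk_out_S (hv v (Finset.mem_union_left _ hv'))).1 (h1 hv'),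
      fun v hv' hS => h2 v hv' ((rsk_out_S (hv v (Finset.mem_union_right _ hv'))).2 hS),
      fun e he' => (rsk_out_O (he e (Finset.mem_union_left _ he'))).1 (h3 he'),
      fun e he' hO => h4 e he' ((rsk_out_O (he e (Finset.mem_union_right _ he'))).2 hO)⟩
  · rintro ⟨h1, h2, h3, h4⟩
    exact ⟨fun v hv' => (rsk_out_S (hv v (Finset.mem_union_left _ hv'))).2 (h1 hv'),
      fun v hv' hS => h2 v hv' ((rsk_out_S (hv v (Finset.mem_union_right _ hv'))).1 hS),
      fun e he' => (rsk_out_O (he e (Finset.mem_union_left _ he'))).2 (h3 he'),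
      fun e he' hO => h4 e he' ((rsk_out_O (he e (Finset.mem_union_right _ he'))).1 hO)⟩

/-- infeasible prescriptions kill every sum -/
theorem mdl_sumK_zero {t : ℝ} (ht0 : 0 ≤ t) (ht1 : t ≤ 1) {F : Finset (ℤ × ℤ)} {b : Bool} {K : MdlPin}
    (h : mdlSumK t F b K (fun _ => 1) = 0) (X : RswCfg → ℝ) : mdlSumK t F b K X = 0 := by
  classical
  unfold mdlSumK at h ⊢
  rw [mdl_sum_idx] at h ⊢
  have hnn : ∀ x ∈ (cornersOf F).powerset ×ˢ (F.powerset ×ˢ (rswInt F).powerset),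
      0 ≤ rswWt t F b ⟨x.1, x.2.1, x.2.2⟩ * (if K.Holds ⟨x.1, x.2.1, x.2.2⟩ then (1 : ℝ) else 0) := by
    intro x _
    refine mul_nonneg (rsk_wt_nonneg ht0 ht1 F b _) ?_
    split_ifs <;> norm_num
  have h0 := (Finset.sum_eq_zero_iff_of_nonneg hnn).1 h
  refine Finset.sum_eq_zero fun x hx => ?_
  have := h0 x hx
  by_cases hH : K.Holds ⟨x.1, x.2.1, x.2.2⟩
  · rw [if_pos hH, mul_one] at this
    rw [this, zero_mul]
  · rw [if_neg hH, mul_zero]

/-- **positivity**: feasible prescriptions which do not touch the closed region `Λ` (inside the open `F`) are compatible with an open cut of either colour along the polygon of `Λ` -/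
theorem mdl_cut_pos {t : ℝ} (ht0 : 0 < t) (ht2 : t < 1) {F Λ : Finset (ℤ × ℤ)} (b a' : Bool) {K : MdlPin} (hK : K.Ok)
    (hin : ∀ v ∈ cornersOf Λ, ¬ OnPolygon F v) (hKs : ∀ v ∈ cornersOf Λ, v ∉ K.Sp ∪ K.Sm)
    (hpos : mdlSumK t F b K (fun _ => 1) ≠ 0) : 0 < mdlSumK t F b K (rskInd Λ a') := by
  classical
  have hex : ∃ x ∈ (cornersOf F).powerset ×ˢ (F.powerset ×ˢ (rswInt F).powerset),
      rswWt t F b ⟨x.1, x.2.1, x.2.2⟩ ≠ 0 ∧ K.Holds ⟨x.1, x.2.1, x.2.2⟩ := by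
    by_contra hne
    push Not at hne
    apply hpos
    unfold mdlSumK
    rw [mdl_sum_idx]
    refine Finset.sum_eq_zero fun x hx => ?_
    by_cases hw : rswWt t F b ⟨x.1, x.2.1, x.2.2⟩ = 0
    · rw [hw, zero_mul]
    · rw [if_neg (hne x hx hw), mul_zero]
  obtain ⟨⟨S, D, O⟩, hx, hw, hH⟩ := hex
  simp only [Finset.mem_product, Finset.mem_powerset] at hx hw hH
  obtain ⟨hS, hD, hO⟩ := hx
  have hbc : RswBc F b ⟨S, D, O⟩ := by
    by_contra h
    exact hw (by unfold rswWt; rw [if_neg h])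
  have hfac : ∀ e ∈ rswInt F, rswFac t ⟨S, D, O⟩ e ≠ 0 := by
    intro e he h0
    apply hw
    unfold rswWt
    rw [if_pos hbc]
    exact Finset.prod_eq_zero he h0
  obtain ⟨hH1, hH2, hH3, hH4⟩ := hH
  simp only at hH1 hH2 hH3 hH4
  have hcF : cornersOf Λ ⊆ cornersOf F := by
    intro v hv
    have h := hin v hv
    unfold OnPolygon at h
    rw [not_not] at h
    exact rsk_mem_corners.2 (Or.inl h.1)
  let S' : Finset (ℤ × ℤ) := (S \ cornersOf Λ) ∪ (if a' = true then cornersOf Λ else ∅)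
  let O' : Finset ((ℤ × ℤ) × Bool) := K.Oo ∪ (mdlEd Λ \ rswInt Λ)
  have hSin : ∀ v ∈ cornersOf Λ, (v ∈ S' ↔ a' = true) := by
    intro v hv
    simp only [S', Finset.mem_union, Finset.mem_sdiff]
    by_cases ha : a' = true
    · simp [ha, hv]
    · simp [ha, hv]
  have hSout : ∀ v, v ∉ cornersOf Λ → (v ∈ S' ↔ v ∈ S) := by
    intro v hv
    simp only [S', Finset.mem_union, Finset.mem_sdiff]
    by_cases ha : a' = true
    · simp [ha, hv]
    · simp [ha, hv]
  have hpin : ∀ v ∈ K.Sp ∪ K.Sm, v ∉ cornersOf Λ := fun v hv hc => hKs v hc hv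
  have hS' : S' ⊆ cornersOf F := by
    intro v hv
    by_cases hc : v ∈ cornersOf Λ
    · exact hcF hc
    · exact hS ((hSout v hc).1 hv)
  have hO' : O' ⊆ rswInt F := by
    intro e he
    rcases Finset.mem_union.1 he with h | h
    · exact hO (hH3 h)
    · exact mdl_ed_int hin (Finset.mem_sdiff.1 h).1
  have hbc' : RswBc F b ⟨S', F, O'⟩ := by
    intro v hv hp
    have hc : v ∉ cornersOf Λ := fun hc => hin v hc hp
    show v ∈ S' ↔ b = true
    rw [hSout v hc]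
    exact hbc v hv hp
  have hfac' : ∀ e ∈ rswInt F, 0 < rswFac t ⟨S', F, O'⟩ e := by
    intro e he
    unfold rswFac
    simp only
    by_cases heO : e ∈ O'
    · have hiff : (e.1 ∈ S' ↔ rswEnd e ∈ S') := by
        rcases Finset.mem_union.1 heO with h | h
        · have hp := hK e (Finset.mem_union_left _ h)
          rw [hSout _ (hpin _ hp.1), hSout _ (hpin _ hp.2)]
          have h0 := hfac e he
          unfold rswFac at h0
          simp only at h0
          rw [if_pos (hH3 h)] at h0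
          by_contra hc
          exact h0 (if_neg hc)
        · have h1 := (Finset.mem_sdiff.1 h).1
          rw [hSin _ (mdl_ed_fst h1), hSin _ (mdl_ed_end h1)]
      rw [if_pos heO, if_pos hiff]
      exact ht0
    · have hD' : (e.1 ∈ F ↔ rswCo e ∈ F) := by
        have := rsk_mem_int.1 he
        exact ⟨fun _ => this.2, fun _ => this.1⟩
      rw [if_neg heO, if_pos hD']
      split_ifs
      · linarith
      · exact ht0
  have hHolds : K.Holds ⟨S', F, O'⟩ := by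
    refine ⟨fun v hv => ?_, fun v hv hS'' => ?_, fun e he => Finset.mem_union_left _ he, fun e he heO => ?_⟩
    · exact (hSout v (hpin v (Finset.mem_union_left _ hv))).2 (hH1 hv)
    · exact hH2 v hv ((hSout v (hpin v (Finset.mem_union_right _ hv))).1 hS'')
    · rcases Finset.mem_union.1 heO with h | h
      · exact hH4 e he (hH3 h)
      · exact hpin _ (hK e (Finset.mem_union_right _ he)).1 (mdl_ed_fst (Finset.mem_sdiff.1 h).1)
  have hcut : RswCut Λ a' ⟨S', F, O'⟩ := by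
    intro e he
    obtain ⟨h1, h2⟩ := mdl_bd_iff.1 he
    exact ⟨Finset.mem_union_right _ (Finset.mem_sdiff.2 ⟨h1, h2⟩), hSin _ (mdl_ed_fst h1), hSin _ (mdl_ed_end h1)⟩
  unfold mdlSumK
  rw [mdl_sum_idx]
  refine Finset.sum_pos' (fun x _ => ?_) ⟨(S', F, O'), ?_, ?_⟩
  · refine mul_nonneg (rsk_wt_nonneg ht0.le ht2.le F b _) ?_
    unfold rskInd
    split_ifs <;> norm_num
  · simp only [Finset.mem_product, Finset.mem_powerset]
    exact ⟨hS', le_rfl, hO'⟩
  · simp only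
    rw [if_pos hHolds]
    unfold rskInd
    rw [if_pos hcut, mul_one]
    unfold rswWt
    rw [if_pos hbc']
    exact Finset.prod_pos hfac'

/-- the statement of (S0) `exit_mdl_cmp` for one problem `(F, b, a, K)` -/
def MdlFkgAt (t : ℝ) (F : Finset (ℤ × ℤ)) (b a : Bool) (K : MdlPin) : Prop :=
  ∀ X Y : RswCfg → ℝ, MdlInc a X → MdlInc a Y →
    mdlSumK t F b K X * mdlSumK t F b K Y ≤ mdlSumK t F b K (fun _ => 1) * mdlSumK t F b K fun ω => X ω * Y ω

/-- **BASE LEMMA (domain + boundary monotonicity)**: under any prescriptions which do not touch the closed region `Λ`, an observable inside `Λ` which is increasing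
in the colour `a` has at least the expectation it has under the flat law of `Λ` wired in the OPPOSITE colour. -/
theorem mdl_base {t : ℝ} (ht0 : 0 < t) (ht2 : t < 1) {F Λ : Finset (ℤ × ℤ)} (hΛ : Λ ⊆ F) (b a : Bool) {K : MdlPin} (hK : K.Ok)
    (hfkg : MdlFkgAt t F b a K)
    (hin : ∀ v ∈ cornersOf Λ, ¬ OnPolygon F v) (hKs : ∀ v ∈ cornersOf Λ, v ∉ K.Sp ∪ K.Sm)
    {X : RswCfg → ℝ} (hX : MdlInc a X) (hXin : RskInside Λ X) :
    rswE t Λ (!a) X * mdlSumK t F b K (fun _ => 1) ≤ mdlSumK t F b K X := by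
  classical
  by_cases h0 : mdlSumK t F b K (fun _ => 1) = 0
  · rw [h0, mdl_sumK_zero ht0.le ht2.le h0 X, mul_zero]
  have hI := mdl_cut_pos ht0 ht2 b (!a) hK hin hKs h0
  -- the complement of the cut is increasing
  have hY : MdlInc a (fun ω => 1 - rskInd Λ (!a) ω) := by
    intro ω ω' hle
    show 1 - rskInd Λ (!a) ω ≤ 1 - rskInd Λ (!a) ω'
    unfold rskInd
    by_cases hc' : RswCut Λ (!a) ω'
    · have hc : RswCut Λ (!a) ω := fun e he => hle.2.2 e (hc' e he)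
      rw [if_pos hc, if_pos hc']
    · rw [if_neg hc']
      split_ifs <;> norm_num
  have key := hfkg X _ hX hY
  have e1 : mdlSumK t F b K (fun ω => 1 - rskInd Λ (!a) ω)
      = mdlSumK t F b K (fun _ => 1) - mdlSumK t F b K (rskInd Λ (!a)) := mdl_sumK_sub t F b K _ _
  have e2 : mdlSumK t F b K (fun ω => X ω * (1 - rskInd Λ (!a) ω))
      = mdlSumK t F b K X - mdlSumK t F b K (fun ω => X ω * rskInd Λ (!a) ω) := by
    rw [← mdl_sumK_sub]
    congr 1
    funext ω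
    ring
  -- the exact cut
  have hout : RskOutside Λ (fun ω => if K.Holds ω then (1 : ℝ) else 0) := by
    intro ω
    simp only [mdl_holds_out hK hKs ω]
  have e3 : mdlSumK t F b K (fun ω => X ω * rskInd Λ (!a) ω)
      = rswE t Λ (!a) X * mdlSumK t F b K (rskInd Λ (!a)) := by
    have := rsk_cut ht0 ht2.le hΛ (!a) b hXin hout
    unfold mdlSumK
    have l : (fun ω => if K.Holds ω then X ω * rskInd Λ (!a) ω else 0)
        = fun ω => rskInd Λ (!a) ω * X ω * (if K.Holds ω then (1 : ℝ) else 0) := by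
      funext ω
      split_ifs <;> ring
    have r : (fun ω => if K.Holds ω then rskInd Λ (!a) ω else 0)
        = fun ω => rskInd Λ (!a) ω * (if K.Holds ω then (1 : ℝ) else 0) := by
      funext ω
      split_ifs <;> ring
    rw [l, r]
    exact this
  rw [e1, e2, e3] at key
  have : rswE t Λ (!a) X * mdlSumK t F b K (fun _ => 1) * mdlSumK t F b K (rskInd Λ (!a))
      ≤ mdlSumK t F b K X * mdlSumK t F b K (rskInd Λ (!a)) := by nlinarith [key]
  exact le_of_mul_le_mul_right this hI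

theorem mdl_basic_eqns_cite : True := by
  have := @MdlFkgAt.eq_1
  trivial

/-! ## atoms of exterior data, FKG over a finite family -/

open Classical in
/-- the corners of `F` off the open buffer `B` -/
noncomputable def mdlVext (F B : Finset (ℤ × ℤ)) : Finset (ℤ × ℤ) := (cornersOf F).filter fun v => OnPolygon B v

/-- the interior edges of `F` which are not interior edges of `B` -/
def mdlEext (F B : Finset (ℤ × ℤ)) : Finset ((ℤ × ℤ) × Bool) := rswInt F \ rswInt B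

/-- the atom of exterior data `(S₀, O₀)` as prescriptions -/
noncomputable def mdlAtom (F B : Finset (ℤ × ℤ)) (S₀ : Finset (ℤ × ℤ)) (O₀ : Finset ((ℤ × ℤ) × Bool)) : MdlPin :=
  ⟨S₀, mdlVext F B \ S₀, O₀, mdlEext F B \ O₀⟩

theorem mdl_mem_vext {F B : Finset (ℤ × ℤ)} {v : ℤ × ℤ} : v ∈ mdlVext F B ↔ (v ∈ cornersOf F ∧ OnPolygon B v) := by
  classical
  unfold mdlVext
  rw [Finset.mem_filter]

theorem mdl_eext_fst {F B : Finset (ℤ × ℤ)} {e : (ℤ × ℤ) × Bool} (he : e ∈ mdlEext F B) : e.1 ∈ mdlVext F B := by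
  obtain ⟨h1, h2⟩ := Finset.mem_sdiff.1 he
  refine mdl_mem_vext.2 ⟨rsk_int_fst h1, ?_⟩
  by_contra h
  exact h2 (rsk_fst_core (rsk_core_iff.2 h))

theorem mdl_eext_end {F B : Finset (ℤ × ℤ)} {e : (ℤ × ℤ) × Bool} (he : e ∈ mdlEext F B) : rswEnd e ∈ mdlVext F B := by
  obtain ⟨h1, h2⟩ := Finset.mem_sdiff.1 he
  refine mdl_mem_vext.2 ⟨rsk_int_end h1, ?_⟩
  by_contra h
  exact h2 (rsk_end_core (rsk_core_iff.2 h))

theorem mdl_atom_ok {F B : Finset (ℤ × ℤ)} {S₀ : Finset (ℤ × ℤ)} {O₀ : Finset ((ℤ × ℤ) × Bool)}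
    (hO : O₀ ⊆ mdlEext F B) : (mdlAtom F B S₀ O₀).Ok := by
  classical
  intro e he
  have he' : e ∈ mdlEext F B := by
    rcases Finset.mem_union.1 he with h | h
    · exact hO h
    · exact (Finset.mem_sdiff.1 h).1
  have key : ∀ v ∈ mdlVext F B, v ∈ (mdlAtom F B S₀ O₀).Sp ∪ (mdlAtom F B S₀ O₀).Sm := by
    intro v hv
    show v ∈ S₀ ∪ (mdlVext F B \ S₀)
    by_cases h : v ∈ S₀
    · exact Finset.mem_union_left _ h
    · exact Finset.mem_union_right _ (Finset.mem_sdiff.2 ⟨hv, h⟩)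
  exact ⟨key _ (mdl_eext_fst he'), key _ (mdl_eext_end he')⟩

/-- the pinned vertices of an atom are off the open buffer -/
theorem mdl_atom_pins {F B : Finset (ℤ × ℤ)} {S₀ : Finset (ℤ × ℤ)} {O₀ : Finset ((ℤ × ℤ) × Bool)}
    (hS : S₀ ⊆ mdlVext F B) {v : ℤ × ℤ} (hv : v ∈ (mdlAtom F B S₀ O₀).Sp ∪ (mdlAtom F B S₀ O₀).Sm) : OnPolygon B v := by
  have hv' : v ∈ S₀ ∪ (mdlVext F B \ S₀) := hv
  rcases Finset.mem_union.1 hv' with h | h
  · exact (mdl_mem_vext.1 (hS h)).2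
  · exact (mdl_mem_vext.1 (Finset.mem_sdiff.1 h).1).2

theorem mdl_atom_holds {F B : Finset (ℤ × ℤ)} {S₀ : Finset (ℤ × ℤ)} {O₀ : Finset ((ℤ × ℤ) × Bool)}
    (hS : S₀ ⊆ mdlVext F B) (hO : O₀ ⊆ mdlEext F B) (ω : RswCfg) :
    (mdlAtom F B S₀ O₀).Holds ω ↔ (ω.S ∩ mdlVext F B = S₀ ∧ ω.O ∩ mdlEext F B = O₀) := by
  classical
  unfold MdlPin.Holds mdlAtom
  simp only
  constructor
  · rintro ⟨h1, h2, h3, h4⟩
    constructor
    · ext v
      rw [Finset.mem_inter]
      constructor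
      · rintro ⟨a, b⟩
        by_contra hc
        exact h2 v (Finset.mem_sdiff.2 ⟨b, hc⟩) a
      · exact fun h => ⟨h1 h, hS h⟩
    · ext e
      rw [Finset.mem_inter]
      constructor
      · rintro ⟨a, b⟩
        by_contra hc
        exact h4 e (Finset.mem_sdiff.2 ⟨b, hc⟩) a
      · exact fun h => ⟨h3 h, hO h⟩
  · rintro ⟨rfl, rfl⟩
    refine ⟨Finset.inter_subset_left, fun v hv hvS => ?_, Finset.inter_subset_left, fun e he heO => ?_⟩
    · obtain ⟨a, b⟩ := Finset.mem_sdiff.1 hv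
      exact b (Finset.mem_inter.2 ⟨hvS, a⟩)
    · obtain ⟨a, b⟩ := Finset.mem_sdiff.1 he
      exact b (Finset.mem_inter.2 ⟨heO, a⟩)

/-- exterior data are constant on the atoms -/
theorem mdl_ext_atom {F B : Finset (ℤ × ℤ)} {L : RswCfg → Prop} (hL : MdlExt B L) {ω : RswCfg}
    (hS : ω.S ⊆ cornersOf F) (hO : ω.O ⊆ rswInt F) :
    L ω ↔ L ⟨ω.S ∩ mdlVext F B, ∅, ω.O ∩ mdlEext F B⟩ := by
  refine hL _ _ (fun v hv => ?_) (fun e he => ?_)
  · show v ∈ ω.S ↔ v ∈ ω.S ∩ mdlVext F B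
    rw [Finset.mem_inter]
    exact ⟨fun h => ⟨h, mdl_mem_vext.2 ⟨hS h, hv⟩⟩, fun h => h.1⟩
  · show e ∈ ω.O ↔ e ∈ ω.O ∩ mdlEext F B
    rw [Finset.mem_inter]
    exact ⟨fun h => ⟨h, Finset.mem_sdiff.2 ⟨hO h, he⟩⟩, fun h => h.1⟩

open Classical in
/-- **(c1) DECOMPOSITION INTO ATOMS** -/
theorem mdl_atoms (t : ℝ) (F B : Finset (ℤ × ℤ)) (b : Bool) {L : RswCfg → Prop} (hL : MdlExt B L) (Y : RswCfg → ℝ) :
    rswSum t F b (fun ω => if L ω then Y ω else 0) =
      ∑ ξ ∈ (mdlVext F B).powerset ×ˢ (mdlEext F B).powerset,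
        if L ⟨ξ.1, ∅, ξ.2⟩ then mdlSumK t F b (mdlAtom F B ξ.1 ξ.2) Y else 0 := by
  have e1 : ∀ ξ : Finset (ℤ × ℤ) × Finset ((ℤ × ℤ) × Bool),
      (if L ⟨ξ.1, ∅, ξ.2⟩ then mdlSumK t F b (mdlAtom F B ξ.1 ξ.2) Y else 0) =
        ∑ x ∈ (cornersOf F).powerset ×ˢ (F.powerset ×ˢ (rswInt F).powerset),
          if L ⟨ξ.1, ∅, ξ.2⟩ then rswWt t F b ⟨x.1, x.2.1, x.2.2⟩ *
            (if (mdlAtom F B ξ.1 ξ.2).Holds ⟨x.1, x.2.1, x.2.2⟩ then Y ⟨x.1, x.2.1, x.2.2⟩ else 0) else 0 := by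
    intro ξ
    split_ifs with h
    · unfold mdlSumK
      rw [mdl_sum_idx]
    · rw [Finset.sum_const_zero]
  rw [Finset.sum_congr rfl fun ξ _ => e1 ξ, Finset.sum_comm, mdl_sum_idx]
  refine Finset.sum_congr rfl fun x hx => ?_
  simp only [Finset.mem_product, Finset.mem_powerset] at hx
  obtain ⟨hS, -, hO⟩ := hx
  rw [Finset.sum_eq_single (x.1 ∩ mdlVext F B, x.2.2 ∩ mdlEext F B)]
  · simp only
    have hh : (mdlAtom F B (x.1 ∩ mdlVext F B) (x.2.2 ∩ mdlEext F B)).Holds ⟨x.1, x.2.1, x.2.2⟩ :=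
      (mdl_atom_holds Finset.inter_subset_right Finset.inter_subset_right _).2 ⟨rfl, rfl⟩
    have hl := mdl_ext_atom (F := F) hL (ω := ⟨x.1, x.2.1, x.2.2⟩) hS hO
    simp only at hl
    rw [if_pos hh]
    by_cases h : L ⟨x.1, x.2.1, x.2.2⟩
    · rw [if_pos h, if_pos (hl.1 h)]
    · rw [if_neg h, if_neg (fun h' => h (hl.2 h')), mul_zero]
  · intro ξ hξ hne
    simp only [Finset.mem_product, Finset.mem_powerset] at hξ
    have hh : ¬ (mdlAtom F B ξ.1 ξ.2).Holds ⟨x.1, x.2.1, x.2.2⟩ := by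
      intro h
      obtain ⟨h1, h2⟩ := (mdl_atom_holds hξ.1 hξ.2 _).1 h
      simp only at h1 h2
      exact hne (Prod.ext h1.symm h2.symm)
    rw [if_neg hh, mul_zero]
    split_ifs <;> rfl
  · intro h
    exact absurd (by
      simp only [Finset.mem_product, Finset.mem_powerset]
      exact ⟨Finset.inter_subset_right, Finset.inter_subset_right⟩) h

open Classical in
/-- an inequality on every atom gives the inequality under every exterior data -/
theorem mdl_of_atoms (t : ℝ) (F B : Finset (ℤ × ℤ)) (b : Bool) {L : RswCfg → Prop} (hL : MdlExt B L) (c : ℝ) (Y Y' : RswCfg → ℝ)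
    (h : ∀ S₀ ⊆ mdlVext F B, ∀ O₀ ⊆ mdlEext F B,
      c * mdlSumK t F b (mdlAtom F B S₀ O₀) Y ≤ mdlSumK t F b (mdlAtom F B S₀ O₀) Y') :
    c * rswSum t F b (fun ω => if L ω then Y ω else 0) ≤ rswSum t F b (fun ω => if L ω then Y' ω else 0) := by
  rw [mdl_atoms t F B b hL Y, mdl_atoms t F B b hL Y', Finset.mul_sum]
  refine Finset.sum_le_sum fun ξ hξ => ?_
  simp only [Finset.mem_product, Finset.mem_powerset] at hξ
  split_ifs
  · exact h _ hξ.1 _ hξ.2
  · rw [mul_zero]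

/-- the indicator of an event (ONE decidability instance for everybody) -/
noncomputable def mdlInd (E : RswCfg → Prop) (ω : RswCfg) : ℝ := open Classical in if E ω then 1 else 0

theorem mdl_ind_pos {E : RswCfg → Prop} {ω : RswCfg} (h : E ω) : mdlInd E ω = 1 := by
  unfold mdlInd; exact if_pos h

theorem mdl_ind_neg {E : RswCfg → Prop} {ω : RswCfg} (h : ¬ E ω) : mdlInd E ω = 0 := by
  unfold mdlInd; exact if_neg h

theorem mdl_ind_nonneg (E : RswCfg → Prop) (ω : RswCfg) : 0 ≤ mdlInd E ω := by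
  by_cases h : E ω
  · rw [mdl_ind_pos h]; norm_num
  · rw [mdl_ind_neg h]

theorem mdl_ind_le_one (E : RswCfg → Prop) (ω : RswCfg) : mdlInd E ω ≤ 1 := by
  by_cases h : E ω
  · rw [mdl_ind_pos h]
  · rw [mdl_ind_neg h]; norm_num

theorem mdl_ind_congr {A B : RswCfg → Prop} (h : ∀ ω, A ω ↔ B ω) : mdlInd A = mdlInd B := by
  have : A = B := funext fun ω => propext (h ω)
  rw [this]

theorem mdl_ind_and (A B : RswCfg → Prop) (ω : RswCfg) : mdlInd (fun ω => A ω ∧ B ω) ω = mdlInd A ω * mdlInd B ω := by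
  by_cases h1 : A ω <;> by_cases h2 : B ω
  · rw [mdl_ind_pos h1, mdl_ind_pos h2, mdl_ind_pos (E := fun ω => A ω ∧ B ω) ⟨h1, h2⟩, mul_one]
  · rw [mdl_ind_neg h2, mdl_ind_neg (E := fun ω => A ω ∧ B ω) (fun h => h2 h.2), mul_zero]
  · rw [mdl_ind_neg h1, mdl_ind_neg (E := fun ω => A ω ∧ B ω) (fun h => h1 h.1), zero_mul]
  · rw [mdl_ind_neg h1, mdl_ind_neg (E := fun ω => A ω ∧ B ω) (fun h => h1 h.1), zero_mul]

theorem mdl_P_eq (t : ℝ) (F : Finset (ℤ × ℤ)) (b : Bool) (L : RswCfg → Prop) : rswP t F b L = rswE t F b (mdlInd L) := rfl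

theorem mdl_sum_congr (t : ℝ) (F : Finset (ℤ × ℤ)) (b : Bool) {X Y : RswCfg → ℝ} (h : ∀ ω, X ω = Y ω) :
    rswSum t F b X = rswSum t F b Y := by
  rw [funext h]

theorem mdl_sumK_congr (t : ℝ) (F : Finset (ℤ × ℤ)) (b : Bool) (K : MdlPin) {X Y : RswCfg → ℝ} (h : ∀ ω, X ω = Y ω) :
    mdlSumK t F b K X = mdlSumK t F b K Y := by
  rw [funext h]

/-- the same for probabilities: `p * P(L) ≤ P(L ∧ E)` -/
theorem mdl_P_of_atoms {t : ℝ} (ht0 : 0 < t) (ht1 : t ≤ 1) (F B : Finset (ℤ × ℤ)) (b : Bool) {L : RswCfg → Prop} (hL : MdlExt B L)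
    (p : ℝ) (E : RswCfg → Prop)
    (h : ∀ S₀ ⊆ mdlVext F B, ∀ O₀ ⊆ mdlEext F B,
      p * mdlSumK t F b (mdlAtom F B S₀ O₀) (fun _ => 1) ≤ mdlSumK t F b (mdlAtom F B S₀ O₀) (mdlInd E)) :
    p * rswP t F b L ≤ rswP t F b fun ω => L ω ∧ E ω := by
  classical
  have key := mdl_of_atoms t F B b hL p (fun _ => 1) (mdlInd E) h
  have hZ := rsk_sum_one_pos ht0 ht1 F b
  rw [mdl_P_eq, mdl_P_eq]
  unfold rswE
  rw [← mul_div_assoc]
  refine div_le_div_of_nonneg_right ?_ hZ.le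
  have e1 : rswSum t F b (mdlInd L) = rswSum t F b (fun ω => if L ω then (1 : ℝ) else 0) :=
    mdl_sum_congr t F b fun ω => by
      by_cases h1 : L ω
      · rw [mdl_ind_pos h1, if_pos h1]
      · rw [mdl_ind_neg h1, if_neg h1]
  have e2 : rswSum t F b (mdlInd fun ω => L ω ∧ E ω) = rswSum t F b (fun ω => if L ω then mdlInd E ω else 0) :=
    mdl_sum_congr t F b fun ω => by
      rw [mdl_ind_and]
      by_cases h1 : L ω
      · rw [mdl_ind_pos h1, if_pos h1, one_mul]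
      · rw [mdl_ind_neg h1, if_neg h1, zero_mul]
  rw [e1, e2]
  exact key

/-- increasing events -/
def MdlIncP (a : Bool) (E : RswCfg → Prop) : Prop := ∀ ω ω' : RswCfg, MdlLe a ω ω' → E ω → E ω'

theorem mdl_inc_ind {a : Bool} {E : RswCfg → Prop} (hE : MdlIncP a E) : MdlInc a (mdlInd E) := by
  intro ω ω' hle
  by_cases h : E ω
  · rw [mdl_ind_pos h, mdl_ind_pos (hE ω ω' hle h)]
  · rw [mdl_ind_neg h]
    exact mdl_ind_nonneg _ _

theorem mdl_sumK_one_nonneg {t : ℝ} (ht0 : 0 ≤ t) (ht1 : t ≤ 1) (F : Finset (ℤ × ℤ)) (b : Bool) (K : MdlPin) :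
    0 ≤ mdlSumK t F b K fun _ => 1 := by
  classical
  unfold mdlSumK
  rw [mdl_sum_idx]
  refine Finset.sum_nonneg fun x _ => mul_nonneg (rsk_wt_nonneg ht0 ht1 F b _) ?_
  split_ifs <;> norm_num

/-- **(c2) FKG OVER A FINITE FAMILY** of increasing events -/
theorem mdl_fkg_prod {t : ℝ} (ht0 : 0 ≤ t) (ht1 : t ≤ 1) {F : Finset (ℤ × ℤ)} {b a : Bool} {K : MdlPin} (hfkg : MdlFkgAt t F b a K)
    {ι : Type*} (J : Finset ι) (E : ι → RswCfg → Prop) (hE : ∀ j ∈ J, MdlIncP a (E j)) {p : ℝ} (hp : 0 ≤ p)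
    (h : ∀ j ∈ J, p * mdlSumK t F b K (fun _ => 1) ≤ mdlSumK t F b K (mdlInd (E j))) :
    p ^ J.card * mdlSumK t F b K (fun _ => 1) ≤ mdlSumK t F b K (mdlInd fun ω => ∀ j ∈ J, E j ω) := by
  classical
  induction J using Finset.induction_on with
  | empty =>
    rw [Finset.card_empty, pow_zero, one_mul]
    exact le_of_eq (mdl_sumK_congr t F b K fun ω => (mdl_ind_pos (E := fun ω => ∀ j ∈ (∅ : Finset ι), E j ω) (by simp)).symm)
  | insert j J hj ih =>
    have ih' := ih (fun i hi => hE i (Finset.mem_insert_of_mem hi)) (fun i hi => h i (Finset.mem_insert_of_mem hi))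
    have hZ := mdl_sumK_one_nonneg ht0 ht1 F b K
    rcases hZ.eq_or_lt with h0 | hpos
    · rw [← h0, mul_zero, mdl_sumK_zero ht0 ht1 h0.symm]
    have hX : MdlIncP a (fun ω => ∀ i ∈ J, E i ω) := fun ω ω' hle hω i hi =>
      hE i (Finset.mem_insert_of_mem hi) ω ω' hle (hω i hi)
    have key := hfkg _ _ (mdl_inc_ind hX) (mdl_inc_ind (hE j (Finset.mem_insert_self j J)))
    have e : mdlSumK t F b K (fun ω => mdlInd (fun ω => ∀ i ∈ J, E i ω) ω * mdlInd (E j) ω)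
        = mdlSumK t F b K (mdlInd fun ω => ∀ i ∈ insert j J, E i ω) := by
      refine mdl_sumK_congr t F b K fun ω => ?_
      rw [← mdl_ind_and]
      refine congrFun (mdl_ind_congr fun ω => ?_) ω
      rw [Finset.forall_mem_insert]
      exact and_comm
    rw [e] at key
    have hj' := h j (Finset.mem_insert_self j J)
    rw [Finset.card_insert_of_notMem hj, pow_succ]
    have h1 : (p ^ J.card * mdlSumK t F b K fun _ => 1) * (p * mdlSumK t F b K fun _ => 1)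
        ≤ mdlSumK t F b K (mdlInd fun ω => ∀ i ∈ J, E i ω) * mdlSumK t F b K (mdlInd (E j)) :=
      mul_le_mul ih' hj' (mul_nonneg hp hZ) ((mul_nonneg (pow_nonneg hp _) hZ).trans ih')
    have h2 := h1.trans key
    refine le_of_mul_le_mul_left ?_ hpos
    calc (mdlSumK t F b K fun _ => 1) * (p ^ J.card * p * mdlSumK t F b K fun _ => 1)
        = (p ^ J.card * mdlSumK t F b K fun _ => 1) * (p * mdlSumK t F b K fun _ => 1) := by ring
      _ ≤ _ := h2

theorem mdl_atoms_eqns_cite : True := by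
  have := @mdlVext.eq_1
  have := @mdlEext.eq_1
  have := @mdlAtom.eq_1
  have := @MdlIncP.eq_1
  have := @mdlInd.eq_1
  trivial

end Claimed.Agent.R292
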