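import Claimed.Agent.R292.Model.Basic
import Claimed.Agent.R292.Bridge.Rect89

/-!
# Row 292 (S0540), Model/BoxPin101 : two leaves asked by 141 (S3), used by S1-S4      (pen helper101; prefix `bp101_`)

* (A) `bp101_jordan_rect`, `bp101_jordan_box`   lattice rectangles / the boxes `rswBox z n`, `1 ≤ n`, are `RswJordan` (from the gauge curves of `Bridge/Rect89`).
* (B) `bp101_pin_pos`   feasible prescriptions have positive mass: `0 < mdlSumK t F b K 1`.
-/

set_option autoImplicit false

namespace Claimed.Agent.R292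

open Claims Claims.C0468

/-! ## (A) boxes are Jordan -/

theorem bp101_jordan_rect (x0 x1 y0 y1 : ℤ) (hx : x0 < x1) (hy : y0 < y1) :
    RswJordan (Finset.Ico x0 x1 ×ˢ Finset.Ico y0 y1) := by
  unfold RswJordan
  rw [atb89_rect_region one_pos x0 x1 y0 y1 hx hy]
  have c1 : (x0 : ℝ) < x1 := by exact_mod_cast hx
  have c2 : (y0 : ℝ) < y1 := by exact_mod_cast hy
  exact atb89_jordan (atb89_rectG (by linarith) (by linarith)) _

theorem bp101_jordan_box (z : ℤ × ℤ) {n : ℕ} (hn : 1 ≤ n) : RswJordan (rswBox z n) := by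
  have h : (1 : ℤ) ≤ n := by exact_mod_cast hn
  unfold rswBox
  exact bp101_jordan_rect _ _ _ _ (by linarith) (by linarith)

/-! ## (B) positivity of feasible prescriptions -/

/-- a vertex which is not on the polygon of `F` is a corner of `F` -/
theorem bp101_corner_of_inner {F : Finset (ℤ × ℤ)} {v : ℤ × ℤ} (h : ¬ OnPolygon F v) : v ∈ cornersOf F := by
  unfold OnPolygon at h
  rw [not_not] at h
  exact rsk_mem_corners.2 (Or.inl h.1)

/-- **positivity of pins** (statement of 141; `K.Ok` is not needed) -/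
theorem bp101_pin_pos {t : ℝ} (ht0 : 0 < t) (ht2 : t < 1) (F : Finset (ℤ × ℤ)) (b : Bool) {K : MdlPin}
    (hS : Disjoint K.Sp K.Sm) (hO : Disjoint K.Oo K.Oc)
    (hoo : ∀ e ∈ K.Oo, (e.1 ∈ K.Sp ∧ rswEnd e ∈ K.Sp) ∨ (e.1 ∈ K.Sm ∧ rswEnd e ∈ K.Sm))
    (hint : K.Oo ⊆ rswInt F) (hpol : ∀ v ∈ K.Sp ∪ K.Sm, ¬ OnPolygon F v) :
    0 < mdlSumK t F b K (fun _ => 1) := by
  classical
  let S' : Finset (ℤ × ℤ) := if b = true then cornersOf F \ K.Sm else K.Sp
  have hp : ∀ v ∈ K.Sp, v ∈ S' := by
    intro v hv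
    by_cases hb : b = true
    · simp only [S', hb, if_true, Finset.mem_sdiff]
      exact ⟨bp101_corner_of_inner (hpol v (Finset.mem_union_left _ hv)), Finset.disjoint_left.1 hS hv⟩
    · simp only [S', hb, if_false, Bool.false_eq_true]
      exact hv
  have hm : ∀ v ∈ K.Sm, v ∉ S' := by
    intro v hv
    by_cases hb : b = true
    · simp only [S', hb, if_true, Finset.mem_sdiff, not_and, not_not]
      exact fun _ => hv
    · simp only [S', hb, if_false, Bool.false_eq_true]
      exact Finset.disjoint_right.1 hS hv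
  have hS' : S' ⊆ cornersOf F := by
    intro v hv
    by_cases hb : b = true
    · simp only [S', hb, if_true, Finset.mem_sdiff] at hv
      exact hv.1
    · simp only [S', hb, if_false, Bool.false_eq_true] at hv
      exact bp101_corner_of_inner (hpol v (Finset.mem_union_left _ hv))
  have hbc' : RswBc F b ⟨S', F, K.Oo⟩ := by
    intro v hv hpv
    show v ∈ S' ↔ b = true
    by_cases hb : b = true
    · simp only [S', hb, if_true, Finset.mem_sdiff, iff_true]
      exact ⟨hv, fun h => hpol v (Finset.mem_union_right _ h) hpv⟩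
    · simp only [S', hb, if_false, Bool.false_eq_true, iff_false]
      exact fun h => hpol v (Finset.mem_union_left _ h) hpv
  have hfac' : ∀ e ∈ rswInt F, 0 < rswFac t ⟨S', F, K.Oo⟩ e := by
    intro e he
    unfold rswFac
    simp only
    by_cases heO : e ∈ K.Oo
    · have hiff : (e.1 ∈ S' ↔ rswEnd e ∈ S') := by
        rcases hoo e heO with ⟨h1, h2⟩ | ⟨h1, h2⟩
        · exact ⟨fun _ => hp _ h2, fun _ => hp _ h1⟩
        · exact ⟨fun h => absurd h (hm _ h1), fun h => absurd h (hm _ h2)⟩
      rw [if_pos heO, if_pos hiff]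
      exact ht0
    · have hD' : (e.1 ∈ F ↔ rswCo e ∈ F) := by
        have := rsk_mem_int.1 he
        exact ⟨fun _ => this.2, fun _ => this.1⟩
      rw [if_neg heO, if_pos hD']
      split_ifs
      · linarith
      · exact ht0
  have hHolds : K.Holds ⟨S', F, K.Oo⟩ :=
    ⟨fun v hv => hp v hv, fun v hv => hm v hv, fun e he => he, fun e he heO => Finset.disjoint_left.1 hO heO he⟩
  unfold mdlSumK
  rw [mdl_sum_idx]
  refine Finset.sum_pos' (fun x _ => ?_) ⟨(S', F, K.Oo), ?_, ?_⟩
  · refine mul_nonneg (rsk_wt_nonneg ht0.le ht2.le F b _) ?_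
    split_ifs <;> norm_num
  · simp only [Finset.mem_product, Finset.mem_powerset]
    exact ⟨hS', le_rfl, hint⟩
  · simp only
    rw [if_pos hHolds, mul_one]
    unfold rswWt
    rw [if_pos hbc']
    exact Finset.prod_pos hfac'

/-- **positivity of pins, pinned polygon vertices allowed** (order MODEL-5 of 191): a pin on the polygon of `F` must agree with the boundary colour -/
theorem bp101_pin_pos' {t : ℝ} (ht0 : 0 < t) (ht2 : t < 1) (F : Finset (ℤ × ℤ)) (b : Bool) {K : MdlPin}
    (hS : Disjoint K.Sp K.Sm) (hO : Disjoint K.Oo K.Oc)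
    (hoo : ∀ e ∈ K.Oo, (e.1 ∈ K.Sp ∧ rswEnd e ∈ K.Sp) ∨ (e.1 ∈ K.Sm ∧ rswEnd e ∈ K.Sm))
    (hint : K.Oo ⊆ rswInt F) (hSp : K.Sp ⊆ cornersOf F) (hpp : ∀ v ∈ K.Sp, OnPolygon F v → b = true)
    (hpm : ∀ v ∈ K.Sm, OnPolygon F v → b = false) :
    0 < mdlSumK t F b K (fun _ => 1) := by
  classical
  let S' : Finset (ℤ × ℤ) := if b = true then cornersOf F \ K.Sm else K.Sp
  have hp : ∀ v ∈ K.Sp, v ∈ S' := by
    intro v hv
    by_cases hb : b = true
    · simp only [S', hb, if_true, Finset.mem_sdiff]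
      exact ⟨hSp hv, Finset.disjoint_left.1 hS hv⟩
    · simp only [S', hb, if_false, Bool.false_eq_true]
      exact hv
  have hm : ∀ v ∈ K.Sm, v ∉ S' := by
    intro v hv
    by_cases hb : b = true
    · simp only [S', hb, if_true, Finset.mem_sdiff, not_and, not_not]
      exact fun _ => hv
    · simp only [S', hb, if_false, Bool.false_eq_true]
      exact Finset.disjoint_right.1 hS hv
  have hS' : S' ⊆ cornersOf F := by
    intro v hv
    by_cases hb : b = true
    · simp only [S', hb, if_true, Finset.mem_sdiff] at hv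
      exact hv.1
    · simp only [S', hb, if_false, Bool.false_eq_true] at hv
      exact hSp hv
  have hbc' : RswBc F b ⟨S', F, K.Oo⟩ := by
    intro v hv hpv
    show v ∈ S' ↔ b = true
    by_cases hb : b = true
    · simp only [S', hb, if_true, Finset.mem_sdiff, iff_true]
      exact ⟨hv, fun h => by have := hpm v h hpv; rw [hb] at this; exact Bool.noConfusion this⟩
    · simp only [S', hb, if_false, Bool.false_eq_true, iff_false]
      exact fun h => hb (hpp v h hpv)
  have hfac' : ∀ e ∈ rswInt F, 0 < rswFac t ⟨S', F, K.Oo⟩ e := by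
    intro e he
    unfold rswFac
    simp only
    by_cases heO : e ∈ K.Oo
    · have hiff : (e.1 ∈ S' ↔ rswEnd e ∈ S') := by
        rcases hoo e heO with ⟨h1, h2⟩ | ⟨h1, h2⟩
        · exact ⟨fun _ => hp _ h2, fun _ => hp _ h1⟩
        · exact ⟨fun h => absurd h (hm _ h1), fun h => absurd h (hm _ h2)⟩
      rw [if_pos heO, if_pos hiff]
      exact ht0
    · have hD' : (e.1 ∈ F ↔ rswCo e ∈ F) := by
        have := rsk_mem_int.1 he
        exact ⟨fun _ => this.2, fun _ => this.1⟩
      rw [if_neg heO, if_pos hD']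
      split_ifs
      · linarith
      · exact ht0
  have hHolds : K.Holds ⟨S', F, K.Oo⟩ :=
    ⟨fun v hv => hp v hv, fun v hv => hm v hv, fun e he => he, fun e he heO => Finset.disjoint_left.1 hO heO he⟩
  unfold mdlSumK
  rw [mdl_sum_idx]
  refine Finset.sum_pos' (fun x _ => ?_) ⟨(S', F, K.Oo), ?_, ?_⟩
  · refine mul_nonneg (rsk_wt_nonneg ht0.le ht2.le F b _) ?_
    split_ifs <;> norm_num
  · simp only [Finset.mem_product, Finset.mem_powerset]
    exact ⟨hS', le_rfl, hint⟩
  · simp only
    rw [if_pos hHolds, mul_one]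
    unfold rswWt
    rw [if_pos hbc']
    exact Finset.prod_pos hfac'

end Claimed.Agent.R292
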