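import Claimed.Agent.R292.Model.Arm101
import Claimed.Agent.R292.Rsw.Cut91

/-!
# Row 292 (S0540), Model/CircGeo101 : the DETERMINISTIC half of prop:circuits (1)      (pen helper101 for helper1 (S1); prefix `cg101_`, `mdl1g_`)

* `mdl1g_sep_of_inner`   LEAF G of helper1: a separation of `A` from the layer of `B` INSIDE `B` is a separation of `A` from `F \ B` inside `F`.
* `cg101_exit`           a path which leaves a set of faces has a first step out of it.
* `cg101_cover`          abstract cover: small separations around every face of a "ring" which every path must visit give the big separation.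
* `mdl1g_sep_inside`     the indicator of a separation inside `Λ` reads only inside `Λ` (`RskInside` of `Rsw/Cut91`).
* `mdl1g_sep_inc`        the indicator of a separation of colour `a` is increasing in the order (3.4) of colour `a` (`MdlInc` of `Defs/MODEL`).
-/

set_option autoImplicit false

namespace Claimed.Agent.R292

open Claims Claims.C0468 Finset

/-! ## 1. LEAF G -/

theorem cg101_layer_of_step {B : Finset (ℤ × ℤ)} {x y : ℤ × ℤ} (hx : x ∈ B) (hy : y ∉ B) {e : (ℤ × ℤ) × Bool}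
    (he : (x = e.1 ∧ y = rswCo e) ∨ (y = e.1 ∧ x = rswCo e)) : x ∈ rswLayer B := by
  have hint : e ∉ rswInt B := by
    intro h
    unfold rswInt at h
    simp only [mem_filter, mem_product, mem_univ, and_true] at h
    rcases he with ⟨_, h2⟩ | ⟨h2, _⟩
    · exact hy (h2 ▸ h.2)
    · exact hy (h2 ▸ h.1)
  have hpol := (arm101_onPolygon_of_not_int hint).1
  unfold rswLayer
  refine (@mem_filter _ _ (Classical.decPred _) _ _).2 ⟨hx, e.1, ?_, hpol⟩
  rcases he with ⟨h1, _⟩ | ⟨_, h2⟩
  · rw [h1]; simp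
  · obtain ⟨⟨u, v⟩, s⟩ := e
    cases s
    · simp only [rswCo, Bool.false_eq_true, if_false] at h2
      rw [h2]; simp
    · simp only [rswCo, if_true] at h2
      rw [h2]; simp

theorem cg101_reach_inner {F B : Finset (ℤ × ℤ)} (a : Bool) (ω : RswCfg) {f x : ℤ × ℤ} (hf : f ∈ B)
    (h : Relation.ReflTransGen (RswStep F a ω) f x) :
    (x ∈ B ∧ Relation.ReflTransGen (RswStep B a ω) f x) ∨
      ∃ y ∈ rswLayer B, Relation.ReflTransGen (RswStep B a ω) f y := by
  induction h with
  | refl => exact Or.inl ⟨hf, Relation.ReflTransGen.refl⟩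
  | @tail y x _ hyx ih =>
    rcases ih with ⟨hy, hp⟩ | h
    · obtain ⟨_, _, e, he, hg⟩ := hyx
      by_cases hx : x ∈ B
      · exact Or.inl ⟨hx, hp.tail ⟨hy, hx, e, he, hg⟩⟩
      · exact Or.inr ⟨y, cg101_layer_of_step hy hx he, hp⟩
    · exact Or.inr h

/-- **LEAF G** (statement of helper1, verbatim) -/
theorem mdl1g_sep_of_inner {F B A : Finset (ℤ × ℤ)} (_hB : B ⊆ F) (hA : A ⊆ B) (a : Bool) (ω : RswCfg)
    (h : RswSep B a ω A (rswLayer B)) : RswSep F a ω A (F \ B) := by
  intro f hf g hg hp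
  rcases cg101_reach_inner a ω (hA hf) hp with ⟨hgB, _⟩ | ⟨y, hy, hp'⟩
  · exact (mem_sdiff.1 hg).2 hgB
  · exact h f hf y hy hp'

/-! ## 2. the abstract cover -/

/-- first exit -/
theorem cg101_exit {F : Finset (ℤ × ℤ)} {a : Bool} {ω : RswCfg} {P : ℤ × ℤ → Prop} {f g : ℤ × ℤ} (hf : P f) (hg : ¬ P g)
    (h : Relation.ReflTransGen (RswStep F a ω) f g) :
    ∃ x y, P x ∧ ¬ P y ∧ RswStep F a ω x y ∧ Relation.ReflTransGen (RswStep F a ω) y g := by
  induction h using Relation.ReflTransGen.head_induction_on with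
  | refl => exact absurd hf hg
  | @head f y hfy hyg ih =>
    by_cases hy : P y
    · exact ih hy
    · exact ⟨f, y, hf, hy, hfy, hyg⟩

/-- abstract cover: `P` contains `A` and misses `T`; every face which is one step out of `P` lies in some `U i` with `T ⊆ F \ V i` -/
theorem cg101_cover {ι : Type*} {F : Finset (ℤ × ℤ)} {a : Bool} {ω : RswCfg} {A T : Finset (ℤ × ℤ)} (P : ℤ × ℤ → Prop)
    (U V : ι → Finset (ℤ × ℤ)) (hA : ∀ f ∈ A, P f) (hT : ∀ g ∈ T, ¬ P g)
    (hcov : ∀ x y, P x → ¬ P y → RswStep F a ω x y → ∃ i, y ∈ U i ∧ T ⊆ F \ V i ∧ RswSep F a ω (U i) (F \ V i)) :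
    RswSep F a ω A T := by
  intro f hf g hg hp
  obtain ⟨x, y, hx, hy, hxy, hyg⟩ := cg101_exit (P := P) (hA f hf) (hT g hg) hp
  obtain ⟨i, hyU, hTV, hsep⟩ := hcov x y hx hy hxy
  exact hsep y hyU g (hTV hg) hyg

/-! ## 3. the indicator of a separation: inside, increasing -/

theorem cg101_good_in {Λ : Finset (ℤ × ℤ)} (a : Bool) (ω : RswCfg) {e : (ℤ × ℤ) × Bool} (he : e ∈ rswInt Λ) :
    RswGood a (rskIn Λ ω) e ↔ RswGood a ω e := by
  unfold RswGood rskIn
  simp only [mem_inter, he, rsk_int_fst he, rsk_int_end he, and_true]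

theorem cg101_step_in (Λ : Finset (ℤ × ℤ)) (a : Bool) (ω : RswCfg) (f g : ℤ × ℤ) :
    RswStep Λ a (rskIn Λ ω) f g ↔ RswStep Λ a ω f g := by
  unfold RswStep
  refine and_congr_right fun hf => and_congr_right fun hg => exists_congr fun e => and_congr_right fun he => ?_
  have hint : e ∈ rswInt Λ := by
    rw [rsk_mem_int]
    rcases he with ⟨h1, h2⟩ | ⟨h1, h2⟩
    · exact ⟨h1 ▸ hf, h2 ▸ hg⟩
    · exact ⟨h1 ▸ hg, h2 ▸ hf⟩
  rw [cg101_good_in a ω hint]

theorem cg101_sep_in (Λ : Finset (ℤ × ℤ)) (a : Bool) (ω : RswCfg) (A T : Finset (ℤ × ℤ)) :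
    RswSep Λ a (rskIn Λ ω) A T ↔ RswSep Λ a ω A T := by
  have : RswStep Λ a (rskIn Λ ω) = RswStep Λ a ω := by
    funext f g; exact propext (cg101_step_in Λ a ω f g)
  unfold RswSep
  rw [this]

open Classical in
/-- statement of helper1 (msg 115534), verbatim -/
theorem mdl1g_sep_inside (Λ A : Finset (ℤ × ℤ)) (a : Bool) :
    RskInside Λ (fun ω => if RswSep Λ a ω A (rswLayer Λ) then (1 : ℝ) else 0) := by
  intro ω
  simp only [cg101_sep_in]

open Classical in
/-- the same for any target -/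
theorem cg101_sep_inside (Λ A T : Finset (ℤ × ℤ)) (a : Bool) :
    RskInside Λ (fun ω => if RswSep Λ a ω A T then (1 : ℝ) else 0) := by
  intro ω
  simp only [cg101_sep_in]

theorem cg101_sep_le {a : Bool} {ω ω' : RswCfg} (h : MdlLe a ω ω') {F A T : Finset (ℤ × ℤ)} (hs : RswSep F a ω A T) :
    RswSep F a ω' A T := by
  intro f hf g hg hp
  refine hs f hf g hg (Relation.ReflTransGen.mono ?_ _ _ hp)
  rintro x y ⟨hx, hy, e, he, hgood⟩
  exact ⟨hx, hy, e, he, fun h' => hgood (h.2.1 e h')⟩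

open Classical in
/-- the indicator of a separation of colour `a` is increasing in the order (3.4) of colour `a` -/
theorem mdl1g_sep_inc (F A T : Finset (ℤ × ℤ)) (a : Bool) :
    MdlInc a (fun ω => if RswSep F a ω A T then (1 : ℝ) else 0) := by
  intro ω ω' h
  by_cases hs : RswSep F a ω A T
  · simp only [hs, cg101_sep_le h hs, if_true, le_refl]
  · simp only [hs, if_false]
    split_ifs
    · exact zero_le_one
    · exact le_rfl

/-- a separation of the OPPOSITE colour is decreasing -/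
theorem cg101_sep_le_opp {a : Bool} {ω ω' : RswCfg} (h : MdlLe a ω ω') {F A T : Finset (ℤ × ℤ)}
    (hs : RswSep F (!a) ω' A T) : RswSep F (!a) ω A T := by
  intro f hf g hg hp
  refine hs f hf g hg (Relation.ReflTransGen.mono ?_ _ _ hp)
  rintro x y ⟨hx, hy, e, he, hgood⟩
  exact ⟨hx, hy, e, he, fun h' => hgood (h.2.2 e h')⟩

end Claimed.Agent.R292
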