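import Claimed.Agent.R292.Exit.RSWFront
import Claimed.Agent.R292.Rsw.Sym211
import Claimed.Agent.R292.Rsw.Base31

/-!
# Row 292 (S0540), Model/CircShift101 : LEAF T' of S1 (prop:circuits (1))      (pen helper101 for helper1; prefix `cs101_`, `mdl1t_`)

`exit_rsw_circuit` (one centre, one colour) transported to ALL centres (translations `rsyT` of `Rsw/Sym211`) and BOTH colours (global flip of the primal spins, `Rsw/Base31`).
* `cs101_shift`      the law of the circuit event of the box `Λ_N(x)` does not depend on `x`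
* `cs101_of_record`  the transport, from the CONCLUSION of `exit_rsw_circuit` as a hypothesis (no sorry in its closure)
* `mdl1t_circuit`    statement of helper1 (msg 115534), verbatim
-/

set_option autoImplicit false

namespace Claimed.Agent.R292

open Claims Claims.C0468

theorem cs101_shift (t : ℝ) (x : ℤ × ℤ) (b a : Bool) (N n : ℕ) :
    rswP t (rswBox x N) b (fun ω => RswSep (rswBox x N) a ω (rswBox x n) (rswLayer (rswBox x N))) =
      rswP t (rswBox 0 N) b (fun ω => RswSep (rswBox 0 N) a ω (rswBox 0 n) (rswLayer (rswBox 0 N))) := by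
  have h1 : rswBox x N = (rsyT x).mF (rswBox 0 N) := by rw [rsy_box_T, zero_add]
  have h2 : rswBox x n = (rsyT x).mF (rswBox 0 n) := by rw [rsy_box_T, zero_add]
  rw [h1, h2, rsy_layer, rsy_P]
  simp only [rsy_sep]

/-- all centres, both colours, from the estimate at the origin for the colour `false` under the boundary colour `true` -/
theorem cs101_of_record {t p : ℝ} {N n : ℕ}
    (h : p ≤ rswP t (rswBox 0 N) true (fun ω => RswSep (rswBox 0 N) false ω (rswBox 0 n) (rswLayer (rswBox 0 N))))
    (x : ℤ × ℤ) (a : Bool) :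
    p ≤ rswP t (rswBox x N) (!a) (fun ω => RswSep (rswBox x N) a ω (rswBox x n) (rswLayer (rswBox x N))) := by
  rw [cs101_shift]
  cases a
  · exact h
  · have := rsb_P_sep_flip t (rswBox 0 N) false true (rswBox 0 n) (rswLayer (rswBox 0 N))
    simp only [Bool.not_true, Bool.not_false] at this ⊢
    rw [this]
    exact h

/-- **LEAF T'** (statement of helper1, verbatim) -/
theorem mdl1t_circuit (t : ℝ) (ht1 : 1 / 2 ≤ t) (ht2 : t < 1) :
    ∃ (κ n0 : ℕ) (p : ℝ), 2 ≤ κ ∧ 0 < p ∧ ∀ n : ℕ, n0 ≤ n → ∀ (x : ℤ × ℤ) (a : Bool),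
      p ≤ rswP t (rswBox x (κ * n)) (!a)
        (fun ω => RswSep (rswBox x (κ * n)) a ω (rswBox x n) (rswLayer (rswBox x (κ * n)))) := by
  obtain ⟨κ, n0, p, hκ, hp, h⟩ := exit_rsw_circuit t ht1 ht2
  exact ⟨κ, n0, p, hκ, hp, fun n hn x a => cs101_of_record (h n hn) x a⟩

end Claimed.Agent.R292
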