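import Claimed.Agent.R292.Exit.RSWFront
import Claimed.Agent.R292.Model.Basic
import Claimed.Agent.R292.Model.CircGeo101
import Claimed.Agent.R292.Model.CircShift101
import Claimed.Agent.R292.Rsw.CmpPin291
import Claimed.Agent.R292.Height

/-!
# Row 292 (S0540), unit MODEL, S1 CIRC-COND      (owner helper1; prefix `mdl1_`, `mdl1a_`, defs `Mdl1*` / `mdl1*`)

AT paper, 03-spatial, prop:circuits (1): in a buffer containing no pins, a circuit of either prescribed `W` colour in a fixed-aspect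
annulus has probability at least `p`, conditional on ARBITRARY admissible `(s, W)` data outside the buffer.

* **`mdl1_exit_circ`** : the statement (S1) `exit_mdl_circ` of `Exit/MODEL` WORD FOR WORD (ratio `k`, annular buffer `Λ_{(k+3)n} \ Λ_{kn}`), PROVED from the records
  - `hcmp`  = (S0) `exit_mdl_cmp` (comparison with pins; hypothesis, pen 291),
  - `mdl_base` (191: S0 + exact cut `rsk_cut` of 91), `mdl1t_circuit` (101: `exit_rsw_circuit` at all centres, both colours), `mdl1g_sep_of_inner` (101).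
  No sorry of its own.   `mdl1_exit_circ_of` : the same with the conclusion of `mdl1t_circuit` as a hypothesis `hcirc`: NO sorry in its closure.
* `mdl1_circ_cond_of`  : the first form (buffer `Λ_{4n}`, annulus `Λ_{2n} \ Λ_n`) from `hcmp`  (`k = 0`).
* `mdl1_circ_cond`     : the same without hypothesis ((S0) = `cmp291_exit_cmp` of 291, PROVED): the ONLY sorry in its closure is `exit_rsw_circuit`.
* `mdl1_exit_circ_rsw` : (S1) from the single hypothesis `hcirc`: NO sorry in the closure.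
* §9 `mdl1_circ_class` (S1 on ONE domain which satisfies (S0)), `mdl1_cmp_conn` ((S0) for `Mdl41Conn F`), `mdl1_conn_of_ext` (`At92hExt F → Mdl41Conn F`),
  **`mdl1_circ_box`** (ratio 2, any `b`, `a`, read inside the box), **`mdl1_mpl_circ`** = the body of `Mpl151Circ t` word for word; all from `hcirc`, no sorry in the closure.

PROOF. §1 a dual path from `Λ_{(k+1)n}` to `F \ Λ_{(k+2)n}` visits the shell `Λ_{m+1} \ Λ_m`, `m = (k+1)n + 4κr`; the cells of side `2r` (`r = n / 8κ`) of the grid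
which meet the shell are at most `(16κ(k+2))²` (§5) and their `κ`-enlargements stay in the open buffer; small separations ⟹ the big one (`mdl1_cover`).
§2 the indicator of a small separation is increasing in the colour `a` and is read inside its box.  §3 atoms of the exterior data as `MdlPin` (`mdl1a_atoms`, `mdl1a_ext`).
§4 FKG over the family.  §6 one atom.  §7 assembly.
-/

set_option autoImplicit false

namespace Claimed.Agent.R292

open Claims Claims.C0468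

/-! ## §1 deterministic: shells, covers -/

theorem mdl1_mem_box {z f : ℤ × ℤ} {n : ℕ} :
    f ∈ rswBox z n ↔ (z.1 - n ≤ f.1 ∧ f.1 < z.1 + n) ∧ (z.2 - n ≤ f.2 ∧ f.2 < z.2 + n) := by
  unfold rswBox
  rw [Finset.mem_product, Finset.mem_Ico, Finset.mem_Ico]

/-- a step of a dual path moves by one unit in one coordinate -/
theorem mdl1_step_adj {F : Finset (ℤ × ℤ)} {a : Bool} {ω : RswCfg} {f g : ℤ × ℤ} (h : RswStep F a ω f g) :
    (g.1 = f.1 ∧ (g.2 = f.2 + 1 ∨ g.2 = f.2 - 1)) ∨ (g.2 = f.2 ∧ (g.1 = f.1 + 1 ∨ g.1 = f.1 - 1)) := by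
  obtain ⟨_, _, ⟨⟨x, y⟩, c⟩, h1, _⟩ := h
  cases c <;> rcases h1 with ⟨rfl, rfl⟩ | ⟨rfl, rfl⟩ <;> simp [rswCo]

/-- a dual path which leaves the box `Λ_m(z)` visits the shell `Λ_{m+1}(z) \ Λ_m(z)` -/
theorem mdl1_cross {F : Finset (ℤ × ℤ)} {a : Bool} {ω : RswCfg} (z : ℤ × ℤ) (m : ℕ) {f g : ℤ × ℤ}
    (h : Relation.ReflTransGen (RswStep F a ω) f g) (hf : f ∈ rswBox z m) (hg : g ∉ rswBox z m) :
    ∃ u, u ∈ rswBox z (m + 1) ∧ u ∉ rswBox z m ∧ Relation.ReflTransGen (RswStep F a ω) u g := by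
  induction h using Relation.ReflTransGen.head_induction_on with
  | refl => exact absurd hf hg
  | head h1 h2 ih =>
    rename_i f f'
    by_cases hf' : f' ∈ rswBox z m
    · exact ih hf'
    · refine ⟨f', ?_, hf', h2⟩
      have := mdl1_step_adj h1
      rw [mdl1_mem_box] at hf ⊢
      push_cast
      omega

/-- **deterministic cover**: small separations around a family of boxes covering a shell imply the big separation -/
theorem mdl1_cover {F : Finset (ℤ × ℤ)} (a : Bool) (ω : RswCfg) (z : ℤ × ℤ) (m : ℕ) {A E : Finset (ℤ × ℤ)}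
    (hA : A ⊆ rswBox z m) (hE : ∀ g ∈ E, g ∈ F ∧ g ∉ rswBox z m) (Cs : Finset (ℤ × ℤ)) (r R : ℕ)
    (hcov : ∀ u ∈ rswBox z (m + 1), u ∉ rswBox z m → ∃ x ∈ Cs, u ∈ rswBox x r)
    (hin : ∀ x ∈ Cs, ∀ g ∈ E, g ∉ rswBox x R)
    (hsep : ∀ x ∈ Cs, RswSep F a ω (rswBox x r) (F \ rswBox x R)) : RswSep F a ω A E := by
  intro f hf g hg hp
  obtain ⟨u, hu1, hu2, hu3⟩ := mdl1_cross z m hp (hA hf) (hE g hg).2
  obtain ⟨x, hx, hux⟩ := hcov u hu1 hu2
  exact hsep x hx u hux g (Finset.mem_sdiff.2 ⟨(hE g hg).1, hin x hx g hg⟩) hu3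

/-! ## §2 the observable of one small box -/

open Classical in
/-- indicator of the separation of `A` from the boundary layer inside `Λ` -/
noncomputable def mdl1X (Λ : Finset (ℤ × ℤ)) (a : Bool) (A : Finset (ℤ × ℤ)) (ω : RswCfg) : ℝ :=
  if RswSep Λ a ω A (rswLayer Λ) then 1 else 0

theorem mdl1_X_nonneg (Λ : Finset (ℤ × ℤ)) (a : Bool) (A : Finset (ℤ × ℤ)) (ω : RswCfg) : 0 ≤ mdl1X Λ a A ω := by
  unfold mdl1X
  split_ifs <;> norm_num

theorem mdl1_sep_mono {Λ : Finset (ℤ × ℤ)} {a : Bool} {ω ω' : RswCfg} (h : ∀ e, RswGood a ω e → RswGood a ω' e)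
    {A E : Finset (ℤ × ℤ)} (hs : RswSep Λ a ω A E) : RswSep Λ a ω' A E := by
  intro f hf g hg hp
  refine hs f hf g hg (Relation.ReflTransGen.mono ?_ f g hp)
  rintro u v ⟨h1, h2, e, h3, h4⟩
  exact ⟨h1, h2, e, h3, fun h5 => h4 (h e h5)⟩

theorem mdl1_X_inc (Λ : Finset (ℤ × ℤ)) (a : Bool) (A : Finset (ℤ × ℤ)) : MdlInc a (mdl1X Λ a A) := by
  intro ω ω' hle
  unfold mdl1X
  by_cases h : RswSep Λ a ω A (rswLayer Λ)
  · rw [if_pos h, if_pos (mdl1_sep_mono hle.2.1 h)]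
  · rw [if_neg h]
    split_ifs <;> norm_num

theorem mdl1_good_in {Λ : Finset (ℤ × ℤ)} {a : Bool} {ω : RswCfg} {e : (ℤ × ℤ) × Bool} (he : e ∈ rswInt Λ) :
    RswGood a (rskIn Λ ω) e ↔ RswGood a ω e := by
  unfold RswGood rskIn
  simp only [Finset.mem_inter, he, rsk_int_fst he, rsk_int_end he, and_true]

theorem mdl1_step_in {Λ : Finset (ℤ × ℤ)} {a : Bool} {ω : RswCfg} {f g : ℤ × ℤ} :
    RswStep Λ a (rskIn Λ ω) f g ↔ RswStep Λ a ω f g := by
  unfold RswStep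
  constructor
  · rintro ⟨h1, h2, e, h3, h4⟩
    have he : e ∈ rswInt Λ := by
      rw [rsk_mem_int]
      rcases h3 with ⟨rfl, rfl⟩ | ⟨rfl, rfl⟩
      · exact ⟨h1, h2⟩
      · exact ⟨h2, h1⟩
    exact ⟨h1, h2, e, h3, fun h5 => h4 ((mdl1_good_in he).2 h5)⟩
  · rintro ⟨h1, h2, e, h3, h4⟩
    have he : e ∈ rswInt Λ := by
      rw [rsk_mem_int]
      rcases h3 with ⟨rfl, rfl⟩ | ⟨rfl, rfl⟩
      · exact ⟨h1, h2⟩
      · exact ⟨h2, h1⟩
    exact ⟨h1, h2, e, h3, fun h5 => h4 ((mdl1_good_in he).1 h5)⟩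

theorem mdl1_X_inside (Λ : Finset (ℤ × ℤ)) (a : Bool) (A : Finset (ℤ × ℤ)) : RskInside Λ (mdl1X Λ a A) := by
  intro ω
  have : RswStep Λ a (rskIn Λ ω) = RswStep Λ a ω := by
    funext f g
    exact propext mdl1_step_in
  unfold mdl1X RswSep
  rw [this]

/-! ## §3 atoms of the exterior data -/

open Classical in
/-- the vertices read by exterior data of the buffer `B` -/
noncomputable def mdl1aV (F B : Finset (ℤ × ℤ)) : Finset (ℤ × ℤ) := (cornersOf F).filter fun v => OnPolygon B v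

/-- the edges read by exterior data of the buffer `B` -/
def mdl1aE (F B : Finset (ℤ × ℤ)) : Finset ((ℤ × ℤ) × Bool) := rswInt F \ rswInt B

/-- the atom `ξ = (S₀, O₀)` as a prescription -/
noncomputable def mdl1aK (F B : Finset (ℤ × ℤ)) (ξ : Finset (ℤ × ℤ) × Finset ((ℤ × ℤ) × Bool)) : MdlPin :=
  ⟨ξ.1, mdl1aV F B \ ξ.1, ξ.2, mdl1aE F B \ ξ.2⟩

/-- the index set of the atoms -/
noncomputable def mdl1aT (F B : Finset (ℤ × ℤ)) : Finset (Finset (ℤ × ℤ) × Finset ((ℤ × ℤ) × Bool)) :=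
  (mdl1aV F B).powerset ×ˢ (mdl1aE F B).powerset

theorem mdl1a_mem_V {F B : Finset (ℤ × ℤ)} {v : ℤ × ℤ} : v ∈ mdl1aV F B ↔ v ∈ cornersOf F ∧ OnPolygon B v := by
  classical
  unfold mdl1aV
  rw [Finset.mem_filter]

theorem mdl1a_mem_E {F B : Finset (ℤ × ℤ)} {e : (ℤ × ℤ) × Bool} : e ∈ mdl1aE F B ↔ e ∈ rswInt F ∧ e ∉ rswInt B := by
  unfold mdl1aE
  rw [Finset.mem_sdiff]

theorem mdl1a_pins {F B : Finset (ℤ × ℤ)} {ξ : Finset (ℤ × ℤ) × Finset ((ℤ × ℤ) × Bool)} (hξ : ξ ∈ mdl1aT F B) :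
    (mdl1aK F B ξ).Sp ∪ (mdl1aK F B ξ).Sm = mdl1aV F B := by
  have h1 := Finset.mem_powerset.1 (Finset.mem_product.1 hξ).1
  exact Finset.union_sdiff_of_subset h1

theorem mdl1a_ok {F B : Finset (ℤ × ℤ)} {ξ : Finset (ℤ × ℤ) × Finset ((ℤ × ℤ) × Bool)} (hξ : ξ ∈ mdl1aT F B) :
    (mdl1aK F B ξ).Ok := by
  have h2 := Finset.mem_powerset.1 (Finset.mem_product.1 hξ).2
  intro e he
  rw [mdl1a_pins hξ]
  have he' : e ∈ mdl1aE F B := by
    have : (mdl1aK F B ξ).Oo ∪ (mdl1aK F B ξ).Oc = mdl1aE F B := Finset.union_sdiff_of_subset h2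
    rwa [this] at he
  rw [mdl1a_mem_E] at he'
  refine ⟨mdl1a_mem_V.2 ⟨rsk_int_fst he'.1, fun h => ?_⟩, mdl1a_mem_V.2 ⟨rsk_int_end he'.1, fun h => ?_⟩⟩
  · exact he'.2 (rsk_fst_core (rsk_mem_core.2 h))
  · exact he'.2 (rsk_end_core (rsk_mem_core.2 h))

theorem mdl1a_holds {F B : Finset (ℤ × ℤ)} {ξ : Finset (ℤ × ℤ) × Finset ((ℤ × ℤ) × Bool)} (hξ : ξ ∈ mdl1aT F B)
    (ω : RswCfg) : (mdl1aK F B ξ).Holds ω ↔ ξ = (ω.S ∩ mdl1aV F B, ω.O ∩ mdl1aE F B) := by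
  have h1 := Finset.mem_powerset.1 (Finset.mem_product.1 hξ).1
  have h2 := Finset.mem_powerset.1 (Finset.mem_product.1 hξ).2
  obtain ⟨S0, O0⟩ := ξ
  unfold MdlPin.Holds mdl1aK
  simp only [Prod.mk.injEq, Finset.mem_sdiff]
  constructor
  · rintro ⟨a1, a2, a3, a4⟩
    constructor
    · ext v
      rw [Finset.mem_inter]
      exact ⟨fun h => ⟨a1 h, h1 h⟩, fun h => by
        by_contra hc
        exact a2 v ⟨h.2, hc⟩ h.1⟩
    · ext e
      rw [Finset.mem_inter]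
      exact ⟨fun h => ⟨a3 h, h2 h⟩, fun h => by
        by_contra hc
        exact a4 e ⟨h.2, hc⟩ h.1⟩
  · rintro ⟨rfl, rfl⟩
    refine ⟨Finset.inter_subset_left, fun v hv hS => hv.2 (Finset.mem_inter.2 ⟨hS, hv.1⟩),
      Finset.inter_subset_left, fun e he hO => he.2 (Finset.mem_inter.2 ⟨hO, he.1⟩)⟩

/-- **decomposition into atoms** -/
theorem mdl1a_atoms (t : ℝ) (F : Finset (ℤ × ℤ)) (b : Bool) (B : Finset (ℤ × ℤ)) (X : RswCfg → ℝ) :
    rswSum t F b X = ∑ ξ ∈ mdl1aT F B, mdlSumK t F b (mdl1aK F B ξ) X := by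
  classical
  unfold mdlSumK
  simp only [mdl_sum_idx]
  rw [Finset.sum_comm]
  refine Finset.sum_congr rfl fun x _ => ?_
  rw [← Finset.mul_sum]
  congr 1
  set ω : RswCfg := ⟨x.1, x.2.1, x.2.2⟩ with hω
  have : ∀ ξ ∈ mdl1aT F B, (if (mdl1aK F B ξ).Holds ω then X ω else 0)
      = if ξ = (ω.S ∩ mdl1aV F B, ω.O ∩ mdl1aE F B) then X ω else 0 := by
    intro ξ hξ
    simp only [mdl1a_holds hξ ω]
  rw [Finset.sum_congr rfl this, Finset.sum_ite_eq', if_pos]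
  exact Finset.mem_product.2 ⟨Finset.mem_powerset.2 Finset.inter_subset_right,
    Finset.mem_powerset.2 Finset.inter_subset_right⟩

open Classical in
/-- exterior data are constant on an atom -/
theorem mdl1a_ext (t : ℝ) (F : Finset (ℤ × ℤ)) (b : Bool) {B : Finset (ℤ × ℤ)} {L : RswCfg → Prop} (hL : MdlExt B L)
    {ξ : Finset (ℤ × ℤ) × Finset ((ℤ × ℤ) × Bool)} (hξ : ξ ∈ mdl1aT F B) (Y : RswCfg → ℝ) :
    mdlSumK t F b (mdl1aK F B ξ) (fun ω => if L ω then Y ω else 0)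
      = if L ⟨ξ.1, ∅, ξ.2⟩ then mdlSumK t F b (mdl1aK F B ξ) Y else 0 := by
  have key : ∀ x ∈ (cornersOf F).powerset ×ˢ (F.powerset ×ˢ (rswInt F).powerset),
      (mdl1aK F B ξ).Holds ⟨x.1, x.2.1, x.2.2⟩ → (L ⟨x.1, x.2.1, x.2.2⟩ ↔ L ⟨ξ.1, ∅, ξ.2⟩) := by
    intro x hx hH
    rw [mdl1a_holds hξ] at hH
    have hS := Finset.mem_powerset.1 (Finset.mem_product.1 hx).1
    have hO := Finset.mem_powerset.1 (Finset.mem_product.1 (Finset.mem_product.1 hx).2).2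
    apply hL
    · intro v hv
      rw [hH]
      simp only [Finset.mem_inter, mdl1a_mem_V]
      exact ⟨fun h => ⟨h, hS h, hv⟩, fun h => h.1⟩
    · intro e he
      rw [hH]
      simp only [Finset.mem_inter, mdl1a_mem_E]
      exact ⟨fun h => ⟨h, hO h, he⟩, fun h => h.1⟩
  unfold mdlSumK
  simp only [mdl_sum_idx]
  by_cases h : L ⟨ξ.1, ∅, ξ.2⟩
  · rw [if_pos h]
    refine Finset.sum_congr rfl fun x hx => ?_
    by_cases hH : (mdl1aK F B ξ).Holds ⟨x.1, x.2.1, x.2.2⟩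
    · rw [if_pos hH, if_pos hH, if_pos ((key x hx hH).2 h)]
    · rw [if_neg hH, if_neg hH]
  · rw [if_neg h]
    refine Finset.sum_eq_zero fun x hx => ?_
    by_cases hH : (mdl1aK F B ξ).Holds ⟨x.1, x.2.1, x.2.2⟩
    · rw [if_pos hH, if_neg (fun h' => h ((key x hx hH).1 h')), mul_zero]
    · rw [if_neg hH, mul_zero]

/-! ## §4 positivity, monotonicity, FKG over a finite family -/

theorem mdl1_sumK_mono {t : ℝ} (ht0 : 0 ≤ t) (ht1 : t ≤ 1) (F : Finset (ℤ × ℤ)) (b : Bool) (K : MdlPin)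
    {X Y : RswCfg → ℝ} (h : ∀ ω, X ω ≤ Y ω) : mdlSumK t F b K X ≤ mdlSumK t F b K Y := by
  classical
  unfold mdlSumK
  simp only [mdl_sum_idx]
  refine Finset.sum_le_sum fun x _ => mul_le_mul_of_nonneg_left ?_ (rsk_wt_nonneg ht0 ht1 F b _)
  split_ifs
  · exact h _
  · exact le_refl _

theorem mdl1_sumK_nonneg {t : ℝ} (ht0 : 0 ≤ t) (ht1 : t ≤ 1) (F : Finset (ℤ × ℤ)) (b : Bool) (K : MdlPin)
    {X : RswCfg → ℝ} (h : ∀ ω, 0 ≤ X ω) : 0 ≤ mdlSumK t F b K X := by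
  classical
  unfold mdlSumK
  simp only [mdl_sum_idx]
  refine Finset.sum_nonneg fun x _ => mul_nonneg (rsk_wt_nonneg ht0 ht1 F b _) ?_
  split_ifs
  · exact h _
  · exact le_refl _

/-- FKG over a finite family of nonnegative increasing observables -/
theorem mdl1_fkg_iter {t : ℝ} (ht0 : 0 ≤ t) (ht1 : t ≤ 1) {F : Finset (ℤ × ℤ)} {b a : Bool} {K : MdlPin}
    (hfkg : MdlFkgAt t F b a K) {ι : Type*} (s : Finset ι) (X : ι → RswCfg → ℝ) (hX : ∀ i ∈ s, MdlInc a (X i))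
    (h0 : ∀ i ∈ s, ∀ ω, 0 ≤ X i ω) {p : ℝ} (hp : 0 ≤ p)
    (hb : ∀ i ∈ s, p * mdlSumK t F b K (fun _ => 1) ≤ mdlSumK t F b K (X i)) :
    p ^ s.card * mdlSumK t F b K (fun _ => 1) ≤ mdlSumK t F b K (fun ω => ∏ i ∈ s, X i ω) := by
  classical
  have hZ : 0 ≤ mdlSumK t F b K (fun _ => 1) := mdl1_sumK_nonneg ht0 ht1 F b K (fun _ => zero_le_one)
  induction s using Finset.induction_on with
  | empty => simp
  | insert i s hi ih =>
    have ih' := ih (fun j hj => hX j (Finset.mem_insert_of_mem hj)) (fun j hj => h0 j (Finset.mem_insert_of_mem hj))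
      (fun j hj => hb j (Finset.mem_insert_of_mem hj))
    have hY : MdlInc a (fun ω => ∏ j ∈ s, X j ω) := by
      intro ω ω' hle
      exact Finset.prod_le_prod (fun j hj => h0 j (Finset.mem_insert_of_mem hj) ω)
        (fun j hj => hX j (Finset.mem_insert_of_mem hj) ω ω' hle)
    have key := hfkg (X i) _ (hX i (Finset.mem_insert_self i s)) hY
    have hbi := hb i (Finset.mem_insert_self i s)
    have e : (fun ω => ∏ j ∈ insert i s, X j ω) = fun ω => X i ω * ∏ j ∈ s, X j ω := by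
      funext ω
      rw [Finset.prod_insert hi]
    rw [e, Finset.card_insert_of_notMem hi]
    rcases hZ.eq_or_lt with h | h
    · rw [← h, mul_zero]
      exact mdl1_sumK_nonneg ht0 ht1 F b K (fun ω => mul_nonneg (h0 i (Finset.mem_insert_self i s) ω)
        (Finset.prod_nonneg fun j hj => h0 j (Finset.mem_insert_of_mem hj) ω))
    · have h1 : (p * mdlSumK t F b K (fun _ => 1)) * (p ^ s.card * mdlSumK t F b K (fun _ => 1))
          ≤ mdlSumK t F b K (X i) * mdlSumK t F b K (fun ω => ∏ j ∈ s, X j ω) :=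
        mul_le_mul hbi ih' (mul_nonneg (pow_nonneg hp _) hZ) (le_trans (mul_nonneg hp hZ) hbi)
      have h2 := le_trans h1 key
      have h3 : mdlSumK t F b K (fun _ => 1) * (p ^ (s.card + 1) * mdlSumK t F b K (fun _ => 1))
          ≤ mdlSumK t F b K (fun _ => 1) * mdlSumK t F b K (fun ω => X i ω * ∏ j ∈ s, X j ω) := by
        calc _ = (p * mdlSumK t F b K (fun _ => 1)) * (p ^ s.card * mdlSumK t F b K (fun _ => 1)) := by ring
          _ ≤ _ := h2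
      exact le_of_mul_le_mul_left h3 h

/-! ## §5 the grid of small boxes -/

theorem mdl1_box_mono (z : ℤ × ℤ) {m n : ℕ} (h : m ≤ n) : rswBox z m ⊆ rswBox z n := by
  intro f hf
  rw [mdl1_mem_box] at hf ⊢
  omega

/-- the centre of the cell of side `2 r` of the grid based at `z` which contains `u` -/
def mdl1Cen (z : ℤ × ℤ) (r : ℕ) (u : ℤ × ℤ) : ℤ × ℤ :=
  (z.1 + (2 * r) * ((u.1 - z.1) / (2 * r)) + r, z.2 + (2 * r) * ((u.2 - z.2) / (2 * r)) + r)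

theorem mdl1_mem_cen (z : ℤ × ℤ) {r : ℕ} (hr : 0 < r) (u : ℤ × ℤ) : u ∈ rswBox (mdl1Cen z r u) r := by
  have h2 : (0 : ℤ) < 2 * r := by positivity
  rw [mdl1_mem_box]
  unfold mdl1Cen
  have a1 := Int.emod_add_mul_ediv (u.1 - z.1) (2 * r)
  have a2 := Int.emod_nonneg (u.1 - z.1) h2.ne'
  have a3 := Int.emod_lt_of_pos (u.1 - z.1) h2
  have b1 := Int.emod_add_mul_ediv (u.2 - z.2) (2 * r)
  have b2 := Int.emod_nonneg (u.2 - z.2) h2.ne'
  have b3 := Int.emod_lt_of_pos (u.2 - z.2) h2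
  simp only
  generalize (2 * (r : ℤ)) * ((u.1 - z.1) / (2 * r)) = q1 at *
  generalize (2 * (r : ℤ)) * ((u.2 - z.2) / (2 * r)) = q2 at *
  generalize (u.1 - z.1) % (2 * (r : ℤ)) = s1 at *
  generalize (u.2 - z.2) % (2 * (r : ℤ)) = s2 at *
  omega

/-- the number of cells which meet a box of radius `H ≤ 2 r M` is at most `(2 M)²` -/
theorem mdl1_card_cen (z : ℤ × ℤ) {r : ℕ} (hr : 0 < r) {H M : ℕ} (hH : H ≤ 2 * r * M) (T : Finset (ℤ × ℤ))
    (hT : T ⊆ rswBox z H) : (T.image (mdl1Cen z r)).card ≤ (2 * M) ^ 2 := by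
  classical
  have h2 : (0 : ℤ) < 2 * r := by positivity
  have hH' : (H : ℤ) ≤ M * (2 * r) := by
    have : ((H : ℕ) : ℤ) ≤ ((2 * r * M : ℕ) : ℤ) := by exact_mod_cast hH
    push_cast at this
    linarith
  have hsub : T.image (mdl1Cen z r) ⊆
      (Finset.Ico (-(M : ℤ)) M ×ˢ Finset.Ico (-(M : ℤ)) M).image
        (fun q => (z.1 + (2 * r) * q.1 + r, z.2 + (2 * r) * q.2 + r)) := by
    intro x hx
    obtain ⟨u, hu, rfl⟩ := Finset.mem_image.1 hx
    have hu' := mdl1_mem_box.1 (hT hu)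
    refine Finset.mem_image.2 ⟨((u.1 - z.1) / (2 * r), (u.2 - z.2) / (2 * r)), ?_, rfl⟩
    rw [Finset.mem_product, Finset.mem_Ico, Finset.mem_Ico]
    refine ⟨⟨(Int.le_ediv_iff_mul_le h2).2 ?_, (Int.ediv_lt_iff_lt_mul h2).2 ?_⟩,
      ⟨(Int.le_ediv_iff_mul_le h2).2 ?_, (Int.ediv_lt_iff_lt_mul h2).2 ?_⟩⟩ <;> linarith [hu'.1.1, hu'.1.2, hu'.2.1, hu'.2.2]
  refine le_trans (Finset.card_le_card hsub) (le_trans Finset.card_image_le ?_)
  rw [Finset.card_product, Int.card_Ico]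
  have : ((M : ℤ) - -(M : ℤ)).toNat = 2 * M := by omega
  rw [this, sq]

/-- the enlarged small box around a face of the shell stays in the open annular buffer -/
theorem mdl1_geo_core {z u x : ℤ × ℤ} {m r R h0 h3 : ℕ} (hu1 : u ∈ rswBox z (m + 1)) (hu2 : u ∉ rswBox z m)
    (hux : u ∈ rswBox x r) (h1 : h0 + R + r + 1 ≤ m) (h2 : m + R + r + 2 ≤ h3) :
    ∀ v ∈ cornersOf (rswBox x R), ¬ OnPolygon (rswBox z h3 \ rswBox z h0) v := by
  intro v hv
  rw [rsk_mem_corners] at hv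
  unfold OnPolygon
  rw [not_not]
  simp only [Finset.mem_sdiff, mdl1_mem_box] at hu1 hu2 hux hv ⊢
  push_cast at hu1
  omega

theorem mdl1_geo_sub {z u x : ℤ × ℤ} {m r R h2 : ℕ} (hu1 : u ∈ rswBox z (m + 1))
    (hux : u ∈ rswBox x r) (h : m + 1 + R + r ≤ h2) : rswBox x R ⊆ rswBox z h2 := by
  intro f hf
  rw [mdl1_mem_box] at hu1 hux hf ⊢
  push_cast at hu1
  omega

theorem mdl1_poly_mono {B F : Finset (ℤ × ℤ)} (h : B ⊆ F) {v : ℤ × ℤ} (hv : ¬ OnPolygon B v) : ¬ OnPolygon F v := by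
  unfold OnPolygon at hv ⊢
  rw [not_not] at hv ⊢
  exact ⟨h hv.1, h hv.2.1, h hv.2.2.1, h hv.2.2.2⟩

/-! ## §6 one atom -/

open Classical in
/-- on one atom: all the small circuits at once, by the base lemma and FKG -/
theorem mdl1_atom {t : ℝ} (ht0 : 0 < t) (ht2 : t < 1) {F B : Finset (ℤ × ℤ)} (hBF : B ⊆ F) (b a : Bool) {K : MdlPin}
    (hK : K.Ok) (hfkg : MdlFkgAt t F b a K) (hKB : ∀ v ∈ K.Sp ∪ K.Sm, OnPolygon B v)
    (Cs : Finset (ℤ × ℤ)) {r R : ℕ} (hrR : r ≤ R) (hsub : ∀ x ∈ Cs, rswBox x R ⊆ F)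
    (hcore : ∀ x ∈ Cs, ∀ v ∈ cornersOf (rswBox x R), ¬ OnPolygon B v) {p : ℝ} (hp : 0 ≤ p)
    (hcirc : ∀ x ∈ Cs, p ≤ rswP t (rswBox x R) (!a)
      (fun ω => RswSep (rswBox x R) a ω (rswBox x r) (rswLayer (rswBox x R))))
    {Q : RswCfg → Prop} (himp : ∀ ω, (∀ x ∈ Cs, RswSep F a ω (rswBox x r) (F \ rswBox x R)) → Q ω) :
    p ^ Cs.card * mdlSumK t F b K (fun _ => 1) ≤ mdlSumK t F b K (fun ω => if Q ω then 1 else 0) := by
  have hZ : 0 ≤ mdlSumK t F b K (fun _ => 1) := mdl1_sumK_nonneg ht0.le ht2.le F b K (fun _ => zero_le_one)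
  have h1 := mdl1_fkg_iter ht0.le ht2.le hfkg Cs (fun x => mdl1X (rswBox x R) a (rswBox x r))
    (fun x _ => mdl1_X_inc _ a _) (fun x _ ω => mdl1_X_nonneg _ a _ ω) hp (fun x hx => by
      have h2 := mdl_base ht0 ht2 (hsub x hx) b a hK hfkg (fun v hv => mdl1_poly_mono hBF (hcore x hx v hv))
        (fun v hv hv' => hcore x hx v hv (hKB v hv')) (mdl1_X_inc (rswBox x R) a (rswBox x r))
        (mdl1_X_inside (rswBox x R) a (rswBox x r))
      refine le_trans (mul_le_mul_of_nonneg_right ?_ hZ) h2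
      exact hcirc x hx)
  refine le_trans h1 (mdl1_sumK_mono ht0.le ht2.le F b K fun ω => ?_)
  by_cases hall : ∀ x ∈ Cs, RswSep (rswBox x R) a ω (rswBox x r) (rswLayer (rswBox x R))
  · rw [if_pos (himp ω fun x hx => mdl1g_sep_of_inner (hsub x hx) (mdl1_box_mono x hrR) a ω (hall x hx))]
    refine Finset.prod_le_one (fun x _ => mdl1_X_nonneg _ a _ ω) fun x _ => ?_
    unfold mdl1X
    split_ifs <;> norm_num
  · push Not at hall
    obtain ⟨x, hx, hns⟩ := hall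
    have : ∏ x ∈ Cs, mdl1X (rswBox x R) a (rswBox x r) ω = 0 :=
      Finset.prod_eq_zero hx (by unfold mdl1X; rw [if_neg hns])
    rw [this]
    split_ifs <;> norm_num

/-! ## §7 assembly -/

open Classical in
/-- summation over the atoms -/
theorem mdl1_sum_atoms {t : ℝ} (F : Finset (ℤ × ℤ)) (b : Bool) {B : Finset (ℤ × ℤ)} {L : RswCfg → Prop} (hL : MdlExt B L)
    {Q : RswCfg → Prop} {p : ℝ}
    (h : ∀ ξ ∈ mdl1aT F B, p * mdlSumK t F b (mdl1aK F B ξ) (fun _ => 1)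
      ≤ mdlSumK t F b (mdl1aK F B ξ) (fun ω => if Q ω then 1 else 0)) :
    p * rswSum t F b (fun ω => if L ω then 1 else 0) ≤ rswSum t F b (fun ω => if L ω ∧ Q ω then 1 else 0) := by
  have e : (fun ω => if L ω ∧ Q ω then (1 : ℝ) else 0) = fun ω => if L ω then (if Q ω then (1 : ℝ) else 0) else 0 := by
    funext ω
    by_cases h1 : L ω <;> by_cases h2 : Q ω <;> simp [h1, h2]
  rw [e, mdl1a_atoms t F b B, mdl1a_atoms t F b B, Finset.mul_sum]
  refine Finset.sum_le_sum fun ξ hξ => ?_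
  rw [mdl1a_ext t F b hL hξ, mdl1a_ext t F b hL hξ]
  split_ifs
  · exact h ξ hξ
  · rw [mul_zero]

/-- (S1) ON ONE DOMAIN: `RswJordan F` is replaced by what the proof uses, (S0) at the problem `(F, b, a)`; `hcirc` = the conclusion of `mdl1t_circuit`. -/
theorem mdl1_circ_class (t : ℝ) (ht1 : 1 / 2 ≤ t) (ht2 : t < 1)
    (hcirc : ∃ (κ n0 : ℕ) (p : ℝ), 2 ≤ κ ∧ 0 < p ∧ ∀ n : ℕ, n0 ≤ n → ∀ (x : ℤ × ℤ) (a : Bool),
      p ≤ rswP t (rswBox x (κ * n)) (!a)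
        (fun ω => RswSep (rswBox x (κ * n)) a ω (rswBox x n) (rswLayer (rswBox x (κ * n))))) (k : ℕ) :
    ∃ p : ℝ, 0 < p ∧ ∃ n0 : ℕ, ∀ n : ℕ, n0 ≤ n → ∀ (F : Finset (ℤ × ℤ)) (z : ℤ × ℤ) (b a : Bool) (L : RswCfg → Prop),
      (∀ K : MdlPin, K.Ok → MdlFkgAt t F b a K) → rswBox z ((k + 3) * n) ⊆ F →
      MdlExt (rswBox z ((k + 3) * n) \ rswBox z (k * n)) L →
      p * rswP t F b L ≤
        rswP t F b fun ω => L ω ∧ RswSep F a ω (rswBox z ((k + 1) * n)) (F \ rswBox z ((k + 2) * n)) := by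
  classical
  have ht0 : 0 < t := by linarith
  obtain ⟨κ, n0', p0, hκ, hp0, hc⟩ := hcirc
  have hp1 : 0 < min p0 1 := lt_min hp0 one_pos
  refine ⟨(min p0 1) ^ ((2 * (8 * κ * (k + 2))) ^ 2), pow_pos hp1 _, 8 * κ * (n0' + 1), ?_⟩
  intro n hn F z b a L hJ hsub hL
  set r : ℕ := n / (8 * κ) with hr
  set R : ℕ := κ * r with hR
  set m : ℕ := (k + 1) * n + 4 * R with hm
  have h8κ : 0 < 8 * κ := by omega
  have hr1 : n0' + 1 ≤ r := (Nat.le_div_iff_mul_le h8κ).2 (by rw [mul_comm]; exact hn)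
  have h8R : 8 * R ≤ n := by
    have := Nat.mul_div_le n (8 * κ)
    calc 8 * R = 8 * κ * (n / (8 * κ)) := by rw [hR, hr]; ring
      _ ≤ n := this
  have hrR : r ≤ R := Nat.le_mul_of_pos_left r (by omega)
  have hnlt : n < 8 * κ * (r + 1) := Nat.lt_mul_div_succ n h8κ
  have e1 : (k + 1) * n = k * n + n := by ring
  have e2 : (k + 2) * n = k * n + 2 * n := by ring
  have e3 : (k + 3) * n = k * n + 3 * n := by ring
  set B : Finset (ℤ × ℤ) := rswBox z ((k + 3) * n) \ rswBox z (k * n) with hB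
  have hBF : B ⊆ F := fun f hf => hsub (Finset.mem_sdiff.1 hf).1
  set Sh : Finset (ℤ × ℤ) := rswBox z (m + 1) \ rswBox z m with hSh
  set Cs : Finset (ℤ × ℤ) := Sh.image (mdl1Cen z r) with hCs
  have hcard : Cs.card ≤ (2 * (8 * κ * (k + 2))) ^ 2 := by
    refine mdl1_card_cen z (by omega) (H := m + 1) ?_ Sh Finset.sdiff_subset
    have h1 : m + 1 ≤ (k + 2) * n := by omega
    have h2 : n ≤ 16 * κ * r := by
      have : 8 * κ * (r + 1) ≤ 16 * κ * r := by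
        have : 8 * κ * 1 ≤ 8 * κ * r := Nat.mul_le_mul_left _ (by omega)
        calc 8 * κ * (r + 1) = 8 * κ * r + 8 * κ * 1 := by ring
          _ ≤ 8 * κ * r + 8 * κ * r := by omega
          _ = 16 * κ * r := by ring
      omega
    calc m + 1 ≤ (k + 2) * n := h1
      _ ≤ (k + 2) * (16 * κ * r) := Nat.mul_le_mul_left _ h2
      _ = 2 * r * (8 * κ * (k + 2)) := by ring
  have hCsu : ∀ x ∈ Cs, ∃ u, u ∈ rswBox z (m + 1) ∧ u ∉ rswBox z m ∧ u ∈ rswBox x r := by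
    intro x hx
    obtain ⟨u, hu, rfl⟩ := Finset.mem_image.1 hx
    exact ⟨u, (Finset.mem_sdiff.1 hu).1, (Finset.mem_sdiff.1 hu).2, mdl1_mem_cen z (by omega) u⟩
  have hsub2 : ∀ x ∈ Cs, rswBox x R ⊆ rswBox z ((k + 2) * n) := by
    intro x hx
    obtain ⟨u, hu1, _, hux⟩ := hCsu x hx
    exact mdl1_geo_sub hu1 hux (by omega)
  have key : ∀ ξ ∈ mdl1aT F B, (min p0 1) ^ ((2 * (8 * κ * (k + 2))) ^ 2) * mdlSumK t F b (mdl1aK F B ξ) (fun _ => 1)
      ≤ mdlSumK t F b (mdl1aK F B ξ)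
        (fun ω => if RswSep F a ω (rswBox z ((k + 1) * n)) (F \ rswBox z ((k + 2) * n)) then 1 else 0) := by
    intro ξ hξ
    have hZ : 0 ≤ mdlSumK t F b (mdl1aK F B ξ) (fun _ => 1) :=
      mdl1_sumK_nonneg ht0.le ht2.le F b _ (fun _ => zero_le_one)
    have h1 := mdl1_atom ht0 ht2 hBF b a (mdl1a_ok hξ) (hJ _ (mdl1a_ok hξ))
      (fun v hv => by rw [mdl1a_pins hξ] at hv; exact (mdl1a_mem_V.1 hv).2) Cs hrR
      (fun x hx => (hsub2 x hx).trans ((mdl1_box_mono z (by omega)).trans hsub))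
      (fun x hx => by
        obtain ⟨u, hu1, hu2, hux⟩ := hCsu x hx
        exact mdl1_geo_core hu1 hu2 hux (by omega) (by omega))
      hp1.le (fun x _ => le_trans (min_le_left _ _) (hc r (by omega) x a))
      (Q := fun ω => RswSep F a ω (rswBox z ((k + 1) * n)) (F \ rswBox z ((k + 2) * n)))
      (fun ω hall => mdl1_cover a ω z m (mdl1_box_mono z (by omega))
        (fun g hg => ⟨(Finset.mem_sdiff.1 hg).1, fun h' => (Finset.mem_sdiff.1 hg).2 (mdl1_box_mono z (by omega) h')⟩)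
        Cs r R (fun u hu1 hu2 => ⟨mdl1Cen z r u, Finset.mem_image_of_mem _ (Finset.mem_sdiff.2 ⟨hu1, hu2⟩),
          mdl1_mem_cen z (by omega) u⟩)
        (fun x hx g hg h' => (Finset.mem_sdiff.1 hg).2 (hsub2 x hx h')) hall)
    refine le_trans (mul_le_mul_of_nonneg_right ?_ hZ) h1
    exact pow_le_pow_of_le_one hp1.le (min_le_right _ _) hcard
  have hfin := mdl1_sum_atoms F b hL key
  unfold rswP rswE
  rw [← mul_div_assoc]
  refine div_le_div_of_nonneg_right (le_trans hfin (le_of_eq ?_)) (rsk_sum_one_pos ht0 ht2.le F b).le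
  congr 1
  funext ω
  congr

/-- (S1) from TWO HYPOTHESES (no sorry in the closure): `hcirc` = the conclusion of `mdl1t_circuit`, `hcmp` = the conclusion of (S0). -/
theorem mdl1_exit_circ_of (t : ℝ) (ht1 : 1 / 2 ≤ t) (ht2 : t < 1)
    (hcirc : ∃ (κ n0 : ℕ) (p : ℝ), 2 ≤ κ ∧ 0 < p ∧ ∀ n : ℕ, n0 ≤ n → ∀ (x : ℤ × ℤ) (a : Bool),
      p ≤ rswP t (rswBox x (κ * n)) (!a)
        (fun ω => RswSep (rswBox x (κ * n)) a ω (rswBox x n) (rswLayer (rswBox x (κ * n)))))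
    (hcmp : ∀ F : Finset (ℤ × ℤ), RswJordan F → ∀ (b a : Bool) (K : MdlPin), K.Ok → MdlFkgAt t F b a K) (k : ℕ) :
    ∃ p : ℝ, 0 < p ∧ ∃ n0 : ℕ, ∀ n : ℕ, n0 ≤ n → ∀ (F : Finset (ℤ × ℤ)) (z : ℤ × ℤ) (b a : Bool) (L : RswCfg → Prop),
      RswJordan F → rswBox z ((k + 3) * n) ⊆ F → MdlExt (rswBox z ((k + 3) * n) \ rswBox z (k * n)) L →
      p * rswP t F b L ≤
        rswP t F b fun ω => L ω ∧ RswSep F a ω (rswBox z ((k + 1) * n)) (F \ rswBox z ((k + 2) * n)) := by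
  obtain ⟨p, hp, n0, h⟩ := mdl1_circ_class t ht1 ht2 hcirc k
  exact ⟨p, hp, n0, fun n hn F z b a L hJ => h n hn F z b a L (hcmp F hJ b a)⟩

/-- **(S1) `exit_mdl_circ` from the records**: (S0) comparison with pins [hypothesis `hcmp`], the base lemma `mdl_base` (191), the exact cut (91),
`exit_rsw_circuit` through `mdl1t_circuit` (101). -/
theorem mdl1_exit_circ (t : ℝ) (ht1 : 1 / 2 ≤ t) (ht2 : t < 1)
    (hcmp : ∀ F : Finset (ℤ × ℤ), RswJordan F → ∀ (b a : Bool) (K : MdlPin), K.Ok → MdlFkgAt t F b a K) (k : ℕ) :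
    ∃ p : ℝ, 0 < p ∧ ∃ n0 : ℕ, ∀ n : ℕ, n0 ≤ n → ∀ (F : Finset (ℤ × ℤ)) (z : ℤ × ℤ) (b a : Bool) (L : RswCfg → Prop),
      RswJordan F → rswBox z ((k + 3) * n) ⊆ F → MdlExt (rswBox z ((k + 3) * n) \ rswBox z (k * n)) L →
      p * rswP t F b L ≤
        rswP t F b fun ω => L ω ∧ RswSep F a ω (rswBox z ((k + 1) * n)) (F \ rswBox z ((k + 2) * n)) :=
  mdl1_exit_circ_of t ht1 ht2 (mdl1t_circuit t ht1 ht2) hcmp k

/-! ## §8 the first form (buffer `Λ_{4n}`) -/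

/-- `L` is exterior data of the buffer `B`: it reads `S` off the inner corners of `B`, `O` off the interior edges of `B`, never `D` -/
def Mdl1Ext (B : Finset (ℤ × ℤ)) (L : RswCfg → Prop) : Prop :=
  ∀ ω ω' : RswCfg, (∀ v, OnPolygon B v → (v ∈ ω.S ↔ v ∈ ω'.S)) →
    (∀ e, e ∉ rswInt B → (e ∈ ω.O ↔ e ∈ ω'.O)) → (L ω ↔ L ω')

/-- exterior data of a buffer are exterior data of every smaller buffer -/
theorem mdl1_ext_mono {B' B : Finset (ℤ × ℤ)} (h : B' ⊆ B) {L : RswCfg → Prop} (hL : Mdl1Ext B L) : MdlExt B' L := by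
  intro ω ω' h1 h2
  exact hL ω ω' (fun v hv => h1 v (fun hc => mdl1_poly_mono h (not_not.2 hc) hv)) (fun e he => h2 e (fun hc => he (rsk_int_mono h hc)))

/-- S1 in the first form, from (S0) -/
theorem mdl1_circ_cond_of (t : ℝ) (ht1 : 1 / 2 ≤ t) (ht2 : t < 1)
    (hcmp : ∀ F : Finset (ℤ × ℤ), RswJordan F → ∀ (b a : Bool) (K : MdlPin), K.Ok → MdlFkgAt t F b a K) :
    ∃ p : ℝ, 0 < p ∧ ∃ n0 : ℕ, ∀ n : ℕ, n0 ≤ n →
      ∀ (F : Finset (ℤ × ℤ)) (z : ℤ × ℤ) (b a : Bool) (L : RswCfg → Prop),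
        RswJordan F → rswBox z (4 * n) ⊆ F → Mdl1Ext (rswBox z (4 * n)) L →
        p * rswP t F b L ≤
          rswP t F b (fun ω => L ω ∧ RswSep F a ω (rswBox z n) (F \ rswBox z (2 * n))) := by
  obtain ⟨p, hp, n0, h⟩ := mdl1_exit_circ t ht1 ht2 hcmp 0
  refine ⟨p, hp, n0, fun n hn F z b a L hJ hsub hL => ?_⟩
  have h34 : rswBox z ((0 + 3) * n) ⊆ rswBox z (4 * n) := mdl1_box_mono z (by omega)
  have := h n hn F z b a L hJ (h34.trans hsub) (mdl1_ext_mono (Finset.sdiff_subset.trans h34) hL)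
  simpa using this

/-- (S0) `exit_mdl_cmp`, PROVED by 291 (`cmp291_exit_cmp`, `Rsw/CmpPin291`), in the form `MdlFkgAt` -/
theorem mdl1_cmp_record (t : ℝ) (ht1 : 1 / 2 ≤ t) (ht2 : t < 1) :
    ∀ F : Finset (ℤ × ℤ), RswJordan F → ∀ (b a : Bool) (K : MdlPin), K.Ok → MdlFkgAt t F b a K :=
  fun F hF b a K hK X Y hX hY => cmp291_exit_cmp t ht1 ht2 F hF b a K hK X Y hX hY

/-- (S1) from ONE HYPOTHESIS `hcirc` = the conclusion of `exit_rsw_circuit` at all centres and both colours (`mdl1t_circuit`): NO sorry in the closure -/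
theorem mdl1_exit_circ_rsw (t : ℝ) (ht1 : 1 / 2 ≤ t) (ht2 : t < 1)
    (hcirc : ∃ (κ n0 : ℕ) (p : ℝ), 2 ≤ κ ∧ 0 < p ∧ ∀ n : ℕ, n0 ≤ n → ∀ (x : ℤ × ℤ) (a : Bool),
      p ≤ rswP t (rswBox x (κ * n)) (!a)
        (fun ω => RswSep (rswBox x (κ * n)) a ω (rswBox x n) (rswLayer (rswBox x (κ * n))))) (k : ℕ) :
    ∃ p : ℝ, 0 < p ∧ ∃ n0 : ℕ, ∀ n : ℕ, n0 ≤ n → ∀ (F : Finset (ℤ × ℤ)) (z : ℤ × ℤ) (b a : Bool) (L : RswCfg → Prop),
      RswJordan F → rswBox z ((k + 3) * n) ⊆ F → MdlExt (rswBox z ((k + 3) * n) \ rswBox z (k * n)) L →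
      p * rswP t F b L ≤
        rswP t F b fun ω => L ω ∧ RswSep F a ω (rswBox z ((k + 1) * n)) (F \ rswBox z ((k + 2) * n)) :=
  mdl1_exit_circ_of t ht1 ht2 hcirc (mdl1_cmp_record t ht1 ht2) k

/-- **S1 CIRC-COND**, prop:circuits (1), first form. -/
theorem mdl1_circ_cond (t : ℝ) (ht1 : 1 / 2 ≤ t) (ht2 : t < 1) :
    ∃ p : ℝ, 0 < p ∧ ∃ n0 : ℕ, ∀ n : ℕ, n0 ≤ n →
      ∀ (F : Finset (ℤ × ℤ)) (z : ℤ × ℤ) (b a : Bool) (L : RswCfg → Prop),
        RswJordan F → rswBox z (4 * n) ⊆ F → Mdl1Ext (rswBox z (4 * n)) L →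
        p * rswP t F b L ≤
          rswP t F b (fun ω => L ω ∧ RswSep F a ω (rswBox z n) (F \ rswBox z (2 * n))) :=
  mdl1_circ_cond_of t ht1 ht2 (mdl1_cmp_record t ht1 ht2)

/-! ## §9 domains with connected exterior; the box form (ratio 2, any boundary colour); the record `Mpl151Circ` -/

theorem mdl1_conn_of_ext {F : Finset (ℤ × ℤ)} (h : At92hExt F) : Mdl41Conn F := by
  intro S f0 h0 h0S hS g hg
  exact (h {f | f ∉ F ∧ f ∈ S} (fun f hf => hf.1) ⟨f0, h0, h0S⟩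
    (fun f hf g hg hadj => ⟨hg, hS f g hf.1 hg hadj hf.2⟩) g hg).2

/-- (S0) on the class of domains with connected exterior (the proof of `cmp291_exit_cmp` of 291 with `cmi291_dual_of_conn`) -/
theorem mdl1_cmp_conn {t : ℝ} (ht0 : 0 < t) (ht2 : t ≤ 1) {F : Finset (ℤ × ℤ)} (hF : Mdl41Conn F) (b a : Bool)
    (K : MdlPin) (hK : K.Ok) : MdlFkgAt t F b a K := by
  intro X Y hX hY
  have hD := cmi291_dual_of_conn hF
  cases a with
  | true =>
    exact cmq291_fkg_pin ht0 ht2 hD b K hK (fun ω ω' h => hX ω ω' (cmq291_le_mdl_true h))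
      (fun ω ω' h => hY ω ω' (cmq291_le_mdl_true h))
  | false =>
    have key := cmq291_fkg_pin ht0 ht2 hD b K hK (X := fun ω => - X ω) (Y := fun ω => - Y ω)
      (fun ω ω' h => neg_le_neg (hX ω' ω (cmq291_le_mdl_false h)))
      (fun ω ω' h => neg_le_neg (hY ω' ω (cmq291_le_mdl_false h)))
    rw [cmq291_sumK_neg, cmq291_sumK_neg, neg_mul_neg] at key
    simpa only [neg_mul_neg] using key

theorem mdl1_mem_layer {F : Finset (ℤ × ℤ)} {g : ℤ × ℤ} : g ∈ rswLayer F ↔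
    g ∈ F ∧ ∃ v ∈ ({g, (g.1 + 1, g.2), (g.1, g.2 + 1), (g.1 + 1, g.2 + 1)} : Finset (ℤ × ℤ)), OnPolygon F v := by
  unfold rswLayer
  exact @Finset.mem_filter _ _ (Classical.decPred _) _ _

/-- the faces of `Λ_m` are off the boundary layer of `Λ_N`, `m < N` -/
theorem mdl1_layer_off {z : ℤ × ℤ} {m N : ℕ} (h : m + 1 ≤ N) {g : ℤ × ℤ} (hg : g ∈ rswBox z m) :
    g ∉ rswLayer (rswBox z N) := by
  rw [mdl1_mem_layer]
  rintro ⟨_, v, hv, hpol⟩
  apply hpol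
  simp only [Finset.mem_insert, Finset.mem_singleton] at hv
  rw [mdl1_mem_box] at hg
  rcases hv with rfl | rfl | rfl | rfl <;> simp only [mdl1_mem_box] <;> omega

/-- a separation in `F` restricts to every smaller domain, smaller source and smaller target -/
theorem mdl1_sep_sub {B F : Finset (ℤ × ℤ)} (hBF : B ⊆ F) {a : Bool} {ω : RswCfg} {A A' E E' : Finset (ℤ × ℤ)}
    (hA : A' ⊆ A) (hE : E' ⊆ E) (h : RswSep F a ω A E) : RswSep B a ω A' E' := by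
  intro f hf g hg hp
  refine h f (hA hf) g (hE hg) (Relation.ReflTransGen.mono ?_ f g hp)
  rintro u v ⟨h1, h2, e, h3, h4⟩
  exact ⟨hBF h1, hBF h2, e, h3, h4⟩

theorem mdl1_P_true {t : ℝ} (ht0 : 0 < t) (ht1 : t ≤ 1) (F : Finset (ℤ × ℤ)) (b : Bool) :
    rswP t F b (fun _ => True) = 1 := by
  unfold rswP rswE
  simp only [if_true]
  exact div_self (rsk_sum_one_pos ht0 ht1 F b).ne'

theorem mdl1_P_mono {t : ℝ} (ht0 : 0 < t) (ht1 : t ≤ 1) (F : Finset (ℤ × ℤ)) (b : Bool) {L L' : RswCfg → Prop}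
    (h : ∀ ω, L ω → L' ω) : rswP t F b L ≤ rswP t F b L' := by
  classical
  unfold rswP rswE
  refine div_le_div_of_nonneg_right ?_ (rsk_sum_one_pos ht0 ht1 F b).le
  simp only [mdl_sum_idx]
  refine Finset.sum_le_sum fun x _ => mul_le_mul_of_nonneg_left ?_ (rsk_wt_nonneg ht0.le ht1 F b _)
  by_cases h1 : L ⟨x.1, x.2.1, x.2.2⟩
  · rw [if_pos h1, if_pos (h _ h1)]
  · rw [if_neg h1]
    split_ifs <;> norm_num

/-- **BOX FORM, RATIO 2**: a circuit of colour `a` in `Λ_{2ρ}(z) \ Λ_ρ(z)`, read inside `Λ_{2ρ}(z)`, under EVERY flat law `(F, b)` with `Λ_{2ρ}(z) ⊆ F` which satisfies (S0);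
`F = Λ_{2ρ}(z)`, `b = !a`: the circuit estimate of `exit_rsw_circuit` at the ratio `2` (from any ratio `κ`). -/
theorem mdl1_circ_box (t : ℝ) (ht1 : 1 / 2 ≤ t) (ht2 : t < 1)
    (hcirc : ∃ (κ n0 : ℕ) (p : ℝ), 2 ≤ κ ∧ 0 < p ∧ ∀ n : ℕ, n0 ≤ n → ∀ (x : ℤ × ℤ) (a : Bool),
      p ≤ rswP t (rswBox x (κ * n)) (!a)
        (fun ω => RswSep (rswBox x (κ * n)) a ω (rswBox x n) (rswLayer (rswBox x (κ * n))))) :
    ∃ c1 : ℝ, 0 < c1 ∧ ∃ ρ0 : ℕ, ∀ ρ : ℕ, ρ0 ≤ ρ → ∀ (F : Finset (ℤ × ℤ)) (z : ℤ × ℤ) (b a : Bool),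
      (∀ K : MdlPin, K.Ok → MdlFkgAt t F b a K) → rswBox z (2 * ρ) ⊆ F →
      c1 ≤ rswP t F b (fun ω => RswSep (rswBox z (2 * ρ)) a ω (rswBox z ρ) (rswLayer (rswBox z (2 * ρ)))) := by
  have ht0 : 0 < t := by linarith
  obtain ⟨p, hp, n0, h⟩ := mdl1_circ_class t ht1 ht2 hcirc 3
  refine ⟨p, hp, 4 * n0 + 9, fun ρ hρ F z b a hF hsub => ?_⟩
  have h1 := h ((ρ + 3) / 4) (by omega) F z b a (fun _ => True) hF ((mdl1_box_mono z (by omega)).trans hsub)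
    (fun _ _ _ _ => Iff.rfl)
  rw [mdl1_P_true ht0 ht2.le, mul_one] at h1
  refine le_trans h1 (mdl1_P_mono ht0 ht2.le F b fun ω hω => ?_)
  refine mdl1_sep_sub hsub (mdl1_box_mono z (by omega)) ?_ hω.2
  intro g hg
  have hgB : g ∈ rswBox z (2 * ρ) := (mdl1_mem_layer.1 hg).1
  exact Finset.mem_sdiff.2 ⟨hsub hgB, fun hc => mdl1_layer_off (by omega) hc hg⟩

/-- **the body of the record `Mpl151Circ t` of `Rsw/CutStop151`, WORD FOR WORD** (`L1 = 2`), from `hcirc` alone: NO sorry in the closure -/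
theorem mdl1_mpl_circ (t : ℝ) (ht1 : 1 / 2 ≤ t) (ht2 : t < 1)
    (hcirc : ∃ (κ n0 : ℕ) (p : ℝ), 2 ≤ κ ∧ 0 < p ∧ ∀ n : ℕ, n0 ≤ n → ∀ (x : ℤ × ℤ) (a : Bool),
      p ≤ rswP t (rswBox x (κ * n)) (!a)
        (fun ω => RswSep (rswBox x (κ * n)) a ω (rswBox x n) (rswLayer (rswBox x (κ * n))))) :
    ∃ (c1 : ℝ) (L1 ρ0 : ℕ), 0 < c1 ∧ ∀ (F0 : Finset (ℤ × ℤ)) (z0 : ℤ × ℤ) (ρ : ℕ),
      At92hExt F0 → ρ0 ≤ ρ → rswBox z0 (L1 * ρ) ⊆ F0 →
      c1 ≤ rswP t F0 true (fun ω => RswSep (rswBox z0 (2 * ρ)) true ω (rswBox z0 ρ) (rswLayer (rswBox z0 (2 * ρ)))) := by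
  have ht0 : 0 < t := by linarith
  obtain ⟨c1, hc1, ρ0, h⟩ := mdl1_circ_box t ht1 ht2 hcirc
  exact ⟨c1, 2, ρ0, hc1, fun F0 z0 ρ hF hρ hsub =>
    h ρ hρ F0 z0 true true (fun K hK => mdl1_cmp_conn ht0 ht2.le (mdl1_conn_of_ext hF) true true K hK) hsub⟩

/-- the equation lemmas of the definitions of this file are generated HERE (RULES.md, rule 6) -/
theorem mdl1_eqns_cite : True := by
  have := @mdl1X.eq_1
  have := @mdl1aV.eq_1
  have := @mdl1aE.eq_1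
  have := @mdl1aK.eq_1
  have := @mdl1aT.eq_1
  have := @mdl1Cen.eq_1
  have := @Mdl1Ext.eq_1
  trivial

end Claimed.Agent.R292
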