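import Claimed.Agent.R292.Defs.RSW
import Claimed.Agent.R292.AtConn

/-!
# Row 292 (S0540), unit MODEL : THE PLANAR STEP OF `prop:comparison`      (owner helper41; prefix `mdl41_`, defs `mdl41*` / `Mdl41*`)

AT paper, 03-spatial.tex, proof of prop:comparison, TEX eq:spatial-euler: "summing `d` contributes `2^{k(N)} = C 2^{k(W)+|W|}`".
Here WITHOUT component counts and without Euler's formula, on the vocabulary of `Defs/RSW` (122) and on `AtConn` (30).  0 sorry.

`F` = finite set of faces whose exterior is 8-connected (`Mdl41Conn F`; from `RswJordan F` or from a preconnected frontier: `mdl41_conn_of_jordan`, `mdl41_conn_of_frontier`).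

* A  `mdl41Bd`, `mdl41Aug`, `mdl41_bd_apply`, `mdl41_aug_bd`     chains mod 2 of the square lattice
* B  `mdl41_join`          a 0-chain on the polygon of total mass 0 bounds a chain of NON-interior edges (T-join in the exterior)
* C  `mdl41_exact`         a finite cycle of the whole lattice is the disagreement set of a colouring of the faces
* D  **`mdl41_exists_D`**  every `η` which is even at all vertices off the polygon is, on `rswInt F`, the disagreement set of some `D ⊆ F`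
* E  `mdl41_card_fiber`, **`mdl41_sum_D`**   `∑_{D ⊆ F} w (disagreement set of D) = K(F) * ∑_{η ⊆ rswInt F even} w η`   (Kramers-Wannier)
* F  `mdl41_prod_fac`, **`mdl41_sum_D_fac`** ((s,W) marginal: `t^|O| (1-t)^|mono \ O| t^|dis| #{even η ⊆ O}`),
     `mdl41_sum_O_fac` (sum over `W` = the Ashkin-Teller weight), **`mdl41_sum_DO_fac`** (s marginal: `t^|dis| ∑_{η ⊆ mono even} t^|η|` = Ising, `tanh β = t`)
* G  `mdl41_rswSum_SO`, `mdl41_rswSum_S`, `mdl41_rswE_SO`, `mdl41_rswE_S`    the same for `rswSum`, `rswE`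
* H  `mdl41_even_iff`      evenness = even degree
-/

set_option autoImplicit false

namespace Claimed.Agent.R292

open Claims Claims.C0468

/-! ## A. chains mod 2 on the square lattice -/

/-- boundary of a 1-chain mod 2 -/
noncomputable def mdl41Bd : (((ℤ × ℤ) × Bool) →₀ ZMod 2) →ₗ[ZMod 2] ((ℤ × ℤ) →₀ ZMod 2) :=
  Finsupp.linearCombination (ZMod 2) (fun e => Finsupp.single e.1 1 + Finsupp.single (rswEnd e) 1)

/-- augmentation of a 0-chain mod 2 -/
noncomputable def mdl41Aug : ((ℤ × ℤ) →₀ ZMod 2) →ₗ[ZMod 2] ZMod 2 :=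
  Finsupp.linearCombination (ZMod 2) (fun _ => (1 : ZMod 2))

theorem mdl41_bd_single (e : (ℤ × ℤ) × Bool) (a : ZMod 2) :
    mdl41Bd (Finsupp.single e a) = a • (Finsupp.single e.1 1 + Finsupp.single (rswEnd e) 1) := by
  simp [mdl41Bd, Finsupp.linearCombination_single]

theorem mdl41_aug_single (v : ℤ × ℤ) (a : ZMod 2) : mdl41Aug (Finsupp.single v a) = a := by
  simp [mdl41Aug, Finsupp.linearCombination_single]

theorem mdl41_two (a : ZMod 2) : a + a = 0 := CharTwo.add_self_eq_zero a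

theorem mdl41_aug_bd (c : ((ℤ × ℤ) × Bool) →₀ ZMod 2) : mdl41Aug (mdl41Bd c) = 0 := by
  induction c using Finsupp.induction_linear with
  | zero => simp
  | add f g hf hg => rw [map_add, map_add, hf, hg, add_zero]
  | single e a =>
    rw [mdl41_bd_single, map_smul, map_add, mdl41_aug_single, mdl41_aug_single, mdl41_two, smul_zero]

/-- the boundary at a vertex is the sum over the four incident edges -/
theorem mdl41_bd_apply (c : ((ℤ × ℤ) × Bool) →₀ ZMod 2) (v : ℤ × ℤ) :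
    mdl41Bd c v = c (v, false) + c ((v.1 - 1, v.2), false) + c (v, true) + c ((v.1, v.2 - 1), true) := by
  induction c using Finsupp.induction_linear with
  | zero => simp
  | add f g hf hg =>
    rw [map_add, Finsupp.add_apply, hf, hg]
    simp only [Finsupp.add_apply]
    ring
  | single e a =>
    rw [mdl41_bd_single]
    obtain ⟨⟨x, y⟩, b⟩ := e
    obtain ⟨p, q⟩ := v
    have h1 : (x + 1 = p) ↔ (x = p - 1) := by omega
    have h2 : (y + 1 = q) ↔ (y = q - 1) := by omega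
    cases b <;>
      simp [rswEnd, Finsupp.single_apply, Prod.ext_iff, h1, h2]

/-! ## B. joins in the exterior -/

theorem mdl41_mem_int {F : Finset (ℤ × ℤ)} {e : (ℤ × ℤ) × Bool} : e ∈ rswInt F ↔ e.1 ∈ F ∧ rswCo e ∈ F := by
  simp [rswInt, Finset.mem_filter, Finset.mem_product]

/-- the edges which are not interior edges of `F` -/
def mdl41Ext (F : Finset (ℤ × ℤ)) : Set ((ℤ × ℤ) × Bool) := {e | e ∉ rswInt F}

/-- the boundaries of the chains carried by the exterior edges -/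
noncomputable def mdl41B (F : Finset (ℤ × ℤ)) : Submodule (ZMod 2) ((ℤ × ℤ) →₀ ZMod 2) :=
  (Finsupp.supported (ZMod 2) (ZMod 2) (mdl41Ext F)).map mdl41Bd

/-- two vertices are joined by exterior edges (chain form) -/
def Mdl41J (F : Finset (ℤ × ℤ)) (u w : ℤ × ℤ) : Prop :=
  (Finsupp.single u 1 + Finsupp.single w 1 : (ℤ × ℤ) →₀ ZMod 2) ∈ mdl41B F

theorem mdl41_J_refl (F : Finset (ℤ × ℤ)) (u : ℤ × ℤ) : Mdl41J F u u := by
  unfold Mdl41J
  rw [← Finsupp.single_add, mdl41_two, Finsupp.single_zero]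
  exact Submodule.zero_mem _

theorem mdl41_J_symm {F : Finset (ℤ × ℤ)} {u w : ℤ × ℤ} (h : Mdl41J F u w) : Mdl41J F w u := by
  unfold Mdl41J at *
  rwa [add_comm]

theorem mdl41_J_trans {F : Finset (ℤ × ℤ)} {u w z : ℤ × ℤ} (h1 : Mdl41J F u w) (h2 : Mdl41J F w z) :
    Mdl41J F u z := by
  unfold Mdl41J at *
  have h := Submodule.add_mem _ h1 h2
  have e : (Finsupp.single u 1 + Finsupp.single w 1 + (Finsupp.single w 1 + Finsupp.single z 1) : (ℤ × ℤ) →₀ ZMod 2)
      = Finsupp.single u 1 + Finsupp.single z 1 := by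
    have hw : (Finsupp.single w 1 + Finsupp.single w 1 : (ℤ × ℤ) →₀ ZMod 2) = 0 := by
      rw [← Finsupp.single_add, mdl41_two, Finsupp.single_zero]
    calc (Finsupp.single u 1 + Finsupp.single w 1 + (Finsupp.single w 1 + Finsupp.single z 1) : (ℤ × ℤ) →₀ ZMod 2)
        = Finsupp.single u 1 + (Finsupp.single w 1 + Finsupp.single w 1) + Finsupp.single z 1 := by abel
      _ = _ := by rw [hw, add_zero]
  rwa [e] at h

theorem mdl41_J_edge {F : Finset (ℤ × ℤ)} {e : (ℤ × ℤ) × Bool} (he : e ∉ rswInt F) : Mdl41J F e.1 (rswEnd e) := by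
  unfold Mdl41J mdl41B
  refine ⟨Finsupp.single e 1, ?_, ?_⟩
  · exact Finsupp.single_mem_supported _ _ he
  · rw [mdl41_bd_single, one_smul]

/-- the four corners of a face outside `F` are joined -/
theorem mdl41_J_face {F : Finset (ℤ × ℤ)} {f : ℤ × ℤ} (hf : f ∉ F) :
    Mdl41J F f (f.1 + 1, f.2) ∧ Mdl41J F f (f.1, f.2 + 1) ∧ Mdl41J F f (f.1 + 1, f.2 + 1) := by
  have h1 : Mdl41J F f (f.1 + 1, f.2) := by
    have := mdl41_J_edge (F := F) (e := (f, false)) (fun h => hf (mdl41_mem_int.1 h).1)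
    simpa [rswEnd] using this
  have h2 : Mdl41J F f (f.1, f.2 + 1) := by
    have := mdl41_J_edge (F := F) (e := (f, true)) (fun h => hf (mdl41_mem_int.1 h).1)
    simpa [rswEnd] using this
  have h3 : Mdl41J F (f.1, f.2 + 1) (f.1 + 1, f.2 + 1) := by
    have := mdl41_J_edge (F := F) (e := ((f.1, f.2 + 1), false))
      (fun h => hf (by simpa [rswCo] using (mdl41_mem_int.1 h).2))
    simpa [rswEnd] using this
  exact ⟨h1, h2, mdl41_J_trans h2 h3⟩

theorem mdl41_J_corner {F : Finset (ℤ × ℤ)} {f v : ℤ × ℤ} (hf : f ∉ F)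
    (h1 : v.1 = f.1 ∨ v.1 = f.1 + 1) (h2 : v.2 = f.2 ∨ v.2 = f.2 + 1) : Mdl41J F f v := by
  obtain ⟨a, b, c⟩ := mdl41_J_face hf
  obtain ⟨p, q⟩ := v
  simp only at h1 h2
  rcases h1 with rfl | rfl <;> rcases h2 with rfl | rfl
  · exact mdl41_J_refl F f
  · exact b
  · exact a
  · exact c

theorem mdl41_J_adj {F : Finset (ℤ × ℤ)} {f g : ℤ × ℤ} (hf : f ∉ F) (hg : g ∉ F) (h : at30Adj f g) : Mdl41J F f g := by
  obtain ⟨h1, h2⟩ := h
  rw [abs_le] at h1 h2
  have a := mdl41_J_corner (v := (max f.1 g.1, max f.2 g.2)) hf (by simp only; omega) (by simp only; omega)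
  have b := mdl41_J_corner (v := (max f.1 g.1, max f.2 g.2)) hg (by simp only; omega) (by simp only; omega)
  exact mdl41_J_trans a (mdl41_J_symm b)

/-- the connectedness of the exterior in the only form used below -/
def Mdl41Conn (F : Finset (ℤ × ℤ)) : Prop :=
  ∀ (S : Set (ℤ × ℤ)) (f0 : ℤ × ℤ), f0 ∉ F → f0 ∈ S →
    (∀ f g, f ∉ F → g ∉ F → at30Adj f g → f ∈ S → g ∈ S) → ∀ g, g ∉ F → g ∈ S

theorem mdl41_conn_of_frontier {d : ℝ} (hd : 0 < d) (F : Finset (ℤ × ℤ))
    (hc : IsPreconnected (frontier (faceRegionSq d F))) : Mdl41Conn F :=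
  fun S f0 h0 h0S hS => at30_compl_conn hd F hc S f0 h0 h0S hS

theorem mdl41_conn_of_jordan {F : Finset (ℤ × ℤ)} (h : RswJordan F) : Mdl41Conn F := by
  obtain ⟨γ, hγ, -, hr⟩ := h
  refine mdl41_conn_of_frontier one_pos F ?_
  rw [← hr]
  exact isPreconnected_range hγ

theorem mdl41_J_faces {F : Finset (ℤ × ℤ)} (hF : Mdl41Conn F) {f g : ℤ × ℤ} (hf : f ∉ F) (hg : g ∉ F) :
    Mdl41J F f g :=
  hF {g | Mdl41J F f g} f hf (mdl41_J_refl F f) (fun _ _ ha hb hab h => mdl41_J_trans h (mdl41_J_adj ha hb hab)) g hg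

theorem mdl41_J_polygon {F : Finset (ℤ × ℤ)} (hF : Mdl41Conn F) {f v : ℤ × ℤ} (hf : f ∉ F) (hv : OnPolygon F v) :
    Mdl41J F f v := by
  unfold OnPolygon at hv
  by_cases h1 : v ∈ F
  · by_cases h2 : (v.1 - 1, v.2) ∈ F
    · by_cases h3 : (v.1, v.2 - 1) ∈ F
      · have h4 : (v.1 - 1, v.2 - 1) ∉ F := fun h4 => hv ⟨h1, h2, h3, h4⟩
        exact mdl41_J_trans (mdl41_J_faces hF hf h4) (mdl41_J_corner h4 (by simp) (by simp))
      · exact mdl41_J_trans (mdl41_J_faces hF hf h3) (mdl41_J_corner h3 (by simp) (by simp))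
    · exact mdl41_J_trans (mdl41_J_faces hF hf h2) (mdl41_J_corner h2 (by simp) (by simp))
  · exact mdl41_J_trans (mdl41_J_faces hF hf h1) (mdl41_J_corner h1 (by simp) (by simp))

/-- **joins**: a 0-chain carried by the polygon, of total mass zero, bounds a chain of exterior edges -/
theorem mdl41_join {F : Finset (ℤ × ℤ)} (hF : Mdl41Conn F) (b : (ℤ × ℤ) →₀ ZMod 2)
    (hb : ∀ v, b v ≠ 0 → OnPolygon F v) (h0 : mdl41Aug b = 0) :
    ∃ J : ((ℤ × ℤ) × Bool) →₀ ZMod 2, (∀ e ∈ rswInt F, J e = 0) ∧ mdl41Bd J = b := by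
  obtain ⟨f0, hf0⟩ := Infinite.exists_notMem_finset F
  let φ : ((ℤ × ℤ) →₀ ZMod 2) →ₗ[ZMod 2] ((ℤ × ℤ) →₀ ZMod 2) :=
    LinearMap.id + LinearMap.smulRight mdl41Aug (Finsupp.single f0 1)
  have hle : Finsupp.supported (ZMod 2) (ZMod 2) {v | OnPolygon F v} ≤ (mdl41B F).comap φ := by
    rw [Finsupp.supported_eq_span_single, Submodule.span_le]
    rintro _ ⟨v, hv, rfl⟩
    show φ (Finsupp.single v 1) ∈ mdl41B F
    have : φ (Finsupp.single v 1) = Finsupp.single v 1 + Finsupp.single f0 1 := by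
      simp [φ, mdl41_aug_single]
    rw [this]
    exact mdl41_J_symm (mdl41_J_polygon hF hf0 hv)
  have hbm : b ∈ Finsupp.supported (ZMod 2) (ZMod 2) {v | OnPolygon F v} := by
    rw [Finsupp.mem_supported]
    intro v hv
    exact hb v (Finsupp.mem_support_iff.1 hv)
  have h1 : φ b ∈ mdl41B F := hle hbm
  have h2 : φ b = b := by simp [φ, h0]
  rw [h2] at h1
  obtain ⟨J, hJ, hJb⟩ := h1
  refine ⟨J, fun e he => ?_, hJb⟩
  by_contra hne
  exact (Finsupp.mem_supported _ _).1 hJ (Finsupp.mem_support_iff.2 hne) he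

/-! ## C. a cycle of the whole lattice is the disagreement set of a face colouring -/

theorem mdl41_Icc_succ (m x : ℤ) (h : m ≤ x) (u : ℤ → ZMod 2) :
    ∑ i ∈ Finset.Icc m x, u i = ∑ i ∈ Finset.Icc m (x - 1), u i + u x := by
  have e : Finset.Icc m x = insert x (Finset.Icc m (x - 1)) := by
    ext i
    simp only [Finset.mem_Icc, Finset.mem_insert]
    omega
  rw [e, Finset.sum_insert (by simp), add_comm]

theorem mdl41_exact (c : ((ℤ × ℤ) × Bool) →₀ ZMod 2) (hc : mdl41Bd c = 0) :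
    ∃ g : ℤ × ℤ → ZMod 2, ∀ e, c e = g e.1 + g (rswCo e) := by
  obtain ⟨m, hm⟩ := (c.support.image (fun e => e.1.1)).bddBelow
  have hz : ∀ e : (ℤ × ℤ) × Bool, e.1.1 < m → c e = 0 := by
    intro e he
    by_contra hne
    have : m ≤ e.1.1 := hm (by
      simp only [Finset.coe_image, Set.mem_image, Finset.mem_coe]
      exact ⟨e, Finsupp.mem_support_iff.2 hne, rfl⟩)
    omega
  let g : ℤ × ℤ → ZMod 2 := fun f => ∑ i ∈ Finset.Icc m f.1, c ((i, f.2), true)
  have hV : ∀ x y : ℤ, g (x, y) = g (x - 1, y) + c ((x, y), true) := by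
    intro x y
    by_cases hx : m ≤ x
    · exact mdl41_Icc_succ m x hx (fun i => c ((i, y), true))
    · have h1 : g (x, y) = 0 := by
        show ∑ i ∈ Finset.Icc m x, c ((i, y), true) = 0
        rw [Finset.Icc_eq_empty (by omega), Finset.sum_empty]
      have h2 : g (x - 1, y) = 0 := by
        show ∑ i ∈ Finset.Icc m (x - 1), c ((i, y), true) = 0
        rw [Finset.Icc_eq_empty (by omega), Finset.sum_empty]
      rw [h1, h2, hz ((x, y), true) (by simp only; omega), add_zero]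
  have hH : ∀ y x : ℤ, g (x, y) + g (x, y - 1) + c ((x, y), false) = 0 := by
    intro y
    have hlow : ∀ x : ℤ, x < m → g (x, y) + g (x, y - 1) + c ((x, y), false) = 0 := by
      intro x hx
      have h1 : g (x, y) = 0 := by
        show ∑ i ∈ Finset.Icc m x, c ((i, y), true) = 0
        rw [Finset.Icc_eq_empty (by omega), Finset.sum_empty]
      have h2 : g (x, y - 1) = 0 := by
        show ∑ i ∈ Finset.Icc m x, c ((i, y - 1), true) = 0
        rw [Finset.Icc_eq_empty (by omega), Finset.sum_empty]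
      rw [h1, h2, hz ((x, y), false) (by simp only; omega)]
      simp
    have hstep : ∀ x : ℤ, g (x - 1, y) + g (x - 1, y - 1) + c ((x - 1, y), false) = 0 →
        g (x, y) + g (x, y - 1) + c ((x, y), false) = 0 := by
      intro x ih
      have hb : mdl41Bd c (x, y) = 0 := by rw [hc]; rfl
      rw [mdl41_bd_apply] at hb
      simp only at hb
      rw [hV x y, hV x (y - 1)]
      have e : g (x - 1, y) + c ((x, y), true) + (g (x - 1, y - 1) + c ((x, y - 1), true)) + c ((x, y), false)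
          = (g (x - 1, y) + g (x - 1, y - 1) + c ((x - 1, y), false))
            + (c ((x, y), false) + c ((x - 1, y), false) + c ((x, y), true) + c ((x, y - 1), true))
            - (c ((x - 1, y), false) + c ((x - 1, y), false)) := by ring
      rw [e, ih, hb, mdl41_two (c ((x - 1, y), false))]
      simp
    intro x
    by_cases hx : x < m
    · exact hlow x hx
    · have : ∀ x : ℤ, m - 1 ≤ x → g (x, y) + g (x, y - 1) + c ((x, y), false) = 0 := by
        intro x hx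
        induction x, hx using Int.leInduction with
        | base => exact hlow _ (by omega)
        | succ k _ ih =>
          apply hstep
          simpa using ih
      exact this x (by omega)
  refine ⟨g, ?_⟩
  rintro ⟨⟨x, y⟩, b⟩
  cases b
  · have h := hH y x
    show c ((x, y), false) = g (x, y) + g (x, y - 1)
    have e : c ((x, y), false) = (g (x, y) + g (x, y - 1) + c ((x, y), false)) - (g (x, y) + g (x, y - 1)) := by ring
    rw [e, h, zero_sub]
    exact CharTwo.neg_eq _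
  · show c ((x, y), true) = g (x, y) + g (x - 1, y)
    rw [hV x y]
    have e : g (x - 1, y) + c ((x, y), true) + g (x - 1, y) = c ((x, y), true) + (g (x - 1, y) + g (x - 1, y)) := by ring
    rw [e, mdl41_two, add_zero]

/-! ## D. every even subgraph is a disagreement set -/

/-- the chain of a finite set of edges -/
noncomputable def mdl41Ch (η : Finset ((ℤ × ℤ) × Bool)) : ((ℤ × ℤ) × Bool) →₀ ZMod 2 :=
  Finsupp.indicator η (fun _ _ => 1)

theorem mdl41_ch_apply (η : Finset ((ℤ × ℤ) × Bool)) (e : (ℤ × ℤ) × Bool) :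
    mdl41Ch η e = if e ∈ η then 1 else 0 := by
  simp [mdl41Ch, Finsupp.indicator_apply]

/-- `η` has even degree at every vertex which is not on the polygon of `F` -/
def Mdl41Even (F : Finset (ℤ × ℤ)) (η : Finset ((ℤ × ℤ) × Bool)) : Prop :=
  ∀ v, ¬ OnPolygon F v → mdl41Bd (mdl41Ch η) v = 0

/-- `e` separates two faces with different colours -/
def Mdl41Dis (D : Finset (ℤ × ℤ)) (e : (ℤ × ℤ) × Bool) : Prop := ¬ (e.1 ∈ D ↔ rswCo e ∈ D)

theorem mdl41_zmod2 : ∀ a b : ZMod 2, a + b = 1 ↔ ¬ (a = 1 ↔ b = 1) := by decide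

/-- **surjectivity**: an even subgraph of the interior edges is the disagreement set of some `D ⊆ F` -/
theorem mdl41_exists_D {F : Finset (ℤ × ℤ)} (hF : Mdl41Conn F) {η : Finset ((ℤ × ℤ) × Bool)}
    (hev : Mdl41Even F η) :
    ∃ D ⊆ F, ∀ e ∈ rswInt F, (e ∈ η ↔ Mdl41Dis D e) := by
  classical
  obtain ⟨J, hJ0, hJb⟩ := mdl41_join hF (mdl41Bd (mdl41Ch η))
    (fun v hv => by
      by_contra h
      exact hv (hev v h)) (mdl41_aug_bd _)
  obtain ⟨g, hg⟩ := mdl41_exact (mdl41Ch η + J) (by rw [map_add, hJb, ← two_smul (ZMod 2)]; simp [show (2 : ZMod 2) = 0 from rfl])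
  refine ⟨F.filter (fun f => g f = 1), Finset.filter_subset _ _, fun e he => ?_⟩
  obtain ⟨h1, h2⟩ := mdl41_mem_int.1 he
  have h := hg e
  rw [Finsupp.add_apply, hJ0 e he, add_zero, mdl41_ch_apply] at h
  unfold Mdl41Dis
  simp only [Finset.mem_filter, h1, h2, true_and]
  rw [← mdl41_zmod2, ← h]
  by_cases hη : e ∈ η <;> simp [hη]

/-! ## E. the fibres of `D ↦` disagreement set; the duality sum -/

open Classical in
/-- the disagreement set of `D` among the interior edges of `F` -/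
noncomputable def mdl41DisSet (F D : Finset (ℤ × ℤ)) : Finset ((ℤ × ℤ) × Bool) :=
  (rswInt F).filter (fun e => Mdl41Dis D e)

theorem mdl41_mem_disSet {F D : Finset (ℤ × ℤ)} {e : (ℤ × ℤ) × Bool} :
    e ∈ mdl41DisSet F D ↔ e ∈ rswInt F ∧ Mdl41Dis D e := by
  simp [mdl41DisSet]

theorem mdl41_disSet_subset (F D : Finset (ℤ × ℤ)) : mdl41DisSet F D ⊆ rswInt F :=
  fun _ he => (mdl41_mem_disSet.1 he).1

theorem mdl41_even_disSet (F D : Finset (ℤ × ℤ)) : Mdl41Even F (mdl41DisSet F D) := by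
  intro v hv
  unfold OnPolygon at hv
  rw [not_not] at hv
  obtain ⟨hA, hB, hC, hE⟩ := hv
  have m1 : ((v, false) ∈ mdl41DisSet F D) ↔ ¬ (v ∈ D ↔ (v.1, v.2 - 1) ∈ D) := by
    simp [mdl41_mem_disSet, mdl41_mem_int, Mdl41Dis, rswCo, hA, hC]
  have m2 : (((v.1 - 1, v.2), false) ∈ mdl41DisSet F D) ↔ ¬ ((v.1 - 1, v.2) ∈ D ↔ (v.1 - 1, v.2 - 1) ∈ D) := by
    simp [mdl41_mem_disSet, mdl41_mem_int, Mdl41Dis, rswCo, hB, hE]
  have m3 : ((v, true) ∈ mdl41DisSet F D) ↔ ¬ (v ∈ D ↔ (v.1 - 1, v.2) ∈ D) := by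
    simp [mdl41_mem_disSet, mdl41_mem_int, Mdl41Dis, rswCo, hA, hB]
  have m4 : (((v.1, v.2 - 1), true) ∈ mdl41DisSet F D) ↔ ¬ ((v.1, v.2 - 1) ∈ D ↔ (v.1 - 1, v.2 - 1) ∈ D) := by
    simp [mdl41_mem_disSet, mdl41_mem_int, Mdl41Dis, rswCo, hC, hE]
  rw [mdl41_bd_apply]
  simp only [mdl41_ch_apply, m1, m2, m3, m4]
  by_cases a : v ∈ D <;> by_cases b : (v.1 - 1, v.2) ∈ D <;> by_cases c : (v.1, v.2 - 1) ∈ D <;>
    by_cases d : (v.1 - 1, v.2 - 1) ∈ D <;> simp [a, b, c, d] <;> decide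

theorem mdl41_dis_symmDiff (D D' : Finset (ℤ × ℤ)) (e : (ℤ × ℤ) × Bool) :
    Mdl41Dis (symmDiff D D') e ↔ ¬ (Mdl41Dis D e ↔ Mdl41Dis D' e) := by
  unfold Mdl41Dis
  simp only [Finset.mem_symmDiff]
  by_cases a : e.1 ∈ D <;> by_cases b : e.1 ∈ D' <;> by_cases c : rswCo e ∈ D <;> by_cases d : rswCo e ∈ D' <;>
    simp [a, b, c, d]

theorem mdl41_disSet_symmDiff (F D D' : Finset (ℤ × ℤ)) :
    mdl41DisSet F (symmDiff D D') = symmDiff (mdl41DisSet F D) (mdl41DisSet F D') := by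
  ext e
  simp only [Finset.mem_symmDiff, mdl41_mem_disSet, mdl41_dis_symmDiff]
  by_cases h : e ∈ rswInt F <;> by_cases a : Mdl41Dis D e <;> by_cases b : Mdl41Dis D' e <;> simp [h, a, b]

theorem mdl41_symmDiff_subset {F D D' : Finset (ℤ × ℤ)} (h : D ⊆ F) (h' : D' ⊆ F) : symmDiff D D' ⊆ F := by
  intro x hx
  rcases Finset.mem_symmDiff.1 hx with h1 | h1
  · exact h h1.1
  · exact h' h1.1

open Classical in
/-- the number of face colourings of `F` without any disagreement (`2` to the number of components of `F`) -/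
noncomputable def mdl41K (F : Finset (ℤ × ℤ)) : ℕ := (F.powerset.filter (fun D => mdl41DisSet F D = ∅)).card

theorem mdl41_K_pos (F : Finset (ℤ × ℤ)) : 0 < mdl41K F := by
  classical
  unfold mdl41K
  refine Finset.card_pos.2 ⟨∅, ?_⟩
  simp only [Finset.mem_filter, Finset.mem_powerset, Finset.empty_subset, true_and]
  ext e
  simp [mdl41_mem_disSet, Mdl41Dis]

open Classical in
/-- **all fibres have the same size** -/
theorem mdl41_card_fiber {F : Finset (ℤ × ℤ)} (hF : Mdl41Conn F) {η : Finset ((ℤ × ℤ) × Bool)}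
    (hη : η ⊆ rswInt F) (hev : Mdl41Even F η) :
    (F.powerset.filter (fun D => mdl41DisSet F D = η)).card = mdl41K F := by
  obtain ⟨D₀, hD₀, h⟩ := mdl41_exists_D hF hev
  have h0 : mdl41DisSet F D₀ = η := by
    ext e
    rw [mdl41_mem_disSet]
    constructor
    · rintro ⟨h1, h2⟩
      exact (h e h1).2 h2
    · intro he
      exact ⟨hη he, (h e (hη he)).1 he⟩
  unfold mdl41K
  refine Finset.card_nbij' (fun D => symmDiff D D₀) (fun D => symmDiff D D₀) ?_ ?_ ?_ ?_
  · intro D hD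
    simp only [Finset.coe_filter, Finset.mem_powerset, Set.mem_ofPred_eq] at hD ⊢
    refine ⟨mdl41_symmDiff_subset hD.1 hD₀, ?_⟩
    rw [mdl41_disSet_symmDiff, hD.2, h0, symmDiff_self]
    rfl
  · intro D hD
    simp only [Finset.coe_filter, Finset.mem_powerset, Set.mem_ofPred_eq] at hD ⊢
    refine ⟨mdl41_symmDiff_subset hD.1 hD₀, ?_⟩
    rw [mdl41_disSet_symmDiff, hD.2, h0]
    exact bot_symmDiff η
  · intro D _
    exact symmDiff_symmDiff_cancel_right D₀ D
  · intro D _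
    exact symmDiff_symmDiff_cancel_right D₀ D

open Classical in
/-- the even subgraphs contained in `A` -/
noncomputable def mdl41Evens (F : Finset (ℤ × ℤ)) (A : Finset ((ℤ × ℤ) × Bool)) : Finset (Finset ((ℤ × ℤ) × Bool)) :=
  A.powerset.filter (fun η => Mdl41Even F η)

theorem mdl41_mem_evens {F : Finset (ℤ × ℤ)} {A η : Finset ((ℤ × ℤ) × Bool)} :
    η ∈ mdl41Evens F A ↔ η ⊆ A ∧ Mdl41Even F η := by
  simp [mdl41Evens]

/-- **KRAMERS-WANNIER / EULER STEP**: a sum over the face colourings `D ⊆ F` of a function of the disagreement set is `K(F)` times the sum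
over the even subgraphs of the interior edges. -/
theorem mdl41_sum_D {F : Finset (ℤ × ℤ)} (hF : Mdl41Conn F) (w : Finset ((ℤ × ℤ) × Bool) → ℝ) :
    ∑ D ∈ F.powerset, w (mdl41DisSet F D) = (mdl41K F : ℝ) * ∑ η ∈ mdl41Evens F (rswInt F), w η := by
  classical
  rw [← Finset.sum_fiberwise_of_maps_to (s := F.powerset) (t := mdl41Evens F (rswInt F)) (g := fun D => mdl41DisSet F D)
    (fun D _ => mdl41_mem_evens.2 ⟨mdl41_disSet_subset F D, mdl41_even_disSet F D⟩), Finset.mul_sum]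
  refine Finset.sum_congr rfl fun η hη => ?_
  obtain ⟨h1, h2⟩ := mdl41_mem_evens.1 hη
  rw [← mdl41_card_fiber hF h1 h2, Finset.sum_congr rfl (g := fun _ => w η)
    (fun D hD => by rw [(Finset.mem_filter.1 hD).2]), Finset.sum_const, nsmul_eq_mul]

/-! ## F. the marginals of the weight of `Defs/RSW` -/

/-- the two endpoints of `e` have the same `s` colour -/
def Mdl41Ag (S : Finset (ℤ × ℤ)) (e : (ℤ × ℤ) × Bool) : Prop := (e.1 ∈ S ↔ rswEnd e ∈ S)

open Classical in
/-- the monochromatic interior edges -/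
noncomputable def mdl41Mono (F S : Finset (ℤ × ℤ)) : Finset ((ℤ × ℤ) × Bool) := (rswInt F).filter (fun e => Mdl41Ag S e)

open Classical in
/-- the interior edges with two colours -/
noncomputable def mdl41Sdis (F S : Finset (ℤ × ℤ)) : Finset ((ℤ × ℤ) × Bool) := (rswInt F).filter (fun e => ¬ Mdl41Ag S e)

theorem mdl41_mem_mono {F S : Finset (ℤ × ℤ)} {e : (ℤ × ℤ) × Bool} : e ∈ mdl41Mono F S ↔ e ∈ rswInt F ∧ Mdl41Ag S e := by
  simp [mdl41Mono]

theorem mdl41_mem_sdis {F S : Finset (ℤ × ℤ)} {e : (ℤ × ℤ) × Bool} : e ∈ mdl41Sdis F S ↔ e ∈ rswInt F ∧ ¬ Mdl41Ag S e := by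
  simp [mdl41Sdis]

theorem mdl41_mono_subset (F S : Finset (ℤ × ℤ)) : mdl41Mono F S ⊆ rswInt F := fun _ h => (mdl41_mem_mono.1 h).1

open Classical in
theorem mdl41_fac (t : ℝ) (S D : Finset (ℤ × ℤ)) (O : Finset ((ℤ × ℤ) × Bool)) (e : (ℤ × ℤ) × Bool) :
    rswFac t ⟨S, D, O⟩ e =
      if e ∈ O then (if Mdl41Ag S e then t else 0)
      else if Mdl41Dis D e then 0 else (if Mdl41Ag S e then 1 - t else t) := by
  unfold rswFac Mdl41Ag Mdl41Dis
  by_cases h1 : e ∈ O <;> by_cases h2 : (e.1 ∈ S ↔ rswEnd e ∈ S) <;> by_cases h3 : (e.1 ∈ D ↔ rswCo e ∈ D) <;>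
    simp [h1, h2, h3]

open Classical in
/-- the product of the edge factors, `O` fixed -/
theorem mdl41_prod_fac (t : ℝ) (F S D : Finset (ℤ × ℤ)) {O : Finset ((ℤ × ℤ) × Bool)} (hO : O ⊆ rswInt F) :
    ∏ e ∈ rswInt F, rswFac t ⟨S, D, O⟩ e =
      if O ⊆ mdl41Mono F S ∧ mdl41DisSet F D ⊆ O then
        t ^ O.card * (1 - t) ^ (mdl41Mono F S \ O).card * t ^ (mdl41Sdis F S).card else 0 := by
  by_cases h1 : O ⊆ mdl41Mono F S
  · by_cases h2 : mdl41DisSet F D ⊆ O
    · rw [if_pos ⟨h1, h2⟩]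
      have e1 : ∀ e ∈ rswInt F, rswFac t ⟨S, D, O⟩ e = if e ∈ O then t else (if Mdl41Ag S e then 1 - t else t) := by
        intro e he
        rw [mdl41_fac]
        by_cases a : e ∈ O
        · rw [if_pos a, if_pos a, if_pos (mdl41_mem_mono.1 (h1 a)).2]
        · rw [if_neg a, if_neg a, if_neg (fun hd => a (h2 (mdl41_mem_disSet.2 ⟨he, hd⟩)))]
      rw [Finset.prod_congr rfl e1, Finset.prod_ite, Finset.prod_ite, Finset.prod_const, Finset.prod_const,
        Finset.prod_const, mul_assoc]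
      have s1 : (rswInt F).filter (fun e => e ∈ O) = O := by
        ext e
        simp only [Finset.mem_filter]
        exact ⟨fun h => h.2, fun h => ⟨hO h, h⟩⟩
      have s2 : ((rswInt F).filter (fun e => e ∉ O)).filter (fun e => Mdl41Ag S e) = mdl41Mono F S \ O := by
        ext e
        simp only [Finset.mem_filter, Finset.mem_sdiff, mdl41_mem_mono]
        tauto
      have s3 : ((rswInt F).filter (fun e => e ∉ O)).filter (fun e => ¬ Mdl41Ag S e) = mdl41Sdis F S := by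
        ext e
        simp only [Finset.mem_filter, mdl41_mem_sdis]
        constructor
        · rintro ⟨⟨a, -⟩, c⟩
          exact ⟨a, c⟩
        · rintro ⟨a, c⟩
          exact ⟨⟨a, fun h => c (mdl41_mem_mono.1 (h1 h)).2⟩, c⟩
      rw [s1, s2, s3]
    · rw [if_neg (fun h => h2 h.2)]
      obtain ⟨e, he, heO⟩ := Finset.not_subset.1 h2
      obtain ⟨a, b⟩ := mdl41_mem_disSet.1 he
      refine Finset.prod_eq_zero a ?_
      rw [mdl41_fac, if_neg heO, if_pos b]
  · rw [if_neg (fun h => h1 h.1)]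
    obtain ⟨e, he, heM⟩ := Finset.not_subset.1 h1
    refine Finset.prod_eq_zero (hO he) ?_
    rw [mdl41_fac, if_pos he, if_neg (fun h => heM (mdl41_mem_mono.2 ⟨hO he, h⟩))]

theorem mdl41_evens_filter {F : Finset (ℤ × ℤ)} {A O : Finset ((ℤ × ℤ) × Bool)} (hO : O ⊆ A) :
    open Classical in (mdl41Evens F A).filter (fun η => η ⊆ O) = mdl41Evens F O := by
  classical
  ext η
  simp only [Finset.mem_filter, mdl41_mem_evens]
  constructor
  · rintro ⟨⟨-, b⟩, c⟩
    exact ⟨c, b⟩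
  · rintro ⟨a, b⟩
    exact ⟨⟨a.trans hO, b⟩, a⟩

open Classical in
/-- **the `(s, W)` marginal**: the sum over the transverse spins `d`.  `#(even subgraphs of O)` is `2^(|O| - |V| + k(O))` of TEX eq:spatial-euler. -/
theorem mdl41_sum_D_fac {F : Finset (ℤ × ℤ)} (hF : Mdl41Conn F) (t : ℝ) (S : Finset (ℤ × ℤ))
    {O : Finset ((ℤ × ℤ) × Bool)} (hO : O ⊆ rswInt F) :
    ∑ D ∈ F.powerset, ∏ e ∈ rswInt F, rswFac t ⟨S, D, O⟩ e =
      (mdl41K F : ℝ) * (if O ⊆ mdl41Mono F S then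
        t ^ O.card * (1 - t) ^ (mdl41Mono F S \ O).card * t ^ (mdl41Sdis F S).card * ((mdl41Evens F O).card : ℝ) else 0) := by
  let w : Finset ((ℤ × ℤ) × Bool) → ℝ := fun η => if O ⊆ mdl41Mono F S ∧ η ⊆ O then
        t ^ O.card * (1 - t) ^ (mdl41Mono F S \ O).card * t ^ (mdl41Sdis F S).card else 0
  have e1 : ∀ D ∈ F.powerset, ∏ e ∈ rswInt F, rswFac t ⟨S, D, O⟩ e = w (mdl41DisSet F D) :=
    fun D _ => mdl41_prod_fac t F S D hO
  rw [Finset.sum_congr rfl e1, mdl41_sum_D hF w]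
  congr 1
  show ∑ η ∈ mdl41Evens F (rswInt F), (if O ⊆ mdl41Mono F S ∧ η ⊆ O then
        t ^ O.card * (1 - t) ^ (mdl41Mono F S \ O).card * t ^ (mdl41Sdis F S).card else 0) = _
  by_cases h1 : O ⊆ mdl41Mono F S
  · simp only [h1, true_and, if_true]
    rw [← Finset.sum_filter, mdl41_evens_filter hO, Finset.sum_const, nsmul_eq_mul, mul_comm]
  · simp [h1]

open Classical in
/-- the sum over `W`, the spins fixed: the Ashkin-Teller weight of Def_0468 -/
theorem mdl41_sum_O_fac (t : ℝ) (F S D : Finset (ℤ × ℤ)) :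
    ∑ O ∈ (rswInt F).powerset, ∏ e ∈ rswInt F, rswFac t ⟨S, D, O⟩ e =
      if mdl41DisSet F D ⊆ mdl41Mono F S then t ^ (mdl41DisSet F D).card * t ^ (mdl41Sdis F S).card else 0 := by
  have e1 : ∀ O ∈ (rswInt F).powerset, ∏ e ∈ rswInt F, rswFac t ⟨S, D, O⟩ e =
      (∏ e ∈ O, (if Mdl41Ag S e then t else 0)) *
        ∏ e ∈ rswInt F \ O, (if Mdl41Dis D e then 0 else (if Mdl41Ag S e then 1 - t else t)) := by
    intro O hO
    have hO' := Finset.mem_powerset.1 hO
    rw [← Finset.prod_sdiff hO', mul_comm]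
    congr 1
    · refine Finset.prod_congr rfl fun e he => ?_
      rw [mdl41_fac, if_pos he]
    · refine Finset.prod_congr rfl fun e he => ?_
      rw [mdl41_fac, if_neg (Finset.mem_sdiff.1 he).2]
  rw [Finset.sum_congr rfl e1, ← Finset.prod_add]
  have e2 : ∀ e ∈ rswInt F, ((if Mdl41Ag S e then t else 0) +
      (if Mdl41Dis D e then 0 else (if Mdl41Ag S e then 1 - t else t)) : ℝ) =
      if Mdl41Ag S e then (if Mdl41Dis D e then t else 1) else (if Mdl41Dis D e then 0 else t) := by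
    intro e _
    by_cases a : Mdl41Ag S e <;> by_cases b : Mdl41Dis D e <;> simp [a, b]
  rw [Finset.prod_congr rfl e2]
  by_cases h : mdl41DisSet F D ⊆ mdl41Mono F S
  · rw [if_pos h, Finset.prod_ite]
    have p1 : ∏ e ∈ (rswInt F).filter (fun e => Mdl41Ag S e), (if Mdl41Dis D e then t else (1 : ℝ)) = t ^ (mdl41DisSet F D).card := by
      rw [Finset.prod_ite, Finset.prod_const, Finset.prod_const_one, mul_one]
      congr 2
      ext e
      simp only [Finset.mem_filter, mdl41_mem_disSet]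
      constructor
      · rintro ⟨⟨a, -⟩, c⟩
        exact ⟨a, c⟩
      · rintro ⟨a, c⟩
        exact ⟨⟨a, (mdl41_mem_mono.1 (h (mdl41_mem_disSet.2 ⟨a, c⟩))).2⟩, c⟩
    have p2 : ∏ e ∈ (rswInt F).filter (fun e => ¬ Mdl41Ag S e), (if Mdl41Dis D e then (0 : ℝ) else t) = t ^ (mdl41Sdis F S).card := by
      rw [Finset.prod_congr rfl (g := fun _ => t), Finset.prod_const]
      · rfl
      · intro e he
        obtain ⟨a, b⟩ := Finset.mem_filter.1 he
        rw [if_neg (fun c => b (mdl41_mem_mono.1 (h (mdl41_mem_disSet.2 ⟨a, c⟩))).2)]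
    rw [p1, p2]
  · rw [if_neg h]
    obtain ⟨e, he, heM⟩ := Finset.not_subset.1 h
    obtain ⟨a, b⟩ := mdl41_mem_disSet.1 he
    refine Finset.prod_eq_zero a ?_
    rw [if_neg (fun c => heM (mdl41_mem_mono.2 ⟨a, c⟩)), if_pos b]

open Classical in
/-- **the `s` marginal**: high-temperature form of an Ising model (`tanh β = t`) on the monochromatic graph, wired on the polygon. -/
theorem mdl41_sum_DO_fac {F : Finset (ℤ × ℤ)} (hF : Mdl41Conn F) (t : ℝ) (S : Finset (ℤ × ℤ)) :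
    ∑ D ∈ F.powerset, ∑ O ∈ (rswInt F).powerset, ∏ e ∈ rswInt F, rswFac t ⟨S, D, O⟩ e =
      (mdl41K F : ℝ) * (t ^ (mdl41Sdis F S).card * ∑ η ∈ mdl41Evens F (mdl41Mono F S), t ^ η.card) := by
  let w : Finset ((ℤ × ℤ) × Bool) → ℝ := fun η => if η ⊆ mdl41Mono F S then t ^ η.card * t ^ (mdl41Sdis F S).card else 0
  have e1 : ∀ D ∈ F.powerset, ∑ O ∈ (rswInt F).powerset, ∏ e ∈ rswInt F, rswFac t ⟨S, D, O⟩ e =
      w (mdl41DisSet F D) := fun D _ => mdl41_sum_O_fac t F S D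
  rw [Finset.sum_congr rfl e1, mdl41_sum_D hF w]
  congr 1
  show ∑ η ∈ mdl41Evens F (rswInt F), (if η ⊆ mdl41Mono F S then t ^ η.card * t ^ (mdl41Sdis F S).card else 0) = _
  rw [← Finset.sum_filter, mdl41_evens_filter (mdl41_mono_subset F S), Finset.mul_sum]
  exact Finset.sum_congr rfl fun η _ => mul_comm _ _

/-! ## G. the forms for `rswSum`, `rswE` -/

open Classical in
/-- weight of `(s, W) = (S, O)` after the sum over `d`, without the constant `K(F)` -/
noncomputable def mdl41WSO (t : ℝ) (F : Finset (ℤ × ℤ)) (b : Bool) (S : Finset (ℤ × ℤ)) (O : Finset ((ℤ × ℤ) × Bool)) : ℝ :=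
  if RswBc F b ⟨S, ∅, ∅⟩ ∧ O ⊆ mdl41Mono F S then
    t ^ O.card * (1 - t) ^ (mdl41Mono F S \ O).card * t ^ (mdl41Sdis F S).card * ((mdl41Evens F O).card : ℝ) else 0

open Classical in
/-- weight of `s = S` after the sums over `d` and `W`, without the constant `K(F)` -/
noncomputable def mdl41WS (t : ℝ) (F : Finset (ℤ × ℤ)) (b : Bool) (S : Finset (ℤ × ℤ)) : ℝ :=
  if RswBc F b ⟨S, ∅, ∅⟩ then t ^ (mdl41Sdis F S).card * ∑ η ∈ mdl41Evens F (mdl41Mono F S), t ^ η.card else 0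

theorem mdl41_rswSum_SO {F : Finset (ℤ × ℤ)} (hF : Mdl41Conn F) (t : ℝ) (b : Bool) (X : RswCfg → ℝ)
    (hX : ∀ S D D' O, X ⟨S, D, O⟩ = X ⟨S, D', O⟩) :
    rswSum t F b X = (mdl41K F : ℝ) *
      ∑ S ∈ (cornersOf F).powerset, ∑ O ∈ (rswInt F).powerset, mdl41WSO t F b S O * X ⟨S, ∅, O⟩ := by
  classical
  unfold rswSum
  rw [Finset.mul_sum]
  refine Finset.sum_congr rfl fun S _ => ?_
  rw [Finset.sum_comm, Finset.mul_sum]
  refine Finset.sum_congr rfl fun O hO => ?_
  have hO' := Finset.mem_powerset.1 hO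
  have e1 : ∀ D ∈ F.powerset, rswWt t F b ⟨S, D, O⟩ * X ⟨S, D, O⟩ =
      (if RswBc F b ⟨S, ∅, ∅⟩ then ∏ e ∈ rswInt F, rswFac t ⟨S, D, O⟩ e else 0) * X ⟨S, ∅, O⟩ := by
    intro D _
    rw [hX S D ∅ O]
    rfl
  rw [Finset.sum_congr rfl e1, ← Finset.sum_mul, ← mul_assoc]
  congr 1
  unfold mdl41WSO
  by_cases hb : RswBc F b ⟨S, ∅, ∅⟩
  · simp only [hb, if_true, true_and]
    exact mdl41_sum_D_fac hF t S hO'
  · simp [hb]

theorem mdl41_rswSum_S {F : Finset (ℤ × ℤ)} (hF : Mdl41Conn F) (t : ℝ) (b : Bool) (X : RswCfg → ℝ)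
    (hX : ∀ S D D' O O', X ⟨S, D, O⟩ = X ⟨S, D', O'⟩) :
    rswSum t F b X = (mdl41K F : ℝ) * ∑ S ∈ (cornersOf F).powerset, mdl41WS t F b S * X ⟨S, ∅, ∅⟩ := by
  classical
  unfold rswSum
  rw [Finset.mul_sum]
  refine Finset.sum_congr rfl fun S _ => ?_
  have e1 : ∀ D ∈ F.powerset, ∑ O ∈ (rswInt F).powerset, rswWt t F b ⟨S, D, O⟩ * X ⟨S, D, O⟩ =
      (if RswBc F b ⟨S, ∅, ∅⟩ then ∑ O ∈ (rswInt F).powerset, ∏ e ∈ rswInt F, rswFac t ⟨S, D, O⟩ e else 0) * X ⟨S, ∅, ∅⟩ := by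
    intro D _
    by_cases hb : RswBc F b ⟨S, ∅, ∅⟩
    · rw [if_pos hb, Finset.sum_mul]
      refine Finset.sum_congr rfl fun O _ => ?_
      rw [hX S D ∅ O ∅]
      congr 1
      exact if_pos hb
    · rw [if_neg hb, zero_mul]
      refine Finset.sum_eq_zero fun O _ => ?_
      have : rswWt t F b ⟨S, D, O⟩ = 0 := if_neg hb
      rw [this, zero_mul]
  rw [Finset.sum_congr rfl e1, ← Finset.sum_mul, ← mul_assoc]
  congr 1
  unfold mdl41WS
  by_cases hb : RswBc F b ⟨S, ∅, ∅⟩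
  · simp only [hb, if_true]
    exact mdl41_sum_DO_fac hF t S
  · simp [hb]

/-- expectation of a function of `(s, W)` -/
theorem mdl41_rswE_SO {F : Finset (ℤ × ℤ)} (hF : Mdl41Conn F) (t : ℝ) (b : Bool) (X : RswCfg → ℝ)
    (hX : ∀ S D D' O, X ⟨S, D, O⟩ = X ⟨S, D', O⟩) :
    rswE t F b X =
      (∑ S ∈ (cornersOf F).powerset, ∑ O ∈ (rswInt F).powerset, mdl41WSO t F b S O * X ⟨S, ∅, O⟩) /
        ∑ S ∈ (cornersOf F).powerset, ∑ O ∈ (rswInt F).powerset, mdl41WSO t F b S O := by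
  unfold rswE
  rw [mdl41_rswSum_SO hF t b X hX, mdl41_rswSum_SO hF t b (fun _ => 1) (fun _ _ _ _ => rfl),
    mul_div_mul_left _ _ (Nat.cast_ne_zero.2 (mdl41_K_pos F).ne')]
  simp only [mul_one]

/-- expectation of a function of `s` -/
theorem mdl41_rswE_S {F : Finset (ℤ × ℤ)} (hF : Mdl41Conn F) (t : ℝ) (b : Bool) (X : RswCfg → ℝ)
    (hX : ∀ S D D' O O', X ⟨S, D, O⟩ = X ⟨S, D', O'⟩) :
    rswE t F b X =
      (∑ S ∈ (cornersOf F).powerset, mdl41WS t F b S * X ⟨S, ∅, ∅⟩) / ∑ S ∈ (cornersOf F).powerset, mdl41WS t F b S := by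
  unfold rswE
  rw [mdl41_rswSum_S hF t b X hX, mdl41_rswSum_S hF t b (fun _ => 1) (fun _ _ _ _ _ => rfl),
    mul_div_mul_left _ _ (Nat.cast_ne_zero.2 (mdl41_K_pos F).ne')]
  simp only [mul_one]

/-! ## H. evenness in the words of graph theory -/

theorem mdl41_end_ne (e : (ℤ × ℤ) × Bool) : e.1 ≠ rswEnd e := by
  obtain ⟨⟨x, y⟩, b⟩ := e
  cases b <;> simp [rswEnd]

open Classical in
theorem mdl41_bd_ch (η : Finset ((ℤ × ℤ) × Bool)) (v : ℤ × ℤ) :
    mdl41Bd (mdl41Ch η) v = ((η.filter (fun e => e.1 = v ∨ rswEnd e = v)).card : ZMod 2) := by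
  have h : mdl41Ch η = ∑ e ∈ η, Finsupp.single e 1 := Finsupp.indicator_eq_sum_single η (fun _ => 1)
  rw [h, map_sum, Finsupp.finsetSum_apply, Finset.card_filter, Nat.cast_sum]
  refine Finset.sum_congr rfl fun e _ => ?_
  rw [mdl41_bd_single, one_smul, Finsupp.add_apply, Finsupp.single_apply, Finsupp.single_apply]
  have hne := mdl41_end_ne e
  by_cases a : e.1 = v
  · have b : rswEnd e ≠ v := fun b => hne (a.trans b.symm)
    simp [a, b]
  · by_cases b : rswEnd e = v <;> simp [a, b]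

open Classical in
theorem mdl41_even_iff (F : Finset (ℤ × ℤ)) (η : Finset ((ℤ × ℤ) × Bool)) :
    Mdl41Even F η ↔ ∀ v, ¬ OnPolygon F v → Even (η.filter (fun e => e.1 = v ∨ rswEnd e = v)).card := by
  unfold Mdl41Even
  refine forall_congr' fun v => imp_congr_right fun _ => ?_
  rw [mdl41_bd_ch, ZMod.natCast_eq_zero_iff_even]

end Claimed.Agent.R292
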