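import Claimed.Agent.R292.Model.Collar261
import Claimed.Agent.R292.Model.Kw41

/-!
# Row 292 (S0540), unit MODEL, block S5, planar fact (P1) : CUT-CYCLE DUALITY IN THE WORDS OF `Defs/RSW`      (owner helper261; prefix `dua261_`; 0 sorry)

AT paper, 03-spatial l.1345: "In a finite `W`-flat domain, planar cut-cycle duality says that two marks disconnected in `N` are separated by a simple monochromatic
`W` loop, allowing portions of the matching outer perimeter."   Here WITHOUT loops, for EVERY finite set of faces `F` (no Jordan hypothesis):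

**`dua261_duality`** : `ω` feasible for the flat problem `(F, b)` (boundary spins `b`, open interior edges monochromatic), `f`, `g` not `N`-connected
   ⟹ there is ONE colour `a` such that no dual path in `F` from `f` to `g` avoids the good edges of colour `a`.
**`dua261_compat_iff_wit`** : for feasible `ω`, compatibility of a sign assignment = existence of (global) witnesses `Col261Wit F F`.
`dua261_feas_of_wt` : a configuration of nonzero weight is feasible.

PROOF (homological; the only planar input is `mdl41_exact` of `Model/Kw41`: a finite cycle mod 2 of `ℤ²` is the disagreement set of a colouring of the faces).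
`C` = the `N`-cluster of `f`, `X` = the faces reached from `g` off `C`, `Δ` = the interior edges between `X` and `C` (all open).  The edges of `Δ` of the colour `¬ b` form a
cycle (at a vertex of colour `b` there is none; a vertex of colour `¬ b` is interior and sees all of `Δ`, which is the coboundary of `X`), hence a coboundary `δγ`; `γ` is constant on `C` and on `X`;
so they are none or all of `Δ`.
-/

set_option autoImplicit false

namespace Claimed.Agent.R292

open Claims Claims.C0468

/-- `ω` is feasible for the flat problem `(F, b)` -/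
def Dua261Feas (F : Finset (ℤ × ℤ)) (b : Bool) (ω : RswCfg) : Prop :=
  RswBc F b ω ∧ ∀ e ∈ rswInt F, e ∈ ω.O → (e.1 ∈ ω.S ↔ rswEnd e ∈ ω.S)

theorem dua261_feas_of_wt {t : ℝ} {F : Finset (ℤ × ℤ)} {b : Bool} {ω : RswCfg} (h : rswWt t F b ω ≠ 0) : Dua261Feas F b ω := by
  classical
  unfold rswWt at h
  by_cases hb : RswBc F b ω
  · rw [if_pos hb] at h
    refine ⟨hb, fun e he hO => ?_⟩
    by_contra hne
    apply h
    refine Finset.prod_eq_zero he ?_
    unfold rswFac
    rw [if_pos hO, if_neg hne]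
  · rw [if_neg hb] at h
    exact absurd rfl h

section Proof

variable {F : Finset (ℤ × ℤ)} {b : Bool} {ω : RswCfg} {f g : ℤ × ℤ}

/-- dual steps in `F` off the `N`-cluster of `f` -/
def Dua261St (F : Finset (ℤ × ℤ)) (ω : RswCfg) (f x y : ℤ × ℤ) : Prop :=
  ∃ e ∈ rswInt F, ((x = e.1 ∧ y = rswCo e) ∨ (y = e.1 ∧ x = rswCo e)) ∧
    ¬ Relation.ReflTransGen (Col261NStep F ω) f x ∧ ¬ Relation.ReflTransGen (Col261NStep F ω) f y

/-- the faces reached from `g` off the cluster of `f` -/
def Dua261X (F : Finset (ℤ × ℤ)) (ω : RswCfg) (f g x : ℤ × ℤ) : Prop := Relation.ReflTransGen (Dua261St F ω f) g x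

theorem dua261_X_not_C (hfg : ¬ Relation.ReflTransGen (Col261NStep F ω) f g) {x : ℤ × ℤ} (hx : Dua261X F ω f g x) :
    ¬ Relation.ReflTransGen (Col261NStep F ω) f x := by
  induction hx with
  | refl => exact hfg
  | tail _ h _ =>
    obtain ⟨e, _, _, _, h2⟩ := h
    exact h2

/-- Fact B: a neighbour of `X` is in `X` or in the cluster -/
theorem dua261_nbr (hfg : ¬ Relation.ReflTransGen (Col261NStep F ω) f g) {e : (ℤ × ℤ) × Bool} (he : e ∈ rswInt F) {x y : ℤ × ℤ}
    (hxy : (x = e.1 ∧ y = rswCo e) ∨ (y = e.1 ∧ x = rswCo e)) (hx : Dua261X F ω f g x) :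
    Dua261X F ω f g y ∨ Relation.ReflTransGen (Col261NStep F ω) f y := by
  by_cases hy : Relation.ReflTransGen (Col261NStep F ω) f y
  · exact Or.inr hy
  · exact Or.inl (Relation.ReflTransGen.tail hx ⟨e, he, hxy, dua261_X_not_C hfg hx, hy⟩)

/-- Fact A: an interior edge with exactly one face in `X` is open -/
theorem dua261_open (hfg : ¬ Relation.ReflTransGen (Col261NStep F ω) f g) {e : (ℤ × ℤ) × Bool} (he : e ∈ rswInt F) {x y : ℤ × ℤ}
    (hxy : (x = e.1 ∧ y = rswCo e) ∨ (y = e.1 ∧ x = rswCo e)) (hx : Dua261X F ω f g x) (hy : ¬ Dua261X F ω f g y) : e ∈ ω.O := by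
  by_contra hO
  rcases dua261_nbr hfg he hxy hx with h | h
  · exact hy h
  · exact dua261_X_not_C hfg hx (Relation.ReflTransGen.tail h ⟨e, he, hxy.symm, hO⟩)

open Classical in
/-- the edges of the cut of the colour `¬ b` -/
noncomputable def dua261D1 (F : Finset (ℤ × ℤ)) (b : Bool) (ω : RswCfg) (f g : ℤ × ℤ) : Finset ((ℤ × ℤ) × Bool) :=
  (rswInt F).filter fun e => ¬ (Dua261X F ω f g e.1 ↔ Dua261X F ω f g (rswCo e)) ∧ ¬ (e.1 ∈ ω.S ↔ b = true)

theorem dua261_mem_D1 {e : (ℤ × ℤ) × Bool} : e ∈ dua261D1 F b ω f g ↔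
    e ∈ rswInt F ∧ ¬ (Dua261X F ω f g e.1 ↔ Dua261X F ω f g (rswCo e)) ∧ ¬ (e.1 ∈ ω.S ↔ b = true) := by
  classical
  unfold dua261D1
  rw [Finset.mem_filter]

/-- an interior edge with exactly one face in `X` is open (symmetric form) -/
theorem dua261_open' (hfg : ¬ Relation.ReflTransGen (Col261NStep F ω) f g) {e : (ℤ × ℤ) × Bool} (he : e ∈ rswInt F)
    (hx : ¬ (Dua261X F ω f g e.1 ↔ Dua261X F ω f g (rswCo e))) : e ∈ ω.O := by
  by_cases h1 : Dua261X F ω f g e.1
  · have h2 : ¬ Dua261X F ω f g (rswCo e) := fun h2 => hx ⟨fun _ => h2, fun _ => h1⟩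
    exact dua261_open hfg he (Or.inl ⟨rfl, rfl⟩) h1 h2
  · have h2 : Dua261X F ω f g (rswCo e) := by
      by_contra h2
      exact hx ⟨fun h => absurd h h1, fun h => absurd h h2⟩
    exact dua261_open hfg he (Or.inr ⟨rfl, rfl⟩) h2 h1

open Classical in
/-- the indicator of `X` mod 2 -/
noncomputable def dua261x (F : Finset (ℤ × ℤ)) (ω : RswCfg) (f g x : ℤ × ℤ) : ZMod 2 := if Dua261X F ω f g x then 1 else 0

open Classical in
theorem dua261_x_add (x y : ℤ × ℤ) :
    dua261x F ω f g x + dua261x F ω f g y = if ¬ (Dua261X F ω f g x ↔ Dua261X F ω f g y) then 1 else 0 := by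
  classical
  unfold dua261x
  by_cases h1 : Dua261X F ω f g x <;> by_cases h2 : Dua261X F ω f g y <;> simp [h1, h2]
  rfl

theorem dua261_mono (hω : Dua261Feas F b ω) (hfg : ¬ Relation.ReflTransGen (Col261NStep F ω) f g) {e : (ℤ × ℤ) × Bool}
    (he : e ∈ rswInt F) (hx : ¬ (Dua261X F ω f g e.1 ↔ Dua261X F ω f g (rswCo e))) : (e.1 ∈ ω.S ↔ rswEnd e ∈ ω.S) :=
  hω.2 e he (dua261_open' hfg he hx)

theorem dua261_four : ∀ a b c d : ZMod 2, (a + b) + (c + d) + (a + c) + (b + d) = 0 := by decide

open Classical in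
/-- at an edge `e` of `F` one of whose endpoints `v` has the colour `¬ b`: `e` is in `D1` iff exactly one of its faces is in `X` -/
theorem dua261_ch_eq (hω : Dua261Feas F b ω) (hfg : ¬ Relation.ReflTransGen (Col261NStep F ω) f g) {e : (ℤ × ℤ) × Bool}
    (he : e ∈ rswInt F) {v : ℤ × ℤ} (hv : ¬ (v ∈ ω.S ↔ b = true)) (hev : e.1 = v ∨ rswEnd e = v) :
    mdl41Ch (dua261D1 F b ω f g) e = dua261x F ω f g e.1 + dua261x F ω f g (rswCo e) := by
  rw [mdl41_ch_apply, dua261_x_add]
  by_cases hx : ¬ (Dua261X F ω f g e.1 ↔ Dua261X F ω f g (rswCo e))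
  · rw [if_pos hx, if_pos]
    rw [dua261_mem_D1]
    refine ⟨he, hx, ?_⟩
    rcases hev with h | h
    · rw [h]; exact hv
    · have := dua261_mono hω hfg he hx
      rw [this, h]; exact hv
  · rw [if_neg hx, if_neg]
    intro h
    exact hx (dua261_mem_D1.1 h).2.1

/-- an edge of `D1` has no endpoint of the colour `b` -/
theorem dua261_not_mem (hω : Dua261Feas F b ω) (hfg : ¬ Relation.ReflTransGen (Col261NStep F ω) f g) {e : (ℤ × ℤ) × Bool}
    {v : ℤ × ℤ} (hv : (v ∈ ω.S ↔ b = true)) (hev : e.1 = v ∨ rswEnd e = v) : e ∉ dua261D1 F b ω f g := by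
  intro h
  obtain ⟨he, hx, hc⟩ := dua261_mem_D1.1 h
  rcases hev with h1 | h1
  · rw [h1] at hc; exact hc hv
  · have := dua261_mono hω hfg he hx
    rw [this, h1] at hc; exact hc hv

/-- Fact C: the edges of the cut of the colour `¬ b` form a cycle mod 2 of the whole lattice -/
theorem dua261_cycle (hω : Dua261Feas F b ω) (hfg : ¬ Relation.ReflTransGen (Col261NStep F ω) f g) :
    mdl41Bd (mdl41Ch (dua261D1 F b ω f g)) = 0 := by
  classical
  ext v
  rw [mdl41_bd_apply]
  have eW : rswEnd ((v.1 - 1, v.2), false) = v := by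
    rw [col261_end_false]; ext <;> simp
  have eS : rswEnd ((v.1, v.2 - 1), true) = v := by
    rw [col261_end_true]; ext <;> simp
  by_cases hv : (v ∈ ω.S ↔ b = true)
  · rw [mdl41_ch_apply, mdl41_ch_apply, mdl41_ch_apply, mdl41_ch_apply,
      if_neg (dua261_not_mem hω hfg hv (Or.inl rfl)), if_neg (dua261_not_mem hω hfg hv (Or.inr eW)),
      if_neg (dua261_not_mem hω hfg hv (Or.inl rfl)), if_neg (dua261_not_mem hω hfg hv (Or.inr eS))]
    simp
  · by_cases hP : OnPolygon F v
    · have hc : v ∉ cornersOf F := fun hc => hv (hω.1 v hc hP)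
      have key : ∀ e : (ℤ × ℤ) × Bool, v ∈ ({e.1, (e.1.1 + 1, e.1.2), (e.1.1, e.1.2 + 1), (e.1.1 + 1, e.1.2 + 1)} : Finset (ℤ × ℤ)) →
          e ∉ dua261D1 F b ω f g := by
        intro e hve h
        exact hc (col261_corner_of_face (mdl41_mem_int.1 (dua261_mem_D1.1 h).1).1 hve)
      rw [mdl41_ch_apply, mdl41_ch_apply, mdl41_ch_apply, mdl41_ch_apply,
        if_neg (key _ (by simp)), if_neg (key _ (by simp)), if_neg (key _ (by simp)), if_neg (key _ (by simp))]
      simp
    · have hF : v ∈ F ∧ (v.1 - 1, v.2) ∈ F ∧ (v.1, v.2 - 1) ∈ F ∧ (v.1 - 1, v.2 - 1) ∈ F := by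
        by_contra h
        exact hP h
      have iE : (v, false) ∈ rswInt F := mdl41_mem_int.2 ⟨hF.1, by rw [col261_co_false]; exact hF.2.2.1⟩
      have iW : ((v.1 - 1, v.2), false) ∈ rswInt F := mdl41_mem_int.2 ⟨hF.2.1, by rw [col261_co_false]; exact hF.2.2.2⟩
      have iN : (v, true) ∈ rswInt F := mdl41_mem_int.2 ⟨hF.1, by rw [col261_co_true]; exact hF.2.1⟩
      have iS : ((v.1, v.2 - 1), true) ∈ rswInt F := mdl41_mem_int.2 ⟨hF.2.2.1, by rw [col261_co_true]; exact hF.2.2.2⟩
      rw [dua261_ch_eq hω hfg iE hv (Or.inl rfl), dua261_ch_eq hω hfg iW hv (Or.inr eW),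
        dua261_ch_eq hω hfg iN hv (Or.inl rfl), dua261_ch_eq hω hfg iS hv (Or.inr eS),
        col261_co_false, col261_co_false, col261_co_true, col261_co_true]
      exact dua261_four _ _ _ _

/-- **(P1) cut-cycle duality.**  In a feasible configuration of the flat problem `(F, b)`, two faces which are not `N`-connected are separated by the good edges of ONE colour. -/
theorem dua261_duality (hω : Dua261Feas F b ω) (hfg : ¬ Relation.ReflTransGen (Col261NStep F ω) f g) :
    ∃ a : Bool, ¬ Relation.ReflTransGen (Col261StepIn F F a ω) f g := by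
  classical
  obtain ⟨γ, hγ⟩ := mdl41_exact _ (dua261_cycle hω hfg)
  -- `γ` is constant on the cluster of `f`
  have hC : ∀ x, Relation.ReflTransGen (Col261NStep F ω) f x → γ x = γ f := by
    intro x hx
    induction hx with
    | refl => rfl
    | tail _ h ih =>
      obtain ⟨e, he, hxy, hO⟩ := h
      have h0 : mdl41Ch (dua261D1 F b ω f g) e = 0 := by
        rw [mdl41_ch_apply, if_neg]
        intro h1
        exact hO (dua261_open' hfg he (dua261_mem_D1.1 h1).2.1)
      have h1 := hγ e
      rw [h0] at h1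
      have h2 : γ e.1 = γ (rswCo e) := by
        have := CharTwo.add_eq_zero.1 h1.symm
        exact this
      rcases hxy with ⟨r1, r2⟩ | ⟨r1, r2⟩
      · rw [r2, ← h2, ← r1]; exact ih
      · rw [r1, h2, ← r2]; exact ih
  -- `γ` is constant on `X`
  have hX : ∀ x, Dua261X F ω f g x → γ x = γ g := by
    intro x hx
    induction hx with
    | refl => rfl
    | @tail y z hy h ih =>
      have hz : Dua261X F ω f g z := Relation.ReflTransGen.tail hy h
      obtain ⟨e, he, hxy, _, _⟩ := h
      have h0 : mdl41Ch (dua261D1 F b ω f g) e = 0 := by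
        rw [mdl41_ch_apply, if_neg]
        intro h1
        apply (dua261_mem_D1.1 h1).2.1
        rcases hxy with ⟨r1, r2⟩ | ⟨r1, r2⟩
        · rw [← r1, ← r2]; exact ⟨fun _ => hz, fun _ => hy⟩
        · rw [← r1, ← r2]; exact ⟨fun _ => hy, fun _ => hz⟩
      have h1 := hγ e
      rw [h0] at h1
      have h2 : γ e.1 = γ (rswCo e) := CharTwo.add_eq_zero.1 h1.symm
      rcases hxy with ⟨r1, r2⟩ | ⟨r1, r2⟩
      · rw [r2, ← h2, ← r1]; exact ih
      · rw [r1, h2, ← r2]; exact ih
  -- the value of the chain on an edge of the cut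
  have hcut : ∀ e ∈ rswInt F, ¬ (Dua261X F ω f g e.1 ↔ Dua261X F ω f g (rswCo e)) →
      mdl41Ch (dua261D1 F b ω f g) e = γ f + γ g := by
    intro e he hx
    rw [hγ e]
    by_cases h1 : Dua261X F ω f g e.1
    · have h2 : ¬ Dua261X F ω f g (rswCo e) := fun h2 => hx ⟨fun _ => h2, fun _ => h1⟩
      rcases dua261_nbr hfg he (Or.inl ⟨rfl, rfl⟩) h1 with h3 | h3
      · exact absurd h3 h2
      · rw [hX _ h1, hC _ h3, add_comm]
    · have h2 : Dua261X F ω f g (rswCo e) := by
        by_contra h2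
        exact hx ⟨fun h => absurd h h1, fun h => absurd h h2⟩
      rcases dua261_nbr hfg he (Or.inr ⟨rfl, rfl⟩) h2 with h3 | h3
      · exact absurd h3 h1
      · rw [hX _ h2, hC _ h3]
  -- one colour for the whole cut
  have hcol : ∃ a : Bool, ∀ e ∈ rswInt F, ¬ (Dua261X F ω f g e.1 ↔ Dua261X F ω f g (rswCo e)) → RswGood a ω e := by
    by_cases hγ0 : γ f + γ g = 0
    · refine ⟨b, fun e he hx => ?_⟩
      have h1 := hcut e he hx
      rw [hγ0, mdl41_ch_apply] at h1
      have h2 : e ∉ dua261D1 F b ω f g := by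
        intro h; rw [if_pos h] at h1; exact one_ne_zero h1
      have h3 : (e.1 ∈ ω.S ↔ b = true) := by
        by_contra h3
        exact h2 (dua261_mem_D1.2 ⟨he, hx, h3⟩)
      exact ⟨dua261_open' hfg he hx, h3, (dua261_mono hω hfg he hx).symm.trans h3⟩
    · refine ⟨!b, fun e he hx => ?_⟩
      have h1 := hcut e he hx
      rw [mdl41_ch_apply] at h1
      have h2 : e ∈ dua261D1 F b ω f g := by
        by_contra h; rw [if_neg h] at h1; exact hγ0 h1.symm
      have h3 : (e.1 ∈ ω.S ↔ (!b) = true) := by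
        have := (dua261_mem_D1.1 h2).2.2
        cases b <;> simp_all
      exact ⟨dua261_open' hfg he hx, h3, (dua261_mono hω hfg he hx).symm.trans h3⟩
  obtain ⟨a, ha⟩ := hcol
  refine ⟨a, fun hpath => ?_⟩
  have hpath' := col261_rtg_symm (fun _ _ h' => col261_stepIn_symm h') hpath
  have hinv : ∀ x, Relation.ReflTransGen (Col261StepIn F F a ω) g x → Dua261X F ω f g x := by
    intro x hx
    induction hx with
    | refl => exact Relation.ReflTransGen.refl
    | @tail y z _ h ih =>
      obtain ⟨e, he, hxy, hng⟩ := h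
      by_contra hz
      apply hng
      have hmem : e ∈ col261E F F := Finset.mem_filter.2 ⟨he, Or.inl (mdl41_mem_int.1 he).1⟩
      refine ⟨ha e he ?_, hmem⟩
      rcases hxy with ⟨r1, r2⟩ | ⟨r1, r2⟩
      · rw [← r1, ← r2]; exact fun h => hz (h.1 ih)
      · rw [← r1, ← r2]; exact fun h => hz (h.2 ih)
  exact dua261_X_not_C hfg (hinv f hpath') Relation.ReflTransGen.refl

/-- for a feasible configuration: compatible = witnessed (globally) -/
theorem dua261_compat_iff_wit (hω : Dua261Feas F b ω) (Mp Mm : Finset (ℤ × ℤ)) :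
    Col261Compat F ω Mp Mm ↔ Col261Wit F F ω Mp Mm :=
  ⟨fun h x hx y hy => dua261_duality hω (h x hx y hy), col261_wit_compat⟩

end Proof

end Claimed.Agent.R292
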