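import Claimed.Agent.R292.Defs.RSW
import Claimed.Agent.R292.AtHeight

/-!
# Row 292 (S0540), unit MODEL, block S6 = COLOURS AND JUMPS      (helper61; prefix `mdl61`, `Mdl61`)

SORRY-FREE.   AT paper, Lemma 3.1 `lem:finite-cuts`, assertions (1) and (3), in the vocabulary of `Defs/RSW` (`s` primal, `d` = face spins, `W` = `O`).
The graph `N` of `(F, O)`: two faces of `F` are joined when they are the two faces of an interior edge which is NOT in `O`.

* `Mdl61Cl F O C`     `C ⊆ F` is a union of components of `N`;   `mdl61Flip C ω` flips the face spins on `C`.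
* `mdl61_wt_const`    the weight depends on `D` only through the equality constraints on the edges of `N`.
* `mdl61_wt_flip`, `mdl61_sum_flip`, `mdl61_E_flip`, `mdl61_P_flip`   flipping `D` on a union of components chosen from `(S, O)` preserves the law.
* `mdl61Comp F O f`, `mdl61Comps F O`   the components of `N`.
* **`mdl61_sum_signs`**   (1): given `(S, O)` the sum over `D` is the sum over ALL assignments of a sign to every component, with ONE common weight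
                          (independent fair signs).
* `mdl61_jump`        eq:spatial-height-jump.
* **`mdl61_H_signs`**  (3): the wall-anchored height at a primal vertex is a LINEAR FORM in these signs: `H(v) = ∑_K σ_K q_K(v)`, `q_K` a function of `(S, O)`.
-/

set_option autoImplicit false

namespace Claimed.Agent.R292

open Claims Claims.C0468

/-- `C` is a union of components of the graph `N` of `(F, O)` -/
def Mdl61Cl (F : Finset (ℤ × ℤ)) (O : Finset ((ℤ × ℤ) × Bool)) (C : Finset (ℤ × ℤ)) : Prop :=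
  C ⊆ F ∧ ∀ e ∈ rswInt F, e ∉ O → (e.1 ∈ C ↔ rswCo e ∈ C)

/-- flip the face spins on `C` -/
def mdl61Flip (C : Finset (ℤ × ℤ)) (ω : RswCfg) : RswCfg := ⟨ω.S, symmDiff ω.D C, ω.O⟩

/-- the face spins are constant along the edges of `N` -/
def Mdl61Const (F : Finset (ℤ × ℤ)) (O : Finset ((ℤ × ℤ) × Bool)) (D : Finset (ℤ × ℤ)) : Prop :=
  ∀ e ∈ rswInt F, e ∉ O → (e.1 ∈ D ↔ rswCo e ∈ D)

/-- the component of the face `f` -/
noncomputable def mdl61Comp (F : Finset (ℤ × ℤ)) (O : Finset ((ℤ × ℤ) × Bool)) (f : ℤ × ℤ) : Finset (ℤ × ℤ) :=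
  open Classical in F.filter (fun g => ∀ C, Mdl61Cl F O C → f ∈ C → g ∈ C)

/-- the components of `N` -/
noncomputable def mdl61Comps (F : Finset (ℤ × ℤ)) (O : Finset ((ℤ × ℤ) × Bool)) : Finset (Finset (ℤ × ℤ)) :=
  F.image (mdl61Comp F O)

/-- the coefficient of the sign of the component `K` in the height at `v` -/
noncomputable def mdl61Q (F : Finset (ℤ × ℤ)) (S : Finset (ℤ × ℤ)) (O : Finset ((ℤ × ℤ) × Bool)) (K : Finset (ℤ × ℤ))
    (v : ℤ × ℤ) : ℝ :=
  (rswH F ⟨S, F, O⟩ v - rswH F ⟨S, F \ K, O⟩ v) / 2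

/-! ## 1. the weight -/

theorem mdl61_fac_const (t : ℝ) (S D : Finset (ℤ × ℤ)) (O : Finset ((ℤ × ℤ) × Bool)) (e : (ℤ × ℤ) × Bool) :
    rswFac t ⟨S, D, O⟩ e =
      open Classical in if (e ∉ O → (e.1 ∈ D ↔ rswCo e ∈ D)) then rswFac t ⟨S, ∅, O⟩ e else 0 := by
  classical
  unfold rswFac
  by_cases he : e ∈ O
  · simp [he]
  · by_cases hd : (e.1 ∈ D ↔ rswCo e ∈ D)
    · simp [he, hd]
    · simp [he, hd]

theorem mdl61_wt_const (t : ℝ) (F : Finset (ℤ × ℤ)) (b : Bool) (S D : Finset (ℤ × ℤ)) (O : Finset ((ℤ × ℤ) × Bool)) :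
    rswWt t F b ⟨S, D, O⟩ = open Classical in if Mdl61Const F O D then rswWt t F b ⟨S, ∅, O⟩ else 0 := by
  classical
  unfold rswWt
  have hbc : RswBc F b ⟨S, D, O⟩ ↔ RswBc F b ⟨S, ∅, O⟩ := Iff.rfl
  by_cases hB : RswBc F b ⟨S, ∅, O⟩
  · rw [if_pos (hbc.2 hB), if_pos hB]
    by_cases hc : Mdl61Const F O D
    · rw [if_pos hc]
      refine Finset.prod_congr rfl fun e he => ?_
      rw [mdl61_fac_const, if_pos (hc e he)]
    · rw [if_neg hc]
      unfold Mdl61Const at hc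
      push Not at hc
      obtain ⟨e, he, heO, hne⟩ := hc
      refine Finset.prod_eq_zero he ?_
      rw [mdl61_fac_const, if_neg]
      intro h
      have := h heO
      tauto
  · rw [if_neg (fun h => hB (hbc.1 h)), if_neg hB]
    simp

theorem mdl61_const_flip {F : Finset (ℤ × ℤ)} {O : Finset ((ℤ × ℤ) × Bool)} {C : Finset (ℤ × ℤ)} (hC : Mdl61Cl F O C)
    (D : Finset (ℤ × ℤ)) : Mdl61Const F O (symmDiff D C) ↔ Mdl61Const F O D := by
  unfold Mdl61Const
  refine forall_congr' fun e => forall_congr' fun he => forall_congr' fun heO => ?_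
  have := hC.2 e he heO
  simp only [Finset.mem_symmDiff]
  tauto

theorem mdl61_wt_flip (t : ℝ) {F : Finset (ℤ × ℤ)} (b : Bool) {C : Finset (ℤ × ℤ)} (ω : RswCfg) (hC : Mdl61Cl F ω.O C) :
    rswWt t F b (mdl61Flip C ω) = rswWt t F b ω := by
  classical
  obtain ⟨S, D, O⟩ := ω
  unfold mdl61Flip
  rw [mdl61_wt_const t F b S (symmDiff D C) O, mdl61_wt_const t F b S D O]
  simp only [mdl61_const_flip hC D]

theorem mdl61_sum_swap (t : ℝ) (F : Finset (ℤ × ℤ)) (b : Bool) (X : RswCfg → ℝ) :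
    rswSum t F b X = ∑ S ∈ (cornersOf F).powerset, ∑ O ∈ (rswInt F).powerset, ∑ D ∈ F.powerset,
      rswWt t F b ⟨S, D, O⟩ * X ⟨S, D, O⟩ := by
  unfold rswSum
  exact Finset.sum_congr rfl fun S _ => Finset.sum_comm

theorem mdl61_sum_flip (t : ℝ) (F : Finset (ℤ × ℤ)) (b : Bool)
    (C : Finset (ℤ × ℤ) → Finset ((ℤ × ℤ) × Bool) → Finset (ℤ × ℤ)) (hC : ∀ S O, Mdl61Cl F O (C S O)) (X : RswCfg → ℝ) :
    rswSum t F b (fun ω => X (mdl61Flip (C ω.S ω.O) ω)) = rswSum t F b X := by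
  classical
  rw [mdl61_sum_swap, mdl61_sum_swap]
  refine Finset.sum_congr rfl fun S _ => Finset.sum_congr rfl fun O _ => ?_
  refine Finset.sum_nbij' (fun D => symmDiff D (C S O)) (fun D => symmDiff D (C S O)) ?_ ?_ ?_ ?_ ?_
  · intro D hD
    rw [Finset.mem_powerset] at hD ⊢
    intro x hx
    rw [Finset.mem_symmDiff] at hx
    rcases hx with h | h
    · exact hD h.1
    · exact (hC S O).1 h.1
  · intro D hD
    rw [Finset.mem_powerset] at hD ⊢
    intro x hx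
    rw [Finset.mem_symmDiff] at hx
    rcases hx with h | h
    · exact hD h.1
    · exact (hC S O).1 h.1
  · intro D _
    exact symmDiff_symmDiff_cancel_right _ _
  · intro D _
    exact symmDiff_symmDiff_cancel_right _ _
  · intro D _
    have := mdl61_wt_flip t b (F := F) (C := C S O) ⟨S, D, O⟩ (hC S O)
    unfold mdl61Flip at this ⊢
    simp only at this ⊢
    rw [this]

theorem mdl61_E_flip (t : ℝ) (F : Finset (ℤ × ℤ)) (b : Bool)
    (C : Finset (ℤ × ℤ) → Finset ((ℤ × ℤ) × Bool) → Finset (ℤ × ℤ)) (hC : ∀ S O, Mdl61Cl F O (C S O)) (X : RswCfg → ℝ) :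
    rswE t F b (fun ω => X (mdl61Flip (C ω.S ω.O) ω)) = rswE t F b X := by
  unfold rswE
  rw [mdl61_sum_flip t F b C hC X]

/-! ### the components -/

theorem mdl61_cl_iff {F : Finset (ℤ × ℤ)} {O : Finset ((ℤ × ℤ) × Bool)} {D : Finset (ℤ × ℤ)} :
    Mdl61Cl F O D ↔ D ⊆ F ∧ Mdl61Const F O D := Iff.rfl

theorem mdl61_mem_int {F : Finset (ℤ × ℤ)} {e : (ℤ × ℤ) × Bool} : e ∈ rswInt F ↔ e.1 ∈ F ∧ rswCo e ∈ F := by
  unfold rswInt
  simp [Finset.mem_filter, Finset.mem_product]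

theorem mdl61_cl_univ (F : Finset (ℤ × ℤ)) (O : Finset ((ℤ × ℤ) × Bool)) : Mdl61Cl F O F :=
  ⟨Finset.Subset.refl _, fun e he _ => by
    have := mdl61_mem_int.1 he
    exact ⟨fun _ => this.2, fun _ => this.1⟩⟩

theorem mdl61_cl_sdiff {F : Finset (ℤ × ℤ)} {O : Finset ((ℤ × ℤ) × Bool)} {C : Finset (ℤ × ℤ)} (hC : Mdl61Cl F O C) :
    Mdl61Cl F O (F \ C) :=
  ⟨Finset.sdiff_subset, fun e he heO => by
    have h1 := mdl61_mem_int.1 he
    have h2 := hC.2 e he heO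
    simp only [Finset.mem_sdiff]
    tauto⟩

theorem mdl61_cl_biUnion {F : Finset (ℤ × ℤ)} {O : Finset ((ℤ × ℤ) × Bool)} {T : Finset (Finset (ℤ × ℤ))}
    (hT : ∀ K ∈ T, Mdl61Cl F O K) : Mdl61Cl F O (T.biUnion id) := by
  refine ⟨fun x hx => ?_, fun e he heO => ?_⟩
  · obtain ⟨K, hK, hx⟩ := Finset.mem_biUnion.1 hx
    exact (hT K hK).1 hx
  · simp only [Finset.mem_biUnion, id]
    constructor
    · rintro ⟨K, hK, hx⟩
      exact ⟨K, hK, ((hT K hK).2 e he heO).1 hx⟩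
    · rintro ⟨K, hK, hx⟩
      exact ⟨K, hK, ((hT K hK).2 e he heO).2 hx⟩

theorem mdl61_mem_comp {F : Finset (ℤ × ℤ)} {O : Finset ((ℤ × ℤ) × Bool)} {f g : ℤ × ℤ} :
    g ∈ mdl61Comp F O f ↔ g ∈ F ∧ ∀ C, Mdl61Cl F O C → f ∈ C → g ∈ C := by
  classical
  unfold mdl61Comp
  rw [Finset.mem_filter]

theorem mdl61_self_mem_comp {F : Finset (ℤ × ℤ)} (O : Finset ((ℤ × ℤ) × Bool)) {f : ℤ × ℤ} (hf : f ∈ F) :
    f ∈ mdl61Comp F O f := mdl61_mem_comp.2 ⟨hf, fun _ _ h => h⟩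

theorem mdl61_cl_comp (F : Finset (ℤ × ℤ)) (O : Finset ((ℤ × ℤ) × Bool)) (f : ℤ × ℤ) : Mdl61Cl F O (mdl61Comp F O f) := by
  refine ⟨fun x hx => (mdl61_mem_comp.1 hx).1, fun e he heO => ?_⟩
  have h1 := mdl61_mem_int.1 he
  rw [mdl61_mem_comp, mdl61_mem_comp]
  constructor
  · rintro ⟨-, h⟩
    exact ⟨h1.2, fun C hC hf => (hC.2 e he heO).1 (h C hC hf)⟩
  · rintro ⟨-, h⟩
    exact ⟨h1.1, fun C hC hf => (hC.2 e he heO).2 (h C hC hf)⟩

theorem mdl61_comp_subset {F : Finset (ℤ × ℤ)} {O : Finset ((ℤ × ℤ) × Bool)} {D : Finset (ℤ × ℤ)} (hD : Mdl61Cl F O D)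
    {f : ℤ × ℤ} (hf : f ∈ D) : mdl61Comp F O f ⊆ D := fun _ hg => (mdl61_mem_comp.1 hg).2 D hD hf

theorem mdl61_comp_disj {F : Finset (ℤ × ℤ)} {O : Finset ((ℤ × ℤ) × Bool)} {D : Finset (ℤ × ℤ)} (hD : Mdl61Cl F O D)
    {f : ℤ × ℤ} (hfF : f ∈ F) (hf : f ∉ D) {g : ℤ × ℤ} (hg : g ∈ mdl61Comp F O f) : g ∉ D :=
  (Finset.mem_sdiff.1 (mdl61_comp_subset (mdl61_cl_sdiff hD) (Finset.mem_sdiff.2 ⟨hfF, hf⟩) hg)).2

theorem mdl61_comp_eq {F : Finset (ℤ × ℤ)} {O : Finset ((ℤ × ℤ) × Bool)} {f g : ℤ × ℤ} (hf : f ∈ F)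
    (hg : g ∈ mdl61Comp F O f) : mdl61Comp F O g = mdl61Comp F O f := by
  have hgF : g ∈ F := (mdl61_mem_comp.1 hg).1
  refine Finset.Subset.antisymm (mdl61_comp_subset (mdl61_cl_comp F O f) hg) ?_
  refine mdl61_comp_subset (mdl61_cl_comp F O g) ?_
  by_contra hne
  exact mdl61_comp_disj (mdl61_cl_comp F O g) hf hne hg (mdl61_self_mem_comp O hgF)

theorem mdl61_mem_comps {F : Finset (ℤ × ℤ)} {O : Finset ((ℤ × ℤ) × Bool)} {K : Finset (ℤ × ℤ)} :
    K ∈ mdl61Comps F O ↔ ∃ f ∈ F, mdl61Comp F O f = K := by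
  unfold mdl61Comps
  rw [Finset.mem_image]

theorem mdl61_cl_of_mem_comps {F : Finset (ℤ × ℤ)} {O : Finset ((ℤ × ℤ) × Bool)} {K : Finset (ℤ × ℤ)}
    (hK : K ∈ mdl61Comps F O) : Mdl61Cl F O K := by
  obtain ⟨f, -, rfl⟩ := mdl61_mem_comps.1 hK
  exact mdl61_cl_comp F O f

/-- a component which contains `f` is the component of `f` -/
theorem mdl61_eq_comp_of_mem {F : Finset (ℤ × ℤ)} {O : Finset ((ℤ × ℤ) × Bool)} {K : Finset (ℤ × ℤ)}
    (hK : K ∈ mdl61Comps F O) {f : ℤ × ℤ} (hf : f ∈ K) : K = mdl61Comp F O f := by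
  obtain ⟨f', hf', rfl⟩ := mdl61_mem_comps.1 hK
  exact (mdl61_comp_eq hf' hf).symm

theorem mdl61_mem_biUnion_iff {F : Finset (ℤ × ℤ)} {O : Finset ((ℤ × ℤ) × Bool)} {T : Finset (Finset (ℤ × ℤ))}
    (hT : T ⊆ mdl61Comps F O) {f : ℤ × ℤ} (hf : f ∈ F) : f ∈ T.biUnion id ↔ mdl61Comp F O f ∈ T := by
  constructor
  · intro h
    obtain ⟨K, hK, hfK⟩ := Finset.mem_biUnion.1 h
    rw [← mdl61_eq_comp_of_mem (hT hK) hfK]
    exact hK
  · intro h
    exact Finset.mem_biUnion.2 ⟨_, h, mdl61_self_mem_comp O hf⟩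

/-- **(1) independent fair signs**: given `(S, O)`, the sum over the face spins is the sum over all subfamilies `T` of components (the components of sign plus). -/
theorem mdl61_sum_signs (t : ℝ) (F : Finset (ℤ × ℤ)) (b : Bool) (X : RswCfg → ℝ) :
    rswSum t F b X = ∑ S ∈ (cornersOf F).powerset, ∑ O ∈ (rswInt F).powerset,
      rswWt t F b ⟨S, ∅, O⟩ * ∑ T ∈ (mdl61Comps F O).powerset, X ⟨S, T.biUnion id, O⟩ := by
  classical
  rw [mdl61_sum_swap]
  refine Finset.sum_congr rfl fun S _ => Finset.sum_congr rfl fun O _ => ?_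
  have h1 : ∑ D ∈ F.powerset, rswWt t F b ⟨S, D, O⟩ * X ⟨S, D, O⟩ =
      ∑ D ∈ F.powerset.filter (Mdl61Const F O), rswWt t F b ⟨S, ∅, O⟩ * X ⟨S, D, O⟩ := by
    rw [Finset.sum_filter]
    refine Finset.sum_congr rfl fun D _ => ?_
    rw [mdl61_wt_const]
    split_ifs <;> simp
  rw [h1, ← Finset.mul_sum]
  congr 1
  symm
  refine Finset.sum_nbij' (fun T => T.biUnion id) (fun D => (mdl61Comps F O).filter (· ⊆ D)) ?_ ?_ ?_ ?_ ?_
  · intro T hT
    rw [Finset.mem_powerset] at hT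
    have := mdl61_cl_biUnion (fun K hK => mdl61_cl_of_mem_comps (hT hK))
    rw [Finset.mem_filter, Finset.mem_powerset]
    exact this
  · intro D _
    rw [Finset.mem_powerset]
    exact Finset.filter_subset _ _
  · intro T hT
    rw [Finset.mem_powerset] at hT
    ext K
    rw [Finset.mem_filter]
    constructor
    · rintro ⟨hK, hsub⟩
      obtain ⟨f, hf, rfl⟩ := mdl61_mem_comps.1 hK
      exact (mdl61_mem_biUnion_iff hT hf).1 (hsub (mdl61_self_mem_comp O hf))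
    · intro hK
      exact ⟨hT hK, fun x hx => Finset.mem_biUnion.2 ⟨K, hK, hx⟩⟩
  · intro D hD
    rw [Finset.mem_filter, Finset.mem_powerset] at hD
    have hcl : Mdl61Cl F O D := hD
    ext f
    constructor
    · intro h
      obtain ⟨K, hK, hfK⟩ := Finset.mem_biUnion.1 h
      exact (Finset.mem_filter.1 hK).2 hfK
    · intro h
      refine Finset.mem_biUnion.2 ⟨mdl61Comp F O f, Finset.mem_filter.2 ⟨mdl61_mem_comps.2 ⟨f, hD.1 h, rfl⟩, ?_⟩, ?_⟩
      · exact mdl61_comp_subset hcl h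
      · exact mdl61_self_mem_comp O (hD.1 h)
  · intro T _
    rfl

/-! ## 2. the height -/

/-- eq:spatial-height-jump (`H = K / 2`). -/
theorem mdl61_jump {F : Finset (ℤ × ℤ)} {τ : cornersOf F → Bool} {τd : F → Bool} {Hv Hf : ℤ × ℤ → ℝ}
    (h : IsATHeight τ τd Hv Hf) {f : ℤ × ℤ} (hf : f ∈ F) {v v' : ℤ × ℤ} (hv : v ∈ at2hC4 f) (hv' : v' ∈ at2hC4 f) :
    Hv v' - Hv v = (atDual τd f : ℝ) * ((atSpin τ v : ℝ) - atSpin τ v') / 2 := by
  have e1 := h.2 f hf v hv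
  have e2 := h.2 f hf v' hv'
  linarith

theorem mdl61_spin (F : Finset (ℤ × ℤ)) (ω : RswCfg) {v : ℤ × ℤ} (hv : v ∈ cornersOf F) :
    atSpin (rswTau F ω) v = if v ∈ ω.S then 1 else -1 := by
  unfold atSpin rswTau
  rw [dif_pos hv]
  simp only [decide_eq_true_eq]

theorem mdl61_dual (F : Finset (ℤ × ℤ)) (ω : RswCfg) {f : ℤ × ℤ} (hf : f ∈ F) :
    atDual (rswTauD F ω) f = if f ∈ ω.D then 1 else -1 := by
  unfold atDual rswTauD
  rw [dif_pos hf]
  simp only [decide_eq_true_eq]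

/-- a configuration of positive weight (wall `+`) whose face spins are constant along `N` is admissible for Def_0468. -/
theorem mdl61_adm {t : ℝ} {F : Finset (ℤ × ℤ)} {S : Finset (ℤ × ℤ)} {O : Finset ((ℤ × ℤ) × Bool)}
    (hw : rswWt t F true ⟨S, ∅, O⟩ ≠ 0) {D : Finset (ℤ × ℤ)} (hD : Mdl61Const F O D) :
    IsAdmissibleSpins (rswTau F ⟨S, D, O⟩) (rswTauD F ⟨S, D, O⟩) := by
  classical
  unfold rswWt at hw
  have hB : RswBc F true ⟨S, ∅, O⟩ := by
    by_contra h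
    rw [if_neg h] at hw
    exact hw rfl
  rw [if_pos hB] at hw
  have hfac : ∀ e ∈ rswInt F, rswFac t ⟨S, ∅, O⟩ e ≠ 0 := fun e he => (Finset.prod_ne_zero_iff.1 hw) e he
  have key : ∀ e ∈ rswInt F, e.1 ∈ cornersOf F → rswEnd e ∈ cornersOf F →
      (atSpin (rswTau F ⟨S, D, O⟩) e.1 - atSpin (rswTau F ⟨S, D, O⟩) (rswEnd e)) *
        (atDual (rswTauD F ⟨S, D, O⟩) e.1 - atDual (rswTauD F ⟨S, D, O⟩) (rswCo e)) = 0 := by
    intro e he h1 h2
    have hm := mdl61_mem_int.1 he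
    rw [mdl61_spin F _ h1, mdl61_spin F _ h2, mdl61_dual F _ hm.1, mdl61_dual F _ hm.2]
    by_cases heO : e ∈ O
    · have := hfac e he
      unfold rswFac at this
      simp only [heO, if_true] at this
      have hS : (e.1 ∈ S ↔ rswEnd e ∈ S) := by
        by_contra h
        rw [if_neg h] at this
        exact this rfl
      by_cases h3 : e.1 ∈ S
      · simp [h3, hS.1 h3]
      · have h4 : rswEnd e ∉ S := fun h => h3 (hS.2 h)
        simp [h3, h4]
    · have hd := hD e he heO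
      by_cases h3 : e.1 ∈ D
      · simp [h3, hd.1 h3]
      · have h4 : rswCo e ∉ D := fun h => h3 (hd.2 h)
        simp [h3, h4]
  refine ⟨fun v hv hp => ?_, fun v hv => ⟨fun h => ?_, fun h => ?_⟩⟩
  · rw [mdl61_spin F _ hv, if_pos ((hB v hv hp).2 rfl)]
  · have he : ((v, false) : (ℤ × ℤ) × Bool) ∈ rswInt F := mdl61_mem_int.2 ⟨h.1, by simpa [rswCo] using h.2⟩
    have := key (v, false) he hv (by
      simp only [rswEnd, Bool.false_eq_true, if_false]
      exact at2h_C4_subset_corners h.1 (by rw [at2h_mem_C4]; simp))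
    simpa [rswEnd, rswCo] using this
  · have he : ((v, true) : (ℤ × ℤ) × Bool) ∈ rswInt F := mdl61_mem_int.2 ⟨h.1, by simpa [rswCo] using h.2⟩
    have := key (v, true) he hv (by
      simp only [rswEnd, if_true]
      exact at2h_C4_subset_corners h.1 (by rw [at2h_mem_C4]; simp))
    simpa [rswEnd, rswCo] using this

/-- **(3) the height is a linear form in the signs of the components.** -/
theorem mdl61_H_signs {t : ℝ} {F : Finset (ℤ × ℤ)} (hF : At2hConn F) {S : Finset (ℤ × ℤ)} {O : Finset ((ℤ × ℤ) × Bool)}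
    (hw : rswWt t F true ⟨S, ∅, O⟩ ≠ 0) {T : Finset (Finset (ℤ × ℤ))} (hT : T ⊆ mdl61Comps F O)
    {v : ℤ × ℤ} (hv : v ∈ cornersOf F) :
    rswH F ⟨S, T.biUnion id, O⟩ v = ∑ K ∈ mdl61Comps F O, (if K ∈ T then 1 else -1) * mdl61Q F S O K v := by
  classical
  -- the reference heights
  obtain ⟨P, hP⟩ := at2h_spec hF (mdl61_adm hw (mdl61_cl_univ F O).2)
  have hex : ∀ K, ∃ G : ℤ × ℤ → ℝ, K ∈ mdl61Comps F O →
      IsATHeight (rswTau F ⟨S, F \ K, O⟩) (rswTauD F ⟨S, F \ K, O⟩) (rswH F ⟨S, F \ K, O⟩) G := by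
    intro K
    by_cases hK : K ∈ mdl61Comps F O
    · obtain ⟨G, hG⟩ := at2h_spec hF (mdl61_adm hw (mdl61_cl_sdiff (mdl61_cl_of_mem_comps hK)).2)
      exact ⟨G, fun _ => hG⟩
    · exact ⟨fun _ => 0, fun h => absurd h hK⟩
  choose G hG using hex
  set σ : Finset (ℤ × ℤ) → ℝ := fun K => if K ∈ T then 1 else -1 with hσ
  have main : IsATHeight (rswTau F ⟨S, T.biUnion id, O⟩) (rswTauD F ⟨S, T.biUnion id, O⟩)
      (fun w => ∑ K ∈ mdl61Comps F O, σ K * ((rswH F ⟨S, F, O⟩ w - rswH F ⟨S, F \ K, O⟩ w) / 2))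
      (fun f => ∑ K ∈ mdl61Comps F O, σ K * ((P f - G K f) / 2)) := by
    refine ⟨fun w hw' hp => ?_, fun f hf w hwf => ?_⟩
    · refine Finset.sum_eq_zero fun K hK => ?_
      have e1 : rswH F ⟨S, F, O⟩ w = 0 := hP.1 w hw' hp
      have e2 : rswH F ⟨S, F \ K, O⟩ w = 0 := (hG K hK).1 w hw' hp
      rw [e1, e2]; ring
    · have hwc : w ∈ cornersOf F := at2h_C4_subset_corners hf hwf
      show (∑ K ∈ mdl61Comps F O, σ K * ((P f - G K f) / 2)) -
        (∑ K ∈ mdl61Comps F O, σ K * ((rswH F ⟨S, F, O⟩ w - rswH F ⟨S, F \ K, O⟩ w) / 2)) = _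
      rw [← Finset.sum_sub_distrib]
      have hterm : ∀ K ∈ mdl61Comps F O,
          σ K * ((P f - G K f) / 2) - σ K * ((rswH F ⟨S, F, O⟩ w - rswH F ⟨S, F \ K, O⟩ w) / 2) =
            if K = mdl61Comp F O f then σ K * ((if w ∈ S then (1 : ℝ) else -1) / 2) else 0 := by
        intro K hK
        have e1 := hP.2 f hf w hwf
        have e2 := (hG K hK).2 f hf w hwf
        rw [mdl61_spin F _ hwc, mdl61_dual F _ hf] at e1 e2
        simp only [hf, if_true, Finset.mem_sdiff, true_and] at e1 e2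
        have e1' : P f - rswH F ⟨S, F, O⟩ w = (((if w ∈ S then 1 else -1 : ℤ) : ℝ) * ((1 : ℤ) : ℝ)) / 2 := e1
        by_cases hKf : K = mdl61Comp F O f
        · have hfK : f ∈ K := by rw [hKf]; exact mdl61_self_mem_comp O hf
          rw [if_pos hKf]
          simp only [hfK, not_true_eq_false, if_false] at e2
          have e2' : G K f - rswH F ⟨S, F \ K, O⟩ w = (((if w ∈ S then 1 else -1 : ℤ) : ℝ) * ((-1 : ℤ) : ℝ)) / 2 := e2
          have hc : (((if w ∈ S then 1 else -1 : ℤ)) : ℝ) = if w ∈ S then (1 : ℝ) else -1 := by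
            split_ifs <;> simp
          rw [hc] at e1' e2'
          push_cast at e1' e2'
          have : (P f - G K f) - (rswH F ⟨S, F, O⟩ w - rswH F ⟨S, F \ K, O⟩ w) = (if w ∈ S then (1 : ℝ) else -1) := by
            linarith
          calc σ K * ((P f - G K f) / 2) - σ K * ((rswH F ⟨S, F, O⟩ w - rswH F ⟨S, F \ K, O⟩ w) / 2)
              = σ K * (((P f - G K f) - (rswH F ⟨S, F, O⟩ w - rswH F ⟨S, F \ K, O⟩ w)) / 2) := by ring
            _ = _ := by rw [this]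
        · have hfK : f ∉ K := fun h => hKf (mdl61_eq_comp_of_mem hK h)
          rw [if_neg hKf]
          simp only [hfK, not_false_eq_true, if_true] at e2
          have e2' : G K f - rswH F ⟨S, F \ K, O⟩ w = (((if w ∈ S then 1 else -1 : ℤ) : ℝ) * ((1 : ℤ) : ℝ)) / 2 := e2
          have : (P f - G K f) - (rswH F ⟨S, F, O⟩ w - rswH F ⟨S, F \ K, O⟩ w) = 0 := by linarith
          calc σ K * ((P f - G K f) / 2) - σ K * ((rswH F ⟨S, F, O⟩ w - rswH F ⟨S, F \ K, O⟩ w) / 2)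
              = σ K * (((P f - G K f) - (rswH F ⟨S, F, O⟩ w - rswH F ⟨S, F \ K, O⟩ w)) / 2) := by ring
            _ = 0 := by rw [this]; ring
      rw [Finset.sum_congr rfl hterm, Finset.sum_ite_eq' (mdl61Comps F O) (mdl61Comp F O f),
        if_pos (mdl61_mem_comps.2 ⟨f, hf, rfl⟩), mdl61_spin F _ hwc, mdl61_dual F _ hf]
      simp only [hσ, mdl61_mem_biUnion_iff hT hf]
      by_cases h1 : mdl61Comp F O f ∈ T <;> by_cases h2 : w ∈ S <;> simp [h1, h2] <;> norm_num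
  have := at2h_eq main v hv
  unfold rswH at this ⊢
  rw [this]
  rfl

end Claimed.Agent.R292
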