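import Claimed.Agent.R292.Defs.MODEL
import Claimed.Agent.R292.Rsw.Base122
import Claimed.Agent.R292.Model.Jump61
import Claimed.Agent.R292.Model.Basic
import Claimed.Agent.R292.Model.Dual261

/-!
# Row 292 (S0540), unit MODEL, block S4 = FULL-SPIN CONTIGUITY      (helper261; prefix `ctg261`, `Ctg261`)

AT paper, Prop 3.13 `prop:full-contiguity`, proved FROM RECORDS (hypotheses, typed verbatim as in `Exit/MODEL`, `Exit/RSW`):
`Ctg261S2` (= type of `exit_mdl_trans`), `Ctg261S3` (= type of `exit_mdl_pattern`), `Ctg261Pl` (= type of `exit_rsw_plane`),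
`Ctg261W` (lem:buffered-witnesses, typed here), `Ctg261J` (a square box is a Jordan domain).
-/

set_option autoImplicit false

namespace Claimed.Agent.R292

open Claims Claims.C0468 Filter Topology

/-! ## 0. indicator and calculus of `rswP` -/

/-- THE indicator (one decidability instance) -/
noncomputable def ctg261Ind (A : RswCfg → Prop) (ω : RswCfg) : ℝ := open Classical in if A ω then 1 else 0

theorem ctg261_ind_pos {A : RswCfg → Prop} {ω : RswCfg} (h : A ω) : ctg261Ind A ω = 1 := by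
  unfold ctg261Ind; rw [if_pos h]

theorem ctg261_ind_neg {A : RswCfg → Prop} {ω : RswCfg} (h : ¬ A ω) : ctg261Ind A ω = 0 := by
  unfold ctg261Ind; rw [if_neg h]

theorem ctg261_ind_nonneg (A : RswCfg → Prop) (ω : RswCfg) : 0 ≤ ctg261Ind A ω := by
  unfold ctg261Ind; split_ifs <;> norm_num

theorem ctg261_P_eq (t : ℝ) (F : Finset (ℤ × ℤ)) (b : Bool) (A : RswCfg → Prop) :
    rswP t F b A = rswE t F b (ctg261Ind A) := rfl

theorem ctg261_P_mono {t : ℝ} (h0 : 0 ≤ t) (h1 : t ≤ 1) (F : Finset (ℤ × ℤ)) (b : Bool) {A B : RswCfg → Prop}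
    (h : ∀ ω : RswCfg, ω.S ⊆ cornersOf F → ω.D ⊆ F → ω.O ⊆ rswInt F → rswWt t F b ω ≠ 0 → A ω → B ω) :
    rswP t F b A ≤ rswP t F b B := by
  rw [ctg261_P_eq, ctg261_P_eq]
  refine rsz_E_mono' h0 h1 F b fun ω hS hD hO hw => ?_
  by_cases hA : A ω
  · rw [ctg261_ind_pos hA, ctg261_ind_pos (h ω hS hD hO hw hA)]
  · rw [ctg261_ind_neg hA]; exact ctg261_ind_nonneg _ _

theorem ctg261_P_congr (t : ℝ) (F : Finset (ℤ × ℤ)) (b : Bool) {A B : RswCfg → Prop} (h : ∀ ω, A ω ↔ B ω) :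
    rswP t F b A = rswP t F b B := by
  have : A = B := funext fun ω => propext (h ω)
  rw [this]

theorem ctg261_P_false (t : ℝ) (F : Finset (ℤ × ℤ)) (b : Bool) {A : RswCfg → Prop} (h : ∀ ω, ¬ A ω) :
    rswP t F b A = 0 := by
  rw [ctg261_P_eq]
  have : ctg261Ind A = fun _ => 0 := funext fun ω => ctg261_ind_neg (h ω)
  rw [this]
  unfold rswE rswSum
  simp

/-- partition of an event along an index with values in a finite set -/
theorem ctg261_P_part {ι : Type*} [DecidableEq ι] (t : ℝ) (F : Finset (ℤ × ℤ)) (b : Bool) (A : RswCfg → Prop)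
    (s : Finset ι) (idx : RswCfg → ι) (h : ∀ ω, idx ω ∈ s) :
    rswP t F b A = ∑ i ∈ s, rswP t F b (fun ω => A ω ∧ idx ω = i) := by
  simp only [ctg261_P_eq]
  rw [← rsz_E_fsum]
  congr 1
  funext ω
  rw [Finset.sum_eq_single (idx ω)]
  · by_cases hA : A ω
    · rw [ctg261_ind_pos hA, ctg261_ind_pos (A := fun ω' => A ω' ∧ idx ω' = idx ω) ⟨hA, rfl⟩]
    · rw [ctg261_ind_neg hA, ctg261_ind_neg (A := fun ω' => A ω' ∧ idx ω' = idx ω) (fun h => hA h.1)]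
  · intro i _ hi
    exact ctg261_ind_neg (A := fun ω' => A ω' ∧ idx ω' = i) (fun h => hi h.2.symm)
  · intro hn
    exact absurd (h ω) hn

/-! ## 1. patterns -/

/-- the index of the pattern of `ω` on `Q` -/
def ctg261Idx (Q : Finset (ℤ × ℤ)) (ω : RswCfg) : Finset (ℤ × ℤ) × Finset ((ℤ × ℤ) × Bool) :=
  (ω.S ∩ cornersOf Q, ω.O ∩ mdlEd Q)

/-- all patterns on `Q` -/
def ctg261Ix (Q : Finset (ℤ × ℤ)) : Finset (Finset (ℤ × ℤ) × Finset ((ℤ × ℤ) × Bool)) :=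
  (cornersOf Q).powerset ×ˢ (mdlEd Q).powerset

/-- the configuration which carries a pattern -/
def ctg261Cfg (p : Finset (ℤ × ℤ) × Finset ((ℤ × ℤ) × Bool)) : RswCfg := ⟨p.1, ∅, p.2⟩

theorem ctg261_idx_mem (Q : Finset (ℤ × ℤ)) (ω : RswCfg) : ctg261Idx Q ω ∈ ctg261Ix Q := by
  unfold ctg261Idx ctg261Ix
  rw [Finset.mem_product, Finset.mem_powerset, Finset.mem_powerset]
  exact ⟨Finset.inter_subset_right, Finset.inter_subset_right⟩

theorem ctg261_pat_iff {Q : Finset (ℤ × ℤ)} {p : Finset (ℤ × ℤ) × Finset ((ℤ × ℤ) × Bool)} (hp : p ∈ ctg261Ix Q)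
    (ω : RswCfg) : MdlPat Q (ctg261Cfg p) ω ↔ ctg261Idx Q ω = p := by
  unfold ctg261Ix at hp
  rw [Finset.mem_product, Finset.mem_powerset, Finset.mem_powerset] at hp
  unfold MdlPat ctg261Cfg ctg261Idx
  constructor
  · rintro ⟨h1, h2⟩
    refine Prod.ext ?_ ?_
    · ext v
      simp only [Finset.mem_inter]
      constructor
      · rintro ⟨a, c⟩; exact (h1 v c).1 a
      · intro a; exact ⟨(h1 v (hp.1 a)).2 a, hp.1 a⟩
    · ext e
      simp only [Finset.mem_inter]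
      constructor
      · rintro ⟨a, c⟩; exact (h2 e c).1 a
      · intro a; exact ⟨(h2 e (hp.2 a)).2 a, hp.2 a⟩
  · intro h
    subst h
    refine ⟨fun v hv => ?_, fun e he => ?_⟩
    · simp only [Finset.mem_inter]; tauto
    · simp only [Finset.mem_inter]; tauto

/-- partition along the complete pattern on `Q` -/
theorem ctg261_P_pat (t : ℝ) (F : Finset (ℤ × ℤ)) (b : Bool) (A : RswCfg → Prop) (Q : Finset (ℤ × ℤ)) :
    rswP t F b A = ∑ p ∈ ctg261Ix Q, rswP t F b (fun ω => A ω ∧ MdlPat Q (ctg261Cfg p) ω) := by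
  rw [ctg261_P_part t F b A (ctg261Ix Q) (ctg261Idx Q) (ctg261_idx_mem Q)]
  refine Finset.sum_congr rfl fun p hp => ?_
  exact ctg261_P_congr t F b fun ω => by rw [ctg261_pat_iff hp]

/-- partition along the transverse spins of the marks -/
theorem ctg261_P_marks (t : ℝ) (F : Finset (ℤ × ℤ)) (b : Bool) (A : RswCfg → Prop) (T : Finset (ℤ × ℤ)) :
    rswP t F b A = ∑ β ∈ T.powerset, rswP t F b (fun ω => A ω ∧ ω.D ∩ T = β) :=
  ctg261_P_part t F b A T.powerset (fun ω => ω.D ∩ T) fun _ => Finset.mem_powerset.2 Finset.inter_subset_right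

theorem ctg261_corners_mono {Q Q' : Finset (ℤ × ℤ)} (h : Q ⊆ Q') : cornersOf Q ⊆ cornersOf Q' := by
  unfold cornersOf
  exact Finset.biUnion_subset_biUnion_of_subset_left _ h

theorem ctg261_ed_mono {Q Q' : Finset (ℤ × ℤ)} (h : Q ⊆ Q') : mdlEd Q ⊆ mdlEd Q' := by
  unfold mdlEd
  refine Finset.union_subset_union (Finset.union_subset_union ?_ ?_) ?_
  · exact Finset.product_subset_product h (Finset.Subset.refl _)
  · exact Finset.image_subset_image h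
  · exact Finset.image_subset_image h

theorem ctg261_mem_ed {Q : Finset (ℤ × ℤ)} {e : (ℤ × ℤ) × Bool} : e ∈ mdlEd Q ↔ e.1 ∈ Q ∨ rswCo e ∈ Q := by
  obtain ⟨⟨x, y⟩, c⟩ := e
  unfold mdlEd rswCo
  simp only [Finset.mem_union, Finset.mem_product, Finset.mem_univ, and_true, Finset.mem_image, Prod.mk.injEq, Prod.exists]
  constructor
  · rintro ((h | ⟨a, d, h, ⟨rfl, rfl⟩, rfl⟩) | ⟨a, d, h, ⟨rfl, rfl⟩, rfl⟩)
    · exact Or.inl h
    · right; simpa using h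
    · right; simpa using h
  · rintro (h | h)
    · exact Or.inl (Or.inl h)
    · cases c
      · exact Or.inr ⟨x, y - 1, by simpa using h, ⟨rfl, by ring⟩, rfl⟩
      · exact Or.inl (Or.inr ⟨x - 1, y, by simpa using h, ⟨by ring, rfl⟩, rfl⟩)

theorem ctg261_pat_mono {Q Q' : Finset (ℤ × ℤ)} (h : Q ⊆ Q') {ω₀ ω : RswCfg} (hp : MdlPat Q' ω₀ ω) : MdlPat Q ω₀ ω :=
  ⟨fun v hv => hp.1 v (ctg261_corners_mono h hv), fun e he => hp.2 e (ctg261_ed_mono h he)⟩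

theorem ctg261_pat_symm {Q : Finset (ℤ × ℤ)} {ω₀ ω : RswCfg} (hp : MdlPat Q ω₀ ω) : MdlPat Q ω ω₀ :=
  ⟨fun v hv => (hp.1 v hv).symm, fun e he => (hp.2 e he).symm⟩

theorem ctg261_pat_trans {Q : Finset (ℤ × ℤ)} {ω₀ ω₁ ω₂ : RswCfg} (h1 : MdlPat Q ω₀ ω₁) (h2 : MdlPat Q ω₁ ω₂) :
    MdlPat Q ω₀ ω₂ :=
  ⟨fun v hv => (h2.1 v hv).trans (h1.1 v hv), fun e he => (h2.2 e he).trans (h1.2 e he)⟩

theorem ctg261_ext_mono {B B' : Finset (ℤ × ℤ)} (h : B ⊆ B') {L : RswCfg → Prop} (hL : MdlExt B' L) : MdlExt B L := by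
  intro ω ω' h1 h2
  refine hL ω ω' (fun v hv => h1 v ?_) (fun e he => h2 e ?_)
  · unfold OnPolygon at hv ⊢
    intro hc
    exact hv ⟨h hc.1, h hc.2.1, h hc.2.2.1, h hc.2.2.2⟩
  · intro hc
    rw [rsz_mem_int] at hc he
    exact he ⟨h hc.1, h hc.2⟩

theorem ctg261_in_mono {Q Q' : Finset (ℤ × ℤ)} (h : Q ⊆ Q') {E : RswCfg → Prop} (hE : MdlIn Q E) : MdlIn Q' E :=
  fun ω ω' h1 h2 h3 => hE ω ω' (fun v hv => h1 v (ctg261_corners_mono h hv)) (fun f hf => h2 f (h hf))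
    (fun e he => h3 e (ctg261_ed_mono h he))

/-- exterior data are blind to the transverse spins -/
theorem ctg261_ext_blind {B : Finset (ℤ × ℤ)} {L : RswCfg → Prop} (hL : MdlExt B L) (S D D' : Finset (ℤ × ℤ))
    (O : Finset ((ℤ × ℤ) × Bool)) : L ⟨S, D, O⟩ ↔ L ⟨S, D', O⟩ :=
  hL _ _ (fun _ _ => Iff.rfl) (fun _ _ => Iff.rfl)

/-! ## 2. the current `N`, the sealed region, the marks -/

theorem ctg261_rtg_mono {α : Type*} {r s : α → α → Prop} (h : ∀ x y, r x y → s x y) {a b : α}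
    (hab : Relation.ReflTransGen r a b) : Relation.ReflTransGen s a b := by
  induction hab with
  | refl => exact Relation.ReflTransGen.refl
  | tail _ hbc ih => exact ih.tail (h _ _ hbc)

theorem ctg261_rtg_symm {α : Type*} {r : α → α → Prop} (h : ∀ x y, r x y → r y x) {a b : α}
    (hab : Relation.ReflTransGen r a b) : Relation.ReflTransGen r b a := by
  induction hab with
  | refl => exact Relation.ReflTransGen.refl
  | tail _ hbc ih => exact Relation.ReflTransGen.head (h _ _ hbc) ih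

theorem ctg261_step_symm {R : Finset (ℤ × ℤ)} {ω : RswCfg} {f g : ℤ × ℤ} (h : MdlNStep R ω f g) : MdlNStep R ω g f := by
  obtain ⟨hf, hg, e, he, heO⟩ := h
  exact ⟨hg, hf, e, he.symm, heO⟩

theorem ctg261_conn_symm {R : Finset (ℤ × ℤ)} {ω : RswCfg} {f g : ℤ × ℤ} (h : MdlNConn R ω f g) : MdlNConn R ω g f :=
  ctg261_rtg_symm (fun _ _ => ctg261_step_symm) h

theorem ctg261_step_pat {Q : Finset (ℤ × ℤ)} {ω₀ ω : RswCfg} (hp : MdlPat Q ω₀ ω) {f g : ℤ × ℤ}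
    (h : MdlNStep Q ω₀ f g) : MdlNStep Q ω f g := by
  obtain ⟨hf, hg, e, he, heO⟩ := h
  refine ⟨hf, hg, e, he, fun hc => heO ((hp.2 e ?_).1 hc)⟩
  rw [ctg261_mem_ed]
  rcases he with ⟨rfl, _⟩ | ⟨rfl, _⟩
  · exact Or.inl hf
  · exact Or.inl hg

theorem ctg261_conn_pat {Q : Finset (ℤ × ℤ)} {ω₀ ω : RswCfg} (hp : MdlPat Q ω₀ ω) {f g : ℤ × ℤ}
    (h : MdlNConn Q ω₀ f g) : MdlNConn Q ω f g :=
  ctg261_rtg_mono (fun _ _ => ctg261_step_pat hp) h

theorem ctg261_conn_mono {Q F : Finset (ℤ × ℤ)} (hQ : Q ⊆ F) {ω : RswCfg} {f g : ℤ × ℤ}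
    (h : MdlNConn Q ω f g) : MdlNConn F ω f g :=
  ctg261_rtg_mono (s := MdlNStep F ω) (fun _ _ hs => ⟨hQ hs.1, hQ hs.2.1, hs.2.2⟩) h

theorem ctg261_conn_const {F : Finset (ℤ × ℤ)} {ω : RswCfg} {D : Finset (ℤ × ℤ)} (hD : Mdl61Const F ω.O D)
    {f g : ℤ × ℤ} (h : MdlNConn F ω f g) : f ∈ D ↔ g ∈ D := by
  induction h with
  | refl => exact Iff.rfl
  | tail _ hs ih =>
    obtain ⟨hf, hg, e, he, heO⟩ := hs
    refine ih.trans ?_
    rcases he with ⟨rfl, rfl⟩ | ⟨rfl, rfl⟩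
    · exact hD e (rsz_mem_int.2 ⟨hf, hg⟩) heO
    · exact (hD e (rsz_mem_int.2 ⟨hg, hf⟩) heO).symm

theorem ctg261_const_of_wt {t : ℝ} {F : Finset (ℤ × ℤ)} {b : Bool} {ω : RswCfg} (h : rswWt t F b ω ≠ 0) :
    Mdl61Const F ω.O ω.D := by
  classical
  by_contra hc
  apply h
  obtain ⟨S, D, O⟩ := ω
  rw [mdl61_wt_const, if_neg hc]

/-- the faces of `Q'` which the current `N` of the pattern `g`, restricted to `Q'`, does not join to the boundary layer of `Q'` -/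
noncomputable def ctg261Seal (Q' : Finset (ℤ × ℤ)) (g : RswCfg) : Finset (ℤ × ℤ) :=
  open Classical in Q'.filter fun x => ¬ ∃ l ∈ rswLayer Q', MdlNConn Q' g x l

theorem ctg261_mem_seal {Q' : Finset (ℤ × ℤ)} {g : RswCfg} {x : ℤ × ℤ} :
    x ∈ ctg261Seal Q' g ↔ x ∈ Q' ∧ ¬ ∃ l ∈ rswLayer Q', MdlNConn Q' g x l := by
  classical
  unfold ctg261Seal
  rw [Finset.mem_filter]

theorem ctg261_seal_corner {Q' : Finset (ℤ × ℤ)} {g : RswCfg} {f : ℤ × ℤ} (hf : f ∈ ctg261Seal Q' g) :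
    ∀ v ∈ ({f, (f.1 + 1, f.2), (f.1, f.2 + 1), (f.1 + 1, f.2 + 1)} : Finset (ℤ × ℤ)), ¬ OnPolygon Q' v := by
  intro v hv hc
  rw [ctg261_mem_seal] at hf
  refine hf.2 ⟨f, ?_, Relation.ReflTransGen.refl⟩
  simp only [rswLayer, Finset.mem_filter]
  exact ⟨hf.1, v, hv, hc⟩

theorem ctg261_seal_nbr {Q' : Finset (ℤ × ℤ)} {g : RswCfg} {e : (ℤ × ℤ) × Bool}
    (h : e.1 ∈ ctg261Seal Q' g ∨ rswCo e ∈ ctg261Seal Q' g) : e.1 ∈ Q' ∧ rswCo e ∈ Q' := by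
  obtain ⟨⟨x, y⟩, c⟩ := e
  rcases h with h | h
  · have h1 := ctg261_seal_corner h (x, y) (by simp)
    unfold OnPolygon at h1
    rw [not_not] at h1
    refine ⟨h1.1, ?_⟩
    unfold rswCo
    cases c
    · exact h1.2.2.1
    · exact h1.2.1
  · refine ⟨?_, (ctg261_mem_seal.1 h).1⟩
    have h1 := ctg261_seal_corner h (x, y) (by
      unfold rswCo
      cases c <;> simp)
    unfold OnPolygon at h1
    rw [not_not] at h1
    exact h1.1

/-- the sealed region is a union of components of `N` in EVERY domain and for EVERY configuration which shows the pattern -/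
theorem ctg261_seal_cl {Q' F : Finset (ℤ × ℤ)} {g ω : RswCfg} (hQ : Q' ⊆ F) (hp : MdlPat Q' g ω) :
    Mdl61Cl F ω.O (ctg261Seal Q' g) := by
  refine ⟨fun x hx => hQ (ctg261_mem_seal.1 hx).1, fun e _ heO => ?_⟩
  constructor
  · intro h1
    obtain ⟨ha, hb⟩ := ctg261_seal_nbr (Or.inl h1)
    have hst : MdlNStep Q' g e.1 (rswCo e) :=
      ⟨ha, hb, e, Or.inl ⟨rfl, rfl⟩, fun hc => heO ((hp.2 e (ctg261_mem_ed.2 (Or.inl ha))).2 hc)⟩
    rw [ctg261_mem_seal] at h1 ⊢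
    exact ⟨hb, fun ⟨l, hl, hc⟩ => h1.2 ⟨l, hl, Relation.ReflTransGen.head hst hc⟩⟩
  · intro h1
    obtain ⟨ha, hb⟩ := ctg261_seal_nbr (Or.inr h1)
    have hst : MdlNStep Q' g (rswCo e) e.1 :=
      ⟨hb, ha, e, Or.inr ⟨rfl, rfl⟩, fun hc => heO ((hp.2 e (ctg261_mem_ed.2 (Or.inl ha))).2 hc)⟩
    rw [ctg261_mem_seal] at h1 ⊢
    exact ⟨ha, fun ⟨l, hl, hc⟩ => h1.2 ⟨l, hl, Relation.ReflTransGen.head hst hc⟩⟩

theorem ctg261_reps {α : Type*} (r : α → α → Prop) (hr : ∀ a, r a a) (hs : ∀ a b, r a b → r b a) (A : Finset α) :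
    ∃ T ⊆ A, (∀ f ∈ T, ∀ f' ∈ T, f ≠ f' → ¬ r f f') ∧ ∀ x ∈ A, ∃ m ∈ T, r x m := by
  classical
  induction A using Finset.induction_on with
  | empty => exact ⟨∅, Finset.Subset.refl _, by simp, by simp⟩
  | insert a A ha ih =>
    obtain ⟨T, hTA, h1, h2⟩ := ih
    by_cases h : ∃ m ∈ T, r a m
    · refine ⟨T, hTA.trans (Finset.subset_insert _ _), h1, fun x hx => ?_⟩
      rcases Finset.mem_insert.1 hx with rfl | hx
      · exact h
      · exact h2 x hx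
    · refine ⟨insert a T, Finset.insert_subset_insert _ hTA, ?_, ?_⟩
      · intro f hf f' hf' hne hrr
        rcases Finset.mem_insert.1 hf with rfl | hfT
        · rcases Finset.mem_insert.1 hf' with rfl | hfT'
          · exact hne rfl
          · exact h ⟨f', hfT', hrr⟩
        · rcases Finset.mem_insert.1 hf' with rfl | hfT'
          · exact h ⟨f, hfT, hs _ _ hrr⟩
          · exact h1 f hfT f' hfT' hne hrr
      · intro x hx
        rcases Finset.mem_insert.1 hx with rfl | hx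
        · exact ⟨x, Finset.mem_insert_self _ _, hr x⟩
        · obtain ⟨m, hm, hrm⟩ := h2 x hx
          exact ⟨m, Finset.mem_insert_of_mem hm, hrm⟩

/-- `T` = one mark in `Q1` on every component of `N` restricted to `Q'` (pattern `g`) which meets `Q1` and reaches the boundary layer (TERMINALS) -/
structure Ctg261Marks (Q1 Q' : Finset (ℤ × ℤ)) (g : RswCfg) (T : Finset (ℤ × ℤ)) : Prop where
  sub : T ⊆ Q1
  tr : ∀ f ∈ T, ∃ l ∈ rswLayer Q', MdlNConn Q' g f l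
  sep : ∀ f ∈ T, ∀ f' ∈ T, f ≠ f' → ¬ MdlNConn Q' g f f'
  cov : ∀ x ∈ Q1, x ∉ ctg261Seal Q' g → ∃ m ∈ T, MdlNConn Q' g x m

theorem ctg261_marks_exist {Q1 Q' : Finset (ℤ × ℤ)} (hQ : Q1 ⊆ Q') (g : RswCfg) : ∃ T, Ctg261Marks Q1 Q' g T := by
  classical
  obtain ⟨T, hT, h1, h2⟩ := ctg261_reps (MdlNConn Q' g) (fun _ => Relation.ReflTransGen.refl)
    (fun _ _ => ctg261_conn_symm) (Q1.filter fun x => ∃ l ∈ rswLayer Q', MdlNConn Q' g x l)
  refine ⟨T, fun x hx => (Finset.mem_filter.1 (hT hx)).1, fun f hf => (Finset.mem_filter.1 (hT hf)).2, h1, fun x hx hxs => ?_⟩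
  refine h2 x (Finset.mem_filter.2 ⟨hx, ?_⟩)
  by_contra hc
  exact hxs (ctg261_mem_seal.2 ⟨hQ hx, hc⟩)

theorem Ctg261Marks.not_seal {Q1 Q' : Finset (ℤ × ℤ)} {g : RswCfg} {T : Finset (ℤ × ℤ)} (h : Ctg261Marks Q1 Q' g T)
    {f : ℤ × ℤ} (hf : f ∈ T) : f ∉ ctg261Seal Q' g :=
  fun hc => (ctg261_mem_seal.1 hc).2 (h.tr f hf)

/-- many marks: the transmission event of (S2) -/
theorem Ctg261Marks.trans {Q1 Q' : Finset (ℤ × ℤ)} {g : RswCfg} {T : Finset (ℤ × ℤ)} (h : Ctg261Marks Q1 Q' g T)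
    {j : ℕ} (hj : j ≤ T.card) {ω : RswCfg} (hp : MdlPat Q' g ω) : MdlTrans Q1 Q' j ω := by
  obtain ⟨T0, hT0, hc⟩ := Finset.exists_subset_card_eq hj
  refine ⟨T0, hT0.trans h.sub, hc, fun f hf => ?_, fun f hf f' hf' hne hcn => ?_⟩
  · obtain ⟨l, hl, hcn⟩ := h.tr f (hT0 hf)
    exact ⟨l, hl, ctg261_conn_pat hp hcn⟩
  · exact h.sep f (hT0 hf) f' (hT0 hf') hne (ctg261_conn_pat (ctg261_pat_symm hp) hcn)

/-! ## 3. compatibility and the cost of the colours of the marks (eq:spatial-color-cost) -/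

/-- no mark of `Mp` is joined to a mark of `Mm` by the current `N` of the domain `F` -/
def Ctg261Compat (F Mp Mm : Finset (ℤ × ℤ)) (ω : RswCfg) : Prop :=
  ∀ f ∈ Mp, ∀ g ∈ Mm, ¬ MdlNConn F ω f g

/-- upper bound of (3.30): the colours which the marks carry are compatible -/
theorem ctg261_compat_of_colours {t : ℝ} {F : Finset (ℤ × ℤ)} {b : Bool} {ω : RswCfg} (hw : rswWt t F b ω ≠ 0)
    {T β : Finset (ℤ × ℤ)} (h : ω.D ∩ T = β) : Ctg261Compat F β (T \ β) ω := by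
  intro f hf g hg hc
  have h1 := ctg261_conn_const (ctg261_const_of_wt hw) hc
  rw [← h] at hf hg
  rw [Finset.mem_sdiff, Finset.mem_inter] at hg
  rw [Finset.mem_inter] at hf
  exact hg.2 ⟨h1.1 hf.1, hg.1⟩

/-- the union of the components of `N` in `F` which carry a mark of `M` -/
noncomputable def ctg261Fl (F M : Finset (ℤ × ℤ)) (O : Finset ((ℤ × ℤ) × Bool)) : Finset (ℤ × ℤ) :=
  open Classical in F.filter fun x => ∃ m ∈ M, MdlNConn F ⟨∅, ∅, O⟩ m x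

theorem ctg261_mem_fl {F M : Finset (ℤ × ℤ)} {O : Finset ((ℤ × ℤ) × Bool)} {x : ℤ × ℤ} :
    x ∈ ctg261Fl F M O ↔ x ∈ F ∧ ∃ m ∈ M, MdlNConn F ⟨∅, ∅, O⟩ m x := by
  simp only [ctg261Fl, Finset.mem_filter]

theorem ctg261_fl_cl (F M : Finset (ℤ × ℤ)) (O : Finset ((ℤ × ℤ) × Bool)) : Mdl61Cl F O (ctg261Fl F M O) := by
  refine ⟨fun x hx => (ctg261_mem_fl.1 hx).1, fun e he heO => ?_⟩
  rw [rsz_mem_int] at he
  rw [ctg261_mem_fl, ctg261_mem_fl]
  constructor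
  · rintro ⟨_, m, hm, hc⟩
    exact ⟨he.2, m, hm, hc.tail ⟨he.1, he.2, e, Or.inl ⟨rfl, rfl⟩, heO⟩⟩
  · rintro ⟨_, m, hm, hc⟩
    exact ⟨he.1, m, hm, hc.tail ⟨he.2, he.1, e, Or.inr ⟨rfl, rfl⟩, heO⟩⟩

/-- lower bound of (3.30): a compatible assignment of colours to the marks costs at most `2 ^ |T|` (free components: flips) -/
theorem ctg261_flip {t : ℝ} (h0 : 0 ≤ t) (h1 : t ≤ 1) (F : Finset (ℤ × ℤ)) (b : Bool) {A : RswCfg → Prop}
    (hA : ∀ S D D' O, A ⟨S, D, O⟩ ↔ A ⟨S, D', O⟩) {T β : Finset (ℤ × ℤ)} (hT : T ⊆ F) (hβ : β ⊆ T) :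
    rswP t F b (fun ω => A ω ∧ Ctg261Compat F β (T \ β) ω) ≤
      2 ^ T.card * rswP t F b (fun ω => A ω ∧ ω.D ∩ T = β) := by
  classical
  rw [ctg261_P_marks t F b _ T]
  have key : ∀ β' ∈ T.powerset, rswP t F b (fun ω => (A ω ∧ Ctg261Compat F β (T \ β) ω) ∧ ω.D ∩ T = β') ≤
      rswP t F b (fun ω => A ω ∧ ω.D ∩ T = β) := by
    intro β' hβ'
    rw [Finset.mem_powerset] at hβ'
    have hfl := mdl61_E_flip t F b (fun _ O => ctg261Fl F (symmDiff β β') O) (fun _ O => ctg261_fl_cl F _ O)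
      (ctg261Ind fun ω => A ω ∧ ω.D ∩ T = β)
    rw [ctg261_P_eq t F b (fun ω => A ω ∧ ω.D ∩ T = β), ← hfl, ctg261_P_eq]
    refine rsz_E_mono' h0 h1 F b fun ω hS hD hO hw => ?_
    by_cases hX : (A ω ∧ Ctg261Compat F β (T \ β) ω) ∧ ω.D ∩ T = β'
    · rw [ctg261_ind_pos hX, ctg261_ind_pos]
      obtain ⟨⟨ha, hc⟩, hd⟩ := hX
      refine ⟨(hA _ _ _ _).1 ha, ?_⟩
      have hcst := ctg261_const_of_wt hw
      have hD' : ∀ x ∈ T, (x ∈ ω.D ↔ x ∈ β') := by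
        intro x hx
        rw [← hd, Finset.mem_inter]
        tauto
      have claim : ∀ x ∈ T, (x ∈ ctg261Fl F (symmDiff β β') ω.O ↔ x ∈ symmDiff β β') := by
        intro x hx
        rw [ctg261_mem_fl]
        constructor
        · rintro ⟨_, m, hm, hcn⟩
          have hcn' : MdlNConn F ω m x := hcn
          have hmT : m ∈ T := by
            rw [Finset.mem_symmDiff] at hm
            rcases hm with hm | hm
            · exact hβ hm.1
            · exact hβ' hm.1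
          have e1 := ctg261_conn_const hcst hcn'
          have e2 := hD' m hmT
          have e3 := hD' x hx
          have e4 : m ∈ β ↔ x ∈ β := by
            constructor
            · intro hmβ
              by_contra hxβ
              exact hc m hmβ x (Finset.mem_sdiff.2 ⟨hx, hxβ⟩) hcn'
            · intro hxβ
              by_contra hmβ
              exact hc x hxβ m (Finset.mem_sdiff.2 ⟨hmT, hmβ⟩) (ctg261_conn_symm hcn')
          rw [Finset.mem_symmDiff] at hm ⊢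
          tauto
        · intro h
          exact ⟨hT hx, x, h, Relation.ReflTransGen.refl⟩
      show symmDiff ω.D (ctg261Fl F (symmDiff β β') ω.O) ∩ T = β
      ext x
      rw [Finset.mem_inter, Finset.mem_symmDiff]
      by_cases hx : x ∈ T
      · have e1 := claim x hx
        have e2 := hD' x hx
        rw [Finset.mem_symmDiff] at e1
        tauto
      · have : x ∉ β := fun h => hx (hβ h)
        tauto
    · rw [ctg261_ind_neg hX]; exact ctg261_ind_nonneg _ _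
  calc _ ≤ ∑ _β' ∈ T.powerset, rswP t F b (fun ω => A ω ∧ ω.D ∩ T = β) := Finset.sum_le_sum key
    _ = _ := by rw [Finset.sum_const, Finset.card_powerset, nsmul_eq_mul]; push_cast; ring

/-! ## 4. the swap: given the pattern on `Q'` and the colours of the marks, the law of the full spin pair in `Q1` is the same in all domains -/

/-- the face spins `D` off `K`, the face spins `D'` on `K` -/
def ctg261Glue (K D D' : Finset (ℤ × ℤ)) : Finset (ℤ × ℤ) := (D \ K) ∪ (D' ∩ K)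

theorem ctg261_mem_glue {K D D' : Finset (ℤ × ℤ)} {x : ℤ × ℤ} :
    x ∈ ctg261Glue K D D' ↔ (x ∈ D ∧ x ∉ K) ∨ (x ∈ D' ∧ x ∈ K) := by
  unfold ctg261Glue
  rw [Finset.mem_union, Finset.mem_sdiff, Finset.mem_inter]

theorem ctg261_glue_glue (K D D' : Finset (ℤ × ℤ)) : ctg261Glue K (ctg261Glue K D D') (ctg261Glue K D' D) = D := by
  ext x
  simp only [ctg261_mem_glue]
  tauto

theorem ctg261_glue_sub {K D D' F : Finset (ℤ × ℤ)} (hD : D ⊆ F) (hK : K ⊆ F) : ctg261Glue K D D' ⊆ F := by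
  intro x hx
  rw [ctg261_mem_glue] at hx
  rcases hx with h | h
  · exact hD h.1
  · exact hK h.2

theorem ctg261_glue_inter {K D D' T : Finset (ℤ × ℤ)} (hT : ∀ x ∈ T, x ∉ K) : ctg261Glue K D D' ∩ T = D ∩ T := by
  ext x
  rw [Finset.mem_inter, Finset.mem_inter, ctg261_mem_glue]
  have := hT x
  tauto

theorem ctg261_glue_const {F F' K : Finset (ℤ × ℤ)} {O O' : Finset ((ℤ × ℤ) × Bool)} (hK : Mdl61Cl F O K)
    (hin : ∀ e, e.1 ∈ K → rswCo e ∈ K → e ∉ O → e ∈ rswInt F' ∧ e ∉ O') {D D' : Finset (ℤ × ℤ)}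
    (hD : Mdl61Const F O D) (hD' : Mdl61Const F' O' D') : Mdl61Const F O (ctg261Glue K D D') := by
  intro e he heO
  have hk := hK.2 e he heO
  rw [ctg261_mem_glue, ctg261_mem_glue]
  by_cases h : e.1 ∈ K
  · have h' := hk.1 h
    obtain ⟨a, c⟩ := hin e h h' heO
    have := hD' e a c
    tauto
  · have h' : rswCo e ∉ K := fun hc => h (hk.2 hc)
    have := hD e he heO
    tauto

theorem ctg261_ind_mul_zero {A B : RswCfg → Prop} {ω ω' : RswCfg} (h : ¬ (A ω ∧ B ω')) :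
    ctg261Ind A ω * ctg261Ind B ω' = 0 := by
  by_cases a : A ω
  · rw [ctg261_ind_neg (fun c => h ⟨a, c⟩), mul_zero]
  · rw [ctg261_ind_neg a, zero_mul]

theorem ctg261_ind_mul_congr {A B A' B' : RswCfg → Prop} {ω ω' ω₂ ω₂' : RswCfg} (h : (A ω ∧ B ω') ↔ (A' ω₂ ∧ B' ω₂')) :
    ctg261Ind A ω * ctg261Ind B ω' = ctg261Ind A' ω₂ * ctg261Ind B' ω₂' := by
  by_cases hh : A ω ∧ B ω'
  · have hh' := h.1 hh
    rw [ctg261_ind_pos hh.1, ctg261_ind_pos hh.2, ctg261_ind_pos hh'.1, ctg261_ind_pos hh'.2]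
  · rw [ctg261_ind_mul_zero hh, ctg261_ind_mul_zero (fun x => hh (h.2 x))]

theorem ctg261_mul_sum_congr {ι κ : Type*} {s : Finset ι} {s' : Finset κ} {a c : ι → ℝ} {b d : κ → ℝ}
    (h : ∀ i ∈ s, ∀ j ∈ s', a i * b j = c i * d j) : (∑ i ∈ s, a i) * (∑ j ∈ s', b j) = (∑ i ∈ s, c i) * (∑ j ∈ s', d j) := by
  rw [Finset.sum_mul_sum, Finset.sum_mul_sum]
  exact Finset.sum_congr rfl fun i hi => Finset.sum_congr rfl fun j hj => h i hi j hj

/-- inside the sealed region the two configurations have the same closed edges -/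
theorem ctg261_seal_in {Q' F' : Finset (ℤ × ℤ)} {g ω ω' : RswCfg} (hQF' : Q' ⊆ F') (hp : MdlPat Q' g ω)
    (hp' : MdlPat Q' g ω') : ∀ e, e.1 ∈ ctg261Seal Q' g → rswCo e ∈ ctg261Seal Q' g → e ∉ ω.O →
      e ∈ rswInt F' ∧ e ∉ ω'.O := by
  intro e h1 h2 heO
  have a1 := (ctg261_mem_seal.1 h1).1
  have a2 := (ctg261_mem_seal.1 h2).1
  have hed : e ∈ mdlEd Q' := ctg261_mem_ed.2 (Or.inl a1)
  exact ⟨rsz_mem_int.2 ⟨hQF' a1, hQF' a2⟩, fun hc => heO ((hp.2 e hed).2 ((hp'.2 e hed).1 hc))⟩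

/-- the colour of a face of `Q1` off the sealed region is the colour of its mark -/
theorem ctg261_colour {Q' F : Finset (ℤ × ℤ)} {g : RswCfg} {T β : Finset (ℤ × ℤ)}
    (hQF : Q' ⊆ F) {ω : RswCfg} (hp : MdlPat Q' g ω) {D : Finset (ℤ × ℤ)} (hD : Mdl61Const F ω.O D) (hβ : D ∩ T = β)
    {f m : ℤ × ℤ} (hm : m ∈ T) (hc : MdlNConn Q' g f m) : f ∈ D ↔ m ∈ β := by
  have h1 := ctg261_conn_const hD (ctg261_conn_mono hQF (ctg261_conn_pat hp hc))
  rw [h1, ← hβ, Finset.mem_inter]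
  tauto

theorem ctg261_swap_core (t : ℝ) {F F' Q1 Q' : Finset (ℤ × ℤ)} (b b' : Bool) (hQ : Q1 ⊆ Q') (hQF : Q' ⊆ F) (hQF' : Q' ⊆ F')
    {g : RswCfg} {T : Finset (ℤ × ℤ)} (β : Finset (ℤ × ℤ)) (hT : Ctg261Marks Q1 Q' g T) {E : RswCfg → Prop} (hE : MdlIn Q1 E)
    {S S' : Finset (ℤ × ℤ)} {O O' : Finset ((ℤ × ℤ) × Bool)} (hp : MdlPat Q' g ⟨S, ∅, O⟩) (hp' : MdlPat Q' g ⟨S', ∅, O'⟩) :
    (∑ D ∈ F.powerset, rswWt t F b ⟨S, D, O⟩ * ctg261Ind (fun ω => E ω ∧ ω.D ∩ T = β) ⟨S, D, O⟩) *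
        (∑ D' ∈ F'.powerset, rswWt t F' b' ⟨S', D', O'⟩ * ctg261Ind (fun ω => ω.D ∩ T = β) ⟨S', D', O'⟩) =
      (∑ D ∈ F.powerset, rswWt t F b ⟨S, D, O⟩ * ctg261Ind (fun ω => ω.D ∩ T = β) ⟨S, D, O⟩) *
        (∑ D' ∈ F'.powerset, rswWt t F' b' ⟨S', D', O'⟩ * ctg261Ind (fun ω => E ω ∧ ω.D ∩ T = β) ⟨S', D', O'⟩) := by
  classical
  set K := ctg261Seal Q' g with hKdef
  have hKF : K ⊆ F := fun x hx => hQF (ctg261_mem_seal.1 hx).1
  have hKF' : K ⊆ F' := fun x hx => hQF' (ctg261_mem_seal.1 hx).1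
  have hcl : Mdl61Cl F O K := ctg261_seal_cl hQF hp
  have hcl' : Mdl61Cl F' O' K := ctg261_seal_cl hQF' hp'
  have hin : ∀ e, e.1 ∈ K → rswCo e ∈ K → e ∉ O → e ∈ rswInt F' ∧ e ∉ O' := ctg261_seal_in hQF' hp hp'
  have hin' : ∀ e, e.1 ∈ K → rswCo e ∈ K → e ∉ O' → e ∈ rswInt F ∧ e ∉ O := ctg261_seal_in hQF hp' hp
  have hTK : ∀ x ∈ T, x ∉ K := fun x hx => hT.not_seal hx
  rw [Finset.sum_mul_sum, Finset.sum_mul_sum, ← Finset.sum_product', ← Finset.sum_product']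
  refine Finset.sum_nbij' (fun x => (ctg261Glue K x.1 x.2, ctg261Glue K x.2 x.1))
    (fun x => (ctg261Glue K x.1 x.2, ctg261Glue K x.2 x.1)) ?_ ?_ ?_ ?_ ?_
  · intro x hx
    rw [Finset.mem_product, Finset.mem_powerset, Finset.mem_powerset] at hx ⊢
    exact ⟨ctg261_glue_sub hx.1 hKF, ctg261_glue_sub hx.2 hKF'⟩
  · intro x hx
    rw [Finset.mem_product, Finset.mem_powerset, Finset.mem_powerset] at hx ⊢
    exact ⟨ctg261_glue_sub hx.1 hKF, ctg261_glue_sub hx.2 hKF'⟩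
  · intro x _
    exact Prod.ext (ctg261_glue_glue K x.1 x.2) (ctg261_glue_glue K x.2 x.1)
  · intro x _
    exact Prod.ext (ctg261_glue_glue K x.1 x.2) (ctg261_glue_glue K x.2 x.1)
  · rintro ⟨D, D'⟩ _
    simp only
    have hiff : (Mdl61Const F O D ∧ Mdl61Const F' O' D') ↔
        (Mdl61Const F O (ctg261Glue K D D') ∧ Mdl61Const F' O' (ctg261Glue K D' D)) := by
      constructor
      · rintro ⟨c1, c2⟩
        exact ⟨ctg261_glue_const hcl hin c1 c2, ctg261_glue_const hcl' hin' c2 c1⟩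
      · rintro ⟨c1, c2⟩
        have a1 := ctg261_glue_const hcl hin c1 c2
        have a2 := ctg261_glue_const hcl' hin' c2 c1
        rw [ctg261_glue_glue] at a1 a2
        exact ⟨a1, a2⟩
    rw [mul_mul_mul_comm (rswWt t F b ⟨S, D, O⟩), mul_mul_mul_comm (rswWt t F b ⟨S, ctg261Glue K D D', O⟩),
      mdl61_wt_const t F b S D O, mdl61_wt_const t F' b' S' D' O', mdl61_wt_const t F b S (ctg261Glue K D D') O,
      mdl61_wt_const t F' b' S' (ctg261Glue K D' D) O']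
    by_cases hcc : Mdl61Const F O D ∧ Mdl61Const F' O' D'
    · have hcc' := hiff.1 hcc
      rw [if_pos hcc.1, if_pos hcc.2, if_pos hcc'.1, if_pos hcc'.2]
      congr 1
      refine ctg261_ind_mul_congr ?_
      simp only
      rw [ctg261_glue_inter hTK, ctg261_glue_inter hTK]
      have hEE : D ∩ T = β → D' ∩ T = β → (E ⟨S, D, O⟩ ↔ E ⟨S', ctg261Glue K D' D, O'⟩) := by
        intro hb hb'
        refine hE _ _ (fun v hv => ?_) (fun f hf => ?_) (fun e he => ?_)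
        · have hv' := ctg261_corners_mono hQ hv
          exact (hp.1 v hv').trans (hp'.1 v hv').symm
        · show f ∈ D ↔ f ∈ ctg261Glue K D' D
          rw [ctg261_mem_glue]
          by_cases hfK : f ∈ K
          · tauto
          · obtain ⟨m, hm, hc⟩ := hT.cov f hf hfK
            have e1 := ctg261_colour hQF hp (D := D) hcc.1 hb hm hc
            have e2 := ctg261_colour hQF' hp' (D := D') hcc.2 hb' hm hc
            tauto
        · have he' := ctg261_ed_mono hQ he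
          exact (hp.2 e he').trans (hp'.2 e he').symm
      constructor
      · rintro ⟨⟨h1, h2⟩, h3⟩
        exact ⟨h2, (hEE h2 h3).1 h1, h3⟩
      · rintro ⟨h2, h1, h3⟩
        exact ⟨⟨(hEE h2 h3).2 h1, h2⟩, h3⟩
    · have hcc' : ¬ (Mdl61Const F O (ctg261Glue K D D') ∧ Mdl61Const F' O' (ctg261Glue K D' D)) := fun h => hcc (hiff.2 h)
      have z1 : (if Mdl61Const F O D then rswWt t F b ⟨S, ∅, O⟩ else 0) *
          (if Mdl61Const F' O' D' then rswWt t F' b' ⟨S', ∅, O'⟩ else 0) = 0 := by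
        by_cases c1 : Mdl61Const F O D
        · rw [if_neg (fun c2 => hcc ⟨c1, c2⟩), mul_zero]
        · rw [if_neg c1, zero_mul]
      have z2 : (if Mdl61Const F O (ctg261Glue K D D') then rswWt t F b ⟨S, ∅, O⟩ else 0) *
          (if Mdl61Const F' O' (ctg261Glue K D' D) then rswWt t F' b' ⟨S', ∅, O'⟩ else 0) = 0 := by
        by_cases c1 : Mdl61Const F O (ctg261Glue K D D')
        · rw [if_neg (fun c2 => hcc' ⟨c1, c2⟩), mul_zero]
        · rw [if_neg c1, zero_mul]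
      rw [z1, z2, zero_mul, zero_mul]

theorem ctg261_ind_and_pos {A : RswCfg → Prop} {ω : RswCfg} (h : A ω) (X : RswCfg → Prop) :
    ctg261Ind (fun ω => A ω ∧ X ω) ω = ctg261Ind X ω := by
  by_cases hX : X ω
  · rw [ctg261_ind_pos hX, ctg261_ind_pos (A := fun ω => A ω ∧ X ω) ⟨h, hX⟩]
  · rw [ctg261_ind_neg hX, ctg261_ind_neg (A := fun ω => A ω ∧ X ω) (fun c => hX c.2)]

theorem ctg261_ind_and_neg {A : RswCfg → Prop} {ω : RswCfg} (h : ¬ A ω) (X : RswCfg → Prop) :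
    ctg261Ind (fun ω => A ω ∧ X ω) ω = 0 :=
  ctg261_ind_neg (A := fun ω => A ω ∧ X ω) (fun c => h c.1)

/-- **THE SWAP** ("integrate the identical independent internal colours"): `A`, `A'` = any `(s,W)` events which force the pattern `g` on `Q'` -/
theorem ctg261_swap (t : ℝ) {F F' Q1 Q' : Finset (ℤ × ℤ)} (b b' : Bool) (hQ : Q1 ⊆ Q') (hQF : Q' ⊆ F) (hQF' : Q' ⊆ F')
    {g : RswCfg} {T : Finset (ℤ × ℤ)} (β : Finset (ℤ × ℤ)) (hT : Ctg261Marks Q1 Q' g T) {E : RswCfg → Prop} (hE : MdlIn Q1 E)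
    {A A' : RswCfg → Prop} (hA : ∀ S D D' O, A ⟨S, D, O⟩ ↔ A ⟨S, D', O⟩) (hA' : ∀ S D D' O, A' ⟨S, D, O⟩ ↔ A' ⟨S, D', O⟩)
    (hAp : ∀ ω, A ω → MdlPat Q' g ω) (hAp' : ∀ ω, A' ω → MdlPat Q' g ω) :
    rswP t F b (fun ω => A ω ∧ E ω ∧ ω.D ∩ T = β) * rswP t F' b' (fun ω => A' ω ∧ ω.D ∩ T = β) =
      rswP t F b (fun ω => A ω ∧ ω.D ∩ T = β) * rswP t F' b' (fun ω => A' ω ∧ E ω ∧ ω.D ∩ T = β) := by
  simp only [ctg261_P_eq]
  unfold rswE
  rw [div_mul_div_comm, div_mul_div_comm]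
  congr 1
  simp only [mdl61_sum_swap]
  refine ctg261_mul_sum_congr fun S _ S' _ => ctg261_mul_sum_congr fun O _ O' _ => ?_
  by_cases ha : A ⟨S, ∅, O⟩
  · by_cases ha' : A' ⟨S', ∅, O'⟩
    · have e1 : ∀ (X : RswCfg → Prop) (D : Finset (ℤ × ℤ)),
          ctg261Ind (fun ω => A ω ∧ X ω) ⟨S, D, O⟩ = ctg261Ind X ⟨S, D, O⟩ :=
        fun X D => ctg261_ind_and_pos ((hA S ∅ D O).1 ha) X
      have e2 : ∀ (X : RswCfg → Prop) (D : Finset (ℤ × ℤ)),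
          ctg261Ind (fun ω => A' ω ∧ X ω) ⟨S', D, O'⟩ = ctg261Ind X ⟨S', D, O'⟩ :=
        fun X D => ctg261_ind_and_pos ((hA' S' ∅ D O').1 ha') X
      simp only [e1, e2]
      exact ctg261_swap_core t b b' hQ hQF hQF' β hT hE (hAp _ ha) (hAp' _ ha')
    · have e2 : ∀ (X : RswCfg → Prop) (D : Finset (ℤ × ℤ)), ctg261Ind (fun ω => A' ω ∧ X ω) ⟨S', D, O'⟩ = 0 :=
        fun X D => ctg261_ind_and_neg (fun c => ha' ((hA' S' ∅ D O').2 c)) X
      simp only [e2, mul_zero, Finset.sum_const_zero]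
  · have e1 : ∀ (X : RswCfg → Prop) (D : Finset (ℤ × ℤ)), ctg261Ind (fun ω => A ω ∧ X ω) ⟨S, D, O⟩ = 0 :=
      fun X D => ctg261_ind_and_neg (fun c => ha ((hA S ∅ D O).2 c)) X
    simp only [e1, mul_zero, Finset.sum_const_zero, zero_mul]

/-! ## 5. the records -/

/-- RECORD (S2): the type of `exit_mdl_trans` -/
def Ctg261S2 (t : ℝ) : Prop := ∀ k : ℕ,
    ∃ C q : ℝ, 0 < C ∧ 0 < q ∧ q < 1 ∧ ∃ n0 : ℕ, ∀ n : ℕ, n0 ≤ n → ∀ (F : Finset (ℤ × ℤ)) (z : ℤ × ℤ) (b : Bool) (L : RswCfg → Prop) (j : ℕ),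
      RswJordan F → rswBox z ((k + 2) * n) ⊆ F → MdlExt (rswBox z ((k + 2) * n)) L →
      rswP t F b (fun ω => L ω ∧ MdlTrans (rswBox z (k * n)) (rswBox z ((k + 1) * n)) j ω) ≤ C * q ^ j * rswP t F b L

/-- RECORD (S3): the type of `exit_mdl_pattern` -/
def Ctg261S3 (t : ℝ) : Prop := ∀ k : ℕ,
    ∃ C : ℝ, 1 ≤ C ∧ ∃ n0 : ℕ, ∀ (m : ℕ) (z : Fin m → ℤ × ℤ) (n : Fin m → ℕ) (F : Finset (ℤ × ℤ)) (b : Bool) (L : RswCfg → Prop)
      (ω₀ : Fin m → RswCfg), RswJordan F → (∀ i, n0 ≤ n i) → (∀ i, rswBox (z i) ((k + 1) * n i) ⊆ F) →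
      (∀ i j, i ≠ j → Disjoint (rswBox (z i) ((k + 1) * n i)) (rswBox (z j) ((k + 1) * n j))) →
      MdlExt (Finset.univ.biUnion fun i => rswBox (z i) ((k + 1) * n i)) L →
      (C⁻¹) ^ m * (∏ i, mdlPiP t (MdlPat (rswBox (z i) (k * n i)) (ω₀ i))) * rswP t F b L
          ≤ rswP t F b (fun ω => L ω ∧ ∀ i, MdlPat (rswBox (z i) (k * n i)) (ω₀ i) ω) ∧
      rswP t F b (fun ω => L ω ∧ ∀ i, MdlPat (rswBox (z i) (k * n i)) (ω₀ i) ω)
          ≤ C ^ m * (∏ i, mdlPiP t (MdlPat (rswBox (z i) (k * n i)) (ω₀ i))) * rswP t F b L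

/-- RECORD (plane law): the type of `exit_rsw_plane` -/
def Ctg261Pl (t : ℝ) : Prop :=
  ∀ (R : Finset (ℤ × ℤ)) (R' : Finset ((ℤ × ℤ) × Bool)) (X : RswCfg → ℝ), RswLoc R R' X →
    ∃ ℓ : ℝ, ∀ ε : ℝ, 0 < ε → ∃ n0 : ℕ, ∀ (F : Finset (ℤ × ℤ)) (b : Bool),
      RswJordan F → rswBox 0 n0 ⊆ F → |rswE t F b X - ℓ| < ε

/-- RECORD (geometry): a square box is a Jordan domain -/
def Ctg261J : Prop := ∀ N : ℕ, 1 ≤ N → RswJordan (rswBox 0 N)

/-- one step of a dual path in the WHOLE plane which does not cross a good edge of colour `a` interior to `B` -/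
def Ctg261Step (B : Finset (ℤ × ℤ)) (a : Bool) (ω : RswCfg) (f g : ℤ × ℤ) : Prop :=
  ∃ e, ((f = e.1 ∧ g = rswCo e) ∨ (g = e.1 ∧ f = rswCo e)) ∧ ¬ (e ∈ rswInt B ∧ RswGood a ω e)

/-- SHORT WITNESS: every opposite pair of marks is separated, in the whole plane, by the open monochromatic `W` edges of one colour inside `B`
(cut-cycle duality: by an actual open monochromatic `W` loop contained in `B`).  Read off the complete pattern on `B`; no domain enters. -/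
def Ctg261Wit (B Mp Mm : Finset (ℤ × ℤ)) (ω : RswCfg) : Prop :=
  ∀ f ∈ Mp, ∀ g ∈ Mm, ∃ a : Bool, ¬ Relation.ReflTransGen (Ctg261Step B a ω) f g

/-- RECORD (lem:buffered-witnesses), ratio `k`: marks in `Λ_{kn}`, complete pattern on `Λ_{(k+1)n}`, witnesses in `Λ_{(k+2)n}`, exterior data off `Λ_{(k+3)n}`:
compatibility of conditional probability `≥ p` is witnessed inside `Λ_{(k+2)n}` with conditional probability `≥ c(p, M, k, t)`.  Product form. -/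
def Ctg261W (t : ℝ) : Prop := ∀ (k M : ℕ) (p : ℝ), 0 < p →
    ∃ c : ℝ, 0 < c ∧ ∃ n0 : ℕ, ∀ n : ℕ, n0 ≤ n → ∀ (F : Finset (ℤ × ℤ)) (z : ℤ × ℤ) (b : Bool) (L : RswCfg → Prop) (g : RswCfg)
      (Mp Mm : Finset (ℤ × ℤ)), RswJordan F → rswBox z ((k + 3) * n) ⊆ F → MdlExt (rswBox z ((k + 3) * n)) L →
      Mp ⊆ rswBox z (k * n) → Mm ⊆ rswBox z (k * n) → Mp.card + Mm.card ≤ M →
      p * rswP t F b (fun ω => L ω ∧ MdlPat (rswBox z ((k + 1) * n)) g ω) ≤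
        rswP t F b (fun ω => (L ω ∧ MdlPat (rswBox z ((k + 1) * n)) g ω) ∧ Ctg261Compat F Mp Mm ω) →
      c * rswP t F b (fun ω => L ω ∧ MdlPat (rswBox z ((k + 1) * n)) g ω) ≤
        rswP t F b (fun ω => (L ω ∧ MdlPat (rswBox z ((k + 1) * n)) g ω) ∧ Ctg261Wit (rswBox z ((k + 2) * n)) Mp Mm ω)

/-- a witness certifies compatibility in EVERY domain -/
theorem ctg261_wit_compat {B Mp Mm : Finset (ℤ × ℤ)} {ω : RswCfg} (h : Ctg261Wit B Mp Mm ω) (F : Finset (ℤ × ℤ)) :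
    Ctg261Compat F Mp Mm ω := by
  intro f hf g hg hc
  obtain ⟨a, ha⟩ := h f hf g hg
  refine ha (ctg261_rtg_mono (s := Ctg261Step B a ω) ?_ hc)
  rintro x y ⟨_, _, e, he, heO⟩
  exact ⟨e, he, fun h => heO h.2.1⟩

/-- a witness is read off the complete pattern on `B` -/
theorem ctg261_wit_pat {B Mp Mm : Finset (ℤ × ℤ)} {ω₀ ω : RswCfg} (hp : MdlPat B ω₀ ω) (h : Ctg261Wit B Mp Mm ω₀) :
    Ctg261Wit B Mp Mm ω := by
  intro f hf g hg
  obtain ⟨a, ha⟩ := h f hf g hg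
  refine ⟨a, fun hc => ha (ctg261_rtg_mono (s := Ctg261Step B a ω₀) ?_ hc)⟩
  rintro x y ⟨e, he, hn⟩
  refine ⟨e, he, fun hh => hn ⟨hh.1, ?_⟩⟩
  obtain ⟨hi, h1, h2, h3⟩ := hh
  have hi' := (rsz_mem_int.1 hi).1
  refine ⟨(hp.2 e (ctg261_mem_ed.2 (Or.inl hi'))).2 h1, ?_, ?_⟩
  · rw [hp.1 e.1 (rsz_face_corner hi')]; exact h2
  · rw [hp.1 (rswEnd e) (rsz_end_corner hi')]; exact h3

/-- (S3) for one box -/
theorem ctg261_S3_one {t : ℝ} (h : Ctg261S3 t) (k : ℕ) :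
    ∃ C : ℝ, 1 ≤ C ∧ ∃ n0 : ℕ, ∀ (n : ℕ) (z : ℤ × ℤ) (F : Finset (ℤ × ℤ)) (b : Bool) (L : RswCfg → Prop) (ω₀ : RswCfg),
      RswJordan F → n0 ≤ n → rswBox z ((k + 1) * n) ⊆ F → MdlExt (rswBox z ((k + 1) * n)) L →
      C⁻¹ * mdlPiP t (MdlPat (rswBox z (k * n)) ω₀) * rswP t F b L ≤ rswP t F b (fun ω => L ω ∧ MdlPat (rswBox z (k * n)) ω₀ ω) ∧
      rswP t F b (fun ω => L ω ∧ MdlPat (rswBox z (k * n)) ω₀ ω) ≤ C * mdlPiP t (MdlPat (rswBox z (k * n)) ω₀) * rswP t F b L := by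
  obtain ⟨C, hC, n0, H⟩ := h k
  refine ⟨C, hC, n0, fun n z F b L ω₀ hF hn hsub hL => ?_⟩
  have := H 1 (fun _ => z) (fun _ => n) F b L (fun _ => ω₀) hF (fun _ => hn) (fun _ => hsub)
    (fun i j hij => absurd (Subsingleton.elim i j) hij) (by simpa using hL)
  simpa using this

theorem ctg261_P_true {t : ℝ} (h0 : 0 < t) (h1 : t ≤ 1) (F : Finset (ℤ × ℤ)) (b : Bool) : rswP t F b (fun _ => True) = 1 := by
  rw [ctg261_P_eq]
  have : ctg261Ind (fun _ => True) = fun _ => (1 : ℝ) := funext fun ω => ctg261_ind_pos (A := fun _ => True) trivial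
  rw [this]
  exact rsz_E_const h0 h1 F b 1

/-- two uses of (S3) on the same box: an event of the complete pattern on `B` costs in `F'` at least `C⁻²` times its conditional cost in `F` -/
theorem ctg261_transfer {t : ℝ} (h0 : 0 < t) (h1 : t ≤ 1) {C : ℝ} (hC : 1 ≤ C) {B F F' : Finset (ℤ × ℤ)} {b b' : Bool}
    {L : RswCfg → Prop}
    (hup : ∀ ω₀, rswP t F b (fun ω => L ω ∧ MdlPat B ω₀ ω) ≤ C * mdlPiP t (MdlPat B ω₀) * rswP t F b L)
    (hlo : ∀ ω₀, C⁻¹ * mdlPiP t (MdlPat B ω₀) * rswP t F' b' (fun _ => True) ≤ rswP t F' b' (fun ω => True ∧ MdlPat B ω₀ ω))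
    {A : RswCfg → Prop} (hA : ∀ ω₀ ω, MdlPat B ω₀ ω → (A ω₀ ↔ A ω)) :
    rswP t F b (fun ω => L ω ∧ A ω) ≤ C ^ 2 * rswP t F b L * rswP t F' b' A := by
  have hCp : 0 < C := lt_of_lt_of_le one_pos hC
  have hl : 0 ≤ rswP t F b L := rsz_P_nonneg h0.le h1 F b L
  rw [ctg261_P_pat t F b _ B, ctg261_P_pat t F' b' A B, Finset.mul_sum]
  refine Finset.sum_le_sum fun p _ => ?_
  by_cases ha : A (ctg261Cfg p)
  · have e1 : rswP t F b (fun ω => (L ω ∧ A ω) ∧ MdlPat B (ctg261Cfg p) ω) =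
        rswP t F b (fun ω => L ω ∧ MdlPat B (ctg261Cfg p) ω) :=
      ctg261_P_congr t F b fun ω => ⟨fun h => ⟨h.1.1, h.2⟩, fun h => ⟨⟨h.1, (hA _ _ h.2).1 ha⟩, h.2⟩⟩
    have e2 : rswP t F' b' (fun ω => A ω ∧ MdlPat B (ctg261Cfg p) ω) =
        rswP t F' b' (fun ω => True ∧ MdlPat B (ctg261Cfg p) ω) :=
      ctg261_P_congr t F' b' fun ω => ⟨fun h => ⟨trivial, h.2⟩, fun h => ⟨(hA _ _ h.2).1 ha, h.2⟩⟩
    rw [e1, e2]
    have u := hup (ctg261Cfg p)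
    have l := hlo (ctg261Cfg p)
    rw [ctg261_P_true h0 h1, mul_one] at l
    have hx : mdlPiP t (MdlPat B (ctg261Cfg p)) ≤ C * rswP t F' b' (fun ω => True ∧ MdlPat B (ctg261Cfg p) ω) :=
      (inv_mul_le_iff₀ hCp).1 l
    calc _ ≤ C * mdlPiP t (MdlPat B (ctg261Cfg p)) * rswP t F b L := u
      _ ≤ C * (C * rswP t F' b' (fun ω => True ∧ MdlPat B (ctg261Cfg p) ω)) * rswP t F b L := by gcongr
      _ = _ := by ring
  · rw [ctg261_P_false t F b (A := fun ω => (L ω ∧ A ω) ∧ MdlPat B (ctg261Cfg p) ω)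
      (fun ω h => ha ((hA _ _ h.2).2 h.1.2))]
    exact mul_nonneg (mul_nonneg (by positivity) hl) (rsz_P_nonneg h0.le h1 F' b' _)

theorem ctg261_box_mono (z : ℤ × ℤ) {a b : ℕ} (h : a ≤ b) : rswBox z a ⊆ rswBox z b := by
  intro x hx
  unfold rswBox at *
  simp only [Finset.mem_product, Finset.mem_Ico] at *
  omega

theorem ctg261_box_zero (z : ℤ × ℤ) (m : ℕ) {N : ℕ} (h : m + z.1.natAbs + z.2.natAbs ≤ N) : rswBox z m ⊆ rswBox 0 N := by
  intro x hx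
  unfold rswBox at *
  simp only [Finset.mem_product, Finset.mem_Ico, Prod.fst_zero, Prod.snd_zero] at *
  omega

theorem ctg261_in_loc {Q : Finset (ℤ × ℤ)} {E : RswCfg → Prop} (hE : MdlIn Q E) :
    RswLoc (cornersOf Q ∪ Q) (mdlEd Q) (ctg261Ind E) := by
  intro ω ω' hS hD hO
  have hiff : E ω ↔ E ω' := by
    refine hE ω ω' (fun v hv => ?_) (fun f hf => ?_) (fun e he => ?_)
    · have := Finset.ext_iff.1 hS v
      simp only [Finset.mem_inter, Finset.mem_union] at this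
      tauto
    · have := Finset.ext_iff.1 hD f
      simp only [Finset.mem_inter, Finset.mem_union] at this
      tauto
    · have := Finset.ext_iff.1 hO e
      simp only [Finset.mem_inter] at this
      tauto
  by_cases h : E ω
  · rw [ctg261_ind_pos h, ctg261_ind_pos (hiff.1 h)]
  · rw [ctg261_ind_neg h, ctg261_ind_neg (fun c => h (hiff.2 c))]

/-- a local event which is small in the plane is small in a large plus box -/
theorem ctg261_plane {t : ℝ} (hPl : Ctg261Pl t) (hJ : Ctg261J) {Q : Finset (ℤ × ℤ)} {E : RswCfg → Prop} (hE : MdlIn Q E)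
    {ζ : ℝ} (hζ : mdlPiP t E < ζ) (N0 : ℕ) : ∃ N, N0 ≤ N ∧ 1 ≤ N ∧ rswP t (rswBox 0 N) true E < ζ := by
  obtain ⟨ℓ, hℓ⟩ := hPl _ _ _ (ctg261_in_loc hE)
  have hlim : Tendsto (fun n : ℕ => rswE t (rswBox 0 n) true (ctg261Ind E)) atTop (𝓝 ℓ) := by
    rw [Metric.tendsto_atTop]
    intro ε hε
    obtain ⟨n0, hn0⟩ := hℓ ε hε
    refine ⟨max n0 1, fun n hn => ?_⟩
    rw [Real.dist_eq]
    exact hn0 _ true (hJ n (le_trans (le_max_right _ _) hn)) (ctg261_box_mono 0 (le_trans (le_max_left _ _) hn))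
  have heq : mdlPiP t E = ℓ := hlim.limUnder_eq
  rw [heq] at hζ
  obtain ⟨n0, hn0⟩ := hℓ (ζ - ℓ) (by linarith)
  refine ⟨max (max n0 1) N0, le_max_right _ _, le_trans (le_max_right _ _) (le_max_left _ _), ?_⟩
  have := hn0 (rswBox 0 (max (max n0 1) N0)) true (hJ _ (le_trans (le_max_right _ _) (le_max_left _ _)))
    (ctg261_box_mono 0 (le_trans (le_max_left _ _) (le_max_left _ _)))
  rw [ctg261_P_eq]
  have := (abs_lt.1 this).2
  linarith

/-! ## 6. the chain (eq:spatial-contiguity-modulus) on abstract nested sets `Q1 ⊆ Q' ⊆ B' ⊆ F, F'` -/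

theorem ctg261_pat_blind (Q : Finset (ℤ × ℤ)) (g : RswCfg) (S D D' : Finset (ℤ × ℤ)) (O : Finset ((ℤ × ℤ) × Bool)) :
    MdlPat Q g ⟨S, D, O⟩ ↔ MdlPat Q g ⟨S, D', O⟩ := Iff.rfl

theorem ctg261_arith {a a0 u y yE l c W : ℝ} (hc : 0 < c) (ha : 0 ≤ a) (hu : 0 ≤ u) (hyE : 0 ≤ yE) (hl : 0 ≤ l) (hW : 0 ≤ W)
    (key : c * u ≤ W * l * y) (sw : a * y = a0 * yE) (a_le : a ≤ a0) (a0_le : a0 ≤ u) : a ≤ W / c * l * yE := by
  rcases hu.eq_or_lt with hu0 | hupos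
  · have h1 : a ≤ 0 := by rw [hu0]; exact a_le.trans a0_le
    have h2 : 0 ≤ W / c * l * yE := by positivity
    linarith
  · have s1 : a * (c * u) ≤ (W * l * yE) * u := by
      calc a * (c * u) ≤ a * (W * l * y) := mul_le_mul_of_nonneg_left key ha
        _ = W * l * (a * y) := by ring
        _ = W * l * (a0 * yE) := by rw [sw]
        _ ≤ W * l * (u * yE) :=
          mul_le_mul_of_nonneg_left (mul_le_mul_of_nonneg_right a0_le hyE) (by positivity)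
        _ = _ := by ring
    have s2 : a * c ≤ W * l * yE := by
      have : (a * c) * u ≤ (W * l * yE) * u := by linarith [s1, mul_assoc a c u]
      exact le_of_mul_le_mul_right this hupos
    calc a = a * c / c := by field_simp
      _ ≤ W * l * yE / c := div_le_div_of_nonneg_right s2 hc.le
      _ = _ := by ring

/-- one atom `(g, β)`: pattern `g` on `Q'`, colours `β` of its marks -/
theorem ctg261_atom {t : ℝ} (h0 : 0 < t) (h1 : t ≤ 1) {F F' Q1 Q' B' : Finset (ℤ × ℤ)} {b b' : Bool}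
    (hQ : Q1 ⊆ Q') (hQB : Q' ⊆ B') (hBF : B' ⊆ F) (hBF' : B' ⊆ F') {L E : RswCfg → Prop}
    (hLb : ∀ S D D' O, L ⟨S, D, O⟩ ↔ L ⟨S, D', O⟩) (hE : MdlIn Q1 E) {M : ℕ} {p c C : ℝ} (hp : 0 ≤ p) (hc : 0 < c) (hC : 1 ≤ C)
    (hW : ∀ (g : RswCfg) (Mp Mm : Finset (ℤ × ℤ)), Mp ⊆ Q1 → Mm ⊆ Q1 → Mp.card + Mm.card ≤ M →
      p * rswP t F b (fun ω => L ω ∧ MdlPat Q' g ω) ≤ rswP t F b (fun ω => (L ω ∧ MdlPat Q' g ω) ∧ Ctg261Compat F Mp Mm ω) →
      c * rswP t F b (fun ω => L ω ∧ MdlPat Q' g ω) ≤ rswP t F b (fun ω => (L ω ∧ MdlPat Q' g ω) ∧ Ctg261Wit B' Mp Mm ω))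
    (hup : ∀ ω₀, rswP t F b (fun ω => L ω ∧ MdlPat B' ω₀ ω) ≤ C * mdlPiP t (MdlPat B' ω₀) * rswP t F b L)
    (hlo : ∀ ω₀, C⁻¹ * mdlPiP t (MdlPat B' ω₀) * rswP t F' b' (fun _ => True) ≤ rswP t F' b' (fun ω => True ∧ MdlPat B' ω₀ ω))
    {g : RswCfg} {T β : Finset (ℤ × ℤ)} (hT : Ctg261Marks Q1 Q' g T) (hTM : T.card ≤ M) (hβ : β ⊆ T) :
    rswP t F b (fun ω => (L ω ∧ MdlPat Q' g ω) ∧ E ω ∧ ω.D ∩ T = β) ≤
      p * rswP t F b (fun ω => L ω ∧ MdlPat Q' g ω) +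
        2 ^ M * C ^ 2 / c * rswP t F b L * rswP t F' b' (fun ω => MdlPat Q' g ω ∧ E ω ∧ ω.D ∩ T = β) := by
  have hQF : Q' ⊆ F := hQB.trans hBF
  have hQF' : Q' ⊆ F' := hQB.trans hBF'
  have hCp : 0 < C := lt_of_lt_of_le one_pos hC
  have ha_nn : 0 ≤ rswP t F b (fun ω => (L ω ∧ MdlPat Q' g ω) ∧ E ω ∧ ω.D ∩ T = β) := rsz_P_nonneg h0.le h1 F b _
  have hu_nn : 0 ≤ rswP t F b (fun ω => L ω ∧ MdlPat Q' g ω) := rsz_P_nonneg h0.le h1 F b _
  have hy_nn : 0 ≤ rswP t F' b' (fun ω => MdlPat Q' g ω ∧ ω.D ∩ T = β) := rsz_P_nonneg h0.le h1 F' b' _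
  have hyE_nn : 0 ≤ rswP t F' b' (fun ω => MdlPat Q' g ω ∧ E ω ∧ ω.D ∩ T = β) := rsz_P_nonneg h0.le h1 F' b' _
  have hl_nn : 0 ≤ rswP t F b L := rsz_P_nonneg h0.le h1 F b _
  have hW_nn : (0 : ℝ) ≤ 2 ^ M * C ^ 2 := by positivity
  by_cases hgood : p * rswP t F b (fun ω => L ω ∧ MdlPat Q' g ω) ≤
      rswP t F b (fun ω => (L ω ∧ MdlPat Q' g ω) ∧ Ctg261Compat F β (T \ β) ω)
  · -- a retained assignment
    have hcard : β.card + (T \ β).card ≤ M := by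
      have := Finset.card_sdiff_add_card_eq_card hβ
      omega
    have w := hW g β (T \ β) (hβ.trans hT.sub) (Finset.sdiff_subset.trans hT.sub) hcard hgood
    have tr := ctg261_transfer h0 h1 hC hup hlo (A := fun ω => MdlPat Q' g ω ∧ Ctg261Wit B' β (T \ β) ω) (by
      intro ω₀ ω hp
      constructor
      · rintro ⟨x1, x2⟩
        exact ⟨ctg261_pat_trans x1 (ctg261_pat_mono hQB hp), ctg261_wit_pat hp x2⟩
      · rintro ⟨x1, x2⟩
        exact ⟨ctg261_pat_trans x1 (ctg261_pat_mono hQB (ctg261_pat_symm hp)), ctg261_wit_pat (ctg261_pat_symm hp) x2⟩)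
    have e1 : rswP t F b (fun ω => (L ω ∧ MdlPat Q' g ω) ∧ Ctg261Wit B' β (T \ β) ω) =
        rswP t F b (fun ω => L ω ∧ MdlPat Q' g ω ∧ Ctg261Wit B' β (T \ β) ω) :=
      ctg261_P_congr t F b fun ω => and_assoc
    have m1 : rswP t F' b' (fun ω => MdlPat Q' g ω ∧ Ctg261Wit B' β (T \ β) ω) ≤
        rswP t F' b' (fun ω => MdlPat Q' g ω ∧ Ctg261Compat F' β (T \ β) ω) :=
      ctg261_P_mono h0.le h1 F' b' fun ω _ _ _ _ h => ⟨h.1, ctg261_wit_compat h.2 F'⟩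
    have fl := ctg261_flip h0.le h1 F' b' (A := fun ω => MdlPat Q' g ω) (ctg261_pat_blind Q' g)
      (T := T) (β := β) ((hT.sub.trans hQ).trans hQF') hβ
    have hpow : (2 : ℝ) ^ T.card ≤ 2 ^ M := pow_le_pow_right₀ (by norm_num) hTM
    have sw := ctg261_swap t b b' hQ hQF hQF' β hT hE (A := fun ω => L ω ∧ MdlPat Q' g ω) (A' := fun ω => MdlPat Q' g ω)
      (fun S D D' O => and_congr (hLb S D D' O) Iff.rfl) (ctg261_pat_blind Q' g) (fun ω h => h.2) (fun ω h => h)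
    have a_le : rswP t F b (fun ω => (L ω ∧ MdlPat Q' g ω) ∧ E ω ∧ ω.D ∩ T = β) ≤
        rswP t F b (fun ω => (L ω ∧ MdlPat Q' g ω) ∧ ω.D ∩ T = β) :=
      ctg261_P_mono h0.le h1 F b fun ω _ _ _ _ h => ⟨h.1, h.2.2⟩
    have a0_le : rswP t F b (fun ω => (L ω ∧ MdlPat Q' g ω) ∧ ω.D ∩ T = β) ≤ rswP t F b (fun ω => L ω ∧ MdlPat Q' g ω) :=
      ctg261_P_mono h0.le h1 F b fun ω _ _ _ _ h => h.1
    have key : c * rswP t F b (fun ω => L ω ∧ MdlPat Q' g ω) ≤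
        2 ^ M * C ^ 2 * rswP t F b L * rswP t F' b' (fun ω => MdlPat Q' g ω ∧ ω.D ∩ T = β) := by
      have k1 : rswP t F' b' (fun ω => MdlPat Q' g ω ∧ Ctg261Wit B' β (T \ β) ω) ≤
          2 ^ M * rswP t F' b' (fun ω => MdlPat Q' g ω ∧ ω.D ∩ T = β) :=
        (m1.trans fl).trans (mul_le_mul_of_nonneg_right hpow hy_nn)
      have k2 := mul_le_mul_of_nonneg_left k1 (mul_nonneg (sq_nonneg C) hl_nn)
      rw [e1] at w
      calc _ ≤ _ := w
        _ ≤ _ := tr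
        _ ≤ _ := k2
        _ = _ := by ring
    have fin := ctg261_arith hc ha_nn hu_nn hyE_nn hl_nn hW_nn key sw a_le a0_le
    have : 0 ≤ p * rswP t F b (fun ω => L ω ∧ MdlPat Q' g ω) := mul_nonneg hp hu_nn
    linarith
  · -- a discarded assignment
    have hb : rswP t F b (fun ω => (L ω ∧ MdlPat Q' g ω) ∧ E ω ∧ ω.D ∩ T = β) ≤
        rswP t F b (fun ω => (L ω ∧ MdlPat Q' g ω) ∧ Ctg261Compat F β (T \ β) ω) :=
      ctg261_P_mono h0.le h1 F b fun ω _ _ _ hw h => ⟨h.1, ctg261_compat_of_colours hw h.2.2⟩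
    have hK_nn : 0 ≤ 2 ^ M * C ^ 2 / c * rswP t F b L * rswP t F' b' (fun ω => MdlPat Q' g ω ∧ E ω ∧ ω.D ∩ T = β) :=
      mul_nonneg (mul_nonneg (div_nonneg hW_nn hc.le) hl_nn) hyE_nn
    linarith [not_le.1 hgood]

/-- one pattern `g` on `Q'` -/
theorem ctg261_pattern {t : ℝ} (h0 : 0 < t) (h1 : t ≤ 1) {F F' Q1 Q' B' : Finset (ℤ × ℤ)} {b b' : Bool}
    (hQ : Q1 ⊆ Q') (hQB : Q' ⊆ B') (hBF : B' ⊆ F) (hBF' : B' ⊆ F') {L E : RswCfg → Prop}
    (hLb : ∀ S D D' O, L ⟨S, D, O⟩ ↔ L ⟨S, D', O⟩) (hE : MdlIn Q1 E) {M : ℕ} {p c C : ℝ} (hp : 0 ≤ p) (hc : 0 < c) (hC : 1 ≤ C)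
    (hW : ∀ (g : RswCfg) (Mp Mm : Finset (ℤ × ℤ)), Mp ⊆ Q1 → Mm ⊆ Q1 → Mp.card + Mm.card ≤ M →
      p * rswP t F b (fun ω => L ω ∧ MdlPat Q' g ω) ≤ rswP t F b (fun ω => (L ω ∧ MdlPat Q' g ω) ∧ Ctg261Compat F Mp Mm ω) →
      c * rswP t F b (fun ω => L ω ∧ MdlPat Q' g ω) ≤ rswP t F b (fun ω => (L ω ∧ MdlPat Q' g ω) ∧ Ctg261Wit B' Mp Mm ω))
    (hup : ∀ ω₀, rswP t F b (fun ω => L ω ∧ MdlPat B' ω₀ ω) ≤ C * mdlPiP t (MdlPat B' ω₀) * rswP t F b L)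
    (hlo : ∀ ω₀, C⁻¹ * mdlPiP t (MdlPat B' ω₀) * rswP t F' b' (fun _ => True) ≤ rswP t F' b' (fun ω => True ∧ MdlPat B' ω₀ ω))
    (g : RswCfg) :
    rswP t F b (fun ω => (L ω ∧ E ω) ∧ MdlPat Q' g ω) ≤
      rswP t F b (fun ω => (L ω ∧ MdlTrans Q1 Q' (M + 1) ω) ∧ MdlPat Q' g ω) +
        2 ^ M * p * rswP t F b (fun ω => L ω ∧ MdlPat Q' g ω) +
        2 ^ M * C ^ 2 / c * rswP t F b L * rswP t F' b' (fun ω => E ω ∧ MdlPat Q' g ω) := by
  obtain ⟨T, hT⟩ := ctg261_marks_exist hQ g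
  have hCp : 0 < C := lt_of_lt_of_le one_pos hC
  have htr_nn : 0 ≤ rswP t F b (fun ω => (L ω ∧ MdlTrans Q1 Q' (M + 1) ω) ∧ MdlPat Q' g ω) := rsz_P_nonneg h0.le h1 F b _
  have hu_nn : 0 ≤ rswP t F b (fun ω => L ω ∧ MdlPat Q' g ω) := rsz_P_nonneg h0.le h1 F b _
  have hyE_nn : 0 ≤ rswP t F' b' (fun ω => E ω ∧ MdlPat Q' g ω) := rsz_P_nonneg h0.le h1 F' b' _
  have hl_nn : 0 ≤ rswP t F b L := rsz_P_nonneg h0.le h1 F b _
  have hW_nn : (0 : ℝ) ≤ 2 ^ M * C ^ 2 := by positivity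
  by_cases hTM : T.card ≤ M
  · have step : ∀ β ∈ T.powerset, rswP t F b (fun ω => ((L ω ∧ E ω) ∧ MdlPat Q' g ω) ∧ ω.D ∩ T = β) ≤
        p * rswP t F b (fun ω => L ω ∧ MdlPat Q' g ω) +
          2 ^ M * C ^ 2 / c * rswP t F b L * rswP t F' b' (fun ω => (E ω ∧ MdlPat Q' g ω) ∧ ω.D ∩ T = β) := by
      intro β hβ
      have h := ctg261_atom h0 h1 hQ hQB hBF hBF' hLb hE hp hc hC hW hup hlo hT hTM (Finset.mem_powerset.1 hβ)
      have e1 : rswP t F b (fun ω => ((L ω ∧ E ω) ∧ MdlPat Q' g ω) ∧ ω.D ∩ T = β) =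
          rswP t F b (fun ω => (L ω ∧ MdlPat Q' g ω) ∧ E ω ∧ ω.D ∩ T = β) :=
        ctg261_P_congr t F b fun ω => by tauto
      have e2 : rswP t F' b' (fun ω => (E ω ∧ MdlPat Q' g ω) ∧ ω.D ∩ T = β) =
          rswP t F' b' (fun ω => MdlPat Q' g ω ∧ E ω ∧ ω.D ∩ T = β) :=
        ctg261_P_congr t F' b' fun ω => by tauto
      rw [e1, e2]
      exact h
    have hpow : (2 : ℝ) ^ T.card ≤ 2 ^ M := pow_le_pow_right₀ (by norm_num) hTM
    have hpu : 0 ≤ p * rswP t F b (fun ω => L ω ∧ MdlPat Q' g ω) := mul_nonneg hp hu_nn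
    have hh := mul_le_mul_of_nonneg_right hpow hpu
    rw [ctg261_P_marks t F b (fun ω => (L ω ∧ E ω) ∧ MdlPat Q' g ω) T,
      ctg261_P_marks t F' b' (fun ω => E ω ∧ MdlPat Q' g ω) T]
    calc _ ≤ ∑ β ∈ T.powerset, (p * rswP t F b (fun ω => L ω ∧ MdlPat Q' g ω) +
          2 ^ M * C ^ 2 / c * rswP t F b L * rswP t F' b' (fun ω => (E ω ∧ MdlPat Q' g ω) ∧ ω.D ∩ T = β)) :=
          Finset.sum_le_sum step
      _ = 2 ^ T.card * (p * rswP t F b (fun ω => L ω ∧ MdlPat Q' g ω)) +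
          2 ^ M * C ^ 2 / c * rswP t F b L *
            ∑ β ∈ T.powerset, rswP t F' b' (fun ω => (E ω ∧ MdlPat Q' g ω) ∧ ω.D ∩ T = β) := by
          rw [Finset.sum_add_distrib, Finset.sum_const, Finset.card_powerset, nsmul_eq_mul, ← Finset.mul_sum]
          push_cast
          ring
      _ ≤ _ := by linarith
  · have hM1 : M + 1 ≤ T.card := by omega
    have m : rswP t F b (fun ω => (L ω ∧ E ω) ∧ MdlPat Q' g ω) ≤
        rswP t F b (fun ω => (L ω ∧ MdlTrans Q1 Q' (M + 1) ω) ∧ MdlPat Q' g ω) :=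
      ctg261_P_mono h0.le h1 F b fun ω _ _ _ _ h => ⟨⟨h.1.1, hT.trans hM1 h.2⟩, h.2⟩
    have n1 : 0 ≤ 2 ^ M * p * rswP t F b (fun ω => L ω ∧ MdlPat Q' g ω) := mul_nonneg (mul_nonneg (by positivity) hp) hu_nn
    have n2 : 0 ≤ 2 ^ M * C ^ 2 / c * rswP t F b L * rswP t F' b' (fun ω => E ω ∧ MdlPat Q' g ω) :=
      mul_nonneg (mul_nonneg (div_nonneg hW_nn hc.le) hl_nn) hyE_nn
    linarith

/-- **eq:spatial-contiguity-modulus** on abstract nested sets -/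
theorem ctg261_main {t : ℝ} (h0 : 0 < t) (h1 : t ≤ 1) {F F' Q1 Q' B' : Finset (ℤ × ℤ)} {b b' : Bool}
    (hQ : Q1 ⊆ Q') (hQB : Q' ⊆ B') (hBF : B' ⊆ F) (hBF' : B' ⊆ F') {L E : RswCfg → Prop}
    (hLb : ∀ S D D' O, L ⟨S, D, O⟩ ↔ L ⟨S, D', O⟩) (hE : MdlIn Q1 E) {M : ℕ} {p c C τ : ℝ} (hp : 0 ≤ p) (hc : 0 < c) (hC : 1 ≤ C)
    (hTr : rswP t F b (fun ω => L ω ∧ MdlTrans Q1 Q' (M + 1) ω) ≤ τ * rswP t F b L)
    (hW : ∀ (g : RswCfg) (Mp Mm : Finset (ℤ × ℤ)), Mp ⊆ Q1 → Mm ⊆ Q1 → Mp.card + Mm.card ≤ M →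
      p * rswP t F b (fun ω => L ω ∧ MdlPat Q' g ω) ≤ rswP t F b (fun ω => (L ω ∧ MdlPat Q' g ω) ∧ Ctg261Compat F Mp Mm ω) →
      c * rswP t F b (fun ω => L ω ∧ MdlPat Q' g ω) ≤ rswP t F b (fun ω => (L ω ∧ MdlPat Q' g ω) ∧ Ctg261Wit B' Mp Mm ω))
    (hup : ∀ ω₀, rswP t F b (fun ω => L ω ∧ MdlPat B' ω₀ ω) ≤ C * mdlPiP t (MdlPat B' ω₀) * rswP t F b L)
    (hlo : ∀ ω₀, C⁻¹ * mdlPiP t (MdlPat B' ω₀) * rswP t F' b' (fun _ => True) ≤ rswP t F' b' (fun ω => True ∧ MdlPat B' ω₀ ω)) :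
    rswP t F b (fun ω => L ω ∧ E ω) ≤
      (τ + 2 ^ M * p + 2 ^ M * C ^ 2 / c * rswP t F' b' E) * rswP t F b L := by
  rw [ctg261_P_pat t F b (fun ω => L ω ∧ E ω) Q']
  calc _ ≤ ∑ q ∈ ctg261Ix Q', (rswP t F b (fun ω => (L ω ∧ MdlTrans Q1 Q' (M + 1) ω) ∧ MdlPat Q' (ctg261Cfg q) ω) +
        2 ^ M * p * rswP t F b (fun ω => L ω ∧ MdlPat Q' (ctg261Cfg q) ω) +
        2 ^ M * C ^ 2 / c * rswP t F b L * rswP t F' b' (fun ω => E ω ∧ MdlPat Q' (ctg261Cfg q) ω)) :=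
        Finset.sum_le_sum fun q _ => ctg261_pattern h0 h1 hQ hQB hBF hBF' hLb hE hp hc hC hW hup hlo (ctg261Cfg q)
    _ = rswP t F b (fun ω => L ω ∧ MdlTrans Q1 Q' (M + 1) ω) + 2 ^ M * p * rswP t F b L +
        2 ^ M * C ^ 2 / c * rswP t F b L * rswP t F' b' E := by
        rw [Finset.sum_add_distrib, Finset.sum_add_distrib, ← Finset.mul_sum, ← Finset.mul_sum,
          ← ctg261_P_pat, ← ctg261_P_pat, ← ctg261_P_pat]
    _ ≤ _ := by linarith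

/-! ## 7. the statement of `exit_mdl_contig`, verbatim, from the records -/

/-- **(S4) FULL-SPIN CONTIGUITY** (prop:full-contiguity), box `Λ_{kn}`, buffer `Λ_{(k+1)n}`: the conclusion is the type of `exit_mdl_contig`.
Scale `n' = ⌊n/4⌋`, ratio `k1 = 4k+1`: `Λ_{kn} ⊆ Λ_{k1 n'} ⊆ Λ_{(k1+1)n'} ⊆ Λ_{(k1+2)n'} ⊆ Λ_{(k1+3)n'} ⊆ Λ_{(k+1)n}`. -/
theorem ctg261_contig (t : ℝ) (ht1 : 1 / 2 ≤ t) (ht2 : t < 1) (hS2 : Ctg261S2 t) (hS3 : Ctg261S3 t) (hWr : Ctg261W t)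
    (hPl : Ctg261Pl t) (hJ : Ctg261J) (k : ℕ) (ε : ℝ) (hε : 0 < ε) :
    ∃ ζ : ℝ, 0 < ζ ∧ ∃ n0 : ℕ, ∀ n : ℕ, n0 ≤ n → ∀ (F : Finset (ℤ × ℤ)) (z : ℤ × ℤ) (b : Bool) (L E : RswCfg → Prop),
      RswJordan F → rswBox z ((k + 1) * n) ⊆ F → MdlExt (rswBox z ((k + 1) * n)) L → MdlIn (rswBox z (k * n)) E → mdlPiP t E < ζ →
      rswP t F b (fun ω => L ω ∧ E ω) ≤ ε * rswP t F b L := by
  have h0 : 0 < t := by linarith
  have h1 : t ≤ 1 := ht2.le
  obtain ⟨C2, q, hC2, hq0, hq1, n2, H2⟩ := hS2 (4 * k + 1)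
  obtain ⟨C3, hC3, n3, H3⟩ := ctg261_S3_one hS3 (4 * k + 1 + 2)
  have hC3p : 0 < C3 := lt_of_lt_of_le one_pos hC3
  obtain ⟨M, hM⟩ : ∃ M : ℕ, C2 * q ^ (M + 1) ≤ ε / 4 := by
    obtain ⟨j, hj⟩ := exists_pow_lt_of_lt_one (show 0 < ε / (4 * C2) by positivity) hq1
    refine ⟨j, ?_⟩
    have hle : q ^ (j + 1) ≤ q ^ j := pow_le_pow_of_le_one hq0.le hq1.le (Nat.le_succ j)
    calc C2 * q ^ (j + 1) ≤ C2 * (ε / (4 * C2)) := mul_le_mul_of_nonneg_left (by linarith) hC2.le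
      _ = ε / 4 := by field_simp
  obtain ⟨p, hpdef⟩ : ∃ p : ℝ, p = ε / (4 * 2 ^ M) := ⟨_, rfl⟩
  have hp0 : 0 < p := by rw [hpdef]; positivity
  have hpM : 2 ^ M * p = ε / 4 := by rw [hpdef]; field_simp
  obtain ⟨c, hc, nw, HW⟩ := hWr (4 * k + 1) M p hp0
  obtain ⟨K, hKdef⟩ : ∃ K : ℝ, K = 2 ^ M * C3 ^ 2 / c := ⟨_, rfl⟩
  have hK : 0 < K := by rw [hKdef]; positivity
  refine ⟨ε / (2 * K), by positivity, 4 * (n2 + n3 + nw + 3 * k) + 4, fun n hn F z b L E hF hsub hL hE hζ => ?_⟩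
  obtain ⟨n', hn'def⟩ : ∃ n' : ℕ, n' = n / 4 := ⟨_, rfl⟩
  have a1 : 4 * n' ≤ n := by omega
  have a2 : n < 4 * n' + 4 := by omega
  have a3 : n2 + n3 + nw + 3 * k ≤ n' := by omega
  have g1 : k * n ≤ (4 * k + 1) * n' := by nlinarith
  have g2 : (4 * k + 1 + 3) * n' ≤ (k + 1) * n := by nlinarith
  have b01 : rswBox z ((4 * k + 1) * n') ⊆ rswBox z ((4 * k + 1 + 1) * n') := ctg261_box_mono z (by nlinarith)
  have b12 : rswBox z ((4 * k + 1 + 1) * n') ⊆ rswBox z ((4 * k + 1 + 2) * n') := ctg261_box_mono z (by nlinarith)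
  have b23 : rswBox z ((4 * k + 1 + 2) * n') ⊆ rswBox z ((4 * k + 1 + 3) * n') := ctg261_box_mono z (by nlinarith)
  have b3 : rswBox z ((4 * k + 1 + 3) * n') ⊆ rswBox z ((k + 1) * n) := ctg261_box_mono z g2
  have s3 : rswBox z ((4 * k + 1 + 3) * n') ⊆ F := b3.trans hsub
  have s2 : rswBox z ((4 * k + 1 + 2) * n') ⊆ F := b23.trans s3
  have x3 : MdlExt (rswBox z ((4 * k + 1 + 3) * n')) L := ctg261_ext_mono b3 hL
  have x2 : MdlExt (rswBox z ((4 * k + 1 + 2) * n')) L := ctg261_ext_mono b23 x3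
  have hE1 : MdlIn (rswBox z ((4 * k + 1) * n')) E := ctg261_in_mono (ctg261_box_mono z g1) hE
  obtain ⟨N, hN0, hN1, hNζ⟩ := ctg261_plane hPl hJ hE hζ ((4 * k + 1 + 3) * n' + z.1.natAbs + z.2.natAbs)
  have sN3 : rswBox z ((4 * k + 1 + 3) * n') ⊆ rswBox 0 N := ctg261_box_zero z _ hN0
  have sN2 : rswBox z ((4 * k + 1 + 2) * n') ⊆ rswBox 0 N := b23.trans sN3
  have main := ctg261_main h0 h1 (F := F) (F' := rswBox 0 N) (b := b) (b' := true) b01 b12 s2 sN2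
    (ctg261_ext_blind hL) hE1 (M := M) (p := p) (c := c) (C := C3) (τ := C2 * q ^ (M + 1)) hp0.le hc hC3
    (H2 n' (by omega) F z b L (M + 1) hF s2 x2)
    (fun g Mp Mm m1 m2 m3 m4 => HW n' (by omega) F z b L g Mp Mm hF s3 x3 m1 m2 m3 m4)
    (fun ω₀ => (H3 n' z F b L ω₀ hF (by omega) s3 x3).2)
    (fun ω₀ => (H3 n' z (rswBox 0 N) true (fun _ => True) ω₀ (hJ N hN1) (by omega) sN3 (fun _ _ _ _ => Iff.rfl)).1)
  have hl_nn : 0 ≤ rswP t F b L := rsz_P_nonneg h0.le h1 F b L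
  rw [← hKdef, hpM] at main
  have hKz : K * rswP t (rswBox 0 N) true E ≤ ε / 2 := by
    have : K * rswP t (rswBox 0 N) true E ≤ K * (ε / (2 * K)) := mul_le_mul_of_nonneg_left hNζ.le hK.le
    calc _ ≤ _ := this
      _ = ε / 2 := by field_simp
  calc _ ≤ _ := main
    _ ≤ ε * rswP t F b L := mul_le_mul_of_nonneg_right (by linarith) hl_nn

/-! ## 8. lem:buffered-witnesses from its ONE-STEP statement (eq:spatial-witness-step): the iteration over enlarged cores (TEX l.1590-1615) -/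

/-- the opposite pairs which have a short witness in the core `K` (`𝒮(g)` of the paper) -/
noncomputable def ctg261Sh (K Mp Mm : Finset (ℤ × ℤ)) (ω : RswCfg) : Finset ((ℤ × ℤ) × (ℤ × ℤ)) :=
  open Classical in (Mp ×ˢ Mm).filter fun pr => ∃ a : Bool, ¬ Relation.ReflTransGen (Ctg261Step K a ω) pr.1 pr.2

theorem ctg261_mem_sh {K Mp Mm : Finset (ℤ × ℤ)} {ω : RswCfg} {pr : (ℤ × ℤ) × (ℤ × ℤ)} :
    pr ∈ ctg261Sh K Mp Mm ω ↔ (pr.1 ∈ Mp ∧ pr.2 ∈ Mm) ∧ ∃ a : Bool, ¬ Relation.ReflTransGen (Ctg261Step K a ω) pr.1 pr.2 := by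
  simp only [ctg261Sh, Finset.mem_filter, Finset.mem_product]

theorem ctg261_wstep_pat {B : Finset (ℤ × ℤ)} {ω₀ ω : RswCfg} (hp : MdlPat B ω₀ ω) {a : Bool} {x y : ℤ × ℤ}
    (h : Ctg261Step B a ω x y) : Ctg261Step B a ω₀ x y := by
  obtain ⟨e, he, hn⟩ := h
  refine ⟨e, he, fun hh => hn ⟨hh.1, ?_⟩⟩
  obtain ⟨hi, h1, h2, h3⟩ := hh
  have hi' := (rsz_mem_int.1 hi).1
  refine ⟨(hp.2 e (ctg261_mem_ed.2 (Or.inl hi'))).2 h1, ?_, ?_⟩
  · rw [hp.1 e.1 (rsz_face_corner hi')]; exact h2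
  · rw [hp.1 (rswEnd e) (rsz_end_corner hi')]; exact h3

theorem ctg261_sh_pat {K : Finset (ℤ × ℤ)} {ω₀ ω : RswCfg} (hp : MdlPat K ω₀ ω) (Mp Mm : Finset (ℤ × ℤ)) :
    ctg261Sh K Mp Mm ω₀ = ctg261Sh K Mp Mm ω := by
  ext pr
  rw [ctg261_mem_sh, ctg261_mem_sh]
  refine and_congr Iff.rfl (exists_congr fun a => not_congr ⟨fun h => ?_, fun h => ?_⟩)
  · exact ctg261_rtg_mono (fun _ _ => ctg261_wstep_pat (ctg261_pat_symm hp)) h
  · exact ctg261_rtg_mono (fun _ _ => ctg261_wstep_pat hp) h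

theorem ctg261_int_mono {K K' : Finset (ℤ × ℤ)} (h : K ⊆ K') : rswInt K ⊆ rswInt K' := by
  intro e he
  rw [rsz_mem_int] at he ⊢
  exact ⟨h he.1, h he.2⟩

theorem ctg261_sh_mono {K K' : Finset (ℤ × ℤ)} (h : K ⊆ K') (Mp Mm : Finset (ℤ × ℤ)) (ω : RswCfg) :
    ctg261Sh K Mp Mm ω ⊆ ctg261Sh K' Mp Mm ω := by
  intro pr hpr
  rw [ctg261_mem_sh] at hpr ⊢
  obtain ⟨h1, a, ha⟩ := hpr
  refine ⟨h1, a, fun hc => ha (ctg261_rtg_mono (s := Ctg261Step K a ω) ?_ hc)⟩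
  rintro x y ⟨e, he, hn⟩
  exact ⟨e, he, fun hh => hn ⟨ctg261_int_mono h hh.1, hh.2⟩⟩

theorem ctg261_sh_sub (K Mp Mm : Finset (ℤ × ℤ)) (ω : RswCfg) : ctg261Sh K Mp Mm ω ⊆ Mp ×ˢ Mm := by
  intro pr hpr
  rw [ctg261_mem_sh] at hpr
  exact Finset.mem_product.2 hpr.1

theorem ctg261_wit_iff {K Mp Mm : Finset (ℤ × ℤ)} {ω : RswCfg} :
    Ctg261Wit K Mp Mm ω ↔ Mp.card * Mm.card ≤ (ctg261Sh K Mp Mm ω).card := by
  constructor
  · intro h
    have : ctg261Sh K Mp Mm ω = Mp ×ˢ Mm := by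
      refine Finset.Subset.antisymm (ctg261_sh_sub K Mp Mm ω) fun pr hpr => ?_
      rw [Finset.mem_product] at hpr
      exact ctg261_mem_sh.2 ⟨hpr, h pr.1 hpr.1 pr.2 hpr.2⟩
    rw [this, Finset.card_product]
  · intro h f hf g hg
    have heq : ctg261Sh K Mp Mm ω = Mp ×ˢ Mm :=
      Finset.eq_of_subset_of_card_le (ctg261_sh_sub K Mp Mm ω) (by rw [Finset.card_product]; exact h)
    have : (f, g) ∈ ctg261Sh K Mp Mm ω := by rw [heq]; exact Finset.mem_product.2 ⟨hf, hg⟩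
    exact (ctg261_mem_sh.1 this).2

theorem ctg261_wit_mono {K K' : Finset (ℤ × ℤ)} (h : K ⊆ K') {Mp Mm : Finset (ℤ × ℤ)} {ω : RswCfg}
    (hw : Ctg261Wit K Mp Mm ω) : Ctg261Wit K' Mp Mm ω := by
  rw [ctg261_wit_iff] at hw ⊢
  exact hw.trans (Finset.card_le_card (ctg261_sh_mono h Mp Mm ω))

/-- RECORD (eq:spatial-witness-step), ratio `k`: marks in `Λ_{kn}`, complete pattern `g` on the core `Λ_{(k+1)n}` with a MISSING pair, posterior compatibility `≥ α`: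
with conditional probability `≥ r(α, M, k, t)` compatibility holds and the enlarged core `Λ_{(k+2)n}` has strictly more short pairs.  Data off `Λ_{(k+3)n}`.  Product form. -/
def Ctg261W1 (t : ℝ) : Prop := ∀ (k M : ℕ) (α : ℝ), 0 < α →
    ∃ r : ℝ, 0 < r ∧ ∃ n0 : ℕ, ∀ n : ℕ, n0 ≤ n → ∀ (F : Finset (ℤ × ℤ)) (z : ℤ × ℤ) (b : Bool) (L : RswCfg → Prop) (g : RswCfg)
      (Mp Mm : Finset (ℤ × ℤ)), RswJordan F → rswBox z ((k + 3) * n) ⊆ F → MdlExt (rswBox z ((k + 3) * n)) L →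
      Mp ⊆ rswBox z (k * n) → Mm ⊆ rswBox z (k * n) → Mp.card + Mm.card ≤ M →
      ¬ Ctg261Wit (rswBox z ((k + 1) * n)) Mp Mm g →
      α * rswP t F b (fun ω => L ω ∧ MdlPat (rswBox z ((k + 1) * n)) g ω) ≤
        rswP t F b (fun ω => (L ω ∧ MdlPat (rswBox z ((k + 1) * n)) g ω) ∧ Ctg261Compat F Mp Mm ω) →
      r * rswP t F b (fun ω => L ω ∧ MdlPat (rswBox z ((k + 1) * n)) g ω) ≤
        rswP t F b (fun ω => (L ω ∧ MdlPat (rswBox z ((k + 1) * n)) g ω) ∧ Ctg261Compat F Mp Mm ω ∧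
          (ctg261Sh (rswBox z ((k + 1) * n)) Mp Mm g).card < (ctg261Sh (rswBox z ((k + 2) * n)) Mp Mm ω).card)

/-- one round of the iteration, on abstract nested sets `Q' ⊆ K ⊆ K'`: disintegrate the ORIGINAL law by the complete pattern on `K` -/
theorem ctg261_round {t : ℝ} (h0 : 0 < t) (h1 : t ≤ 1) {F Q' K K' Mp Mm : Finset (ℤ × ℤ)} {b : Bool} (hQK : Q' ⊆ K) (hKK : K ⊆ K')
    {L : RswCfg → Prop} {g : RswCfg} {j : ℕ} {q r : ℝ} (hq : 0 < q) (hr : 0 < r)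
    (hj : q * rswP t F b (fun ω => L ω ∧ MdlPat Q' g ω) ≤
      rswP t F b (fun ω => (L ω ∧ MdlPat Q' g ω) ∧ Ctg261Compat F Mp Mm ω ∧
        min j (Mp.card * Mm.card) ≤ (ctg261Sh K Mp Mm ω).card))
    (hstep : ∀ h : RswCfg, ¬ Ctg261Wit K Mp Mm h →
      q / 2 * rswP t F b (fun ω => L ω ∧ MdlPat K h ω) ≤ rswP t F b (fun ω => (L ω ∧ MdlPat K h ω) ∧ Ctg261Compat F Mp Mm ω) →
      r * rswP t F b (fun ω => L ω ∧ MdlPat K h ω) ≤ rswP t F b (fun ω => (L ω ∧ MdlPat K h ω) ∧ Ctg261Compat F Mp Mm ω ∧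
        (ctg261Sh K Mp Mm h).card < (ctg261Sh K' Mp Mm ω).card)) :
    q / 2 * min (q / 2) r * rswP t F b (fun ω => L ω ∧ MdlPat Q' g ω) ≤
      rswP t F b (fun ω => (L ω ∧ MdlPat Q' g ω) ∧ Ctg261Compat F Mp Mm ω ∧
        min (j + 1) (Mp.card * Mm.card) ≤ (ctg261Sh K' Mp Mm ω).card) := by
  have hρ : 0 < min (q / 2) r := lt_min (by linarith) hr
  -- per pattern `h` on `K`
  have per : ∀ h : RswCfg,
      min (q / 2) r * rswP t F b (fun ω => ((L ω ∧ MdlPat Q' g ω) ∧ Ctg261Compat F Mp Mm ω ∧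
          min j (Mp.card * Mm.card) ≤ (ctg261Sh K Mp Mm ω).card) ∧ MdlPat K h ω) ≤
        min (q / 2) r * (q / 2 * rswP t F b (fun ω => (L ω ∧ MdlPat Q' g ω) ∧ MdlPat K h ω)) +
          rswP t F b (fun ω => ((L ω ∧ MdlPat Q' g ω) ∧ Ctg261Compat F Mp Mm ω ∧
            min (j + 1) (Mp.card * Mm.card) ≤ (ctg261Sh K' Mp Mm ω).card) ∧ MdlPat K h ω) := by
    intro h
    have hu_nn : 0 ≤ rswP t F b (fun ω => (L ω ∧ MdlPat Q' g ω) ∧ MdlPat K h ω) := rsz_P_nonneg h0.le h1 F b _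
    have hw_nn : 0 ≤ rswP t F b (fun ω => ((L ω ∧ MdlPat Q' g ω) ∧ Ctg261Compat F Mp Mm ω ∧
            min (j + 1) (Mp.card * Mm.card) ≤ (ctg261Sh K' Mp Mm ω).card) ∧ MdlPat K h ω) := rsz_P_nonneg h0.le h1 F b _
    by_cases hc : q / 2 * rswP t F b (fun ω => (L ω ∧ MdlPat Q' g ω) ∧ MdlPat K h ω) ≤
        rswP t F b (fun ω => ((L ω ∧ MdlPat Q' g ω) ∧ MdlPat K h ω) ∧ Ctg261Compat F Mp Mm ω)
    · by_cases hcard : min j (Mp.card * Mm.card) ≤ (ctg261Sh K Mp Mm h).card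
      · -- a retained pattern: `ρ u_h ≤ w_h`
        have hle : rswP t F b (fun ω => ((L ω ∧ MdlPat Q' g ω) ∧ Ctg261Compat F Mp Mm ω ∧
            min j (Mp.card * Mm.card) ≤ (ctg261Sh K Mp Mm ω).card) ∧ MdlPat K h ω) ≤
            rswP t F b (fun ω => (L ω ∧ MdlPat Q' g ω) ∧ MdlPat K h ω) :=
          ctg261_P_mono h0.le h1 F b fun ω _ _ _ _ x => ⟨x.1.1, x.2⟩
        have main : min (q / 2) r * rswP t F b (fun ω => (L ω ∧ MdlPat Q' g ω) ∧ MdlPat K h ω) ≤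
            rswP t F b (fun ω => ((L ω ∧ MdlPat Q' g ω) ∧ Ctg261Compat F Mp Mm ω ∧
              min (j + 1) (Mp.card * Mm.card) ≤ (ctg261Sh K' Mp Mm ω).card) ∧ MdlPat K h ω) := by
          by_cases hcons : MdlPat Q' g h
          · have hPg : ∀ ω, MdlPat K h ω → MdlPat Q' g ω := fun ω x => ctg261_pat_trans hcons (ctg261_pat_mono hQK x)
            by_cases hwit : Ctg261Wit K Mp Mm h
            · have m1 : rswP t F b (fun ω => ((L ω ∧ MdlPat Q' g ω) ∧ MdlPat K h ω) ∧ Ctg261Compat F Mp Mm ω) ≤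
                  rswP t F b (fun ω => ((L ω ∧ MdlPat Q' g ω) ∧ Ctg261Compat F Mp Mm ω ∧
                    min (j + 1) (Mp.card * Mm.card) ≤ (ctg261Sh K' Mp Mm ω).card) ∧ MdlPat K h ω) := by
                refine ctg261_P_mono h0.le h1 F b fun ω _ _ _ _ x => ⟨⟨x.1.1, x.2, ?_⟩, x.1.2⟩
                have w' : Ctg261Wit K' Mp Mm ω := ctg261_wit_mono hKK (ctg261_wit_pat x.1.2 hwit)
                exact (min_le_right _ _).trans (ctg261_wit_iff.1 w')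
              have m2 := mul_le_mul_of_nonneg_right (min_le_left (q / 2) r) hu_nn
              linarith
            · have e1 : rswP t F b (fun ω => (L ω ∧ MdlPat Q' g ω) ∧ MdlPat K h ω) = rswP t F b (fun ω => L ω ∧ MdlPat K h ω) :=
                ctg261_P_congr t F b fun ω => ⟨fun x => ⟨x.1.1, x.2⟩, fun x => ⟨⟨x.1, hPg ω x.2⟩, x.2⟩⟩
              have e2 : rswP t F b (fun ω => ((L ω ∧ MdlPat Q' g ω) ∧ MdlPat K h ω) ∧ Ctg261Compat F Mp Mm ω) =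
                  rswP t F b (fun ω => (L ω ∧ MdlPat K h ω) ∧ Ctg261Compat F Mp Mm ω) :=
                ctg261_P_congr t F b fun ω => ⟨fun x => ⟨⟨x.1.1.1, x.1.2⟩, x.2⟩, fun x => ⟨⟨⟨x.1.1, hPg ω x.1.2⟩, x.1.2⟩, x.2⟩⟩
              rw [e1, e2] at hc
              have st := hstep h hwit hc
              have m1 : rswP t F b (fun ω => (L ω ∧ MdlPat K h ω) ∧ Ctg261Compat F Mp Mm ω ∧
                  (ctg261Sh K Mp Mm h).card < (ctg261Sh K' Mp Mm ω).card) ≤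
                  rswP t F b (fun ω => ((L ω ∧ MdlPat Q' g ω) ∧ Ctg261Compat F Mp Mm ω ∧
                    min (j + 1) (Mp.card * Mm.card) ≤ (ctg261Sh K' Mp Mm ω).card) ∧ MdlPat K h ω) := by
                refine ctg261_P_mono h0.le h1 F b fun ω _ _ _ _ x => ⟨⟨⟨x.1.1, hPg ω x.1.2⟩, x.2.1, ?_⟩, x.1.2⟩
                have := x.2.2
                omega
              rw [e1]
              have hu' : 0 ≤ rswP t F b (fun ω => L ω ∧ MdlPat K h ω) := rsz_P_nonneg h0.le h1 F b _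
              have m2 := mul_le_mul_of_nonneg_right (min_le_right (q / 2) r) hu'
              linarith
          · rw [ctg261_P_false t F b (A := fun ω => (L ω ∧ MdlPat Q' g ω) ∧ MdlPat K h ω)
              (fun ω x => hcons (ctg261_pat_trans x.1.2 (ctg261_pat_mono hQK (ctg261_pat_symm x.2)))), mul_zero]
            exact hw_nn
        have m3 := mul_le_mul_of_nonneg_left hle hρ.le
        have m4 : 0 ≤ min (q / 2) r * (q / 2 * rswP t F b (fun ω => (L ω ∧ MdlPat Q' g ω) ∧ MdlPat K h ω)) :=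
          mul_nonneg hρ.le (mul_nonneg (by linarith) hu_nn)
        linarith
      · rw [ctg261_P_false t F b (A := fun ω => ((L ω ∧ MdlPat Q' g ω) ∧ Ctg261Compat F Mp Mm ω ∧
            min j (Mp.card * Mm.card) ≤ (ctg261Sh K Mp Mm ω).card) ∧ MdlPat K h ω)
          (fun ω x => hcard (by rw [ctg261_sh_pat x.2 Mp Mm]; exact x.1.2.2)), mul_zero]
        exact add_nonneg (mul_nonneg hρ.le (mul_nonneg (by linarith) hu_nn)) hw_nn
    · have hle : rswP t F b (fun ω => ((L ω ∧ MdlPat Q' g ω) ∧ Ctg261Compat F Mp Mm ω ∧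
          min j (Mp.card * Mm.card) ≤ (ctg261Sh K Mp Mm ω).card) ∧ MdlPat K h ω) ≤
          rswP t F b (fun ω => ((L ω ∧ MdlPat Q' g ω) ∧ MdlPat K h ω) ∧ Ctg261Compat F Mp Mm ω) :=
        ctg261_P_mono h0.le h1 F b fun ω _ _ _ _ x => ⟨⟨x.1.1, x.2⟩, x.1.2.1⟩
      have m3 := mul_le_mul_of_nonneg_left (hle.trans (not_le.1 hc).le) hρ.le
      linarith
  -- sum over the patterns
  have hsum := Finset.sum_le_sum fun p (_ : p ∈ ctg261Ix K) => per (ctg261Cfg p)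
  rw [Finset.sum_add_distrib, ← Finset.mul_sum, ← Finset.mul_sum, ← Finset.mul_sum, ← ctg261_P_pat, ← ctg261_P_pat,
    ← ctg261_P_pat] at hsum
  have m5 := mul_le_mul_of_nonneg_left hj hρ.le
  nlinarith

/-- `j` rounds: cores `K_i = Λ_{(a+i+1)ν}`, `i ≤ j`; marks in `Λ_{aν}`; the initial pattern on any `Q' ⊆ K_0`; data off `Λ_{(a+j+3)ν}` -/
theorem ctg261_rounds {t : ℝ} (h0 : 0 < t) (h1 : t ≤ 1) (hW1 : Ctg261W1 t) (a M : ℕ) (p : ℝ) (hp : 0 < p) (j : ℕ) :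
    ∃ q : ℝ, 0 < q ∧ ∃ n0 : ℕ, ∀ ν : ℕ, n0 ≤ ν → ∀ (F : Finset (ℤ × ℤ)) (z : ℤ × ℤ) (b : Bool) (L : RswCfg → Prop) (g : RswCfg)
      (Q' Mp Mm : Finset (ℤ × ℤ)), RswJordan F → rswBox z ((a + j + 3) * ν) ⊆ F → MdlExt (rswBox z ((a + j + 3) * ν)) L →
      Q' ⊆ rswBox z ((a + 0 + 1) * ν) → Mp ⊆ rswBox z (a * ν) → Mm ⊆ rswBox z (a * ν) → Mp.card + Mm.card ≤ M →
      p * rswP t F b (fun ω => L ω ∧ MdlPat Q' g ω) ≤ rswP t F b (fun ω => (L ω ∧ MdlPat Q' g ω) ∧ Ctg261Compat F Mp Mm ω) →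
      q * rswP t F b (fun ω => L ω ∧ MdlPat Q' g ω) ≤
        rswP t F b (fun ω => (L ω ∧ MdlPat Q' g ω) ∧ Ctg261Compat F Mp Mm ω ∧
          min j (Mp.card * Mm.card) ≤ (ctg261Sh (rswBox z ((a + j + 1) * ν)) Mp Mm ω).card) := by
  induction j with
  | zero =>
    refine ⟨p, hp, 0, fun ν _ F z b L g Q' Mp Mm _ _ _ _ _ _ _ hc => hc.trans ?_⟩
    exact ctg261_P_mono h0.le h1 F b fun ω _ _ _ _ x => ⟨x.1, x.2, by simp⟩
  | succ j ih =>
    obtain ⟨q, hq, n0, H⟩ := ih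
    obtain ⟨r, hr, n1, H1⟩ := hW1 (a + j) M (q / 2) (by linarith)
    refine ⟨q / 2 * min (q / 2) r, mul_pos (by linarith) (lt_min (by linarith) hr), max n0 n1,
      fun ν hν F z b L g Q' Mp Mm hF hsub hL hQ hMp hMm hM hc => ?_⟩
    have b3 : rswBox z ((a + j + 3) * ν) ⊆ rswBox z ((a + (j + 1) + 3) * ν) := ctg261_box_mono z (by nlinarith)
    have s3 : rswBox z ((a + j + 3) * ν) ⊆ F := b3.trans hsub
    have x3 : MdlExt (rswBox z ((a + j + 3) * ν)) L := ctg261_ext_mono b3 hL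
    have hj := H ν (le_trans (le_max_left _ _) hν) F z b L g Q' Mp Mm hF s3 x3 hQ hMp hMm hM hc
    have bQ : rswBox z ((a + 0 + 1) * ν) ⊆ rswBox z ((a + j + 1) * ν) := ctg261_box_mono z (by nlinarith)
    have bK : rswBox z ((a + j + 1) * ν) ⊆ rswBox z ((a + (j + 1) + 1) * ν) := ctg261_box_mono z (by nlinarith)
    have bM : rswBox z (a * ν) ⊆ rswBox z ((a + j) * ν) := ctg261_box_mono z (by nlinarith)
    refine ctg261_round h0 h1 (hQ.trans bQ) bK hq hr hj fun h hwit hcomp => ?_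
    exact H1 ν (le_trans (le_max_right _ _) hν) F z b L h Mp Mm hF s3 x3 (hMp.trans bM) (hMm.trans bM) hM hwit hcomp

/-- **lem:buffered-witnesses FROM ITS ONE-STEP STATEMENT.**  `J = M²` rounds at the scale `ν = ⌊n / (J+4)⌋`, first ratio `a = (k+1)(J+4)`. -/
theorem ctg261_witness_of_step {t : ℝ} (h0 : 0 < t) (h1 : t ≤ 1) (hW1 : Ctg261W1 t) : Ctg261W t := by
  intro k M p hp
  obtain ⟨J', hJ'⟩ : ∃ J' : ℕ, J' = M * M + 4 := ⟨_, rfl⟩
  obtain ⟨q, hq, n0, H⟩ := ctg261_rounds h0 h1 hW1 ((k + 1) * J') M p hp (M * M)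
  refine ⟨q, hq, J' * (n0 + (k + 1) * J' + 1), fun n hn F z b L g Mp Mm hF hsub hL hMp hMm hM hc => ?_⟩
  obtain ⟨ν, hν⟩ : ∃ ν : ℕ, ν = n / J' := ⟨_, rfl⟩
  have hJpos : 0 < J' := by omega
  have c1 : J' * ν ≤ n := by rw [hν]; exact Nat.mul_div_le n J'
  have c2 : n < J' * ν + J' := by
    rw [hν]
    have := Nat.lt_mul_div_succ n hJpos
    nlinarith
  have c3 : n0 + (k + 1) * J' + 1 ≤ ν := by
    rw [hν]
    exact (Nat.le_div_iff_mul_le hJpos).2 (by nlinarith)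
  obtain ⟨P, hP⟩ : ∃ P : ℕ, P = J' * ν := ⟨_, rfl⟩
  have c4 : ν ≤ P := by rw [hP]; nlinarith
  rw [← hP] at c1 c2
  have eA : (k + 1) * J' * ν = (k + 1) * P := by rw [hP]; ring
  -- geometry
  have g1 : k * n ≤ (k + 1) * J' * ν := by rw [eA]; nlinarith
  have g2 : (k + 1) * n ≤ ((k + 1) * J' + 0 + 1) * ν := by
    have : ((k + 1) * J' + 0 + 1) * ν = (k + 1) * P + ν := by rw [hP]; ring
    rw [this]
    nlinarith
  have g3 : ((k + 1) * J' + M * M + 1) * ν ≤ (k + 2) * n := by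
    have e : ((k + 1) * J' + M * M + 1) * ν + 3 * ν = (k + 2) * P := by rw [hP, hJ']; ring
    nlinarith
  have g4 : ((k + 1) * J' + M * M + 3) * ν ≤ (k + 3) * n := by
    have e : ((k + 1) * J' + M * M + 3) * ν + ν = (k + 2) * P := by rw [hP, hJ']; ring
    nlinarith
  have b4 := ctg261_box_mono z g4
  have res := H ν (by omega) F z b L g (rswBox z ((k + 1) * n)) Mp Mm hF (b4.trans hsub) (ctg261_ext_mono b4 hL)
    (ctg261_box_mono z g2) (hMp.trans (ctg261_box_mono z g1)) (hMm.trans (ctg261_box_mono z g1)) hM hc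
  refine res.trans (ctg261_P_mono h0.le h1 F b fun ω _ _ _ _ x => ⟨x.1, ?_⟩)
  have hm : Mp.card * Mm.card ≤ M * M := Nat.mul_le_mul (by omega) (by omega)
  have := x.2.2
  rw [min_eq_right hm] at this
  exact ctg261_wit_mono (ctg261_box_mono z g3) (ctg261_wit_iff.2 this)

/-! ## 9. the ONE-COLOUR case of the one-step statement (S0 + S1 + cut-cycle duality, no collar); reduction of the one-step statement to MIXED types -/

/-- RECORD (S0): the type of `exit_mdl_cmp` -/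
def Ctg261S0 (t : ℝ) : Prop :=
  ∀ F : Finset (ℤ × ℤ), RswJordan F → ∀ (b a : Bool) (K : MdlPin), K.Ok → MdlFkgAt t F b a K

/-- RECORD (S1): the type of `exit_mdl_circ` -/
def Ctg261S1 (t : ℝ) : Prop := ∀ k : ℕ,
    ∃ p : ℝ, 0 < p ∧ ∃ n0 : ℕ, ∀ n : ℕ, n0 ≤ n → ∀ (F : Finset (ℤ × ℤ)) (z : ℤ × ℤ) (b a : Bool) (L : RswCfg → Prop),
      RswJordan F → rswBox z ((k + 3) * n) ⊆ F → MdlExt (rswBox z ((k + 3) * n) \ rswBox z (k * n)) L →
      p * rswP t F b L ≤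
        rswP t F b fun ω => L ω ∧ RswSep F a ω (rswBox z ((k + 1) * n)) (F \ rswBox z ((k + 2) * n))

/-- an atom of exterior data is exterior data -/
theorem ctg261_atom_ext {F B : Finset (ℤ × ℤ)} {S₀ : Finset (ℤ × ℤ)} {O₀ : Finset ((ℤ × ℤ) × Bool)}
    (hS : S₀ ⊆ mdlVext F B) (hO : O₀ ⊆ mdlEext F B) : MdlExt B (mdlAtom F B S₀ O₀).Holds := by
  intro ω ω' h1 h2
  rw [mdl_atom_holds hS hO, mdl_atom_holds hS hO]
  have e1 : ω.S ∩ mdlVext F B = ω'.S ∩ mdlVext F B := by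
    ext v
    simp only [Finset.mem_inter]
    constructor
    · rintro ⟨a, c⟩; exact ⟨(h1 v (mdl_mem_vext.1 c).2).1 a, c⟩
    · rintro ⟨a, c⟩; exact ⟨(h1 v (mdl_mem_vext.1 c).2).2 a, c⟩
  have e2 : ω.O ∩ mdlEext F B = ω'.O ∩ mdlEext F B := by
    ext e
    simp only [Finset.mem_inter]
    constructor
    · rintro ⟨a, c⟩; exact ⟨(h2 e (Finset.mem_sdiff.1 c).2).1 a, c⟩
    · rintro ⟨a, c⟩; exact ⟨(h2 e (Finset.mem_sdiff.1 c).2).2 a, c⟩
  rw [e1, e2]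

theorem ctg261_P_holds (t : ℝ) (F : Finset (ℤ × ℤ)) (b : Bool) (K : MdlPin) (E : RswCfg → Prop) :
    rswP t F b (fun ω => K.Holds ω ∧ E ω) = mdlSumK t F b K (mdlInd E) / rswSum t F b (fun _ => 1) := by
  classical
  rw [mdl_P_eq]
  unfold rswE mdlSumK
  congr 1
  refine mdl_sum_congr t F b fun ω => ?_
  rw [mdl_ind_and]
  by_cases h : K.Holds ω
  · rw [mdl_ind_pos h, if_pos h, one_mul]
  · rw [mdl_ind_neg h, if_neg h, zero_mul]

theorem ctg261_P_holds' (t : ℝ) (F : Finset (ℤ × ℤ)) (b : Bool) (K : MdlPin) :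
    rswP t F b K.Holds = mdlSumK t F b K (fun _ => 1) / rswSum t F b (fun _ => 1) := by
  classical
  rw [mdl_P_eq]
  unfold rswE mdlSumK
  have e : rswSum t F b (mdlInd K.Holds) = rswSum t F b (fun ω => if K.Holds ω then (1 : ℝ) else 0) := by
    refine mdl_sum_congr t F b fun ω => ?_
    by_cases h : K.Holds ω
    · rw [mdl_ind_pos h, if_pos h]
    · rw [mdl_ind_neg h, if_neg h]
  rw [e]

theorem ctg261_P_ite (t : ℝ) (F : Finset (ℤ × ℤ)) (b : Bool) (A E : RswCfg → Prop) :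
    rswP t F b (fun ω => A ω ∧ E ω) =
      rswSum t F b (open Classical in fun ω => if A ω then mdlInd E ω else 0) / rswSum t F b (fun _ => 1) := by
  classical
  rw [mdl_P_eq]
  unfold rswE
  congr 1
  refine mdl_sum_congr t F b fun ω => ?_
  rw [mdl_ind_and]
  by_cases h : A ω
  · rw [mdl_ind_pos h, if_pos h, one_mul]
  · rw [mdl_ind_neg h, if_neg h, zero_mul]

/-- **FKG WITH A CIRCUIT**: `A` = any data off the buffer `B`, `X`, `C` increasing in the colour `a`, `C` of conditional probability `≥ p` given ANY data off `B` -/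
theorem ctg261_fkg_circ {t : ℝ} (h0 : 0 < t) (h1 : t ≤ 1) {F B : Finset (ℤ × ℤ)} {b a : Bool}
    (hfkg : ∀ K : MdlPin, K.Ok → MdlFkgAt t F b a K) {A X C : RswCfg → Prop} (hA : MdlExt B A) (hX : MdlIncP a X)
    (hC : MdlIncP a C) {p : ℝ}
    (hp : ∀ L' : RswCfg → Prop, MdlExt B L' → p * rswP t F b L' ≤ rswP t F b (fun ω => L' ω ∧ C ω)) :
    p * rswP t F b (fun ω => A ω ∧ X ω) ≤ rswP t F b (fun ω => A ω ∧ X ω ∧ C ω) := by
  classical
  have hZ := rsz_Z_pos h0 h1 F b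
  have atoms : ∀ S₀ ⊆ mdlVext F B, ∀ O₀ ⊆ mdlEext F B,
      p * mdlSumK t F b (mdlAtom F B S₀ O₀) (mdlInd X) ≤
        mdlSumK t F b (mdlAtom F B S₀ O₀) (mdlInd fun ω => X ω ∧ C ω) := by
    intro S₀ hS O₀ hO
    obtain ⟨K, hK⟩ : ∃ K : MdlPin, K = mdlAtom F B S₀ O₀ := ⟨_, rfl⟩
    rw [← hK]
    have hOk : K.Ok := by rw [hK]; exact mdl_atom_ok hO
    have c := hp K.Holds (by rw [hK]; exact ctg261_atom_ext hS hO)
    rw [ctg261_P_holds', ctg261_P_holds, ← mul_div_assoc] at c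
    have c' : p * mdlSumK t F b K (fun _ => 1) ≤ mdlSumK t F b K (mdlInd C) := (div_le_div_iff_of_pos_right hZ).1 c
    have key := hfkg K hOk (mdlInd X) (mdlInd C) (mdl_inc_ind hX) (mdl_inc_ind hC)
    have e : mdlSumK t F b K (fun ω => mdlInd X ω * mdlInd C ω) = mdlSumK t F b K (mdlInd fun ω => X ω ∧ C ω) :=
      mdl_sumK_congr t F b K fun ω => (mdl_ind_and X C ω).symm
    rw [e] at key
    have hXnn : 0 ≤ mdlSumK t F b K (mdlInd X) := by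
      unfold mdlSumK
      refine rsz_sum_nonneg h0.le h1 F b fun ω => ?_
      split_ifs
      · exact mdl_ind_nonneg _ _
      · exact le_refl _
    rcases (mdl_sumK_one_nonneg h0.le h1 F b K).eq_or_lt with hz | hpos
    · rw [mdl_sumK_zero h0.le h1 hz.symm, mdl_sumK_zero h0.le h1 hz.symm, mul_zero]
    · refine le_of_mul_le_mul_left ?_ hpos
      calc mdlSumK t F b K (fun _ => 1) * (p * mdlSumK t F b K (mdlInd X))
          = mdlSumK t F b K (mdlInd X) * (p * mdlSumK t F b K (fun _ => 1)) := by ring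
        _ ≤ mdlSumK t F b K (mdlInd X) * mdlSumK t F b K (mdlInd C) := mul_le_mul_of_nonneg_left c' hXnn
        _ ≤ _ := key
  have key := mdl_of_atoms t F B b hA p (mdlInd X) (mdlInd fun ω => X ω ∧ C ω) atoms
  rw [ctg261_P_ite, ctg261_P_ite t F b A (fun ω => X ω ∧ C ω), ← mul_div_assoc]
  exact div_le_div_of_nonneg_right key hZ.le

/-- the pairs of `Pr` are separated in `F` by the good edges of the colour `a` -/
def Ctg261SepP (F : Finset (ℤ × ℤ)) (a : Bool) (Pr : Finset ((ℤ × ℤ) × (ℤ × ℤ))) (ω : RswCfg) : Prop :=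
  ∀ pr ∈ Pr, ¬ Relation.ReflTransGen (RswStep F a ω) pr.1 pr.2

theorem ctg261_rstep_inc {F : Finset (ℤ × ℤ)} {a : Bool} {ω ω' : RswCfg} (hle : MdlLe a ω ω') {x y : ℤ × ℤ}
    (h : RswStep F a ω' x y) : RswStep F a ω x y := by
  obtain ⟨hx, hy, e, he, hn⟩ := h
  exact ⟨hx, hy, e, he, fun hg => hn (hle.2.1 e hg)⟩

theorem ctg261_sepP_inc (F : Finset (ℤ × ℤ)) (a : Bool) (Pr : Finset ((ℤ × ℤ) × (ℤ × ℤ))) : MdlIncP a (Ctg261SepP F a Pr) :=
  fun _ _ hle h pr hpr hc => h pr hpr (ctg261_rtg_mono (fun _ _ => ctg261_rstep_inc hle) hc)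

theorem ctg261_sep_inc (F : Finset (ℤ × ℤ)) (a : Bool) (A B : Finset (ℤ × ℤ)) : MdlIncP a (fun ω => RswSep F a ω A B) :=
  fun _ _ hle h f hf g hg hc => h f hf g hg (ctg261_rtg_mono (fun _ _ => ctg261_rstep_inc hle) hc)

/-- **LOCALISATION BY A CIRCUIT** (deterministic): a pair separated in `F` by the colour `a`, inside a circuit of the colour `a` which lies deep in `K'`, has a short witness in `K'` -/
theorem ctg261_localise {F Λi Λo K' : Finset (ℤ × ℤ)} {a : Bool} {ω : RswCfg} (hK' : K' ⊆ F)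
    (hdeep : ∀ e : (ℤ × ℤ) × Bool, (e.1 ∈ Λo ∨ rswCo e ∈ Λo) → e ∈ rswInt K') (hcirc : RswSep F a ω Λi (F \ Λo))
    {f f' : ℤ × ℤ} (hf : f ∈ Λi) (hfo : f ∈ Λo) (hsep : ¬ Relation.ReflTransGen (RswStep F a ω) f f') :
    ¬ Relation.ReflTransGen (Ctg261Step K' a ω) f f' := by
  intro hc
  have claim : ∀ x, Relation.ReflTransGen (Ctg261Step K' a ω) f x → x ∈ Λo ∧ Relation.ReflTransGen (RswStep F a ω) f x := by
    intro x hx
    induction hx with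
    | refl => exact ⟨hfo, Relation.ReflTransGen.refl⟩
    | @tail u v _ hs ih =>
      obtain ⟨hxo, hxF⟩ := ih
      obtain ⟨e, he, hn⟩ := hs
      have hint : e ∈ rswInt K' := by
        refine hdeep e ?_
        rcases he with ⟨h1, _⟩ | ⟨_, h1⟩
        · exact Or.inl (h1 ▸ hxo)
        · exact Or.inr (h1 ▸ hxo)
      have hng : ¬ RswGood a ω e := fun hg => hn ⟨hint, hg⟩
      have h2 := rsz_mem_int.1 hint
      have huv : u ∈ F ∧ v ∈ F := by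
        rcases he with ⟨h1, h3⟩ | ⟨h1, h3⟩
        · exact ⟨h1 ▸ hK' h2.1, h3 ▸ hK' h2.2⟩
        · exact ⟨h3 ▸ hK' h2.2, h1 ▸ hK' h2.1⟩
      have hF' := hxF.tail (⟨huv.1, huv.2, e, he, hng⟩ : RswStep F a ω u v)
      refine ⟨?_, hF'⟩
      by_contra hno
      exact hcirc f hf v (Finset.mem_sdiff.2 ⟨huv.2, hno⟩) hF'
  exact hsep (claim f' hc).2

/-- cut-cycle duality (`Model/Dual261`) in the words of `Defs/RSW` + `Defs/MODEL` -/
theorem ctg261_duality {t : ℝ} {F : Finset (ℤ × ℤ)} {b : Bool} {ω : RswCfg} (hw : rswWt t F b ω ≠ 0) {f g : ℤ × ℤ}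
    (h : ¬ MdlNConn F ω f g) : ∃ a : Bool, ¬ Relation.ReflTransGen (RswStep F a ω) f g := by
  have h' : ¬ Relation.ReflTransGen (Col261NStep F ω) f g := by
    intro hc
    refine h (ctg261_rtg_mono (s := MdlNStep F ω) ?_ hc)
    rintro x y ⟨e, he, hx, hO⟩
    have h2 := rsz_mem_int.1 he
    rcases hx with ⟨h1, h3⟩ | ⟨h1, h3⟩
    · exact ⟨h1 ▸ h2.1, h3 ▸ h2.2, e, Or.inl ⟨h1, h3⟩, hO⟩
    · exact ⟨h3 ▸ h2.2, h1 ▸ h2.1, e, Or.inr ⟨h1, h3⟩, hO⟩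
  obtain ⟨a, ha⟩ := dua261_duality (dua261_feas_of_wt hw) h'
  refine ⟨a, fun hc => ha (ctg261_rtg_mono (s := Col261StepIn F F a ω) ?_ hc)⟩
  rintro x y ⟨hx, hy, e, he, hn⟩
  refine ⟨e, rsz_mem_int.2 ?_, he, fun hh => hn hh.1⟩
  rcases he with ⟨h1, h3⟩ | ⟨h1, h3⟩
  · exact ⟨h1 ▸ hx, h3 ▸ hy⟩
  · exact ⟨h1 ▸ hy, h3 ▸ hx⟩

theorem ctg261_ext_and {B : Finset (ℤ × ℤ)} {L L' : RswCfg → Prop} (h : MdlExt B L) (h' : MdlExt B L') :
    MdlExt B (fun ω => L ω ∧ L' ω) :=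
  fun ω ω' h1 h2 => and_congr (h ω ω' h1 h2) (h' ω ω' h1 h2)

theorem ctg261_corner_face {K : Finset (ℤ × ℤ)} {v : ℤ × ℤ} (hv : v ∈ cornersOf K) :
    v ∈ K ∨ (v.1 - 1, v.2) ∈ K ∨ (v.1, v.2 - 1) ∈ K ∨ (v.1 - 1, v.2 - 1) ∈ K := by
  unfold cornersOf at hv
  obtain ⟨f, hf, hvf⟩ := Finset.mem_biUnion.1 hv
  simp only [Finset.mem_insert, Finset.mem_singleton] at hvf
  rcases hvf with rfl | rfl | rfl | rfl
  · exact Or.inl hf
  · right; left; simpa using hf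
  · right; right; left; simpa using hf
  · right; right; right; simpa using hf

/-- the complete pattern on `K` is data off every buffer which is disjoint from `K` -/
theorem ctg261_pat_ext {K B : Finset (ℤ × ℤ)} (hd : Disjoint K B) (g : RswCfg) : MdlExt B (MdlPat K g) := by
  intro ω ω' h1 h2
  have hS : ∀ v ∈ cornersOf K, (v ∈ ω.S ↔ v ∈ ω'.S) := by
    intro v hv
    refine h1 v ?_
    unfold OnPolygon
    intro hc
    rcases ctg261_corner_face hv with h | h | h | h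
    · exact Finset.disjoint_left.1 hd h hc.1
    · exact Finset.disjoint_left.1 hd h hc.2.1
    · exact Finset.disjoint_left.1 hd h hc.2.2.1
    · exact Finset.disjoint_left.1 hd h hc.2.2.2
  have hO : ∀ e ∈ mdlEd K, (e ∈ ω.O ↔ e ∈ ω'.O) := by
    intro e he
    refine h2 e fun hc => ?_
    rw [rsz_mem_int] at hc
    rcases ctg261_mem_ed.1 he with h | h
    · exact Finset.disjoint_left.1 hd h hc.1
    · exact Finset.disjoint_left.1 hd h hc.2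
  unfold MdlPat
  constructor
  · rintro ⟨a, c⟩
    exact ⟨fun v hv => (hS v hv).symm.trans (a v hv), fun e he => (hO e he).symm.trans (c e he)⟩
  · rintro ⟨a, c⟩
    exact ⟨fun v hv => (hS v hv).trans (a v hv), fun e he => (hO e he).trans (c e he)⟩

theorem ctg261_box_deep (z : ℤ × ℤ) {m m' : ℕ} (h : m + 1 ≤ m') (e : (ℤ × ℤ) × Bool)
    (he : e.1 ∈ rswBox z m ∨ rswCo e ∈ rswBox z m) : e ∈ rswInt (rswBox z m') := by
  obtain ⟨⟨x, y⟩, c⟩ := e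
  rw [rsz_mem_int]
  unfold rswBox rswCo at *
  cases c
  · simp only [Finset.mem_product, Finset.mem_Ico, Bool.false_eq_true, if_false] at *
    omega
  · simp only [Finset.mem_product, Finset.mem_Ico, if_true] at *
    omega

/-- **THE ONE-COLOUR STEP** on abstract sets: if all the missing pairs are separated by the ONE colour `a`, one circuit of that colour makes ALL of them short -/
theorem ctg261_mono_step {t : ℝ} (h0 : 0 < t) (h1 : t ≤ 1) {F K K' Λi Λo B Mp Mm : Finset (ℤ × ℤ)} {b a : Bool}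
    (hfkg : ∀ K : MdlPin, K.Ok → MdlFkgAt t F b a K) (hKK : K ⊆ K') (hK'F : K' ⊆ F)
    (hdeep : ∀ e : (ℤ × ℤ) × Bool, (e.1 ∈ Λo ∨ rswCo e ∈ Λo) → e ∈ rswInt K') (hio : Λi ⊆ Λo) (hMp : Mp ⊆ Λi)
    {L : RswCfg → Prop} {g : RswCfg} (hA : MdlExt B (fun ω => L ω ∧ MdlPat K g ω)) {p1 : ℝ}
    (hcirc : ∀ L' : RswCfg → Prop, MdlExt B L' → p1 * rswP t F b L' ≤ rswP t F b (fun ω => L' ω ∧ RswSep F a ω Λi (F \ Λo)))
    (hmiss : ¬ Ctg261Wit K Mp Mm g) :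
    p1 * rswP t F b (fun ω => (L ω ∧ MdlPat K g ω) ∧ Ctg261SepP F a ((Mp ×ˢ Mm) \ ctg261Sh K Mp Mm g) ω) ≤
      rswP t F b (fun ω => (L ω ∧ MdlPat K g ω) ∧ Ctg261Compat F Mp Mm ω ∧
        (ctg261Sh K Mp Mm g).card < (ctg261Sh K' Mp Mm ω).card) := by
  refine (ctg261_fkg_circ h0 h1 hfkg hA (ctg261_sepP_inc F a _) (ctg261_sep_inc F a Λi (F \ Λo)) hcirc).trans ?_
  refine ctg261_P_mono h0.le h1 F b fun ω _ _ _ _ x => ?_
  obtain ⟨hAω, hsep, hc⟩ := x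
  have hwit : Ctg261Wit K' Mp Mm ω := by
    intro f hf f' hf'
    by_cases hsh : (f, f') ∈ ctg261Sh K Mp Mm g
    · rw [ctg261_sh_pat hAω.2 Mp Mm] at hsh
      exact (ctg261_mem_sh.1 (ctg261_sh_mono hKK Mp Mm ω hsh)).2
    · exact ⟨a, ctg261_localise hK'F hdeep hc (hMp hf) (hio (hMp hf))
        (hsep (f, f') (Finset.mem_sdiff.2 ⟨Finset.mem_product.2 ⟨hf, hf'⟩, hsh⟩))⟩
  refine ⟨hAω, ctg261_wit_compat hwit F, ?_⟩
  have c1 := ctg261_wit_iff.1 hwit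
  have c2 : (ctg261Sh K Mp Mm g).card < Mp.card * Mm.card := by
    by_contra hcon
    exact hmiss (ctg261_wit_iff.2 (not_lt.1 hcon))
  omega

theorem ctg261_pigeon {ι : Type*} (s : Finset ι) (hs : s.Nonempty) (f : ι → ℝ) : ∃ i ∈ s, (∑ j ∈ s, f j) ≤ s.card * f i := by
  obtain ⟨i, hi, hmax⟩ := s.exists_max_image f hs
  refine ⟨i, hi, ?_⟩
  calc ∑ j ∈ s, f j ≤ ∑ _j ∈ s, f i := Finset.sum_le_sum hmax
    _ = s.card * f i := by rw [Finset.sum_const, nsmul_eq_mul]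

/-- the TYPE of a configuration: the pairs of `Pr` which are separated in `F` by the colour plus -/
noncomputable def ctg261Ty (F : Finset (ℤ × ℤ)) (Pr : Finset ((ℤ × ℤ) × (ℤ × ℤ))) (ω : RswCfg) : Finset ((ℤ × ℤ) × (ℤ × ℤ)) :=
  open Classical in Pr.filter fun pr => ¬ Relation.ReflTransGen (RswStep F true ω) pr.1 pr.2

theorem ctg261_mem_ty {F : Finset (ℤ × ℤ)} {Pr : Finset ((ℤ × ℤ) × (ℤ × ℤ))} {ω : RswCfg} {pr : (ℤ × ℤ) × (ℤ × ℤ)} :
    pr ∈ ctg261Ty F Pr ω ↔ pr ∈ Pr ∧ ¬ Relation.ReflTransGen (RswStep F true ω) pr.1 pr.2 := by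
  simp only [ctg261Ty, Finset.mem_filter]

/-- RECORD (eq:spatial-witness-step for a MIXED type): the missing pairs are split into two NONEMPTY classes `Tp`, `Tm`, and with conditional probability `≥ α`
the pairs of `Tp` are separated in `F` by the colour plus and those of `Tm` by the colour minus.  Same geometry and same conclusion as `Ctg261W1`. -/
def Ctg261W1m (t : ℝ) : Prop := ∀ (k M : ℕ) (α : ℝ), 0 < α →
    ∃ r : ℝ, 0 < r ∧ ∃ n0 : ℕ, ∀ n : ℕ, n0 ≤ n → ∀ (F : Finset (ℤ × ℤ)) (z : ℤ × ℤ) (b : Bool) (L : RswCfg → Prop) (g : RswCfg)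
      (Mp Mm : Finset (ℤ × ℤ)) (Tp Tm : Finset ((ℤ × ℤ) × (ℤ × ℤ))),
      RswJordan F → rswBox z ((k + 3) * n) ⊆ F → MdlExt (rswBox z ((k + 3) * n)) L →
      Mp ⊆ rswBox z (k * n) → Mm ⊆ rswBox z (k * n) → Mp.card + Mm.card ≤ M →
      Tp.Nonempty → Tm.Nonempty → Disjoint Tp Tm →
      Tp ∪ Tm = (Mp ×ˢ Mm) \ ctg261Sh (rswBox z ((k + 1) * n)) Mp Mm g →
      α * rswP t F b (fun ω => L ω ∧ MdlPat (rswBox z ((k + 1) * n)) g ω) ≤
        rswP t F b (fun ω => (L ω ∧ MdlPat (rswBox z ((k + 1) * n)) g ω) ∧ Ctg261SepP F true Tp ω ∧ Ctg261SepP F false Tm ω) →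
      r * rswP t F b (fun ω => L ω ∧ MdlPat (rswBox z ((k + 1) * n)) g ω) ≤
        rswP t F b (fun ω => (L ω ∧ MdlPat (rswBox z ((k + 1) * n)) g ω) ∧ Ctg261Compat F Mp Mm ω ∧
          (ctg261Sh (rswBox z ((k + 1) * n)) Mp Mm g).card < (ctg261Sh (rswBox z ((k + 2) * n)) Mp Mm ω).card)

/-- **THE ONE-STEP STATEMENT FROM ITS MIXED CASE**: pigeonhole over the `≤ 2 ^ (M²)` types (cut-cycle duality), one-colour types by FKG with one circuit
((S1) at the ratio `4k+5` and the scale `⌊n/4⌋`: the annular buffer lies between the core `Λ_{(k+1)n}` and the enlarged core `Λ_{(k+2)n}`). -/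
theorem ctg261_step_of_mixed {t : ℝ} (h0 : 0 < t) (h1 : t ≤ 1) (hS0 : Ctg261S0 t) (hS1 : Ctg261S1 t) (hWm : Ctg261W1m t) :
    Ctg261W1 t := by
  classical
  intro k M α hα
  obtain ⟨p1, hp1, n1, H1⟩ := hS1 (4 * k + 5)
  obtain ⟨α', hα'def⟩ : ∃ α' : ℝ, α' = α / 2 ^ (M * M) := ⟨_, rfl⟩
  have hα' : 0 < α' := by rw [hα'def]; positivity
  obtain ⟨rm, hrm, nm, Hm⟩ := hWm k M α' hα'
  refine ⟨min (p1 * α') rm, lt_min (mul_pos hp1 hα') hrm, 4 * (n1 + nm + 3 * (k + 1) + 1) + 4,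
    fun n hn F z b L g Mp Mm hF hsub hL hMp hMm hM hmiss hc => ?_⟩
  obtain ⟨n', hn'def⟩ : ∃ n' : ℕ, n' = n / 4 := ⟨_, rfl⟩
  have a1 : 4 * n' ≤ n := by omega
  have a2 : n < 4 * n' + 4 := by omega
  have a3 : n1 + nm + 3 * (k + 1) + 1 ≤ n' := by omega
  -- geometry
  have g0 : k * n ≤ (4 * k + 5 + 1) * n' := by nlinarith
  have g1 : (k + 1) * n ≤ (4 * k + 5) * n' := by nlinarith
  have g2 : (4 * k + 5 + 3) * n' ≤ (k + 2) * n := by nlinarith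
  have g3 : (4 * k + 5 + 2) * n' + 1 ≤ (k + 2) * n := by nlinarith
  have g4 : (k + 2) * n ≤ (k + 3) * n := by nlinarith
  have g5 : (k + 1) * n ≤ (k + 2) * n := by nlinarith
  have g6 : (4 * k + 5 + 1) * n' ≤ (4 * k + 5 + 2) * n' := by nlinarith
  have sK' : rswBox z ((k + 2) * n) ⊆ F := (ctg261_box_mono z g4).trans hsub
  have sB : rswBox z ((4 * k + 5 + 3) * n') ⊆ F := (ctg261_box_mono z g2).trans sK'
  have hBsub : rswBox z ((4 * k + 5 + 3) * n') \ rswBox z ((4 * k + 5) * n') ⊆ rswBox z ((k + 3) * n) :=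
    Finset.sdiff_subset.trans ((ctg261_box_mono z g2).trans (ctg261_box_mono z g4))
  have hdisj : Disjoint (rswBox z ((k + 1) * n)) (rswBox z ((4 * k + 5 + 3) * n') \ rswBox z ((4 * k + 5) * n')) :=
    Finset.disjoint_of_subset_left (ctg261_box_mono z g1) Finset.disjoint_sdiff
  have hA : MdlExt (rswBox z ((4 * k + 5 + 3) * n') \ rswBox z ((4 * k + 5) * n'))
      (fun ω => L ω ∧ MdlPat (rswBox z ((k + 1) * n)) g ω) :=
    ctg261_ext_and (ctg261_ext_mono hBsub hL) (ctg261_pat_ext hdisj g)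
  have hu_nn : 0 ≤ rswP t F b (fun ω => L ω ∧ MdlPat (rswBox z ((k + 1) * n)) g ω) := rsz_P_nonneg h0.le h1 F b _
  -- the one-colour step, either colour
  have mono : ∀ a : Bool,
      p1 * rswP t F b (fun ω => (L ω ∧ MdlPat (rswBox z ((k + 1) * n)) g ω) ∧
        Ctg261SepP F a ((Mp ×ˢ Mm) \ ctg261Sh (rswBox z ((k + 1) * n)) Mp Mm g) ω) ≤
      rswP t F b (fun ω => (L ω ∧ MdlPat (rswBox z ((k + 1) * n)) g ω) ∧ Ctg261Compat F Mp Mm ω ∧
        (ctg261Sh (rswBox z ((k + 1) * n)) Mp Mm g).card < (ctg261Sh (rswBox z ((k + 2) * n)) Mp Mm ω).card) := fun a =>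
    ctg261_mono_step h0 h1 (fun K hK => hS0 F hF b a K hK) (ctg261_box_mono z g5) sK' (ctg261_box_deep z g3)
      (ctg261_box_mono z g6) (hMp.trans (ctg261_box_mono z g0)) hA
      (fun L' hL' => H1 n' (by omega) F z b a L' hF sB hL') hmiss
  -- the types
  obtain ⟨Pm, hPm⟩ : ∃ Pm, Pm = (Mp ×ˢ Mm) \ ctg261Sh (rswBox z ((k + 1) * n)) Mp Mm g := ⟨_, rfl⟩
  rw [← hPm] at mono
  have part := ctg261_P_part t F b
    (fun ω => (L ω ∧ MdlPat (rswBox z ((k + 1) * n)) g ω) ∧ Ctg261Compat F Mp Mm ω) Pm.powerset (ctg261Ty F Pm)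
    (fun ω => Finset.mem_powerset.2 fun pr hpr => (ctg261_mem_ty.1 hpr).1)
  obtain ⟨T, hT, hmax⟩ := ctg261_pigeon Pm.powerset ⟨∅, Finset.empty_mem_powerset _⟩
    (fun T => rswP t F b (fun ω => ((L ω ∧ MdlPat (rswBox z ((k + 1) * n)) g ω) ∧ Ctg261Compat F Mp Mm ω) ∧ ctg261Ty F Pm ω = T))
  rw [← part] at hmax
  rw [Finset.mem_powerset] at hT
  have hfT_nn : 0 ≤ rswP t F b (fun ω => ((L ω ∧ MdlPat (rswBox z ((k + 1) * n)) g ω) ∧ Ctg261Compat F Mp Mm ω) ∧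
      ctg261Ty F Pm ω = T) := rsz_P_nonneg h0.le h1 F b _
  have hcard : ((Pm.powerset.card : ℕ) : ℝ) ≤ 2 ^ (M * M) := by
    rw [Finset.card_powerset]
    push_cast
    refine pow_le_pow_right₀ (by norm_num) ?_
    calc Pm.card ≤ (Mp ×ˢ Mm).card := by rw [hPm]; exact Finset.card_le_card Finset.sdiff_subset
      _ = Mp.card * Mm.card := Finset.card_product _ _
      _ ≤ M * M := Nat.mul_le_mul (by omega) (by omega)
  have hαT : α' * rswP t F b (fun ω => L ω ∧ MdlPat (rswBox z ((k + 1) * n)) g ω) ≤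
      rswP t F b (fun ω => ((L ω ∧ MdlPat (rswBox z ((k + 1) * n)) g ω) ∧ Ctg261Compat F Mp Mm ω) ∧ ctg261Ty F Pm ω = T) := by
    have c1 := (hc.trans hmax).trans (mul_le_mul_of_nonneg_right hcard hfT_nn)
    rw [hα'def, div_mul_eq_mul_div, div_le_iff₀ (by positivity)]
    linarith
  have hrel : rswP t F b (fun ω => ((L ω ∧ MdlPat (rswBox z ((k + 1) * n)) g ω) ∧ Ctg261Compat F Mp Mm ω) ∧
      ctg261Ty F Pm ω = T) ≤
      rswP t F b (fun ω => (L ω ∧ MdlPat (rswBox z ((k + 1) * n)) g ω) ∧ Ctg261SepP F true T ω ∧ Ctg261SepP F false (Pm \ T) ω) := by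
    refine ctg261_P_mono h0.le h1 F b fun ω _ _ _ hw x => ⟨x.1.1, ?_, ?_⟩
    · intro pr hpr
      rw [← x.2] at hpr
      exact (ctg261_mem_ty.1 hpr).2
    · intro pr hpr
      obtain ⟨hp1', hp2'⟩ := Finset.mem_sdiff.1 hpr
      rw [← x.2] at hp2'
      have hmem : pr ∈ Mp ×ˢ Mm := by
        rw [hPm] at hp1'
        exact (Finset.mem_sdiff.1 hp1').1
      rw [Finset.mem_product] at hmem
      obtain ⟨a, ha⟩ := ctg261_duality hw (x.1.2 pr.1 hmem.1 pr.2 hmem.2)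
      cases a
      · exact ha
      · exact absurd (ctg261_mem_ty.2 ⟨hp1', ha⟩) hp2'
  have hmin1 := mul_le_mul_of_nonneg_right (min_le_left (p1 * α') rm) hu_nn
  have hmin2 := mul_le_mul_of_nonneg_right (min_le_right (p1 * α') rm) hu_nn
  by_cases hT1 : Pm \ T = ∅
  · -- all the missing pairs are separated by the colour plus
    have hTeq : T = Pm := Finset.Subset.antisymm hT (Finset.sdiff_eq_empty_iff_subset.1 hT1)
    have m1 : rswP t F b (fun ω => (L ω ∧ MdlPat (rswBox z ((k + 1) * n)) g ω) ∧ Ctg261SepP F true T ω ∧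
        Ctg261SepP F false (Pm \ T) ω) ≤
        rswP t F b (fun ω => (L ω ∧ MdlPat (rswBox z ((k + 1) * n)) g ω) ∧ Ctg261SepP F true Pm ω) :=
      ctg261_P_mono h0.le h1 F b fun ω _ _ _ _ x => ⟨x.1, hTeq ▸ x.2.1⟩
    have m2 := mul_le_mul_of_nonneg_left ((hαT.trans hrel).trans m1) hp1.le
    have m3 := mono true
    linarith
  · by_cases hT2 : T = ∅
    · -- all the missing pairs are separated by the colour minus
      have m1 : rswP t F b (fun ω => (L ω ∧ MdlPat (rswBox z ((k + 1) * n)) g ω) ∧ Ctg261SepP F true T ω ∧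
          Ctg261SepP F false (Pm \ T) ω) ≤
          rswP t F b (fun ω => (L ω ∧ MdlPat (rswBox z ((k + 1) * n)) g ω) ∧ Ctg261SepP F false Pm ω) := by
        refine ctg261_P_mono h0.le h1 F b fun ω _ _ _ _ x => ⟨x.1, ?_⟩
        have := x.2.2
        rwa [hT2, Finset.sdiff_empty] at this
      have m2 := mul_le_mul_of_nonneg_left ((hαT.trans hrel).trans m1) hp1.le
      have m3 := mono false
      linarith
    · -- a mixed type
      have res := Hm n (by omega) F z b L g Mp Mm T (Pm \ T) hF hsub hL hMp hMm hM (Finset.nonempty_iff_ne_empty.2 hT2)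
        (Finset.nonempty_iff_ne_empty.2 hT1) Finset.disjoint_sdiff (by rw [Finset.union_sdiff_of_subset hT, hPm])
        (hαT.trans hrel)
      linarith

/-- the equation lemmas of the definitions of this file are generated HERE (RULES.md, rule 6) -/
theorem ctg261_eqns_cite : True := by
  have := @ctg261Ind.eq_1
  have := @ctg261Idx.eq_1
  have := @ctg261Ix.eq_1
  have := @ctg261Cfg.eq_1
  have := @ctg261Seal.eq_1
  have := @Ctg261Compat.eq_1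
  have := @ctg261Fl.eq_1
  have := @ctg261Glue.eq_1
  have := @Ctg261S2.eq_1
  have := @Ctg261S3.eq_1
  have := @Ctg261Pl.eq_1
  have := @Ctg261J.eq_1
  have := @Ctg261Step.eq_1
  have := @Ctg261Wit.eq_1
  have := @Ctg261W.eq_1
  have := @ctg261Sh.eq_1
  have := @Ctg261W1.eq_1
  have := @Ctg261S0.eq_1
  have := @Ctg261S1.eq_1
  have := @Ctg261SepP.eq_1
  have := @ctg261Ty.eq_1
  have := @Ctg261W1m.eq_1
  trivial

end Claimed.Agent.R292
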