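import Claimed.Agent.R292.Defs.MODEL
import Claimed.Agent.R292.Rsw.Dual251

/-!
# Row 292 (S0540), Model/Arm101 : prop:circuits (2)      (pen helper101; unit MODEL, head helper191; prefix `arm101_`, `Arm101`)

AT paper, 03-spatial.tex, Proposition "Buffered circuits and attached-wall bounds", item 2, in the vocabulary `(S, D, O)` of `Defs/RSW`.

INPUT (record, never proved here): `Arm101Circ t p n0` = the conclusion of `exit_mdl_circ` (S1, prop:circuits (1)) for given constants.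
OUTPUT
* `arm101_scales`   failure of the circuits (any colours) on `m` separated scales, given ANY exterior data of the largest buffer: `≤ (1 - p) ^ m`, product form.
* `arm101_arm_log`  a dual path from `Λ_r` to the outside of `Λ_R` which crosses no good edge of colour `a`: `≤ (1 - p) ^ log₄ (R / r)`.
* `arm101_arm`      the same, polynomial form `C ((r + 1) / R) ^ α`  (eq:spatial-attached-arm).
* `arm101_narm`     the same for an arm of the current `N` (closed `W` edges).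
Deterministic tools: `arm101_sep_ext` (a separation event of `A` is exterior data of every buffer inside `A`), calculus of `MdlExt`.
-/

set_option autoImplicit false

namespace Claimed.Agent.R292

open Claims Claims.C0468 Finset

/-! ## 0. the three facts on `rswP` that are used (own copies: no base file is imported) -/

theorem arm101_fac_nonneg {t : ℝ} (h0 : 0 ≤ t) (h1 : t ≤ 1) (ω : RswCfg) (e : (ℤ × ℤ) × Bool) :
    0 ≤ rswFac t ω e := by
  unfold rswFac
  split_ifs <;> linarith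

theorem arm101_wt_nonneg {t : ℝ} (h0 : 0 ≤ t) (h1 : t ≤ 1) (F : Finset (ℤ × ℤ)) (b : Bool) (ω : RswCfg) :
    0 ≤ rswWt t F b ω := by
  unfold rswWt
  split_ifs
  · exact prod_nonneg fun e _ => arm101_fac_nonneg h0 h1 ω e
  · exact le_rfl

theorem arm101_sum_mono {t : ℝ} (h0 : 0 ≤ t) (h1 : t ≤ 1) (F : Finset (ℤ × ℤ)) (b : Bool) {X Y : RswCfg → ℝ}
    (h : ∀ ω, X ω ≤ Y ω) : rswSum t F b X ≤ rswSum t F b Y := by
  unfold rswSum
  exact sum_le_sum fun S _ => sum_le_sum fun D _ => sum_le_sum fun O _ =>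
    mul_le_mul_of_nonneg_left (h _) (arm101_wt_nonneg h0 h1 F b _)

theorem arm101_sum_nonneg {t : ℝ} (h0 : 0 ≤ t) (h1 : t ≤ 1) (F : Finset (ℤ × ℤ)) (b : Bool) {X : RswCfg → ℝ}
    (h : ∀ ω, 0 ≤ X ω) : 0 ≤ rswSum t F b X := by
  unfold rswSum
  exact sum_nonneg fun S _ => sum_nonneg fun D _ => sum_nonneg fun O _ =>
    mul_nonneg (arm101_wt_nonneg h0 h1 F b _) (h _)

theorem arm101_sum_add (t : ℝ) (F : Finset (ℤ × ℤ)) (b : Bool) (X Y : RswCfg → ℝ) :
    rswSum t F b (fun ω => X ω + Y ω) = rswSum t F b X + rswSum t F b Y := by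
  unfold rswSum
  simp only [mul_add, sum_add_distrib]

theorem arm101_P_nonneg {t : ℝ} (h0 : 0 ≤ t) (h1 : t ≤ 1) (F : Finset (ℤ × ℤ)) (b : Bool) (L : RswCfg → Prop) :
    0 ≤ rswP t F b L := by
  unfold rswP rswE
  refine div_nonneg (arm101_sum_nonneg h0 h1 F b fun ω => ?_) (arm101_sum_nonneg h0 h1 F b fun _ => zero_le_one)
  split_ifs <;> norm_num

theorem arm101_P_mono {t : ℝ} (h0 : 0 ≤ t) (h1 : t ≤ 1) (F : Finset (ℤ × ℤ)) (b : Bool) {L L' : RswCfg → Prop}
    (h : ∀ ω, L ω → L' ω) : rswP t F b L ≤ rswP t F b L' := by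
  unfold rswP rswE
  refine div_le_div_of_nonneg_right (arm101_sum_mono h0 h1 F b fun ω => ?_)
    (arm101_sum_nonneg h0 h1 F b fun _ => zero_le_one)
  by_cases hL : L ω
  · rw [if_pos hL, if_pos (h ω hL)]
  · rw [if_neg hL]; split_ifs <;> norm_num

theorem arm101_P_split (t : ℝ) (F : Finset (ℤ × ℤ)) (b : Bool) (L E : RswCfg → Prop) :
    rswP t F b L = rswP t F b (fun ω => L ω ∧ E ω) + rswP t F b (fun ω => L ω ∧ ¬ E ω) := by
  unfold rswP rswE
  rw [← add_div, ← arm101_sum_add]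
  congr 2
  funext ω
  by_cases hL : L ω <;> by_cases hE : E ω <;> simp [hL, hE]

theorem arm101_P_congr (t : ℝ) (F : Finset (ℤ × ℤ)) (b : Bool) {L L' : RswCfg → Prop}
    (h : ∀ ω, L ω ↔ L' ω) : rswP t F b L = rswP t F b L' := by
  have : L = L' := funext fun ω => propext (h ω)
  rw [this]

/-! ## 1. calculus of exterior data -/

theorem arm101_int_mono {B' B : Finset (ℤ × ℤ)} (h : B' ⊆ B) : rswInt B' ⊆ rswInt B := by
  intro e he
  unfold rswInt at he ⊢
  simp only [mem_filter, mem_product, mem_univ, and_true] at he ⊢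
  exact ⟨h he.1, h he.2⟩

theorem arm101_onPolygon_mono {B' B : Finset (ℤ × ℤ)} (h : B' ⊆ B) {v : ℤ × ℤ} (hv : OnPolygon B v) :
    OnPolygon B' v := by
  unfold OnPolygon at hv ⊢
  exact fun h' => hv ⟨h h'.1, h h'.2.1, h h'.2.2.1, h h'.2.2.2⟩

theorem arm101_ext_mono {B' B : Finset (ℤ × ℤ)} (h : B' ⊆ B) {L : RswCfg → Prop} (hL : MdlExt B L) :
    MdlExt B' L := by
  intro ω ω' hS hO
  exact hL ω ω' (fun v hv => hS v (arm101_onPolygon_mono h hv))
    (fun e he => hO e fun he' => he (arm101_int_mono h he'))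

theorem arm101_ext_and {B : Finset (ℤ × ℤ)} {L L' : RswCfg → Prop} (hL : MdlExt B L) (hL' : MdlExt B L') :
    MdlExt B fun ω => L ω ∧ L' ω := by
  intro ω ω' hS hO
  exact and_congr (hL ω ω' hS hO) (hL' ω ω' hS hO)

theorem arm101_ext_not {B : Finset (ℤ × ℤ)} {L : RswCfg → Prop} (hL : MdlExt B L) :
    MdlExt B fun ω => ¬ L ω := by
  intro ω ω' hS hO
  exact not_congr (hL ω ω' hS hO)

theorem arm101_ext_forall {ι : Sort*} {B : Finset (ℤ × ℤ)} {L : ι → RswCfg → Prop} (hL : ∀ i, MdlExt B (L i)) :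
    MdlExt B fun ω => ∀ i, L i ω := by
  intro ω ω' hS hO
  exact forall_congr' fun i => hL i ω ω' hS hO

theorem arm101_ext_const (B : Finset (ℤ × ℤ)) (P : Prop) : MdlExt B fun _ => P := fun _ _ _ _ => Iff.rfl

/-- both endpoints of an edge which is not interior to `B` are on the polygon of `B` or off `B` -/
theorem arm101_onPolygon_of_not_int {B : Finset (ℤ × ℤ)} {e : (ℤ × ℤ) × Bool} (he : e ∉ rswInt B) :
    OnPolygon B e.1 ∧ OnPolygon B (rswEnd e) := by
  obtain ⟨⟨x, y⟩, s⟩ := e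
  have he' : ¬ ((x, y) ∈ B ∧ rswCo ((x, y), s) ∈ B) := by
    intro h
    apply he
    unfold rswInt
    simp only [mem_filter, mem_product, mem_univ, and_true]
    exact h
  unfold OnPolygon
  cases s
  · simp only [rswCo, rswEnd, Bool.false_eq_true, if_false] at he' ⊢
    refine ⟨fun h => he' ⟨h.1, h.2.2.1⟩, fun h => he' ⟨?_, ?_⟩⟩
    · have := h.2.1; simpa using this
    · have := h.2.2.2; simpa using this
  · simp only [rswCo, rswEnd, if_true] at he' ⊢
    refine ⟨fun h => he' ⟨h.1, h.2.1⟩, fun h => he' ⟨?_, ?_⟩⟩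
    · have := h.2.2.1; simpa using this
    · have := h.2.2.2; simpa using this

theorem arm101_good_congr {B : Finset (ℤ × ℤ)} {ω ω' : RswCfg}
    (hS : ∀ v, OnPolygon B v → (v ∈ ω.S ↔ v ∈ ω'.S)) (hO : ∀ e, e ∉ rswInt B → (e ∈ ω.O ↔ e ∈ ω'.O))
    (a : Bool) {e : (ℤ × ℤ) × Bool} (he : e ∉ rswInt B) : RswGood a ω e ↔ RswGood a ω' e := by
  obtain ⟨h1, h2⟩ := arm101_onPolygon_of_not_int he
  unfold RswGood
  rw [hO e he, hS _ h1, hS _ h2]

/-- one half of `arm101_sep_ext` -/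
theorem arm101_reach_transfer {F B A : Finset (ℤ × ℤ)} (hBA : B ⊆ A) {ω ω' : RswCfg}
    (hS : ∀ v, OnPolygon B v → (v ∈ ω.S ↔ v ∈ ω'.S)) (hO : ∀ e, e ∉ rswInt B → (e ∈ ω.O ↔ e ∈ ω'.O))
    (a : Bool) {f x : ℤ × ℤ} (hf : f ∈ A) (h : Relation.ReflTransGen (RswStep F a ω) f x) :
    ∃ f' ∈ A, Relation.ReflTransGen (RswStep F a ω') f' x := by
  induction h with
  | refl => exact ⟨f, hf, Relation.ReflTransGen.refl⟩
  | @tail y x _ hyx ih =>
    obtain ⟨f', hf', hp⟩ := ih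
    by_cases hx : x ∈ A
    · exact ⟨x, hx, Relation.ReflTransGen.refl⟩
    · refine ⟨f', hf', hp.tail ?_⟩
      obtain ⟨hy, hxF, e, hex, hg⟩ := hyx
      have he : e ∉ rswInt B := by
        intro he
        unfold rswInt at he
        simp only [mem_filter, mem_product, mem_univ, and_true] at he
        rcases hex with ⟨_, h2⟩ | ⟨h2, _⟩
        · exact hx (hBA (h2 ▸ he.2))
        · exact hx (hBA (h2 ▸ he.1))
      exact ⟨hy, hxF, e, hex, fun hg' => hg ((arm101_good_congr hS hO a he).2 hg')⟩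

/-- **a separation event of the set of faces `A` is exterior data of every buffer `B ⊆ A`** -/
theorem arm101_sep_ext {B A : Finset (ℤ × ℤ)} (hBA : B ⊆ A) (F : Finset (ℤ × ℤ)) (a : Bool) (T : Finset (ℤ × ℤ)) :
    MdlExt B fun ω => RswSep F a ω A T := by
  have key : ∀ ω ω' : RswCfg, (∀ v, OnPolygon B v → (v ∈ ω.S ↔ v ∈ ω'.S)) →
      (∀ e, e ∉ rswInt B → (e ∈ ω.O ↔ e ∈ ω'.O)) → RswSep F a ω' A T → RswSep F a ω A T := by
    intro ω ω' hS hO h f hf g hg hp
    obtain ⟨f', hf', hp'⟩ := arm101_reach_transfer hBA hS hO a hf hp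
    exact h f' hf' g hg hp'
  intro ω ω' hS hO
  exact ⟨key ω' ω (fun v hv => (hS v hv).symm) (fun e he => (hO e he).symm), key ω ω' hS hO⟩

theorem arm101_sep_mono {F : Finset (ℤ × ℤ)} {a : Bool} {ω : RswCfg} {A A' T T' : Finset (ℤ × ℤ)}
    (hA : A' ⊆ A) (hT : T' ⊆ T) (h : RswSep F a ω A T) : RswSep F a ω A' T' :=
  fun f hf g hg => h f (hA hf) g (hT hg)

theorem arm101_box_mono (z : ℤ × ℤ) {k k' : ℕ} (h : k ≤ k') : rswBox z k ⊆ rswBox z k' := by
  have h' : (k : ℤ) ≤ k' := by exact_mod_cast h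
  intro f hf
  unfold rswBox at hf ⊢
  simp only [mem_product, mem_Ico] at hf ⊢
  refine ⟨⟨?_, ?_⟩, ⟨?_, ?_⟩⟩ <;> linarith [hf.1.1, hf.1.2, hf.2.1, hf.2.2]

/-! ## 2. the record and the separated scales -/

/-- THE INPUT: the conclusion of `exit_mdl_circ` (S1 = prop:circuits (1)) with the constants `p`, `n0` -/
def Arm101Circ (t p : ℝ) (n0 : ℕ) : Prop :=
  ∀ n : ℕ, n0 ≤ n → ∀ (F : Finset (ℤ × ℤ)) (z : ℤ × ℤ) (b a : Bool) (L : RswCfg → Prop),
    RswJordan F → rswBox z (4 * n) ⊆ F → MdlExt (rswBox z (4 * n)) L →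
    p * rswP t F b L ≤ rswP t F b fun ω => L ω ∧ RswSep F a ω (rswBox z n) (F \ rswBox z (2 * n))

theorem arm101_circ_mono {t p p' : ℝ} {n0 : ℕ} (h0 : 0 ≤ t) (h1 : t ≤ 1) (hp : p' ≤ p) (H : Arm101Circ t p n0) :
    Arm101Circ t p' n0 := by
  intro n hn F z b a L hF hB hL
  exact le_trans (mul_le_mul_of_nonneg_right hp (arm101_P_nonneg h0 h1 F b L)) (H n hn F z b a L hF hB hL)

/-- one scale: the failure of the circuit costs `1 - p` -/
theorem arm101_one {t p : ℝ} {n0 : ℕ} (H : Arm101Circ t p n0) {n : ℕ} (hn : n0 ≤ n)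
    {F : Finset (ℤ × ℤ)} (z : ℤ × ℤ) (b a : Bool) {L : RswCfg → Prop} (hF : RswJordan F)
    (hB : rswBox z (4 * n) ⊆ F) (hL : MdlExt (rswBox z (4 * n)) L) :
    rswP t F b (fun ω => L ω ∧ ¬ RswSep F a ω (rswBox z n) (F \ rswBox z (2 * n))) ≤ (1 - p) * rswP t F b L := by
  have h1 := H n hn F z b a L hF hB hL
  have h2 := arm101_P_split t F b L fun ω => RswSep F a ω (rswBox z n) (F \ rswBox z (2 * n))
  linarith

/-- **prop:circuits (2), first half.**  Scales `n 0 < n 1 < ...` with `4 * n i ≤ n (i + 1)`, colours `a i` at will, `L` any exterior data of the buffers: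
all `m` circuits fail with conditional probability at most `(1 - p) ^ m`. -/
theorem arm101_scales {t p : ℝ} {n0 : ℕ} (hp : p ≤ 1) (H : Arm101Circ t p n0)
    {F : Finset (ℤ × ℤ)} (hF : RswJordan F) (z : ℤ × ℤ) (b : Bool) (m : ℕ) :
    ∀ (n : ℕ → ℕ) (a : ℕ → Bool) (L : RswCfg → Prop), (∀ i, n0 ≤ n i) → (∀ i, 4 * n i ≤ n (i + 1)) →
      (∀ i < m, rswBox z (4 * n i) ⊆ F) → (∀ i < m, MdlExt (rswBox z (4 * n i)) L) →
      rswP t F b (fun ω => L ω ∧ ∀ i < m, ¬ RswSep F (a i) ω (rswBox z (n i)) (F \ rswBox z (2 * n i)))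
        ≤ (1 - p) ^ m * rswP t F b L := by
  induction m with
  | zero =>
    intro n a L _ _ _ _
    rw [pow_zero, one_mul]
    exact le_of_eq (arm101_P_congr t F b fun ω => by simp)
  | succ m ih =>
    intro n a L hn0 hsep hB hL
    have hmono : Monotone n := monotone_nat_of_le_succ fun i => by have := hsep i; omega
    -- the outer scales
    set L' : RswCfg → Prop := fun ω => L ω ∧
      ∀ i < m, ¬ RswSep F (a (i + 1)) ω (rswBox z (n (i + 1))) (F \ rswBox z (2 * n (i + 1))) with hL'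
    have ihm := ih (fun i => n (i + 1)) (fun i => a (i + 1)) L (fun i => hn0 _) (fun i => hsep _)
      (fun i hi => hB (i + 1) (by omega)) (fun i hi => hL (i + 1) (by omega))
    have hext : MdlExt (rswBox z (4 * n 0)) L' := by
      refine arm101_ext_and (hL 0 (by omega)) (arm101_ext_forall fun i => arm101_ext_forall fun _ => arm101_ext_not ?_)
      refine arm101_sep_ext (arm101_box_mono z ?_) F _ _
      exact le_trans (hsep 0) (hmono (by omega))
    have h1' := arm101_one H (hn0 0) z b (a 0) hF (hB 0 (by omega)) hext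
    have e : rswP t F b (fun ω => L ω ∧ ∀ i < m + 1, ¬ RswSep F (a i) ω (rswBox z (n i)) (F \ rswBox z (2 * n i)))
        = rswP t F b (fun ω => L' ω ∧ ¬ RswSep F (a 0) ω (rswBox z (n 0)) (F \ rswBox z (2 * n 0))) := by
      refine arm101_P_congr t F b fun ω => ?_
      constructor
      · rintro ⟨hl, h⟩
        exact ⟨⟨hl, fun i hi => h (i + 1) (by omega)⟩, h 0 (by omega)⟩
      · rintro ⟨⟨hl, h⟩, h0'⟩
        refine ⟨hl, fun i hi => ?_⟩
        cases i with
        | zero => exact h0'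
        | succ i => exact h i (by omega)
    rw [e, pow_succ, mul_comm ((1 - p) ^ m), mul_assoc]
    exact le_trans h1' (mul_le_mul_of_nonneg_left ihm (by linarith))

/-! ## 3. the arm bound -/

/-- **prop:circuits (2), second half, logarithmic form.**  A dual path inside `F` from `Λ_r` to the outside of `Λ_R` which crosses no good edge of colour `a`,
given any exterior data of `Λ_R`. -/
theorem arm101_arm_log {t p : ℝ} {n0 : ℕ} (h0 : 0 ≤ t) (h1 : t ≤ 1) (hp : p ≤ 1) (H : Arm101Circ t p n0)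
    {F : Finset (ℤ × ℤ)} (hF : RswJordan F) (z : ℤ × ℤ) (b a : Bool) {L : RswCfg → Prop} {r R : ℕ} (hr : n0 ≤ r)
    (hB : rswBox z R ⊆ F) (hL : MdlExt (rswBox z R) L) :
    rswP t F b (fun ω => L ω ∧ ¬ RswSep F a ω (rswBox z r) (F \ rswBox z R))
      ≤ (1 - p) ^ Nat.log 4 (R / r) * rswP t F b L := by
  set m := Nat.log 4 (R / r) with hm
  have hscale : ∀ i < m, 4 * (4 ^ i * r) ≤ R := by
    intro i hi
    have hne : R / r ≠ 0 := by
      intro h0'
      rw [h0', Nat.log_zero_right] at hm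
      omega
    have h4 : 4 ^ m ≤ R / r := Nat.pow_log_le_self 4 hne
    have h5 : 4 ^ (i + 1) ≤ 4 ^ m := Nat.pow_le_pow_right (by norm_num) hi
    calc 4 * (4 ^ i * r) = 4 ^ (i + 1) * r := by ring
      _ ≤ (R / r) * r := Nat.mul_le_mul_right r (le_trans h5 h4)
      _ ≤ R := Nat.div_mul_le_self R r
  have hs := arm101_scales hp H hF z b m (fun i => 4 ^ i * r) (fun _ => a) L
    (fun i => le_trans hr (Nat.le_mul_of_pos_left r (by positivity)))
    (fun i => le_of_eq (by ring))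
    (fun i hi => (arm101_box_mono z (hscale i hi)).trans hB)
    (fun i hi => arm101_ext_mono (arm101_box_mono z (hscale i hi)) hL)
  refine le_trans (arm101_P_mono h0 h1 F b fun ω hω => ⟨hω.1, fun i hi hsep => hω.2 ?_⟩) hs
  refine arm101_sep_mono (arm101_box_mono z (Nat.le_mul_of_pos_left r (by positivity))) ?_ hsep
  refine sdiff_subset_sdiff (Subset.refl F) (arm101_box_mono z ?_)
  have := hscale i hi
  omega

/-- arithmetic: from the number of scales to a power of `r / R` -/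
theorem arm101_pow_le {q : ℝ} (hq0 : 0 < q) (hq1 : q < 1) {r R : ℕ} (hr : 1 ≤ r) (hR : 1 ≤ R) :
    q ^ Nat.log 4 (R / r) ≤ q⁻¹ * ((r : ℝ) / R) ^ (-Real.log q / Real.log 4) := by
  set m := Nat.log 4 (R / r) with hm
  set α : ℝ := -Real.log q / Real.log 4 with hα
  have hlog4 : 0 < Real.log 4 := Real.log_pos (by norm_num)
  have hα0 : 0 < α := div_pos (neg_pos.2 (Real.log_neg hq0 hq1)) hlog4
  have hr' : (0 : ℝ) < r := by exact_mod_cast hr
  have hR' : (0 : ℝ) < R := by exact_mod_cast hR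
  -- `R < 4 ^ (m + 1) * r`
  have h1 : R / r < 4 ^ (m + 1) := Nat.lt_pow_succ_log_self (by norm_num) _
  have h2 : R < 4 ^ (m + 1) * r := by
    have h3 : R < r * (R / r + 1) := Nat.lt_mul_div_succ R (by omega)
    calc R < r * (R / r + 1) := h3
      _ ≤ r * 4 ^ (m + 1) := Nat.mul_le_mul_left r h1
      _ = 4 ^ (m + 1) * r := by ring
  have h2' : (R : ℝ) / r ≤ (4 : ℝ) ^ (m + 1) := by
    rw [div_le_iff₀ hr']
    exact_mod_cast h2.le
  -- `4 ^ α = q⁻¹`
  have h4α : (4 : ℝ) ^ α = q⁻¹ := by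
    rw [Real.rpow_def_of_pos (by norm_num), hα, mul_div_assoc', mul_comm, mul_div_assoc, div_self hlog4.ne', mul_one,
      Real.exp_neg, Real.exp_log hq0]
  have h5 : ((R : ℝ) / r) ^ α ≤ (q⁻¹) ^ (m + 1) := by
    calc ((R : ℝ) / r) ^ α ≤ ((4 : ℝ) ^ (m + 1)) ^ α := Real.rpow_le_rpow (by positivity) h2' hα0.le
      _ = ((4 : ℝ) ^ α) ^ (m + 1) := by
        rw [← Real.rpow_natCast, ← Real.rpow_natCast, ← Real.rpow_mul (by norm_num), ← Real.rpow_mul (by norm_num), mul_comm]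
      _ = (q⁻¹) ^ (m + 1) := by rw [h4α]
  have h6 : ((r : ℝ) / R) ^ α = (((R : ℝ) / r) ^ α)⁻¹ := by
    rw [← Real.inv_rpow (by positivity), inv_div]
  have h7 : 0 < ((R : ℝ) / r) ^ α := Real.rpow_pos_of_pos (by positivity) _
  rw [h6]
  have h8 : ((q⁻¹) ^ (m + 1))⁻¹ ≤ (((R : ℝ) / r) ^ α)⁻¹ := inv_anti₀ h7 h5
  have h9 : ((q⁻¹) ^ (m + 1))⁻¹ = q ^ (m + 1) := by rw [inv_pow, inv_inv]
  rw [h9] at h8
  calc q ^ m = q⁻¹ * q ^ (m + 1) := by rw [pow_succ]; field_simp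
    _ ≤ q⁻¹ * (((R : ℝ) / r) ^ α)⁻¹ := mul_le_mul_of_nonneg_left h8 (by positivity)

/-- **prop:circuits (2), second half = eq:spatial-attached-arm** (lattice units: `δ = 1`). -/
theorem arm101_arm {t p : ℝ} {n0 : ℕ} (h0 : 0 ≤ t) (h1 : t ≤ 1) (hp0 : 0 < p) (H : Arm101Circ t p n0) :
    ∃ C α : ℝ, 0 < C ∧ 0 < α ∧ ∀ (F : Finset (ℤ × ℤ)) (z : ℤ × ℤ) (b a : Bool) (L : RswCfg → Prop) (r R : ℕ),
      1 ≤ R → RswJordan F → rswBox z R ⊆ F → MdlExt (rswBox z R) L →
      rswP t F b (fun ω => L ω ∧ ¬ RswSep F a ω (rswBox z r) (F \ rswBox z R))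
        ≤ C * (((r : ℝ) + 1) / R) ^ α * rswP t F b L := by
  set p' : ℝ := min p (1 / 2) with hp'
  have hp'0 : 0 < p' := lt_min hp0 (by norm_num)
  have hp'1 : p' ≤ 1 / 2 := min_le_right _ _
  have H' : Arm101Circ t p' n0 := arm101_circ_mono h0 h1 (min_le_left _ _) H
  set q : ℝ := 1 - p' with hq
  have hq0 : 0 < q := by linarith
  have hq1 : q < 1 := by linarith
  set α : ℝ := -Real.log q / Real.log 4 with hα
  have hlog4 : 0 < Real.log 4 := Real.log_pos (by norm_num)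
  have hα0 : 0 < α := div_pos (neg_pos.2 (Real.log_neg hq0 hq1)) hlog4
  refine ⟨q⁻¹ * ((n0 : ℝ) + 1) ^ α, α, by positivity, hα0, fun F z b a L r R hR hF hB hL => ?_⟩
  set r' : ℕ := (n0 + 1) * (r + 1) with hr'
  have hr'n : n0 ≤ r' := by
    have : (n0 + 1) * 1 ≤ (n0 + 1) * (r + 1) := Nat.mul_le_mul_left _ (by omega)
    omega
  have hr'r : r ≤ r' := by
    have : 1 * (r + 1) ≤ (n0 + 1) * (r + 1) := Nat.mul_le_mul_right _ (by omega)
    omega
  have hr'1 : 1 ≤ r' := Nat.mul_pos (by omega) (by omega)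
  have hP := arm101_P_nonneg h0 h1 F b L
  have s1 : rswP t F b (fun ω => L ω ∧ ¬ RswSep F a ω (rswBox z r) (F \ rswBox z R))
      ≤ rswP t F b (fun ω => L ω ∧ ¬ RswSep F a ω (rswBox z r') (F \ rswBox z R)) :=
    arm101_P_mono h0 h1 F b fun ω hω =>
      ⟨hω.1, fun hs => hω.2 (arm101_sep_mono (arm101_box_mono z hr'r) (Subset.refl _) hs)⟩
  have s2 := arm101_arm_log h0 h1 (by linarith) H' hF z b a hr'n hB hL
  have s3 := arm101_pow_le hq0 hq1 hr'1 hR
  have s4 : ((r' : ℝ) / R) ^ α = ((n0 : ℝ) + 1) ^ α * (((r : ℝ) + 1) / R) ^ α := by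
    rw [← Real.mul_rpow (by positivity) (by positivity), hr']
    push_cast
    rw [mul_div_assoc]
  calc rswP t F b (fun ω => L ω ∧ ¬ RswSep F a ω (rswBox z r) (F \ rswBox z R))
      ≤ q ^ Nat.log 4 (R / r') * rswP t F b L := le_trans s1 s2
    _ ≤ (q⁻¹ * ((r' : ℝ) / R) ^ α) * rswP t F b L := mul_le_mul_of_nonneg_right s3 hP
    _ = q⁻¹ * ((n0 : ℝ) + 1) ^ α * (((r : ℝ) + 1) / R) ^ α * rswP t F b L := by rw [s4]; ring

/-! ## 4. arms of the current `N` -/

theorem arm101_nstep {F : Finset (ℤ × ℤ)} {ω : RswCfg} (a : Bool) {f g : ℤ × ℤ} (h : MdlNStep F ω f g) :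
    RswStep F a ω f g := by
  obtain ⟨hf, hg, e, he, hO⟩ := h
  exact ⟨hf, hg, e, he, fun hgood => hO hgood.1⟩

theorem arm101_nconn {F : Finset (ℤ × ℤ)} {ω : RswCfg} (a : Bool) {f g : ℤ × ℤ} (h : MdlNConn F ω f g) :
    Relation.ReflTransGen (RswStep F a ω) f g := by
  unfold MdlNConn at h
  induction h with
  | refl => exact Relation.ReflTransGen.refl
  | tail _ hyx ih => exact ih.tail (arm101_nstep a hyx)

/-- an arm of the current `N` (a dual path across closed `W` edges) from `Λ_r` to the outside of `Λ_R` -/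
theorem arm101_narm {t p : ℝ} {n0 : ℕ} (h0 : 0 ≤ t) (h1 : t ≤ 1) (hp0 : 0 < p) (H : Arm101Circ t p n0) :
    ∃ C α : ℝ, 0 < C ∧ 0 < α ∧ ∀ (F : Finset (ℤ × ℤ)) (z : ℤ × ℤ) (b : Bool) (L : RswCfg → Prop) (r R : ℕ),
      1 ≤ R → RswJordan F → rswBox z R ⊆ F → MdlExt (rswBox z R) L →
      rswP t F b (fun ω => L ω ∧ ∃ f ∈ rswBox z r, ∃ g ∈ F \ rswBox z R, MdlNConn F ω f g)
        ≤ C * (((r : ℝ) + 1) / R) ^ α * rswP t F b L := by
  obtain ⟨C, α, hC, hα, h⟩ := arm101_arm h0 h1 hp0 H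
  refine ⟨C, α, hC, hα, fun F z b L r R hR hF hB hL => le_trans ?_ (h F z b true L r R hR hF hB hL)⟩
  refine arm101_P_mono h0 h1 F b fun ω hω => ⟨hω.1, fun hs => ?_⟩
  obtain ⟨f, hf, g, hg, hc⟩ := hω.2
  exact hs f hf g hg (arm101_nconn true hc)

/-! ## 5. LOCAL form: the same iteration from scale-by-scale inputs (serves the bulk, the boundary and mixed situations) -/

/-- the scale `n` with the colour `a` is `p`-good at `(F, z, b)`: the circuit estimate given ANY exterior data of the buffer `Λ_{4n}(z)` -/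
def Arm101Loc (t p : ℝ) (F : Finset (ℤ × ℤ)) (z : ℤ × ℤ) (b : Bool) (n : ℕ) (a : Bool) : Prop :=
  ∀ L : RswCfg → Prop, MdlExt (rswBox z (4 * n)) L →
    p * rswP t F b L ≤ rswP t F b fun ω => L ω ∧ RswSep F a ω (rswBox z n) (F \ rswBox z (2 * n))

theorem arm101_loc_of_circ {t p : ℝ} {n0 : ℕ} (H : Arm101Circ t p n0) {n : ℕ} (hn : n0 ≤ n) {F : Finset (ℤ × ℤ)}
    (hF : RswJordan F) {z : ℤ × ℤ} (hB : rswBox z (4 * n) ⊆ F) (b a : Bool) : Arm101Loc t p F z b n a :=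
  fun L hL => H n hn F z b a L hF hB hL

theorem arm101_loc_mono {t p p' : ℝ} (h0 : 0 ≤ t) (h1 : t ≤ 1) (hp : p' ≤ p) {F : Finset (ℤ × ℤ)} {z : ℤ × ℤ} {b : Bool}
    {n : ℕ} {a : Bool} (H : Arm101Loc t p F z b n a) : Arm101Loc t p' F z b n a :=
  fun L hL => le_trans (mul_le_mul_of_nonneg_right hp (arm101_P_nonneg h0 h1 F b L)) (H L hL)

theorem arm101_loc_one {t p : ℝ} {F : Finset (ℤ × ℤ)} {z : ℤ × ℤ} {b : Bool} {n : ℕ} {a : Bool}
    (H : Arm101Loc t p F z b n a) {L : RswCfg → Prop} (hL : MdlExt (rswBox z (4 * n)) L) :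
    rswP t F b (fun ω => L ω ∧ ¬ RswSep F a ω (rswBox z n) (F \ rswBox z (2 * n))) ≤ (1 - p) * rswP t F b L := by
  have h1 := H L hL
  have h2 := arm101_P_split t F b L fun ω => RswSep F a ω (rswBox z n) (F \ rswBox z (2 * n))
  linarith

/-- an event which reads, for the scales `i < m`, only whether the circuits of the scales `n (i + 1)` exist, is exterior data of the buffer of the scale `n 0` -/
theorem arm101_ext_outer {F : Finset (ℤ × ℤ)} {z : ℤ × ℤ} {n : ℕ → ℕ} (hsep : ∀ i, 4 * n i ≤ n (i + 1)) (a : ℕ → Bool) (i : ℕ) :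
    MdlExt (rswBox z (4 * n 0)) fun ω => RswSep F (a (i + 1)) ω (rswBox z (n (i + 1))) (F \ rswBox z (2 * n (i + 1))) := by
  have hmono : Monotone n := monotone_nat_of_le_succ fun i => by have := hsep i; omega
  exact arm101_sep_ext (arm101_box_mono z (le_trans (hsep 0) (hmono (by omega)))) F _ _

/-- all `m` circuits FAIL: `≤ (1 - p) ^ m` -/
theorem arm101_loc_scales {t p : ℝ} (hp : p ≤ 1) {F : Finset (ℤ × ℤ)} (z : ℤ × ℤ) (b : Bool) (m : ℕ) :
    ∀ (n : ℕ → ℕ) (a : ℕ → Bool) (L : RswCfg → Prop), (∀ i, 4 * n i ≤ n (i + 1)) →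
      (∀ i < m, Arm101Loc t p F z b (n i) (a i)) → (∀ i < m, MdlExt (rswBox z (4 * n i)) L) →
      rswP t F b (fun ω => L ω ∧ ∀ i < m, ¬ RswSep F (a i) ω (rswBox z (n i)) (F \ rswBox z (2 * n i)))
        ≤ (1 - p) ^ m * rswP t F b L := by
  induction m with
  | zero =>
    intro n a L _ _ _
    rw [pow_zero, one_mul]
    exact le_of_eq (arm101_P_congr t F b fun ω => by simp)
  | succ m ih =>
    intro n a L hsep H hL
    set L' : RswCfg → Prop := fun ω => L ω ∧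
      ∀ i < m, ¬ RswSep F (a (i + 1)) ω (rswBox z (n (i + 1))) (F \ rswBox z (2 * n (i + 1))) with hL'
    have ihm := ih (fun i => n (i + 1)) (fun i => a (i + 1)) L (fun i => hsep _)
      (fun i hi => H (i + 1) (by omega)) (fun i hi => hL (i + 1) (by omega))
    have hext : MdlExt (rswBox z (4 * n 0)) L' :=
      arm101_ext_and (hL 0 (by omega))
        (arm101_ext_forall fun i => arm101_ext_forall fun _ => arm101_ext_not (arm101_ext_outer hsep a i))
    have h1' := arm101_loc_one (H 0 (by omega)) hext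
    have e : rswP t F b (fun ω => L ω ∧ ∀ i < m + 1, ¬ RswSep F (a i) ω (rswBox z (n i)) (F \ rswBox z (2 * n i)))
        = rswP t F b (fun ω => L' ω ∧ ¬ RswSep F (a 0) ω (rswBox z (n 0)) (F \ rswBox z (2 * n 0))) := by
      refine arm101_P_congr t F b fun ω => ?_
      constructor
      · rintro ⟨hl, h⟩
        exact ⟨⟨hl, fun i hi => h (i + 1) (by omega)⟩, h 0 (by omega)⟩
      · rintro ⟨⟨hl, h⟩, h0'⟩
        refine ⟨hl, fun i hi => ?_⟩
        cases i with
        | zero => exact h0'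
        | succ i => exact h i (by omega)
    rw [e, pow_succ, mul_comm ((1 - p) ^ m), mul_assoc]
    exact le_trans h1' (mul_le_mul_of_nonneg_left ihm (by linarith))

/-- all `m` circuits, of PRESCRIBED colours, EXIST: `≥ p ^ m`   (04-spectral.tex l.423: two nested circuits of opposite colours; no positive association is used) -/
theorem arm101_loc_all {t p : ℝ} (hp : 0 ≤ p) {F : Finset (ℤ × ℤ)} (z : ℤ × ℤ) (b : Bool) (m : ℕ) :
    ∀ (n : ℕ → ℕ) (a : ℕ → Bool) (L : RswCfg → Prop), (∀ i, 4 * n i ≤ n (i + 1)) →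
      (∀ i < m, Arm101Loc t p F z b (n i) (a i)) → (∀ i < m, MdlExt (rswBox z (4 * n i)) L) →
      p ^ m * rswP t F b L
        ≤ rswP t F b (fun ω => L ω ∧ ∀ i < m, RswSep F (a i) ω (rswBox z (n i)) (F \ rswBox z (2 * n i))) := by
  induction m with
  | zero =>
    intro n a L _ _ _
    rw [pow_zero, one_mul]
    exact le_of_eq (arm101_P_congr t F b fun ω => by simp)
  | succ m ih =>
    intro n a L hsep H hL
    set L' : RswCfg → Prop := fun ω => L ω ∧
      ∀ i < m, RswSep F (a (i + 1)) ω (rswBox z (n (i + 1))) (F \ rswBox z (2 * n (i + 1))) with hL'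
    have ihm := ih (fun i => n (i + 1)) (fun i => a (i + 1)) L (fun i => hsep _)
      (fun i hi => H (i + 1) (by omega)) (fun i hi => hL (i + 1) (by omega))
    have hext : MdlExt (rswBox z (4 * n 0)) L' :=
      arm101_ext_and (hL 0 (by omega))
        (arm101_ext_forall fun i => arm101_ext_forall fun _ => arm101_ext_outer hsep a i)
    have h1' := H 0 (by omega) L' hext
    have e : rswP t F b (fun ω => L ω ∧ ∀ i < m + 1, RswSep F (a i) ω (rswBox z (n i)) (F \ rswBox z (2 * n i)))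
        = rswP t F b (fun ω => L' ω ∧ RswSep F (a 0) ω (rswBox z (n 0)) (F \ rswBox z (2 * n 0))) := by
      refine arm101_P_congr t F b fun ω => ?_
      constructor
      · rintro ⟨hl, h⟩
        exact ⟨⟨hl, fun i hi => h (i + 1) (by omega)⟩, h 0 (by omega)⟩
      · rintro ⟨⟨hl, h⟩, h0'⟩
        refine ⟨hl, fun i hi => ?_⟩
        cases i with
        | zero => exact h0'
        | succ i => exact h i (by omega)
    rw [e, pow_succ, mul_comm (p ^ m), mul_assoc]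
    exact le_trans (mul_le_mul_of_nonneg_left ihm hp) h1'

/-- the arm bound, logarithmic form, from the scales `4 ^ i * r` -/
theorem arm101_loc_arm_log {t p : ℝ} (h0 : 0 ≤ t) (h1 : t ≤ 1) (hp : p ≤ 1)
    {F : Finset (ℤ × ℤ)} (z : ℤ × ℤ) (b a : Bool) {L : RswCfg → Prop} {r R : ℕ}
    (H : ∀ n, r ≤ n → 4 * n ≤ R → Arm101Loc t p F z b n a) (hL : MdlExt (rswBox z R) L) :
    rswP t F b (fun ω => L ω ∧ ¬ RswSep F a ω (rswBox z r) (F \ rswBox z R))
      ≤ (1 - p) ^ Nat.log 4 (R / r) * rswP t F b L := by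
  set m := Nat.log 4 (R / r) with hm
  have hscale : ∀ i < m, 4 * (4 ^ i * r) ≤ R := by
    intro i hi
    have hne : R / r ≠ 0 := by
      intro h0'
      rw [h0', Nat.log_zero_right] at hm
      omega
    have h4 : 4 ^ m ≤ R / r := Nat.pow_log_le_self 4 hne
    have h5 : 4 ^ (i + 1) ≤ 4 ^ m := Nat.pow_le_pow_right (by norm_num) hi
    calc 4 * (4 ^ i * r) = 4 ^ (i + 1) * r := by ring
      _ ≤ (R / r) * r := Nat.mul_le_mul_right r (le_trans h5 h4)
      _ ≤ R := Nat.div_mul_le_self R r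
  have hs := arm101_loc_scales hp z b m (fun i => 4 ^ i * r) (fun _ => a) L
    (fun i => le_of_eq (by ring))
    (fun i hi => H _ (Nat.le_mul_of_pos_left r (by positivity)) (hscale i hi))
    (fun i hi => arm101_ext_mono (arm101_box_mono z (hscale i hi)) hL)
  refine le_trans (arm101_P_mono h0 h1 F b fun ω hω => ⟨hω.1, fun i hi hsep => hω.2 ?_⟩) hs
  refine arm101_sep_mono (arm101_box_mono z (Nat.le_mul_of_pos_left r (by positivity))) ?_ hsep
  refine sdiff_subset_sdiff (Subset.refl F) (arm101_box_mono z ?_)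
  have := hscale i hi
  omega

/-- the arm bound, polynomial form; the constants depend on `p`, `n0` only -/
theorem arm101_loc_arm {p : ℝ} (hp0 : 0 < p) (n0 : ℕ) :
    ∃ C α : ℝ, 0 < C ∧ 0 < α ∧ ∀ (t : ℝ), 0 ≤ t → t ≤ 1 → ∀ (F : Finset (ℤ × ℤ)) (z : ℤ × ℤ) (b a : Bool) (L : RswCfg → Prop)
      (r R : ℕ), 1 ≤ R → (∀ n, n0 ≤ n → 4 * n ≤ R → Arm101Loc t p F z b n a) → MdlExt (rswBox z R) L →
      rswP t F b (fun ω => L ω ∧ ¬ RswSep F a ω (rswBox z r) (F \ rswBox z R))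
        ≤ C * (((r : ℝ) + 1) / R) ^ α * rswP t F b L := by
  set p' : ℝ := min p (1 / 2) with hp'
  have hp'0 : 0 < p' := lt_min hp0 (by norm_num)
  have hp'1 : p' ≤ 1 / 2 := min_le_right _ _
  set q : ℝ := 1 - p' with hq
  have hq0 : 0 < q := by linarith
  have hq1 : q < 1 := by linarith
  set α : ℝ := -Real.log q / Real.log 4 with hα
  have hlog4 : 0 < Real.log 4 := Real.log_pos (by norm_num)
  have hα0 : 0 < α := div_pos (neg_pos.2 (Real.log_neg hq0 hq1)) hlog4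
  refine ⟨q⁻¹ * ((n0 : ℝ) + 1) ^ α, α, by positivity, hα0, fun t h0 h1 F z b a L r R hR H hL => ?_⟩
  set r' : ℕ := (n0 + 1) * (r + 1) with hr'
  have hr'n : n0 ≤ r' := by
    have : (n0 + 1) * 1 ≤ (n0 + 1) * (r + 1) := Nat.mul_le_mul_left _ (by omega)
    omega
  have hr'r : r ≤ r' := by
    have : 1 * (r + 1) ≤ (n0 + 1) * (r + 1) := Nat.mul_le_mul_right _ (by omega)
    omega
  have hr'1 : 1 ≤ r' := Nat.mul_pos (by omega) (by omega)
  have hP := arm101_P_nonneg h0 h1 F b L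
  have s1 : rswP t F b (fun ω => L ω ∧ ¬ RswSep F a ω (rswBox z r) (F \ rswBox z R))
      ≤ rswP t F b (fun ω => L ω ∧ ¬ RswSep F a ω (rswBox z r') (F \ rswBox z R)) :=
    arm101_P_mono h0 h1 F b fun ω hω =>
      ⟨hω.1, fun hs => hω.2 (arm101_sep_mono (arm101_box_mono z hr'r) (Subset.refl _) hs)⟩
  have s2 := arm101_loc_arm_log (p := p') h0 h1 (by linarith) z b a (r := r') (R := R)
    (fun n hn h4 => arm101_loc_mono h0 h1 (min_le_left _ _) (H n (le_trans hr'n hn) h4)) hL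
  have s3 := arm101_pow_le hq0 hq1 hr'1 hR
  have s4 : ((r' : ℝ) / R) ^ α = ((n0 : ℝ) + 1) ^ α * (((r : ℝ) + 1) / R) ^ α := by
    rw [← Real.mul_rpow (by positivity) (by positivity), hr']
    push_cast
    rw [mul_div_assoc]
  calc rswP t F b (fun ω => L ω ∧ ¬ RswSep F a ω (rswBox z r) (F \ rswBox z R))
      ≤ q ^ Nat.log 4 (R / r') * rswP t F b L := le_trans s1 s2
    _ ≤ (q⁻¹ * ((r' : ℝ) / R) ^ α) * rswP t F b L := mul_le_mul_of_nonneg_right s3 hP
    _ = q⁻¹ * ((n0 : ℝ) + 1) ^ α * (((r : ℝ) + 1) / R) ^ α * rswP t F b L := by rw [s4]; ring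

/-! ## 6. the wall = the polygon of `F` (06-gaussian.tex l.250-270, prop:boundary-decay): circuits of the MATCHING colour `b`, centre `z` ANYWHERE -/

/-- THE INPUT at the boundary (prop:circuits (1), "compatible pins of the requested colour inside the buffer only improve the bound", and (3)):
the colour is the colour `b` of the flat problem, the buffer need not lie in `F`; dual paths live in `F`, so the polygon of `F` closes the circuit. -/
def Arm101CircB (t p : ℝ) (n0 : ℕ) : Prop :=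
  ∀ n : ℕ, n0 ≤ n → ∀ (F : Finset (ℤ × ℤ)) (z : ℤ × ℤ) (b : Bool) (L : RswCfg → Prop),
    RswJordan F → MdlExt (rswBox z (4 * n)) L →
    p * rswP t F b L ≤ rswP t F b fun ω => L ω ∧ RswSep F b ω (rswBox z n) (F \ rswBox z (2 * n))

/-- **attached-wall bound at the polygon**: a dual path of `F` from `Λ_r(z)` to the outside of `Λ_R(z)` which crosses no good edge of the boundary colour -/
theorem arm101_bdy_arm {t p : ℝ} {n0 : ℕ} (h0 : 0 ≤ t) (h1 : t ≤ 1) (hp0 : 0 < p) (H : Arm101CircB t p n0) :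
    ∃ C α : ℝ, 0 < C ∧ 0 < α ∧ ∀ (F : Finset (ℤ × ℤ)) (z : ℤ × ℤ) (b : Bool) (L : RswCfg → Prop) (r R : ℕ),
      1 ≤ R → RswJordan F → MdlExt (rswBox z R) L →
      rswP t F b (fun ω => L ω ∧ ¬ RswSep F b ω (rswBox z r) (F \ rswBox z R))
        ≤ C * (((r : ℝ) + 1) / R) ^ α * rswP t F b L := by
  obtain ⟨C, α, hC, hα, h⟩ := arm101_loc_arm hp0 n0
  exact ⟨C, α, hC, hα, fun F z b L r R hR hF hL =>
    h t h0 h1 F z b b L r R hR (fun n hn _ L' hL' => H n hn F z b L' hF hL') hL⟩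

/-- the same for an arm of the current `N` -/
theorem arm101_bdy_narm {t p : ℝ} {n0 : ℕ} (h0 : 0 ≤ t) (h1 : t ≤ 1) (hp0 : 0 < p) (H : Arm101CircB t p n0) :
    ∃ C α : ℝ, 0 < C ∧ 0 < α ∧ ∀ (F : Finset (ℤ × ℤ)) (z : ℤ × ℤ) (b : Bool) (L : RswCfg → Prop) (r R : ℕ),
      1 ≤ R → RswJordan F → MdlExt (rswBox z R) L →
      rswP t F b (fun ω => L ω ∧ ∃ f ∈ rswBox z r, ∃ g ∈ F \ rswBox z R, MdlNConn F ω f g)
        ≤ C * (((r : ℝ) + 1) / R) ^ α * rswP t F b L := by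
  obtain ⟨C, α, hC, hα, h⟩ := arm101_bdy_arm h0 h1 hp0 H
  refine ⟨C, α, hC, hα, fun F z b L r R hR hF hL => le_trans ?_ (h F z b L r R hR hF hL)⟩
  refine arm101_P_mono h0 h1 F b fun ω hω => ⟨hω.1, fun hs => ?_⟩
  obtain ⟨f, hf, g, hg, hc⟩ := hω.2
  exact hs f hf g hg (arm101_nconn b hc)

/-- two nested circuits of prescribed (for instance opposite) colours in the bulk: `≥ p ^ 2` (04-spectral.tex l.420-426) -/
theorem arm101_two {t p : ℝ} {n0 : ℕ} (hp : 0 ≤ p) (H : Arm101Circ t p n0) {F : Finset (ℤ × ℤ)} (hF : RswJordan F)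
    (z : ℤ × ℤ) (b a a' : Bool) {n n' : ℕ} (hn : n0 ≤ n) (hnn : 4 * n ≤ n') (hB : rswBox z (4 * n') ⊆ F)
    {L : RswCfg → Prop} (hL : MdlExt (rswBox z (4 * n')) L) :
    p ^ 2 * rswP t F b L ≤ rswP t F b fun ω => L ω ∧ RswSep F a ω (rswBox z n) (F \ rswBox z (2 * n)) ∧
      RswSep F a' ω (rswBox z n') (F \ rswBox z (2 * n')) := by
  have hB' : rswBox z (4 * n) ⊆ F := (arm101_box_mono z (by omega)).trans hB
  have h1 := H n' (by omega) F z b a' L hF hB hL
  have hext : MdlExt (rswBox z (4 * n)) fun ω => L ω ∧ RswSep F a' ω (rswBox z n') (F \ rswBox z (2 * n')) :=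
    arm101_ext_and (arm101_ext_mono (arm101_box_mono z (by omega)) hL) (arm101_sep_ext (arm101_box_mono z hnn) F _ _)
  have h2 := H n hn F z b a _ hF hB' hext
  have e : rswP t F b (fun ω => L ω ∧ RswSep F a ω (rswBox z n) (F \ rswBox z (2 * n)) ∧
      RswSep F a' ω (rswBox z n') (F \ rswBox z (2 * n')))
      = rswP t F b (fun ω => (L ω ∧ RswSep F a' ω (rswBox z n') (F \ rswBox z (2 * n'))) ∧
          RswSep F a ω (rswBox z n) (F \ rswBox z (2 * n))) :=
    arm101_P_congr t F b fun ω => by tauto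
  rw [e, pow_two, mul_assoc]
  exact le_trans (mul_le_mul_of_nonneg_left h1 hp) h2

/-! ## 7. PINNED form: the same iteration under an arbitrary event `Q` which is kept all along (pins anywhere, also inside the buffers; asked by 219 for `exit_rsw_arm`) -/

/-- the scale `n` with the colour `a` is `p`-good at `(F, z, b)` UNDER `Q` -/
def Arm101LocQ (t p : ℝ) (F : Finset (ℤ × ℤ)) (z : ℤ × ℤ) (b : Bool) (n : ℕ) (a : Bool) (Q : RswCfg → Prop) : Prop :=
  ∀ L : RswCfg → Prop, MdlExt (rswBox z (4 * n)) L →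
    p * rswP t F b (fun ω => Q ω ∧ L ω) ≤
      rswP t F b fun ω => (Q ω ∧ L ω) ∧ RswSep F a ω (rswBox z n) (F \ rswBox z (2 * n))

theorem arm101_locq_of_loc {t p : ℝ} {F : Finset (ℤ × ℤ)} {z : ℤ × ℤ} {b : Bool} {n : ℕ} {a : Bool}
    (H : Arm101Loc t p F z b n a) {Q : RswCfg → Prop} (hQ : MdlExt (rswBox z (4 * n)) Q) : Arm101LocQ t p F z b n a Q :=
  fun _ hL => H _ (arm101_ext_and hQ hL)

theorem arm101_locq_mono {t p p' : ℝ} (h0 : 0 ≤ t) (h1 : t ≤ 1) (hp : p' ≤ p) {F : Finset (ℤ × ℤ)} {z : ℤ × ℤ} {b : Bool}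
    {n : ℕ} {a : Bool} {Q : RswCfg → Prop} (H : Arm101LocQ t p F z b n a Q) : Arm101LocQ t p' F z b n a Q :=
  fun L hL => le_trans (mul_le_mul_of_nonneg_right hp (arm101_P_nonneg h0 h1 F b _)) (H L hL)

theorem arm101_locq_one {t p : ℝ} {F : Finset (ℤ × ℤ)} {z : ℤ × ℤ} {b : Bool} {n : ℕ} {a : Bool} {Q : RswCfg → Prop}
    (H : Arm101LocQ t p F z b n a Q) {L : RswCfg → Prop} (hL : MdlExt (rswBox z (4 * n)) L) :
    rswP t F b (fun ω => (Q ω ∧ L ω) ∧ ¬ RswSep F a ω (rswBox z n) (F \ rswBox z (2 * n)))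
      ≤ (1 - p) * rswP t F b (fun ω => Q ω ∧ L ω) := by
  have h1 := H L hL
  have h2 := arm101_P_split t F b (fun ω => Q ω ∧ L ω) fun ω => RswSep F a ω (rswBox z n) (F \ rswBox z (2 * n))
  linarith

/-- all `m` circuits FAIL under `Q`: `≤ (1 - p) ^ m` -/
theorem arm101_locq_scales {t p : ℝ} (hp : p ≤ 1) {F : Finset (ℤ × ℤ)} (z : ℤ × ℤ) (b : Bool) (Q : RswCfg → Prop) (m : ℕ) :
    ∀ (n : ℕ → ℕ) (a : ℕ → Bool) (L : RswCfg → Prop), (∀ i, 4 * n i ≤ n (i + 1)) →
      (∀ i < m, Arm101LocQ t p F z b (n i) (a i) Q) → (∀ i < m, MdlExt (rswBox z (4 * n i)) L) →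
      rswP t F b (fun ω => (Q ω ∧ L ω) ∧ ∀ i < m, ¬ RswSep F (a i) ω (rswBox z (n i)) (F \ rswBox z (2 * n i)))
        ≤ (1 - p) ^ m * rswP t F b (fun ω => Q ω ∧ L ω) := by
  induction m with
  | zero =>
    intro n a L _ _ _
    rw [pow_zero, one_mul]
    exact le_of_eq (arm101_P_congr t F b fun ω => by simp)
  | succ m ih =>
    intro n a L hsep H hL
    set L' : RswCfg → Prop := fun ω => L ω ∧
      ∀ i < m, ¬ RswSep F (a (i + 1)) ω (rswBox z (n (i + 1))) (F \ rswBox z (2 * n (i + 1))) with hL'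
    have ihm := ih (fun i => n (i + 1)) (fun i => a (i + 1)) L (fun i => hsep _)
      (fun i hi => H (i + 1) (by omega)) (fun i hi => hL (i + 1) (by omega))
    have hext : MdlExt (rswBox z (4 * n 0)) L' :=
      arm101_ext_and (hL 0 (by omega))
        (arm101_ext_forall fun i => arm101_ext_forall fun _ => arm101_ext_not (arm101_ext_outer hsep a i))
    have h1' := arm101_locq_one (H 0 (by omega)) hext
    have e : rswP t F b (fun ω => (Q ω ∧ L ω) ∧ ∀ i < m + 1, ¬ RswSep F (a i) ω (rswBox z (n i)) (F \ rswBox z (2 * n i)))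
        = rswP t F b (fun ω => (Q ω ∧ L' ω) ∧ ¬ RswSep F (a 0) ω (rswBox z (n 0)) (F \ rswBox z (2 * n 0))) := by
      refine arm101_P_congr t F b fun ω => ?_
      constructor
      · rintro ⟨⟨hq, hl⟩, h⟩
        exact ⟨⟨hq, hl, fun i hi => h (i + 1) (by omega)⟩, h 0 (by omega)⟩
      · rintro ⟨⟨hq, hl, h⟩, h0'⟩
        refine ⟨⟨hq, hl⟩, fun i hi => ?_⟩
        cases i with
        | zero => exact h0'
        | succ i => exact h i (by omega)
    have e' : rswP t F b (fun ω => Q ω ∧ L' ω)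
        = rswP t F b (fun ω => (Q ω ∧ L ω) ∧
            ∀ i < m, ¬ RswSep F (a (i + 1)) ω (rswBox z (n (i + 1))) (F \ rswBox z (2 * n (i + 1)))) :=
      arm101_P_congr t F b fun ω => by simp only [hL', and_assoc]
    rw [e, pow_succ, mul_comm ((1 - p) ^ m), mul_assoc]
    rw [e'] at h1'
    exact le_trans h1' (mul_le_mul_of_nonneg_left ihm (by linarith))

/-- the arm bound under `Q`, logarithmic form -/
theorem arm101_locq_arm_log {t p : ℝ} (h0 : 0 ≤ t) (h1 : t ≤ 1) (hp : p ≤ 1)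
    {F : Finset (ℤ × ℤ)} (z : ℤ × ℤ) (b a : Bool) {Q L : RswCfg → Prop} {r R : ℕ}
    (H : ∀ n, r ≤ n → 4 * n ≤ R → Arm101LocQ t p F z b n a Q) (hL : MdlExt (rswBox z R) L) :
    rswP t F b (fun ω => (Q ω ∧ L ω) ∧ ¬ RswSep F a ω (rswBox z r) (F \ rswBox z R))
      ≤ (1 - p) ^ Nat.log 4 (R / r) * rswP t F b (fun ω => Q ω ∧ L ω) := by
  set m := Nat.log 4 (R / r) with hm
  have hscale : ∀ i < m, 4 * (4 ^ i * r) ≤ R := by
    intro i hi
    have hne : R / r ≠ 0 := by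
      intro h0'
      rw [h0', Nat.log_zero_right] at hm
      omega
    have h4 : 4 ^ m ≤ R / r := Nat.pow_log_le_self 4 hne
    have h5 : 4 ^ (i + 1) ≤ 4 ^ m := Nat.pow_le_pow_right (by norm_num) hi
    calc 4 * (4 ^ i * r) = 4 ^ (i + 1) * r := by ring
      _ ≤ (R / r) * r := Nat.mul_le_mul_right r (le_trans h5 h4)
      _ ≤ R := Nat.div_mul_le_self R r
  have hs := arm101_locq_scales hp z b Q m (fun i => 4 ^ i * r) (fun _ => a) L
    (fun i => le_of_eq (by ring))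
    (fun i hi => H _ (Nat.le_mul_of_pos_left r (by positivity)) (hscale i hi))
    (fun i hi => arm101_ext_mono (arm101_box_mono z (hscale i hi)) hL)
  refine le_trans (arm101_P_mono h0 h1 F b fun ω hω => ⟨hω.1, fun i hi hsep => hω.2 ?_⟩) hs
  refine arm101_sep_mono (arm101_box_mono z (Nat.le_mul_of_pos_left r (by positivity))) ?_ hsep
  refine sdiff_subset_sdiff (Subset.refl F) (arm101_box_mono z ?_)
  have := hscale i hi
  omega

/-- the arm bound under `Q`, polynomial form; the constants depend on `p`, `n0` only -/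
theorem arm101_locq_arm {p : ℝ} (hp0 : 0 < p) (n0 : ℕ) :
    ∃ C α : ℝ, 0 < C ∧ 0 < α ∧ ∀ (t : ℝ), 0 ≤ t → t ≤ 1 → ∀ (F : Finset (ℤ × ℤ)) (z : ℤ × ℤ) (b a : Bool)
      (Q L : RswCfg → Prop) (r R : ℕ), 1 ≤ R → (∀ n, n0 ≤ n → 4 * n ≤ R → Arm101LocQ t p F z b n a Q) →
      MdlExt (rswBox z R) L →
      rswP t F b (fun ω => (Q ω ∧ L ω) ∧ ¬ RswSep F a ω (rswBox z r) (F \ rswBox z R))
        ≤ C * (((r : ℝ) + 1) / R) ^ α * rswP t F b (fun ω => Q ω ∧ L ω) := by
  set p' : ℝ := min p (1 / 2) with hp'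
  have hp'0 : 0 < p' := lt_min hp0 (by norm_num)
  have hp'1 : p' ≤ 1 / 2 := min_le_right _ _
  set q : ℝ := 1 - p' with hq
  have hq0 : 0 < q := by linarith
  have hq1 : q < 1 := by linarith
  set α : ℝ := -Real.log q / Real.log 4 with hα
  have hlog4 : 0 < Real.log 4 := Real.log_pos (by norm_num)
  have hα0 : 0 < α := div_pos (neg_pos.2 (Real.log_neg hq0 hq1)) hlog4
  refine ⟨q⁻¹ * ((n0 : ℝ) + 1) ^ α, α, by positivity, hα0, fun t h0 h1 F z b a Q L r R hR H hL => ?_⟩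
  set r' : ℕ := (n0 + 1) * (r + 1) with hr'
  have hr'n : n0 ≤ r' := by
    have : (n0 + 1) * 1 ≤ (n0 + 1) * (r + 1) := Nat.mul_le_mul_left _ (by omega)
    omega
  have hr'r : r ≤ r' := by
    have : 1 * (r + 1) ≤ (n0 + 1) * (r + 1) := Nat.mul_le_mul_right _ (by omega)
    omega
  have hr'1 : 1 ≤ r' := Nat.mul_pos (by omega) (by omega)
  have hP := arm101_P_nonneg h0 h1 F b (fun ω => Q ω ∧ L ω)
  have s1 : rswP t F b (fun ω => (Q ω ∧ L ω) ∧ ¬ RswSep F a ω (rswBox z r) (F \ rswBox z R))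
      ≤ rswP t F b (fun ω => (Q ω ∧ L ω) ∧ ¬ RswSep F a ω (rswBox z r') (F \ rswBox z R)) :=
    arm101_P_mono h0 h1 F b fun ω hω =>
      ⟨hω.1, fun hs => hω.2 (arm101_sep_mono (arm101_box_mono z hr'r) (Subset.refl _) hs)⟩
  have s2 := arm101_locq_arm_log (p := p') h0 h1 (by linarith) z b a (Q := Q) (r := r') (R := R)
    (fun n hn h4 => arm101_locq_mono h0 h1 (min_le_left _ _) (H n (le_trans hr'n hn) h4)) hL
  have s3 := arm101_pow_le hq0 hq1 hr'1 hR
  have s4 : ((r' : ℝ) / R) ^ α = ((n0 : ℝ) + 1) ^ α * (((r : ℝ) + 1) / R) ^ α := by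
    rw [← Real.mul_rpow (by positivity) (by positivity), hr']
    push_cast
    rw [mul_div_assoc]
  calc rswP t F b (fun ω => (Q ω ∧ L ω) ∧ ¬ RswSep F a ω (rswBox z r) (F \ rswBox z R))
      ≤ q ^ Nat.log 4 (R / r') * rswP t F b (fun ω => Q ω ∧ L ω) := le_trans s1 s2
    _ ≤ (q⁻¹ * ((r' : ℝ) / R) ^ α) * rswP t F b (fun ω => Q ω ∧ L ω) := mul_le_mul_of_nonneg_right s3 hP
    _ = q⁻¹ * ((n0 : ℝ) + 1) ^ α * (((r : ℝ) + 1) / R) ^ α * rswP t F b (fun ω => Q ω ∧ L ω) := by rw [s4]; ring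

/-! ## 8. bridge from the `k`-form of `exit_mdl_circ` (Exit/MODEL v3: ratio parameter `k`, ANNULAR buffer) -/

/-- the conclusion of `exit_mdl_circ t _ _ k` with the constants `p`, `n0` -/
def Arm101CircK (t : ℝ) (k : ℕ) (p : ℝ) (n0 : ℕ) : Prop :=
  ∀ n : ℕ, n0 ≤ n → ∀ (F : Finset (ℤ × ℤ)) (z : ℤ × ℤ) (b a : Bool) (L : RswCfg → Prop),
    RswJordan F → rswBox z ((k + 3) * n) ⊆ F → MdlExt (rswBox z ((k + 3) * n) \ rswBox z (k * n)) L →
    p * rswP t F b L ≤
      rswP t F b fun ω => L ω ∧ RswSep F a ω (rswBox z ((k + 1) * n)) (F \ rswBox z ((k + 2) * n))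

/-- `k = 0` gives the record of this file -/
theorem arm101_circ_of_k {t p : ℝ} {n0 : ℕ} (H : Arm101CircK t 0 p n0) : Arm101Circ t p n0 := by
  intro n hn F z b a L hF hB hL
  have h := H n hn F z b a L hF ((arm101_box_mono z (by omega)).trans hB)
    (arm101_ext_mono (sdiff_subset.trans (arm101_box_mono z (by omega))) hL)
  simpa only [zero_add, one_mul] using h

/-! ## 9. deterministic leaves of (S2) TRANSMISSION COUNT (for helper41; prefix `cnt101_`, `Cnt101`)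

03-spatial.tex, end of the proof of prop:cluster-counts (2): "a fixed finite rectangle cover of the shell between `Q₀` and `Q₁` assigns each transmitting restricted component
to a crossing of one of these rectangles".
* `Cnt101 R A B j`     = `Mdl41cCnt` of `Model/Count41` word for word (own copy: `Count41` imports this file, not conversely)
* `cnt101Phi z d`      the four heights of a face about `z` (`d = 0, 1, 2, 3`: right, left, top, bottom); `f ∈ rswBox z r ↔ ∀ d, cnt101Phi z d f < r`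
* `cnt101Rect/In/Out`  the rectangle `r0 ≤ Phi_d` of the box `Λ_{r1}`, its inner row `Phi_d = r0`, its outer row `Phi_d = r1 - 1`; `cnt101_rect_0 .. _3`: they are `Ico ×ˢ Ico`
* `cnt101_last_exit`   a path of `N` has a last step out of a predicate, and stays in the restricted graph afterwards
* `cnt101_shell`       (c) `j` transmitting components = `c 0 + c 1 + c 2 + c 3`, with `c d` crossing components of the RESTRICTED current of the rectangle `d`
* `cnt101_shell_quarter`  one of the four rectangles has at least `j / 4` (rounded up) crossing components -/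

/-- at least `j` distinct components of `N` restricted to `R` meet `A` and `B` -/
def Cnt101 (R A B : Finset (ℤ × ℤ)) (j : ℕ) (ω : RswCfg) : Prop :=
  ∃ T : Finset (ℤ × ℤ), T ⊆ A ∧ T.card = j ∧ (∀ f ∈ T, ∃ g ∈ B, MdlNConn R ω f g) ∧
    ∀ f ∈ T, ∀ g ∈ T, f ≠ g → ¬ MdlNConn R ω f g

theorem cnt101_trans_iff (Q₀ Q₁ : Finset (ℤ × ℤ)) (j : ℕ) (ω : RswCfg) :
    MdlTrans Q₀ Q₁ j ω ↔ Cnt101 Q₁ Q₀ (rswLayer Q₁) j ω := Iff.rfl

/-! ### 9.0 the current `N` -/

theorem cnt101_step_symm {R : Finset (ℤ × ℤ)} {ω : RswCfg} {f g : ℤ × ℤ} (h : MdlNStep R ω f g) : MdlNStep R ω g f := by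
  obtain ⟨hf, hg, e, he, hO⟩ := h
  exact ⟨hg, hf, e, he.symm, hO⟩

theorem cnt101_conn_symm {R : Finset (ℤ × ℤ)} {ω : RswCfg} {f g : ℤ × ℤ} (h : MdlNConn R ω f g) : MdlNConn R ω g f := by
  unfold MdlNConn at h ⊢
  induction h with
  | refl => exact Relation.ReflTransGen.refl
  | tail _ hyx ih => exact Relation.ReflTransGen.head (cnt101_step_symm hyx) ih

theorem cnt101_conn_trans {R : Finset (ℤ × ℤ)} {ω : RswCfg} {f g k : ℤ × ℤ} (h : MdlNConn R ω f g) (h' : MdlNConn R ω g k) :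
    MdlNConn R ω f k := Relation.ReflTransGen.trans h h'

theorem cnt101_conn_mono {R R' : Finset (ℤ × ℤ)} (hR : R ⊆ R') {ω : RswCfg} {f g : ℤ × ℤ} (h : MdlNConn R ω f g) :
    MdlNConn R' ω f g := by
  refine Relation.ReflTransGen.mono ?_ _ _ h
  rintro x y ⟨hx, hy, e, he, hO⟩
  exact ⟨hR hx, hR hy, e, he, hO⟩

theorem cnt101_cnt_mono {R A B : Finset (ℤ × ℤ)} {j j' : ℕ} (hj : j' ≤ j) {ω : RswCfg} (h : Cnt101 R A B j ω) :
    Cnt101 R A B j' ω := by
  obtain ⟨T, hTA, hc, h1, h2⟩ := h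
  obtain ⟨T', hT', hc'⟩ := exists_subset_card_eq (s := T) (n := j') (by rw [hc]; exact hj)
  exact ⟨T', hT'.trans hTA, hc', fun f hf => h1 f (hT' hf), fun f hf g hg => h2 f (hT' hf) g (hT' hg)⟩

/-- last exit -/
theorem cnt101_last_exit {Q T : Finset (ℤ × ℤ)} {ω : RswCfg} {P : ℤ × ℤ → Prop} (hT : ∀ x ∈ Q, ¬ P x → x ∈ T)
    {f g : ℤ × ℤ} (hg : ¬ P g) (h : MdlNConn Q ω f g) :
    (¬ P f ∧ MdlNConn T ω f g) ∨
      ∃ x y, P x ∧ ¬ P y ∧ MdlNStep Q ω x y ∧ MdlNConn Q ω f x ∧ MdlNConn T ω y g := by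
  unfold MdlNConn at h ⊢
  induction h using Relation.ReflTransGen.head_induction_on with
  | refl => exact Or.inl ⟨hg, Relation.ReflTransGen.refl⟩
  | @head f f' hff' _ ih =>
    rcases ih with ⟨hf', hc⟩ | ⟨x, y, hx, hy, hxy, hfx, hyg⟩
    · by_cases hPf : P f
      · exact Or.inr ⟨f, f', hPf, hf', hff', Relation.ReflTransGen.refl, hc⟩
      · refine Or.inl ⟨hPf, Relation.ReflTransGen.head ?_ hc⟩
        obtain ⟨h1, h2, e, he, hO⟩ := hff'
        exact ⟨hT f h1 hPf, hT f' h2 hf', e, he, hO⟩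
    · exact Or.inr ⟨x, y, hx, hy, hxy, Relation.ReflTransGen.head hff' hfx, hyg⟩

/-! ### 9.1 the four heights -/

/-- the four heights of a face about `z`: right, left, top, bottom -/
def cnt101Phi (z : ℤ × ℤ) (d : Fin 4) (f : ℤ × ℤ) : ℤ :=
  if d = 0 then f.1 - z.1 else if d = 1 then z.1 - f.1 - 1 else if d = 2 then f.2 - z.2 else z.2 - f.2 - 1

theorem cnt101_mem_box (z f : ℤ × ℤ) (r : ℕ) : f ∈ rswBox z r ↔ ∀ d, cnt101Phi z d f < r := by
  unfold rswBox
  simp only [mem_product, mem_Ico]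
  constructor
  · intro h d
    fin_cases d <;> simp [cnt101Phi] <;> omega
  · intro h
    have h0 := h 0
    have h1 := h 1
    have h2 := h 2
    have h3 := h 3
    simp [cnt101Phi] at h0 h1 h2 h3
    omega

theorem cnt101_phi_step (z : ℤ × ℤ) (d : Fin 4) {R : Finset (ℤ × ℤ)} {ω : RswCfg} {f g : ℤ × ℤ} (h : MdlNStep R ω f g) :
    cnt101Phi z d g ≤ cnt101Phi z d f + 1 := by
  obtain ⟨_, _, ⟨⟨u, v⟩, s⟩, he, _⟩ := h
  cases s
  · simp only [rswCo, Bool.false_eq_true, if_false] at he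
    rcases he with ⟨h1, h2⟩ | ⟨h1, h2⟩ <;> subst h1 <;> subst h2 <;> fin_cases d <;> simp [cnt101Phi] <;> omega
  · simp only [rswCo, if_true] at he
    rcases he with ⟨h1, h2⟩ | ⟨h1, h2⟩ <;> subst h1 <;> subst h2 <;> fin_cases d <;> simp [cnt101Phi] <;> omega

/-- a face of the layer of a box is extreme in one of the four directions -/
theorem cnt101_layer_box {z f : ℤ × ℤ} {r : ℕ} (h : f ∈ rswLayer (rswBox z r)) : ∃ d, cnt101Phi z d f = (r : ℤ) - 1 := by
  classical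
  unfold rswLayer at h
  obtain ⟨hf, v, hv, hpol⟩ := (@mem_filter _ _ (Classical.decPred _) _ _).1 h
  by_contra hne
  push Not at hne
  have h0 := hne 0
  have h1 := hne 1
  have h2 := hne 2
  have h3 := hne 3
  simp [cnt101Phi] at h0 h1 h2 h3
  apply hpol
  unfold rswBox at hf ⊢
  simp only [mem_product, mem_Ico] at hf ⊢
  simp only [mem_insert, mem_singleton] at hv
  rcases hv with rfl | rfl | rfl | rfl <;> (try dsimp only) <;> omega

/-- the rectangle `d` of the shell -/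
noncomputable def cnt101Rect (z : ℤ × ℤ) (r0 r1 : ℕ) (d : Fin 4) : Finset (ℤ × ℤ) := (rswBox z r1).filter fun f => (r0 : ℤ) ≤ cnt101Phi z d f

/-- its inner row -/
noncomputable def cnt101In (z : ℤ × ℤ) (r0 r1 : ℕ) (d : Fin 4) : Finset (ℤ × ℤ) := (rswBox z r1).filter fun f => cnt101Phi z d f = r0

/-- its outer row -/
noncomputable def cnt101Out (z : ℤ × ℤ) (r1 : ℕ) (d : Fin 4) : Finset (ℤ × ℤ) := (rswBox z r1).filter fun f => cnt101Phi z d f = (r1 : ℤ) - 1

theorem cnt101_rect_sub (z : ℤ × ℤ) (r0 r1 : ℕ) (d : Fin 4) : cnt101Rect z r0 r1 d ⊆ rswBox z r1 := filter_subset _ _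

/-- the four rectangles are lattice rectangles -/
theorem cnt101_rect_0 (z : ℤ × ℤ) (r0 r1 : ℕ) :
    cnt101Rect z r0 r1 0 = Finset.Ico (z.1 + r0) (z.1 + r1) ×ˢ Finset.Ico (z.2 - r1) (z.2 + r1) := by
  ext f
  simp only [cnt101Rect, rswBox, cnt101Phi, mem_filter, mem_product, mem_Ico, if_true]
  omega

theorem cnt101_rect_1 (z : ℤ × ℤ) (r0 r1 : ℕ) :
    cnt101Rect z r0 r1 1 = Finset.Ico (z.1 - r1) (z.1 - r0) ×ˢ Finset.Ico (z.2 - r1) (z.2 + r1) := by
  ext f
  simp [cnt101Rect, rswBox, cnt101Phi, mem_filter, mem_product, mem_Ico]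
  omega

theorem cnt101_rect_2 (z : ℤ × ℤ) (r0 r1 : ℕ) :
    cnt101Rect z r0 r1 2 = Finset.Ico (z.1 - r1) (z.1 + r1) ×ˢ Finset.Ico (z.2 + r0) (z.2 + r1) := by
  ext f
  simp [cnt101Rect, rswBox, cnt101Phi, mem_filter, mem_product, mem_Ico]
  omega

theorem cnt101_rect_3 (z : ℤ × ℤ) (r0 r1 : ℕ) :
    cnt101Rect z r0 r1 3 = Finset.Ico (z.1 - r1) (z.1 + r1) ×ˢ Finset.Ico (z.2 - r1) (z.2 - r0) := by
  ext f
  simp [cnt101Rect, rswBox, cnt101Phi, mem_filter, mem_product, mem_Ico]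
  omega

/-- one transmitting path crosses one of the four rectangles -/
theorem cnt101_cross {z : ℤ × ℤ} {r0 r1 : ℕ} (hr : r0 < r1) {ω : RswCfg} {f g : ℤ × ℤ} (hf : f ∈ rswBox z r0)
    (hg : g ∈ rswLayer (rswBox z r1)) (h : MdlNConn (rswBox z r1) ω f g) :
    ∃ (d : Fin 4) (y : ℤ × ℤ), y ∈ cnt101In z r0 r1 d ∧ g ∈ cnt101Out z r1 d ∧ MdlNConn (rswBox z r1) ω f y ∧
      MdlNConn (cnt101Rect z r0 r1 d) ω y g := by
  classical
  obtain ⟨d, hd⟩ := cnt101_layer_box hg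
  have hgQ : g ∈ rswBox z r1 := by
    unfold rswLayer at hg
    exact ((@mem_filter _ _ (Classical.decPred _) _ _).1 hg).1
  have hr' : (r0 : ℤ) < r1 := by exact_mod_cast hr
  have hPf : cnt101Phi z d f < r0 := (cnt101_mem_box z f r0).1 hf d
  have hPg : ¬ cnt101Phi z d g < r0 := by rw [hd]; omega
  rcases cnt101_last_exit (T := cnt101Rect z r0 r1 d) (P := fun x => cnt101Phi z d x < r0)
      (fun x hx hP => mem_filter.2 ⟨hx, not_lt.1 hP⟩) hPg h with ⟨h1, _⟩ | ⟨x, y, hx, hy, hxy, hfx, hyg⟩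
  · exact absurd hPf h1
  · refine ⟨d, y, mem_filter.2 ⟨hxy.2.1, ?_⟩, mem_filter.2 ⟨hgQ, hd⟩, hfx.tail hxy, hyg⟩
    have := cnt101_phi_step z d hxy
    omega

/-! ### 9.2 (c) the shell -/

/-- **(c)** the transmitting components are distributed among the crossing components of the four rectangles -/
theorem cnt101_shell {z : ℤ × ℤ} {r0 r1 : ℕ} (hr : r0 < r1) {j : ℕ} {ω : RswCfg}
    (H : MdlTrans (rswBox z r0) (rswBox z r1) j ω) :
    ∃ c : Fin 4 → ℕ, ∑ d, c d = j ∧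
      ∀ d, Cnt101 (cnt101Rect z r0 r1 d) (cnt101In z r0 r1 d) (cnt101Out z r1 d) (c d) ω := by
  classical
  obtain ⟨T, hTQ, hc, h1, h2⟩ := H
  have key : ∀ f ∈ T, ∃ (d : Fin 4) (y g : ℤ × ℤ), y ∈ cnt101In z r0 r1 d ∧ g ∈ cnt101Out z r1 d ∧
      MdlNConn (rswBox z r1) ω f y ∧ MdlNConn (cnt101Rect z r0 r1 d) ω y g := by
    intro f hf
    obtain ⟨g, hg, hfg⟩ := h1 f hf
    obtain ⟨d, y, hy, hgo, hfy, hyg⟩ := cnt101_cross hr (hTQ hf) hg hfg
    exact ⟨d, y, g, hy, hgo, hfy, hyg⟩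
  choose! dd yy gg hy hg hfy hyg using key
  -- distinct faces of `T` in the same rectangle have unconnected images
  have hsep : ∀ f ∈ T, ∀ f' ∈ T, f ≠ f' → ∀ d, ¬ MdlNConn (cnt101Rect z r0 r1 d) ω (yy f) (yy f') := by
    intro f hf f' hf' hne d hcn
    exact h2 f hf f' hf' hne (cnt101_conn_trans (hfy f hf)
      (cnt101_conn_trans (cnt101_conn_mono (cnt101_rect_sub z r0 r1 d) hcn) (cnt101_conn_symm (hfy f' hf'))))
  have hinj : Set.InjOn yy (T : Set (ℤ × ℤ)) := by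
    intro f hf f' hf' he
    by_contra hne
    refine hsep f hf f' hf' hne 0 ?_
    rw [he]
    exact Relation.ReflTransGen.refl
  refine ⟨fun d => (T.filter fun f => dd f = d).card, ?_, fun d => ?_⟩
  · rw [← hc]
    exact (card_eq_sum_card_fiberwise (s := T) (t := univ) (f := dd) (fun _ _ => mem_coe.2 (mem_univ _))).symm
  · refine ⟨(T.filter fun f => dd f = d).image yy, ?_, ?_, ?_, ?_⟩
    · intro y hy'
      obtain ⟨f, hf, rfl⟩ := mem_image.1 hy'
      obtain ⟨hfT, hfd⟩ := mem_filter.1 hf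
      rw [← hfd]
      exact hy f hfT
    · exact card_image_of_injOn (hinj.mono (by intro f hf; exact (mem_filter.1 (mem_coe.1 hf)).1))
    · intro y hy'
      obtain ⟨f, hf, rfl⟩ := mem_image.1 hy'
      obtain ⟨hfT, hfd⟩ := mem_filter.1 hf
      refine ⟨gg f, ?_, ?_⟩
      · rw [← hfd]; exact hg f hfT
      · rw [← hfd]; exact hyg f hfT
    · intro y hy' y' hy'' hne
      obtain ⟨f, hf, rfl⟩ := mem_image.1 hy'
      obtain ⟨f', hf', rfl⟩ := mem_image.1 hy''
      exact hsep f (mem_filter.1 hf).1 f' (mem_filter.1 hf').1 (fun h => hne (by rw [h])) d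

/-- one of the four rectangles carries a quarter of the transmitting components -/
theorem cnt101_shell_quarter {z : ℤ × ℤ} {r0 r1 : ℕ} (hr : r0 < r1) {j : ℕ} {ω : RswCfg}
    (H : MdlTrans (rswBox z r0) (rswBox z r1) j ω) :
    ∃ d, Cnt101 (cnt101Rect z r0 r1 d) (cnt101In z r0 r1 d) (cnt101Out z r1 d) ((j + 3) / 4) ω := by
  obtain ⟨c, hc, h⟩ := cnt101_shell hr H
  have : ∃ d, (j + 3) / 4 ≤ c d := by
    by_contra hne
    push Not at hne
    have h0 := hne 0
    have h1 := hne 1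
    have h2 := hne 2
    have h3 := hne 3
    rw [Fin.sum_univ_four] at hc
    omega
  obtain ⟨d, hd⟩ := this
  exact ⟨d, cnt101_cnt_mono hd (h d)⟩

/-! ## 10. a bottom-top chain of faces and a left-right chain of faces of one rectangle share a face (leaf of 41 for `Mdl41cGeo`; from the duality of `Rsw/Dual251`) -/

/-- the four corners of a face -/
def Cnt101Corner (a c : ℤ × ℤ) : Prop :=
  c = a ∨ c = (a.1 + 1, a.2) ∨ c = (a.1, a.2 + 1) ∨ c = (a.1 + 1, a.2 + 1)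

/-- the corners of a face all of whose four sides are good interior edges are joined -/
theorem cnt101_corners_joined {R : Set (ℤ × ℤ)} {G : Set ((ℤ × ℤ) × Bool)} {a : ℤ × ℤ}
    (hR : a ∈ R ∧ (a.1 - 1, a.2) ∈ R ∧ (a.1 + 1, a.2) ∈ R ∧ (a.1, a.2 - 1) ∈ R ∧ (a.1, a.2 + 1) ∈ R)
    (hG : ∀ e : (ℤ × ℤ) × Bool, (e.1 = a ∨ rswCo e = a) → e ∈ G) {c c' : ℤ × ℤ}
    (hc : Cnt101Corner a c) (hc' : Cnt101Corner a c') : Relation.ReflTransGen (rdu251PStep R G) c c' := by
  obtain ⟨x, y⟩ := a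
  obtain ⟨h0, h1, h2, h3, h4⟩ := hR
  simp only at h1 h2 h3 h4
  -- the four sides
  have sB : rdu251PStep R G (x, y) (x + 1, y) :=
    ⟨((x, y), false), hG _ (Or.inl rfl), h0, by simpa [rswCo] using h3, Or.inl ⟨rfl, by simp [rswEnd]⟩⟩
  have sL : rdu251PStep R G (x, y) (x, y + 1) :=
    ⟨((x, y), true), hG _ (Or.inl rfl), h0, by simpa [rswCo] using h1, Or.inl ⟨rfl, by simp [rswEnd]⟩⟩
  have sT : rdu251PStep R G (x, y + 1) (x + 1, y + 1) :=
    ⟨((x, y + 1), false), hG _ (Or.inr (by simp [rswCo])), h4, by simpa [rswCo] using h0, Or.inl ⟨rfl, by simp [rswEnd]⟩⟩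
  have key : ∀ c, Cnt101Corner (x, y) c → Relation.ReflTransGen (rdu251PStep R G) (x, y) c := by
    rintro c (rfl | rfl | rfl | rfl)
    · exact Relation.ReflTransGen.refl
    · exact Relation.ReflTransGen.single sB
    · exact Relation.ReflTransGen.single sL
    · exact (Relation.ReflTransGen.single sL).tail sT
  exact (rdu251_pchain_symm (key c hc)).trans (key c' hc')

/-- two neighbouring faces have a common corner -/
theorem cnt101_common_corner {a b : ℤ × ℤ} {e : (ℤ × ℤ) × Bool} (he : (a = e.1 ∧ b = rswCo e) ∨ (b = e.1 ∧ a = rswCo e)) :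
    Cnt101Corner a e.1 ∧ Cnt101Corner b e.1 := by
  obtain ⟨⟨x, y⟩, s⟩ := e
  cases s
  · rcases he with ⟨rfl, rfl⟩ | ⟨rfl, rfl⟩
    · exact ⟨Or.inl rfl, Or.inr (Or.inr (Or.inl (by simp [rswCo])))⟩
    · exact ⟨Or.inr (Or.inr (Or.inl (by simp [rswCo]))), Or.inl rfl⟩
  · rcases he with ⟨rfl, rfl⟩ | ⟨rfl, rfl⟩
    · exact ⟨Or.inl rfl, Or.inr (Or.inl (by simp [rswCo]))⟩
    · exact ⟨Or.inr (Or.inl (by simp [rswCo])), Or.inl rfl⟩

/-- **a bottom-top chain of faces and a left-right chain of faces of one rectangle share a face** (statement of 41, verbatim) -/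
theorem cnt101_meet {x0 x1 y0 y1 : ℤ} {P P' : Finset (ℤ × ℤ)} (hP : P ⊆ Finset.Ico x0 x1 ×ˢ Finset.Ico y0 y1)
    (hP' : P' ⊆ Finset.Ico x0 x1 ×ˢ Finset.Ico y0 y1) {f g f' g' : ℤ × ℤ} (hf : f ∈ P) (hf0 : f.2 = y0) (hg : g.2 = y1 - 1)
    (h : Relation.ReflTransGen (fun a b => a ∈ P ∧ b ∈ P ∧
      ∃ e : (ℤ × ℤ) × Bool, (a = e.1 ∧ b = rswCo e) ∨ (b = e.1 ∧ a = rswCo e)) f g)
    (hf' : f' ∈ P') (hf0' : f'.1 = x0) (hg' : g'.1 = x1 - 1)
    (h' : Relation.ReflTransGen (fun a b => a ∈ P' ∧ b ∈ P' ∧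
      ∃ e : (ℤ × ℤ) × Bool, (a = e.1 ∧ b = rswCo e) ∨ (b = e.1 ∧ a = rswCo e)) f' g') : ¬ Disjoint P P' := by
  intro hdis
  have hPm : ∀ a ∈ P, x0 ≤ a.1 ∧ a.1 < x1 ∧ y0 ≤ a.2 ∧ a.2 < y1 := by
    intro a ha
    have := hP ha
    simp only [mem_product, mem_Ico] at this
    omega
  have hPm' : ∀ a ∈ P', x0 ≤ a.1 ∧ a.1 < x1 ∧ y0 ≤ a.2 ∧ a.2 < y1 := by
    intro a ha
    have := hP' ha
    simp only [mem_product, mem_Ico] at this
    omega
  have hgP : g ∈ P := by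
    rcases Relation.ReflTransGen.cases_tail h with h1 | ⟨c, _, hc⟩
    · rw [h1]; exact hf
    · exact hc.2.1
  have hgP' : g' ∈ P' := by
    rcases Relation.ReflTransGen.cases_tail h' with h1 | ⟨c, _, hc⟩
    · rw [h1]; exact hf'
    · exact hc.2.1
  have bf := hPm f hf
  have bg := hPm g hgP
  have bf' := hPm' f' hf'
  have bg' := hPm' g' hgP'
  set R : Set (ℤ × ℤ) := rdu251Rect (x0 - 1) (x1 + 1) (y0 - 1) (y1 + 1) with hR
  have hmemR : ∀ x y : ℤ, (x, y) ∈ R ↔ x0 - 1 ≤ x ∧ x < x1 + 1 ∧ y0 - 1 ≤ y ∧ y < y1 + 1 := fun x y => Iff.rfl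
  set Q : Set (ℤ × ℤ) := {a | a ∈ P' ∨ a = (x0 - 1, f'.2) ∨ a = (x1, g'.2)} with hQ
  set G : Set ((ℤ × ℤ) × Bool) := {e | ¬ (e.1 ∈ Q ∧ rswCo e ∈ Q)} with hG
  have hx : x0 - 1 < x1 + 1 := by omega
  have hy : y0 - 1 < y1 + 1 := by omega
  -- a face which is not in the closed original rectangle minus `P'`
  have hnQ : ∀ a : ℤ × ℤ, x0 ≤ a.1 → a.1 < x1 → a ∉ P' → a ∉ Q := by
    rintro a h1 h2 h3 (h4 | h4 | h4)
    · exact h3 h4
    · rw [h4] at h1; simp only at h1; omega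
    · rw [h4] at h2; simp only at h2; omega
  -- the left-right chain of faces
  have hD : Rdu251DualLR (x0 - 1) (x1 + 1) (y0 - 1) (y1 + 1) G := by
    refine ⟨(x0 - 1, f'.2), (x1, g'.2), (hmemR _ _).2 ⟨by omega, by omega, by omega, by omega⟩, rfl,
      (hmemR _ _).2 ⟨by omega, by omega, by omega, by omega⟩, by simp, ?_⟩
    have hmid : Relation.ReflTransGen (rdu251Step R G) f' g' := by
      refine Relation.ReflTransGen.mono ?_ _ _ h'
      rintro a b ⟨ha, hb, e, he⟩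
      have ba := hPm' a ha
      have bb := hPm' b hb
      refine ⟨(hmemR _ _).2 ⟨by omega, by omega, by omega, by omega⟩,
        (hmemR _ _).2 ⟨by omega, by omega, by omega, by omega⟩, e, he, ?_⟩
      intro heG
      apply heG
      rcases he with ⟨r1, r2⟩ | ⟨r1, r2⟩
      · exact ⟨r1 ▸ Or.inl ha, r2 ▸ Or.inl hb⟩
      · exact ⟨r1 ▸ Or.inl hb, r2 ▸ Or.inl ha⟩
    have hfirst : rdu251Step R G (x0 - 1, f'.2) f' := by
      refine ⟨(hmemR _ _).2 ⟨by omega, by omega, by omega, by omega⟩,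
        (hmemR _ _).2 ⟨by omega, by omega, by omega, by omega⟩, (f', true), Or.inr ⟨rfl, ?_⟩, ?_⟩
      · simp [rswCo, hf0']
      · intro heG
        apply heG
        refine ⟨Or.inl hf', Or.inr (Or.inl ?_)⟩
        simp [rswCo, hf0']
    have hlast : rdu251Step R G g' (x1, g'.2) := by
      refine ⟨(hmemR _ _).2 ⟨by omega, by omega, by omega, by omega⟩,
        (hmemR _ _).2 ⟨by omega, by omega, by omega, by omega⟩, ((x1, g'.2), true), Or.inr ⟨rfl, ?_⟩, ?_⟩
      · apply Prod.ext <;> simp [rswCo, hg']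
      · intro heG
        apply heG
        refine ⟨Or.inr (Or.inr rfl), Or.inl ?_⟩
        have : rswCo ((x1, g'.2), true) = g' := by apply Prod.ext <;> simp [rswCo, hg']
        rw [this]; exact hgP'
    exact (Relation.ReflTransGen.head hfirst hmid).tail hlast
  -- the bottom-top chain of good edges
  have hside : ∀ a ∈ P, (a ∈ R ∧ (a.1 - 1, a.2) ∈ R ∧ (a.1 + 1, a.2) ∈ R ∧ (a.1, a.2 - 1) ∈ R ∧ (a.1, a.2 + 1) ∈ R) ∧
      ∀ e : (ℤ × ℤ) × Bool, (e.1 = a ∨ rswCo e = a) → e ∈ G := by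
    intro a ha
    have ba := hPm a ha
    have haQ : a ∉ Q := hnQ a ba.1 ba.2.1 (Finset.disjoint_left.1 hdis ha)
    refine ⟨⟨(hmemR _ _).2 ⟨by omega, by omega, by omega, by omega⟩, (hmemR _ _).2 ⟨by omega, by omega, by omega, by omega⟩,
      (hmemR _ _).2 ⟨by omega, by omega, by omega, by omega⟩, (hmemR _ _).2 ⟨by omega, by omega, by omega, by omega⟩,
      (hmemR _ _).2 ⟨by omega, by omega, by omega, by omega⟩⟩, ?_⟩
    rintro e (he | he) ⟨h1, h2⟩
    · exact haQ (he ▸ h1)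
    · exact haQ (he ▸ h2)
  have hchain : ∀ b, Relation.ReflTransGen (fun a b => a ∈ P ∧ b ∈ P ∧
      ∃ e : (ℤ × ℤ) × Bool, (a = e.1 ∧ b = rswCo e) ∨ (b = e.1 ∧ a = rswCo e)) f b →
      ∀ c, Cnt101Corner b c → Relation.ReflTransGen (rdu251PStep R G) f c := by
    intro b hb
    induction hb with
    | refl => exact fun c hc => cnt101_corners_joined (hside f hf).1 (hside f hf).2 (Or.inl rfl) hc
    | @tail a b _ hab ih =>
      intro c hc
      obtain ⟨_, hbP, e, he⟩ := hab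
      obtain ⟨c1, c2⟩ := cnt101_common_corner he
      exact (ih _ c1).trans (cnt101_corners_joined (hside b hbP).1 (hside b hbP).2 c2 hc)
  have hB : Rdu251PrimBT (x0 - 1) (x1 + 1) (y0 - 1) (y1 + 1) G := by
    refine ⟨(f.1, y0 - 1), (g.1, y1 + 1), rfl, rfl, ?_⟩
    have hmid : Relation.ReflTransGen (rdu251PStep R G) f (g.1, g.2 + 1) := hchain g h _ (Or.inr (Or.inr (Or.inl rfl)))
    have hfirst : rdu251PStep R G (f.1, y0 - 1) f := by
      refine ⟨((f.1, y0 - 1), true), ?_, (hmemR _ _).2 ⟨by omega, by omega, by omega, by omega⟩, ?_, Or.inl ⟨rfl, ?_⟩⟩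
      · rintro ⟨h1, _⟩
        refine hnQ (f.1, y0 - 1) bf.1 bf.2.1 (fun hh => ?_) h1
        have := hPm' _ hh
        simp only at this
        omega
      · simp only [rswCo, if_true]
        exact (hmemR _ _).2 ⟨by omega, by omega, by omega, by omega⟩
      · apply Prod.ext <;> simp [rswEnd, hf0]
    have hlast : rdu251PStep R G (g.1, g.2 + 1) (g.1, y1 + 1) := by
      refine ⟨((g.1, y1), true), ?_, (hmemR _ _).2 ⟨by omega, by omega, by omega, by omega⟩, ?_, Or.inl ⟨?_, ?_⟩⟩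
      · rintro ⟨h1, _⟩
        refine hnQ (g.1, y1) bg.1 bg.2.1 (fun hh => ?_) h1
        have := hPm' _ hh
        simp only at this
        omega
      · simp only [rswCo, if_true]
        exact (hmemR _ _).2 ⟨by omega, by omega, by omega, by omega⟩
      · apply Prod.ext <;> simp [hg]
      · simp [rswEnd]
    exact (Relation.ReflTransGen.head hfirst hmid).tail hlast
  exact (rdu251_duality' hx hy G).1 hB hD

/-- the equation lemmas of the definitions of this file are generated HERE (RULES.md, rule 6) -/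
theorem arm101_defs_eqns_cite : True := by
  have := @Arm101Circ.eq_1
  have := @Arm101Loc.eq_1
  have := @Arm101CircB.eq_1
  have := @Arm101LocQ.eq_1
  have := @Arm101CircK.eq_1
  have := @Cnt101.eq_1
  have := @cnt101Phi.eq_1
  have := @cnt101Rect.eq_1
  have := @cnt101In.eq_1
  have := @cnt101Out.eq_1
  have := @Cnt101Corner.eq_1
  trivial

end Claimed.Agent.R292
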