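import Claimed.Agent.R292.Defs.MODEL
import Claimed.Agent.R292.Rsw.Base122
import Claimed.Agent.R292.Model.Kw41
import Claimed.Agent.R292.Model.Arm101

/-!
# Row 292 (S0540), Model/Count41 : (S2) TRANSMISSION COUNT = AT paper prop:cluster-counts (I2) (I2')     (pen helper41; prefix `mdl41c_`, `Mdl41c`)

Target: `exit_mdl_trans` of `Exit/MODEL` VERBATIM (`mdl41c_trans`), from records.

PROVED HERE (0 sorry): **`mdl41c_tail`** = geometric tail `P(L, J ≥ j) ≤ (1 - p) ^ j P(L)` of the number `J` of components of `N` restricted to `R` which cross `R`,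
in an ABSTRACT geometry `Mdl41cGeo` (three planar facts `ax1 ax2 ax3`), from the ONE probabilistic record `Mdl41cWBat` (WALL BLOCKING). Steps:
* sec 2  search along the seeds `β 0, β 1, …` of the first side: records, stopping events `Mdl41cX j i E` (`i` = the `j`-th record, `E` = explored set): cover, disjoint, count
* sec 3  the chamber `mdl41cCh B E RE` = faces joined to the right extension off `E`; chamber and complement are connected
* sec 4  `mdl41c_mono_wall`: the wall between two connected pieces of `B` has ONE colour (even subgraph + exactness of `Kw41`; no Jordan curve)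
* sec 5  the stopping events and the wall are exterior `(s,W)` data of the chamber (`MdlExt`)
* sec 6  deterministic facts at a stopped search: wall open, a later record crosses inside the chamber, no later record if `E` touches the right extension
* sec 7-8 summation over the stopping events, one step `P(L, J ≥ j+1) ≤ (1-p) P(L, J ≥ j)`, iteration
* sec 10-13 transport of a geometry by a lattice symmetry, rectangles (connected, connected exterior), the standard geometry (`ax1 ax2 ax3` from (PL0) by an extra row), the four frames of a shell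
* sec 14 **`mdl41c_trans_of_wb`** (0 sorry): (S2) = `Mdl41cTrans t k` from the record `Mdl41cWB t` and the planar fact `Mdl41cMeet` (PL0), with `cnt101_shell_quarter` of 101
0 sorry HERE. (WB) = `Mdl41cWB t` [TEX 03-spatial l.917-985] is proved downstream (`Model/Wall191`, head 191). (`mdl41c_meet` = (PL0) = `cnt101_meet` of 101, from `Rsw/Dual251`.) `mdl41c_B_rect`: `B` in absolute coordinates; `mdl41c_rect_ext`: `Mdl41Conn` of a rectangle.
-/

set_option autoImplicit false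

namespace Claimed.Agent.R292

open Claims Claims.C0468 Relation

/-- at least `j` distinct components of `N` restricted to `R` meet `A` and `B` -/
def Mdl41cCnt (R A B : Finset (ℤ × ℤ)) (j : ℕ) (ω : RswCfg) : Prop :=
  ∃ T : Finset (ℤ × ℤ), T ⊆ A ∧ T.card = j ∧ (∀ f ∈ T, ∃ g ∈ B, MdlNConn R ω f g) ∧
    ∀ f ∈ T, ∀ g ∈ T, f ≠ g → ¬ MdlNConn R ω f g

/-! ## 1. the components of `N` -/

theorem mdl41c_nstep_symm {R : Finset (ℤ × ℤ)} {ω : RswCfg} {f g : ℤ × ℤ} (h : MdlNStep R ω f g) :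
    MdlNStep R ω g f := by
  obtain ⟨hf, hg, e, he, heO⟩ := h
  exact ⟨hg, hf, e, he.symm, heO⟩

theorem mdl41c_nconn_symm {R : Finset (ℤ × ℤ)} {ω : RswCfg} {f g : ℤ × ℤ} (h : MdlNConn R ω f g) :
    MdlNConn R ω g f := by
  unfold MdlNConn at *
  induction h with
  | refl => exact ReflTransGen.refl
  | tail _ hbc ih => exact ReflTransGen.head (mdl41c_nstep_symm hbc) ih

theorem mdl41c_nconn_trans {R : Finset (ℤ × ℤ)} {ω : RswCfg} {f g h : ℤ × ℤ} (h1 : MdlNConn R ω f g)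
    (h2 : MdlNConn R ω g h) : MdlNConn R ω f h := ReflTransGen.trans h1 h2

theorem mdl41c_nconn_mem {R : Finset (ℤ × ℤ)} {ω : RswCfg} {f g : ℤ × ℤ} (h : MdlNConn R ω f g) (hf : f ∈ R) :
    g ∈ R := by
  unfold MdlNConn at h
  induction h with
  | refl => exact hf
  | tail _ hbc _ => exact hbc.2.1

/-! ## 2. records of the search along the seeds `β 0, β 1, …` -/

/-- the seed `i` is a record: its component reaches `Top` and contains no earlier seed -/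
def Mdl41cRec (R Top : Finset (ℤ × ℤ)) (β : ℕ → ℤ × ℤ) (ω : RswCfg) (i : ℕ) : Prop :=
  (∃ g ∈ Top, MdlNConn R ω (β i) g) ∧ ∀ i' < i, ¬ MdlNConn R ω (β i') (β i)

open Classical in
/-- number of records among the seeds `0 … i` -/
noncomputable def mdl41cNum (R Top : Finset (ℤ × ℤ)) (β : ℕ → ℤ × ℤ) (ω : RswCfg) (i : ℕ) : ℕ :=
  ((Finset.range (i + 1)).filter (Mdl41cRec R Top β ω)).card

open Classical in
/-- the explored set after the seeds `0 … i` -/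
noncomputable def mdl41cExp (R : Finset (ℤ × ℤ)) (β : ℕ → ℤ × ℤ) (ω : RswCfg) (i : ℕ) : Finset (ℤ × ℤ) :=
  R.filter (fun g => ∃ i' ≤ i, MdlNConn R ω (β i') g)

/-- the stopping event: `i` is the `j`-th record and `E` is the explored set -/
def Mdl41cX (R Top : Finset (ℤ × ℤ)) (β : ℕ → ℤ × ℤ) (j i : ℕ) (E : Finset (ℤ × ℤ)) (ω : RswCfg) : Prop :=
  Mdl41cRec R Top β ω i ∧ mdl41cNum R Top β ω i = j ∧ mdl41cExp R β ω i = E

theorem mdl41c_num_succ (R Top : Finset (ℤ × ℤ)) (β : ℕ → ℤ × ℤ) (ω : RswCfg) (i : ℕ) :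
    mdl41cNum R Top β ω (i + 1) = mdl41cNum R Top β ω i + (open Classical in if Mdl41cRec R Top β ω (i + 1) then 1 else 0) := by
  classical
  unfold mdl41cNum
  rw [Finset.range_add_one (n := i + 1), Finset.filter_insert]
  by_cases h : Mdl41cRec R Top β ω (i + 1)
  · rw [if_pos h, if_pos h, Finset.card_insert_of_notMem (by simp)]
  · rw [if_neg h, if_neg h, add_zero]

theorem mdl41c_num_mono (R Top : Finset (ℤ × ℤ)) (β : ℕ → ℤ × ℤ) (ω : RswCfg) {i i' : ℕ} (h : i ≤ i') :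
    mdl41cNum R Top β ω i ≤ mdl41cNum R Top β ω i' := by
  classical
  unfold mdl41cNum
  exact Finset.card_le_card (Finset.filter_subset_filter _ (Finset.range_mono (by omega)))

theorem mdl41c_num_lt (R Top : Finset (ℤ × ℤ)) (β : ℕ → ℤ × ℤ) (ω : RswCfg) {i i' : ℕ} (h : i < i')
    (hr : Mdl41cRec R Top β ω i') : mdl41cNum R Top β ω i < mdl41cNum R Top β ω i' := by
  obtain ⟨k, rfl⟩ : ∃ k, i' = k + 1 := ⟨i' - 1, by omega⟩
  rw [mdl41c_num_succ, if_pos hr]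
  have := mdl41c_num_mono R Top β ω (show i ≤ k by omega)
  omega

/-- (B) the stopping events are disjoint -/
theorem mdl41c_X_disj {R Top : Finset (ℤ × ℤ)} {β : ℕ → ℤ × ℤ} {j i i' : ℕ} {E E' : Finset (ℤ × ℤ)} {ω : RswCfg}
    (h : Mdl41cX R Top β j i E ω) (h' : Mdl41cX R Top β j i' E' ω) : i = i' ∧ E = E' := by
  obtain ⟨h1, h2, h3⟩ := h
  obtain ⟨h1', h2', h3'⟩ := h'
  have hi : i = i' := by
    rcases lt_trichotomy i i' with hlt | heq | hlt
    · have := mdl41c_num_lt R Top β ω hlt h1'; omega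
    · exact heq
    · have := mdl41c_num_lt R Top β ω hlt h1; omega
  subst hi
  exact ⟨rfl, h3.symm.trans h3'⟩

/-- a count gives as many records -/
theorem mdl41c_cnt_le {R Top : Finset (ℤ × ℤ)} {β : ℕ → ℤ × ℤ} {M j : ℕ} {ω : RswCfg}
    (h : Mdl41cCnt R ((Finset.range M).image β) Top j ω) (hM : 0 < M) : j ≤ mdl41cNum R Top β ω (M - 1) := by
  classical
  obtain ⟨T, hTA, hTc, hTx, hTd⟩ := h
  have hex : ∀ f ∈ T, ∃ i, MdlNConn R ω (β i) f := by
    intro f hf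
    obtain ⟨i, -, rfl⟩ := Finset.mem_image.1 (hTA hf)
    exact ⟨i, ReflTransGen.refl⟩
  let m : ℤ × ℤ → ℕ := fun f => if hf : ∃ i, MdlNConn R ω (β i) f then Nat.find hf else 0
  have hm : ∀ f ∈ T, MdlNConn R ω (β (m f)) f ∧ ∀ i < m f, ¬ MdlNConn R ω (β i) f := by
    intro f hf
    have h0 := hex f hf
    simp only [m, dif_pos h0]
    exact ⟨Nat.find_spec h0, fun i hi => Nat.find_min h0 hi⟩
  rw [← hTc]
  unfold mdl41cNum
  refine Finset.card_le_card_of_injOn m ?_ ?_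
  · intro f hf
    have hf' : f ∈ T := hf
    obtain ⟨h1, h2⟩ := hm f hf'
    simp only [Finset.coe_filter, Finset.mem_range, Set.mem_ofPred_eq]
    refine ⟨?_, ?_, ?_⟩
    · obtain ⟨i, hi, rfl⟩ := Finset.mem_image.1 (hTA hf')
      have : ¬ i < m (β i) := fun hlt => h2 i hlt ReflTransGen.refl
      have := Finset.mem_range.1 hi
      omega
    · obtain ⟨g, hg, hfg⟩ := hTx f hf'
      exact ⟨g, hg, mdl41c_nconn_trans h1 hfg⟩
    · intro i' hi' hc
      exact h2 i' hi' (mdl41c_nconn_trans hc h1)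
  · intro f hf g hg hfg
    by_contra hne
    have h1 := (hm f hf).1
    have h2 := (hm g hg).1
    rw [← hfg] at h2
    exact hTd f hf g hg hne (mdl41c_nconn_trans (mdl41c_nconn_symm h1) h2)

/-- (A) a count `≥ j ≥ 1` is stopped somewhere -/
theorem mdl41c_X_cover {R Top : Finset (ℤ × ℤ)} {β : ℕ → ℤ × ℤ} {M j : ℕ} {ω : RswCfg}
    (h : Mdl41cCnt R ((Finset.range M).image β) Top j ω) (hj : 1 ≤ j) :
    ∃ i < M, Mdl41cX R Top β j i (mdl41cExp R β ω i) ω := by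
  classical
  have hM : 0 < M := by
    obtain ⟨T, hTA, hTc, -, -⟩ := h
    rcases Nat.eq_zero_or_pos M with h0 | h0
    · subst h0
      simp only [Finset.range_zero, Finset.image_empty, Finset.subset_empty] at hTA
      subst hTA
      simp at hTc; omega
    · exact h0
  have hle := mdl41c_cnt_le h hM
  have hex : ∃ i, j ≤ mdl41cNum R Top β ω i := ⟨M - 1, hle⟩
  refine ⟨Nat.find hex, ?_, ?_⟩
  · have := Nat.find_min' hex hle
    omega
  · have h1 := Nat.find_spec hex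
    have h2 : ∀ i < Nat.find hex, ¬ j ≤ mdl41cNum R Top β ω i := fun i hi => Nat.find_min hex hi
    generalize Nat.find hex = i at h1 h2
    cases i with
    | zero =>
      have h3 : mdl41cNum R Top β ω 0 = if Mdl41cRec R Top β ω 0 then 1 else 0 := by
        unfold mdl41cNum
        rw [show Finset.range (0 + 1) = {0} from rfl, Finset.filter_singleton]
        split_ifs <;> simp
      by_cases hr : Mdl41cRec R Top β ω 0
      · rw [if_pos hr] at h3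
        exact ⟨hr, by omega, rfl⟩
      · rw [if_neg hr] at h3; omega
    | succ i =>
      have h3 := mdl41c_num_succ R Top β ω i
      have h4 := h2 i (by omega)
      by_cases hr : Mdl41cRec R Top β ω (i + 1)
      · rw [if_pos hr] at h3
        exact ⟨hr, by omega, rfl⟩
      · rw [if_neg hr] at h3; omega

/-- (C) a stopped search has the count -/
theorem mdl41c_X_cnt {R Top : Finset (ℤ × ℤ)} {β : ℕ → ℤ × ℤ} {M j i : ℕ} {E : Finset (ℤ × ℤ)} {ω : RswCfg}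
    (hβ : ∀ i < M, ∀ i' < M, β i = β i' → i = i') (hi : i < M) (h : Mdl41cX R Top β j i E ω) :
    Mdl41cCnt R ((Finset.range M).image β) Top j ω := by
  classical
  obtain ⟨-, h2, -⟩ := h
  refine ⟨((Finset.range (i + 1)).filter (Mdl41cRec R Top β ω)).image β, ?_, ?_, ?_, ?_⟩
  · intro f hf
    obtain ⟨k, hk, rfl⟩ := Finset.mem_image.1 hf
    have := Finset.mem_range.1 (Finset.mem_filter.1 hk).1
    exact Finset.mem_image_of_mem _ (Finset.mem_range.2 (by omega))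
  · rw [Finset.card_image_of_injOn, ← h2]; rfl
    intro a ha c hc hac
    have h1 := Finset.mem_range.1 (Finset.mem_filter.1 ha).1
    have h3 := Finset.mem_range.1 (Finset.mem_filter.1 hc).1
    exact hβ a (by omega) c (by omega) hac
  · intro f hf
    obtain ⟨k, hk, rfl⟩ := Finset.mem_image.1 hf
    exact (Finset.mem_filter.1 hk).2.1
  · intro f hf g hg hne hc
    obtain ⟨k, hk, rfl⟩ := Finset.mem_image.1 hf
    obtain ⟨l, hl, rfl⟩ := Finset.mem_image.1 hg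
    rcases lt_trichotomy k l with hlt | heq | hlt
    · exact (Finset.mem_filter.1 hl).2.2 k hlt hc
    · exact hne (by rw [heq])
    · exact (Finset.mem_filter.1 hk).2.2 l hlt (mdl41c_nconn_symm hc)

/-- (D) one more component: a later record -/
theorem mdl41c_X_next {R Top : Finset (ℤ × ℤ)} {β : ℕ → ℤ × ℤ} {M j i : ℕ} {E : Finset (ℤ × ℤ)} {ω : RswCfg}
    (h : Mdl41cX R Top β j i E ω) (hc : Mdl41cCnt R ((Finset.range M).image β) Top (j + 1) ω) :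
    ∃ i'', i < i'' ∧ i'' < M ∧ Mdl41cRec R Top β ω i'' := by
  classical
  obtain ⟨i'', hi'', hX⟩ := mdl41c_X_cover hc (by omega)
  refine ⟨i'', ?_, hi'', hX.1⟩
  by_contra hle
  have := mdl41c_num_mono R Top β ω (show i'' ≤ i by omega)
  have h1 := hX.2.1
  have h2 := h.2.1
  omega
/-! ## 3. chains of faces, the chamber -/

/-- two faces are neighbours -/
def Mdl41cAdj (f g : ℤ × ℤ) : Prop :=
  ∃ e : (ℤ × ℤ) × Bool, (f = e.1 ∧ g = rswCo e) ∨ (g = e.1 ∧ f = rswCo e)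

theorem mdl41c_adj_symm {f g : ℤ × ℤ} (h : Mdl41cAdj f g) : Mdl41cAdj g f := by
  obtain ⟨e, he⟩ := h
  exact ⟨e, he.symm⟩

/-- a chain of faces inside `P` -/
def Mdl41cJoin (P : Finset (ℤ × ℤ)) : ℤ × ℤ → ℤ × ℤ → Prop :=
  ReflTransGen (fun f g => f ∈ P ∧ g ∈ P ∧ Mdl41cAdj f g)

theorem mdl41c_join_refl (P : Finset (ℤ × ℤ)) (f : ℤ × ℤ) : Mdl41cJoin P f f := ReflTransGen.refl

theorem mdl41c_join_symm {P : Finset (ℤ × ℤ)} {f g : ℤ × ℤ} (h : Mdl41cJoin P f g) : Mdl41cJoin P g f := by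
  unfold Mdl41cJoin at *
  induction h with
  | refl => exact ReflTransGen.refl
  | tail _ hbc ih => exact ReflTransGen.head ⟨hbc.2.1, hbc.1, mdl41c_adj_symm hbc.2.2⟩ ih

theorem mdl41c_join_trans {P : Finset (ℤ × ℤ)} {f g h : ℤ × ℤ} (h1 : Mdl41cJoin P f g) (h2 : Mdl41cJoin P g h) :
    Mdl41cJoin P f h := ReflTransGen.trans h1 h2

theorem mdl41c_join_mono {P P' : Finset (ℤ × ℤ)} (hP : P ⊆ P') {f g : ℤ × ℤ} (h : Mdl41cJoin P f g) :
    Mdl41cJoin P' f g :=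
  ReflTransGen.mono (fun _ _ ⟨h1, h2, h3⟩ => ⟨hP h1, hP h2, h3⟩) _ _ h

theorem mdl41c_join_step {P : Finset (ℤ × ℤ)} {f g : ℤ × ℤ} (hf : f ∈ P) (hg : g ∈ P) (h : Mdl41cAdj f g) :
    Mdl41cJoin P f g := ReflTransGen.single ⟨hf, hg, h⟩

theorem mdl41c_join_mem {P : Finset (ℤ × ℤ)} {f g : ℤ × ℤ} (h : Mdl41cJoin P f g) (hf : f ∈ P) : g ∈ P := by
  unfold Mdl41cJoin at h
  induction h with
  | refl => exact hf
  | tail _ hbc _ => exact hbc.2.1

/-- a chain which starts in a set closed under the steps of the chain stays in the set, and is a chain of that set -/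
theorem mdl41c_join_into {P Q : Finset (ℤ × ℤ)} {f g : ℤ × ℤ} (h : Mdl41cJoin P f g) (hf : f ∈ Q)
    (hcl : ∀ a b, a ∈ Q → a ∈ P → b ∈ P → Mdl41cAdj a b → b ∈ Q) : g ∈ Q ∧ Mdl41cJoin Q f g := by
  unfold Mdl41cJoin at *
  induction h with
  | refl => exact ⟨hf, ReflTransGen.refl⟩
  | tail _ hbc ih =>
    have hc := hcl _ _ ih.1 hbc.1 hbc.2.1 hbc.2.2
    exact ⟨hc, ih.2.tail ⟨ih.1, hc, hbc.2.2⟩⟩

theorem mdl41c_nstep_adj {R : Finset (ℤ × ℤ)} {ω : RswCfg} {f g : ℤ × ℤ} (h : MdlNStep R ω f g) : Mdl41cAdj f g := by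
  obtain ⟨-, -, e, he, -⟩ := h
  exact ⟨e, he⟩

/-- a chain of `N` which starts in a set closed under the steps of `N` is a chain of `N` in that set -/
theorem mdl41c_nconn_into {R Q : Finset (ℤ × ℤ)} {ω : RswCfg} {f g : ℤ × ℤ} (h : MdlNConn R ω f g) (hf : f ∈ Q)
    (hcl : ∀ a b, a ∈ Q → MdlNStep R ω a b → b ∈ Q) : g ∈ Q ∧ MdlNConn Q ω f g ∧ Mdl41cJoin Q f g := by
  unfold MdlNConn Mdl41cJoin at *
  induction h with
  | refl => exact ⟨hf, ReflTransGen.refl, ReflTransGen.refl⟩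
  | tail _ hbc ih =>
    have hc := hcl _ _ ih.1 hbc
    obtain ⟨-, -, e, he, heO⟩ := hbc
    exact ⟨hc, ih.2.1.tail ⟨ih.1, hc, e, he, heO⟩, ih.2.2.tail ⟨ih.1, hc, e, he⟩⟩

open Classical in
/-- the chamber: the faces of `B \ E` joined to `RE` inside `B \ E` -/
noncomputable def mdl41cCh (B E RE : Finset (ℤ × ℤ)) : Finset (ℤ × ℤ) :=
  (B \ E).filter (fun g => ∃ z ∈ RE, Mdl41cJoin (B \ E) z g)

theorem mdl41c_mem_ch {B E RE : Finset (ℤ × ℤ)} {g : ℤ × ℤ} :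
    g ∈ mdl41cCh B E RE ↔ g ∈ B \ E ∧ ∃ z ∈ RE, Mdl41cJoin (B \ E) z g := by
  classical
  simp [mdl41cCh]

theorem mdl41c_ch_sub (B E RE : Finset (ℤ × ℤ)) : mdl41cCh B E RE ⊆ B \ E := fun _ h => (mdl41c_mem_ch.1 h).1

theorem mdl41c_re_sub_ch {B E RE : Finset (ℤ × ℤ)} (h : RE ⊆ B \ E) : RE ⊆ mdl41cCh B E RE :=
  fun z hz => mdl41c_mem_ch.2 ⟨h hz, z, hz, mdl41c_join_refl _ _⟩

theorem mdl41c_ch_closed {B E RE : Finset (ℤ × ℤ)} {f g : ℤ × ℤ} (hf : f ∈ mdl41cCh B E RE) (hg : g ∈ B \ E)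
    (h : Mdl41cAdj f g) : g ∈ mdl41cCh B E RE := by
  obtain ⟨h1, z, hz, h2⟩ := mdl41c_mem_ch.1 hf
  exact mdl41c_mem_ch.2 ⟨hg, z, hz, mdl41c_join_trans h2 (mdl41c_join_step h1 hg h)⟩

/-- the chamber is connected -/
theorem mdl41c_ch_conn {B E RE : Finset (ℤ × ℤ)} (hRE : RE ⊆ B \ E) (hc : ∀ z ∈ RE, ∀ z' ∈ RE, Mdl41cJoin RE z z')
    {f g : ℤ × ℤ} (hf : f ∈ mdl41cCh B E RE) (hg : g ∈ mdl41cCh B E RE) : Mdl41cJoin (mdl41cCh B E RE) f g := by
  have key : ∀ g ∈ mdl41cCh B E RE, ∃ z ∈ RE, Mdl41cJoin (mdl41cCh B E RE) z g := by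
    intro g hg
    obtain ⟨-, z, hz, h2⟩ := mdl41c_mem_ch.1 hg
    exact ⟨z, hz, (mdl41c_join_into h2 (mdl41c_re_sub_ch hRE hz)
      (fun a b ha _ hb hab => mdl41c_ch_closed ha hb hab)).2⟩
  obtain ⟨z, hz, h1⟩ := key f hf
  obtain ⟨z', hz', h2⟩ := key g hg
  exact mdl41c_join_trans (mdl41c_join_symm h1)
    (mdl41c_join_trans (mdl41c_join_mono (mdl41c_re_sub_ch hRE) (hc z hz z' hz')) h2)

/-- every face off the chamber is joined, off the chamber, to `E` -/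
theorem mdl41c_off_ch {B E RE : Finset (ℤ × ℤ)} (hE : E ⊆ B) (hRE : RE ⊆ B \ E)
    (hB : ∀ g ∈ B, ∃ z ∈ RE, Mdl41cJoin B z g) {g : ℤ × ℤ} (hg : g ∈ B \ mdl41cCh B E RE) :
    ∃ h ∈ E, Mdl41cJoin (B \ mdl41cCh B E RE) h g := by
  classical
  obtain ⟨z, hz, hzg⟩ := hB g (Finset.mem_sdiff.1 hg).1
  have key : ∀ g, Mdl41cJoin B z g → g ∈ mdl41cCh B E RE ∨ ∃ h ∈ E, Mdl41cJoin (B \ mdl41cCh B E RE) h g := by
    intro g hzg
    unfold Mdl41cJoin at hzg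
    induction hzg with
    | refl => exact Or.inl (mdl41c_re_sub_ch hRE hz)
    | @tail b c _ hbc ih =>
      by_cases hcE : c ∈ E
      · exact Or.inr ⟨c, hcE, mdl41c_join_refl _ _⟩
      · have hcBE : c ∈ B \ E := Finset.mem_sdiff.2 ⟨hbc.2.1, hcE⟩
        rcases ih with hb | ⟨h, hh, hhb⟩
        · exact Or.inl (mdl41c_ch_closed hb hcBE hbc.2.2)
        · by_cases hcC : c ∈ mdl41cCh B E RE
          · exact Or.inl hcC
          · right
            have hhX : h ∈ B \ mdl41cCh B E RE :=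
              Finset.mem_sdiff.2 ⟨hE hh, fun hc => (Finset.mem_sdiff.1 (mdl41c_ch_sub B E RE hc)).2 hh⟩
            have hbX := mdl41c_join_mem hhb hhX
            exact ⟨h, hh, mdl41c_join_trans hhb
              (mdl41c_join_step hbX (Finset.mem_sdiff.2 ⟨hbc.2.1, hcC⟩) hbc.2.2)⟩
  rcases key g hzg with h | h
  · exact absurd h (Finset.mem_sdiff.1 hg).2
  · exact h

/-- the complement of the chamber is connected as soon as `E` is -/
theorem mdl41c_off_conn {B E RE : Finset (ℤ × ℤ)} (hE : E ⊆ B) (hRE : RE ⊆ B \ E)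
    (hB : ∀ g ∈ B, ∃ z ∈ RE, Mdl41cJoin B z g) (hEc : ∀ f ∈ E, ∀ g ∈ E, Mdl41cJoin E f g)
    {f g : ℤ × ℤ} (hf : f ∈ B \ mdl41cCh B E RE) (hg : g ∈ B \ mdl41cCh B E RE) :
    Mdl41cJoin (B \ mdl41cCh B E RE) f g := by
  classical
  obtain ⟨h, hh, h1⟩ := mdl41c_off_ch hE hRE hB hf
  obtain ⟨h', hh', h2⟩ := mdl41c_off_ch hE hRE hB hg
  have hsub : E ⊆ B \ mdl41cCh B E RE := fun x hx =>
    Finset.mem_sdiff.2 ⟨hE hx, fun hc => (Finset.mem_sdiff.1 (mdl41c_ch_sub B E RE hc)).2 hx⟩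
  exact mdl41c_join_trans (mdl41c_join_symm h1) (mdl41c_join_trans (mdl41c_join_mono hsub (hEc h hh h' hh')) h2)
/-! ## 4. the wall of a chamber has one colour -/

/-- all the edges of `B` between `Ch` and `B \ Ch` are good of colour `a` -/
def Mdl41cWall (B Ch : Finset (ℤ × ℤ)) (a : Bool) (ω : RswCfg) : Prop :=
  ∀ e ∈ mdl41DisSet B Ch, RswGood a ω e

theorem mdl41c_const_on {B Ch D P : Finset (ℤ × ℤ)} {η : Finset ((ℤ × ℤ) × Bool)} (hη : η ⊆ mdl41DisSet B Ch)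
    (hD : ∀ e ∈ rswInt B, (e ∈ η ↔ Mdl41Dis D e)) (hP : P ⊆ B) (hPc : ∀ a ∈ P, ∀ b ∈ P, (a ∈ Ch ↔ b ∈ Ch))
    {f g : ℤ × ℤ} (h : Mdl41cJoin P f g) : f ∈ D ↔ g ∈ D := by
  unfold Mdl41cJoin at h
  induction h with
  | refl => exact Iff.rfl
  | @tail b c _ hbc ih =>
    refine ih.trans ?_
    obtain ⟨hb, hc, e, he⟩ := hbc
    have hint : e ∈ rswInt B := by
      rcases he with ⟨r1, r2⟩ | ⟨r1, r2⟩
      · exact mdl41_mem_int.2 ⟨r1 ▸ hP hb, r2 ▸ hP hc⟩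
      · exact mdl41_mem_int.2 ⟨r1 ▸ hP hc, r2 ▸ hP hb⟩
    have hno : e ∉ η := by
      intro h1
      have h2 := (mdl41_mem_disSet.1 (hη h1)).2
      unfold Mdl41Dis at h2
      rcases he with ⟨r1, r2⟩ | ⟨r1, r2⟩
      · exact h2 (r1 ▸ r2 ▸ hPc b hb c hc)
      · exact h2 (r1 ▸ r2 ▸ hPc c hc b hb)
    have h3 : ¬ Mdl41Dis D e := fun h => hno ((hD e hint).2 h)
    unfold Mdl41Dis at h3
    rw [not_not] at h3
    rcases he with ⟨r1, r2⟩ | ⟨r1, r2⟩
    · rw [r1, r2]; exact h3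
    · rw [r1, r2]; exact h3.symm

/-- **the wall between two connected pieces of `B` has one colour** -/
theorem mdl41c_mono_wall {B Ch : Finset (ℤ × ℤ)} (hB : Mdl41Conn B) (hCh : Ch ⊆ B)
    (hc : ∀ f ∈ Ch, ∀ g ∈ Ch, Mdl41cJoin Ch f g) (hx : ∀ f ∈ B \ Ch, ∀ g ∈ B \ Ch, Mdl41cJoin (B \ Ch) f g)
    {ω : RswCfg} (hO : ∀ e ∈ mdl41DisSet B Ch, e ∈ ω.O ∧ (e.1 ∈ ω.S ↔ rswEnd e ∈ ω.S)) :
    Mdl41cWall B Ch true ω ∨ Mdl41cWall B Ch false ω := by
  classical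
  set η := (mdl41DisSet B Ch).filter (fun e => e.1 ∈ ω.S) with hηdef
  have hηsub : η ⊆ mdl41DisSet B Ch := Finset.filter_subset _ _
  have hev : Mdl41Even B η := by
    rw [mdl41_even_iff]
    intro v hv
    have h0 := (mdl41_even_iff B (mdl41DisSet B Ch)).1 (mdl41_even_disSet B Ch) v hv
    by_cases hvS : v ∈ ω.S
    · have : η.filter (fun e => e.1 = v ∨ rswEnd e = v) = (mdl41DisSet B Ch).filter (fun e => e.1 = v ∨ rswEnd e = v) := by
        ext e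
        simp only [hηdef, Finset.mem_filter]
        constructor
        · rintro ⟨⟨h1, -⟩, h3⟩; exact ⟨h1, h3⟩
        · rintro ⟨h1, h3⟩
          refine ⟨⟨h1, ?_⟩, h3⟩
          rcases h3 with h3 | h3
          · rw [h3]; exact hvS
          · rw [(hO e h1).2, h3]; exact hvS
      convert h0 using 2
    · have : η.filter (fun e => e.1 = v ∨ rswEnd e = v) = ∅ := by
        ext e
        simp only [hηdef, Finset.mem_filter, Finset.notMem_empty, iff_false]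
        rintro ⟨⟨h1, h2⟩, h3⟩
        rcases h3 with h3 | h3
        · exact hvS (h3 ▸ h2)
        · exact hvS (h3 ▸ (hO e h1).2.1 h2)
      have h00 : Even ((η.filter (fun e => e.1 = v ∨ rswEnd e = v)).card) := by
        rw [this, Finset.card_empty]; exact Even.zero
      convert h00 using 2
  obtain ⟨D, -, hD⟩ := mdl41_exists_D hB hev
  have c1 : ∀ f ∈ Ch, ∀ g ∈ Ch, (f ∈ D ↔ g ∈ D) := fun f hf g hg =>
    mdl41c_const_on hηsub hD hCh (fun a ha b hb => ⟨fun _ => hb, fun _ => ha⟩) (hc f hf g hg)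
  have c2 : ∀ f ∈ B \ Ch, ∀ g ∈ B \ Ch, (f ∈ D ↔ g ∈ D) := fun f hf g hg =>
    mdl41c_const_on hηsub hD Finset.sdiff_subset
      (fun a ha b hb => ⟨fun h => absurd h (Finset.mem_sdiff.1 ha).2, fun h => absurd h (Finset.mem_sdiff.1 hb).2⟩) (hx f hf g hg)
  -- the two faces of a wall edge
  have hfaces : ∀ e ∈ mdl41DisSet B Ch, ∃ f ∈ Ch, ∃ g ∈ B \ Ch, (Mdl41Dis D e ↔ ¬ (f ∈ D ↔ g ∈ D)) := by
    intro e he
    obtain ⟨h1, h2⟩ := mdl41_mem_disSet.1 he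
    obtain ⟨h3, h4⟩ := mdl41_mem_int.1 h1
    unfold Mdl41Dis at h2 ⊢
    by_cases h5 : e.1 ∈ Ch
    · have h6 : rswCo e ∉ Ch := fun h6 => h2 ⟨fun _ => h6, fun _ => h5⟩
      exact ⟨e.1, h5, rswCo e, Finset.mem_sdiff.2 ⟨h4, h6⟩, Iff.rfl⟩
    · have h6 : rswCo e ∈ Ch := by
        by_contra h6
        exact h2 ⟨fun h => absurd h h5, fun h => absurd h h6⟩
      exact ⟨rswCo e, h6, e.1, Finset.mem_sdiff.2 ⟨h3, h5⟩, by tauto⟩
  by_cases hne : ∃ e₀, e₀ ∈ η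
  · left
    obtain ⟨e₀, he₀⟩ := hne
    obtain ⟨f₀, hf₀, g₀, hg₀, hi₀⟩ := hfaces e₀ (hηsub he₀)
    have hd₀ := hi₀.1 ((hD e₀ (mdl41_mem_disSet.1 (hηsub he₀)).1).1 he₀)
    intro e he
    obtain ⟨f, hf, g, hg, hi⟩ := hfaces e he
    have h1 := c1 f hf f₀ hf₀
    have h2 := c2 g hg g₀ hg₀
    have h3 : e ∈ η := (hD e (mdl41_mem_disSet.1 he).1).2 (hi.2 (by rw [h1, h2]; exact hd₀))
    have h4 : e.1 ∈ ω.S := (Finset.mem_filter.1 h3).2
    exact ⟨(hO e he).1, by simp [h4], by simp [(hO e he).2.1 h4]⟩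
  · right
    intro e he
    have h4 : e.1 ∉ ω.S := fun h4 => hne ⟨e, Finset.mem_filter.2 ⟨he, h4⟩⟩
    have h5 : rswEnd e ∉ ω.S := fun h5 => h4 ((hO e he).2.2 h5)
    exact ⟨(hO e he).1, by simp [h4], by simp [h5]⟩
/-! ## 5. the stopping events are exterior data of the chamber -/

theorem mdl41c_ext_and {B : Finset (ℤ × ℤ)} {L L' : RswCfg → Prop} (h : MdlExt B L) (h' : MdlExt B L') :
    MdlExt B (fun ω => L ω ∧ L' ω) := fun ω ω' h1 h2 => and_congr (h ω ω' h1 h2) (h' ω ω' h1 h2)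

theorem mdl41c_ext_not {B : Finset (ℤ × ℤ)} {L : RswCfg → Prop} (h : MdlExt B L) :
    MdlExt B (fun ω => ¬ L ω) := fun ω ω' h1 h2 => not_congr (h ω ω' h1 h2)

theorem mdl41c_ext_mono {B B' : Finset (ℤ × ℤ)} (hB : B' ⊆ B) {L : RswCfg → Prop} (h : MdlExt B L) : MdlExt B' L := by
  intro ω ω' h1 h2
  refine h ω ω' (fun v hv => h1 v ?_) (fun e he => h2 e ?_)
  · unfold OnPolygon at hv ⊢
    exact fun ⟨a, b, c, d⟩ => hv ⟨hB a, hB b, hB c, hB d⟩
  · intro h3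
    obtain ⟨a, b⟩ := mdl41_mem_int.1 h3
    exact he (mdl41_mem_int.2 ⟨hB a, hB b⟩)

theorem mdl41c_onpoly {P : Finset (ℤ × ℤ)} {e : (ℤ × ℤ) × Bool} (h : e ∉ rswInt P) :
    OnPolygon P e.1 ∧ OnPolygon P (rswEnd e) := by
  rw [mdl41_mem_int] at h
  obtain ⟨⟨x, y⟩, c⟩ := e
  cases c
  · simp only [rswCo, rswEnd, OnPolygon, Bool.false_eq_true, if_false] at h ⊢
    constructor
    · exact fun ⟨a, _, b, _⟩ => h ⟨a, b⟩
    · rintro ⟨_, a, _, b⟩
      simp only [add_sub_cancel_right] at a b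
      exact h ⟨a, b⟩
  · simp only [rswCo, rswEnd, OnPolygon, if_true] at h ⊢
    constructor
    · exact fun ⟨a, b, _, _⟩ => h ⟨a, b⟩
    · rintro ⟨_, _, a, b⟩
      simp only [add_sub_cancel_right] at a b
      exact h ⟨a, b⟩

theorem mdl41c_wall_ext (B Ch : Finset (ℤ × ℤ)) (a : Bool) {V : Finset (ℤ × ℤ)} (hV : Disjoint V (B \ Ch)) :
    MdlExt V (Mdl41cWall B Ch a) := by
  have key : ∀ ω ω' : RswCfg, (∀ v, OnPolygon V v → (v ∈ ω.S ↔ v ∈ ω'.S)) →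
      (∀ e, e ∉ rswInt V → (e ∈ ω.O ↔ e ∈ ω'.O)) → Mdl41cWall B Ch a ω → Mdl41cWall B Ch a ω' := by
    intro ω ω' h1 h2 hw e he
    have hno : e ∉ rswInt V := by
      intro h3
      obtain ⟨a1, a2⟩ := mdl41_mem_int.1 h3
      obtain ⟨b1, b2⟩ := mdl41_mem_disSet.1 he
      obtain ⟨c1, c2⟩ := mdl41_mem_int.1 b1
      have d1 : e.1 ∈ Ch := by
        by_contra hc
        exact Finset.disjoint_left.1 hV a1 (Finset.mem_sdiff.2 ⟨c1, hc⟩)
      have d2 : rswCo e ∈ Ch := by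
        by_contra hc
        exact Finset.disjoint_left.1 hV a2 (Finset.mem_sdiff.2 ⟨c2, hc⟩)
      exact b2 ⟨fun _ => d2, fun _ => d1⟩
    obtain ⟨p1, p2⟩ := mdl41c_onpoly hno
    obtain ⟨g1, g2, g3⟩ := hw e he
    exact ⟨(h2 e hno).1 g1, (h1 _ p1).symm.trans g2, (h1 _ p2).symm.trans g3⟩
  intro ω ω' h1 h2
  exact ⟨key ω ω' h1 h2, key ω' ω (fun v hv => (h1 v hv).symm) (fun e he => (h2 e he).symm)⟩

/-- the components of the seeds `0 … i` read only the edges which touch the explored set -/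
theorem mdl41c_loc {R E : Finset (ℤ × ℤ)} {β : ℕ → ℤ × ℤ} {i : ℕ} {ω ω' : RswCfg} (hbot : ∀ i' ≤ i, β i' ∈ R)
    (hE : mdl41cExp R β ω i = E) (hag : ∀ e : (ℤ × ℤ) × Bool, (e.1 ∈ E ∨ rswCo e ∈ E) → (e ∈ ω.O ↔ e ∈ ω'.O))
    {i' : ℕ} (hi' : i' ≤ i) (g : ℤ × ℤ) : MdlNConn R ω (β i') g ↔ MdlNConn R ω' (β i') g := by
  classical
  have hmem : ∀ b, MdlNConn R ω (β i') b → b ∈ E := by
    intro b hb
    rw [← hE]
    exact Finset.mem_filter.2 ⟨mdl41c_nconn_mem hb (hbot i' hi'), i', hi', hb⟩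
  have hstep : ∀ b c, b ∈ E → (MdlNStep R ω b c ↔ MdlNStep R ω' b c) := by
    intro b c hb
    constructor
    · rintro ⟨h1, h2, e, he, heO⟩
      refine ⟨h1, h2, e, he, fun h => heO ((hag e ?_).2 h)⟩
      rcases he with ⟨r1, _⟩ | ⟨_, r2⟩
      · exact Or.inl (r1 ▸ hb)
      · exact Or.inr (r2 ▸ hb)
    · rintro ⟨h1, h2, e, he, heO⟩
      refine ⟨h1, h2, e, he, fun h => heO ((hag e ?_).1 h)⟩
      rcases he with ⟨r1, _⟩ | ⟨_, r2⟩
      · exact Or.inl (r1 ▸ hb)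
      · exact Or.inr (r2 ▸ hb)
  constructor
  · intro h
    have : MdlNConn R ω (β i') g ∧ MdlNConn R ω' (β i') g := by
      unfold MdlNConn at h ⊢
      induction h with
      | refl => exact ⟨ReflTransGen.refl, ReflTransGen.refl⟩
      | @tail b c _ hbc ih => exact ⟨ih.1.tail hbc, ih.2.tail ((hstep b c (hmem b ih.1)).1 hbc)⟩
    exact this.2
  · intro h
    unfold MdlNConn at h ⊢
    induction h with
    | refl => exact ReflTransGen.refl
    | @tail b c _ hbc ih => exact ih.tail ((hstep b c (hmem b ih)).2 hbc)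

theorem mdl41c_X_loc {R Top E : Finset (ℤ × ℤ)} {β : ℕ → ℤ × ℤ} {j i : ℕ} {ω ω' : RswCfg} (hbot : ∀ i' ≤ i, β i' ∈ R)
    (hag : ∀ e : (ℤ × ℤ) × Bool, (e.1 ∈ E ∨ rswCo e ∈ E) → (e ∈ ω.O ↔ e ∈ ω'.O))
    (h : Mdl41cX R Top β j i E ω) : Mdl41cX R Top β j i E ω' := by
  classical
  obtain ⟨h1, h2, h3⟩ := h
  have L : ∀ i' ≤ i, ∀ g, MdlNConn R ω (β i') g ↔ MdlNConn R ω' (β i') g := fun i' hi' g => mdl41c_loc hbot h3 hag hi' g
  have hrec : ∀ k ≤ i, (Mdl41cRec R Top β ω k ↔ Mdl41cRec R Top β ω' k) := by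
    intro k hk
    unfold Mdl41cRec
    refine and_congr ?_ ?_
    · exact exists_congr fun g => and_congr_right fun _ => L k hk g
    · exact forall_congr' fun i' => imp_congr_right fun hi' => not_congr (L i' (by omega) _)
  refine ⟨(hrec i le_rfl).1 h1, ?_, ?_⟩
  · rw [← h2]
    unfold mdl41cNum
    congr 1
    refine Finset.filter_congr fun k hk => (hrec k ?_).symm
    have := Finset.mem_range.1 hk
    omega
  · rw [← h3]
    unfold mdl41cExp
    refine Finset.filter_congr fun g _ => ?_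
    exact exists_congr fun i' => and_congr_right fun hi' => (L i' hi' g).symm

theorem mdl41c_X_ext {R Top E Ch : Finset (ℤ × ℤ)} {β : ℕ → ℤ × ℤ} {j i : ℕ} (hbot : ∀ i' ≤ i, β i' ∈ R)
    (hdis : Disjoint E Ch) : MdlExt Ch (Mdl41cX R Top β j i E) := by
  intro ω ω' _ h2
  have hag : ∀ e : (ℤ × ℤ) × Bool, (e.1 ∈ E ∨ rswCo e ∈ E) → (e ∈ ω.O ↔ e ∈ ω'.O) := by
    intro e he
    refine h2 e fun h3 => ?_
    obtain ⟨a1, a2⟩ := mdl41_mem_int.1 h3
    rcases he with he | he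
    · exact Finset.disjoint_left.1 hdis he a1
    · exact Finset.disjoint_left.1 hdis he a2
  exact ⟨mdl41c_X_loc hbot hag, mdl41c_X_loc hbot (fun e he => (hag e he).symm)⟩
/-! ## 6. the geometry (abstract) and the deterministic facts at a stopped search -/

/-- the geometry of one search: `R` the counted region, seeds `β 0 … β (M-1)` (its first side, in order), `Top` the opposite side,
`B = R ∪ LE ∪ RE` the region with its two lateral extensions; `ax1 ax2 ax3` = the three planar facts -/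
structure Mdl41cGeo (R B LE RE Top : Finset (ℤ × ℤ)) (M : ℕ) (β : ℕ → ℤ × ℤ) : Prop where
  hB : B = R ∪ LE ∪ RE
  hRE : Disjoint RE R
  top : Top ⊆ R
  bot : ∀ i < M, β i ∈ R
  inj : ∀ i < M, ∀ i' < M, β i = β i' → i = i'
  adj : ∀ i, i + 1 < M → Mdl41cAdj (β i) (β (i + 1))
  last : ∃ ρ ∈ RE, Mdl41cAdj (β (M - 1)) ρ
  reC : ∀ z ∈ RE, ∀ z' ∈ RE, Mdl41cJoin RE z z'
  bC : ∀ g ∈ B, ∃ z ∈ RE, Mdl41cJoin B z g
  conn : Mdl41Conn B
  ax1 : ∀ (P P' : Finset (ℤ × ℤ)) (i₁ i₂ i₃ : ℕ) (g : ℤ × ℤ), P ⊆ R → P' ⊆ R → i₁ < i₂ → i₂ < i₃ → i₃ < M →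
      β i₁ ∈ P → Mdl41cJoin P (β i₁) (β i₃) → β i₂ ∈ P' → g ∈ Top → Mdl41cJoin P' (β i₂) g → ¬ Disjoint P P'
  ax2 : ∀ (P P' : Finset (ℤ × ℤ)) (i₁ i₂ : ℕ) (h ρ g : ℤ × ℤ), P ⊆ R → P' ⊆ R → i₁ < i₂ → i₂ < M →
      β i₁ ∈ P → Mdl41cJoin P (β i₁) h → ρ ∈ RE → Mdl41cAdj h ρ → β i₂ ∈ P' → g ∈ Top → Mdl41cJoin P' (β i₂) g →
      ¬ Disjoint P P'
  ax3 : ∀ (P : Finset (ℤ × ℤ)) (i₁ : ℕ) (g z l : ℤ × ℤ), P ⊆ R → i₁ < M → β i₁ ∈ P → g ∈ Top →
      Mdl41cJoin P (β i₁) g → z ∈ RE → l ∈ LE → ¬ Mdl41cJoin (B \ P) z l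

open Classical in
/-- the component of `f` -/
noncomputable def mdl41cComp (R : Finset (ℤ × ℤ)) (ω : RswCfg) (f : ℤ × ℤ) : Finset (ℤ × ℤ) :=
  R.filter (fun g => MdlNConn R ω f g)

theorem mdl41c_mem_comp {R : Finset (ℤ × ℤ)} {ω : RswCfg} {f g : ℤ × ℤ} :
    g ∈ mdl41cComp R ω f ↔ g ∈ R ∧ MdlNConn R ω f g := by
  classical
  simp [mdl41cComp]

theorem mdl41c_comp_sub (R : Finset (ℤ × ℤ)) (ω : RswCfg) (f : ℤ × ℤ) : mdl41cComp R ω f ⊆ R :=
  fun _ h => (mdl41c_mem_comp.1 h).1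

theorem mdl41c_comp_join {R : Finset (ℤ × ℤ)} {ω : RswCfg} {f g : ℤ × ℤ} (hf : f ∈ R) (h : MdlNConn R ω f g) :
    Mdl41cJoin (mdl41cComp R ω f) f g :=
  (mdl41c_nconn_into h (mdl41c_mem_comp.2 ⟨hf, ReflTransGen.refl⟩)
    (fun _ _ ha hab => mdl41c_mem_comp.2 ⟨hab.2.1, (mdl41c_mem_comp.1 ha).2.tail hab⟩)).2.2

theorem mdl41c_mem_exp {R : Finset (ℤ × ℤ)} {β : ℕ → ℤ × ℤ} {ω : RswCfg} {i : ℕ} {g : ℤ × ℤ} :
    g ∈ mdl41cExp R β ω i ↔ g ∈ R ∧ ∃ i' ≤ i, MdlNConn R ω (β i') g := by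
  classical
  simp [mdl41cExp]

theorem mdl41c_comp_sub_exp {R : Finset (ℤ × ℤ)} {β : ℕ → ℤ × ℤ} {ω : RswCfg} {i i' : ℕ} (h : i' ≤ i) :
    mdl41cComp R ω (β i') ⊆ mdl41cExp R β ω i := fun _ hg =>
  mdl41c_mem_exp.2 ⟨(mdl41c_mem_comp.1 hg).1, i', h, (mdl41c_mem_comp.1 hg).2⟩

theorem mdl41c_exp_closed {R : Finset (ℤ × ℤ)} {β : ℕ → ℤ × ℤ} {ω : RswCfg} {i : ℕ} {a b : ℤ × ℤ}
    (ha : a ∈ mdl41cExp R β ω i) (hab : MdlNStep R ω a b) : b ∈ mdl41cExp R β ω i := by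
  obtain ⟨-, i', hi', h⟩ := mdl41c_mem_exp.1 ha
  exact mdl41c_mem_exp.2 ⟨hab.2.1, i', hi', h.tail hab⟩

/-- the explored set is connected -/
theorem mdl41c_exp_conn {R B LE RE Top : Finset (ℤ × ℤ)} {M : ℕ} {β : ℕ → ℤ × ℤ} (G : Mdl41cGeo R B LE RE Top M β)
    (ω : RswCfg) {i : ℕ} (hi : i < M) {f g : ℤ × ℤ} (hf : f ∈ mdl41cExp R β ω i) (hg : g ∈ mdl41cExp R β ω i) :
    Mdl41cJoin (mdl41cExp R β ω i) f g := by
  have hseed : ∀ k ≤ i, β k ∈ mdl41cExp R β ω i := fun k hk =>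
    mdl41c_mem_exp.2 ⟨G.bot k (by omega), k, hk, ReflTransGen.refl⟩
  have h0 : ∀ k ≤ i, Mdl41cJoin (mdl41cExp R β ω i) (β 0) (β k) := by
    intro k
    induction k with
    | zero => exact fun _ => mdl41c_join_refl _ _
    | succ k ih =>
      intro hk
      exact mdl41c_join_trans (ih (by omega))
        (mdl41c_join_step (hseed k (by omega)) (hseed (k + 1) hk) (G.adj k (by omega)))
  have key : ∀ g ∈ mdl41cExp R β ω i, Mdl41cJoin (mdl41cExp R β ω i) (β 0) g := by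
    intro g hg
    obtain ⟨-, i', hi', h⟩ := mdl41c_mem_exp.1 hg
    exact mdl41c_join_trans (h0 i' hi')
      (mdl41c_join_mono (mdl41c_comp_sub_exp hi') (mdl41c_comp_join (G.bot i' (by omega)) h))
  exact mdl41c_join_trans (mdl41c_join_symm (key f hf)) (key g hg)

/-- the component of a later record is disjoint from the explored set -/
theorem mdl41c_rec_disj {R Top : Finset (ℤ × ℤ)} {β : ℕ → ℤ × ℤ} {ω : RswCfg} {i i'' : ℕ} (h : i < i'')
    (hr : Mdl41cRec R Top β ω i'') : Disjoint (mdl41cExp R β ω i) (mdl41cComp R ω (β i'')) := by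
  rw [Finset.disjoint_left]
  intro g h1 h2
  obtain ⟨-, i', hi', h3⟩ := mdl41c_mem_exp.1 h1
  exact hr.2 i' (by omega) (mdl41c_nconn_trans h3 (mdl41c_nconn_symm (mdl41c_mem_comp.1 h2).2))

/-- (PC3) if the explored set touches the right extension there is no later record -/
theorem mdl41c_no_rec_of_touch {R B LE RE Top : Finset (ℤ × ℤ)} {M : ℕ} {β : ℕ → ℤ × ℤ} (G : Mdl41cGeo R B LE RE Top M β)
    {ω : RswCfg} {i i'' : ℕ} (h : i < i'') (hM : i'' < M) (hr : Mdl41cRec R Top β ω i'')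
    {x ρ : ℤ × ℤ} (hx : x ∈ mdl41cExp R β ω i) (hρ : ρ ∈ RE) (hxρ : Mdl41cAdj x ρ) : False := by
  obtain ⟨-, i', hi', h3⟩ := mdl41c_mem_exp.1 hx
  obtain ⟨g, hg, hc⟩ := hr.1
  have hb' := G.bot i' (by omega)
  have hb'' := G.bot i'' hM
  refine G.ax2 (mdl41cComp R ω (β i')) (mdl41cComp R ω (β i'')) i' i'' x ρ g (mdl41c_comp_sub _ _ _)
    (mdl41c_comp_sub _ _ _) (by omega) hM (mdl41c_mem_comp.2 ⟨hb', ReflTransGen.refl⟩) (mdl41c_comp_join hb' h3)
    hρ hxρ (mdl41c_mem_comp.2 ⟨hb'', ReflTransGen.refl⟩) hg (mdl41c_comp_join hb'' hc) ?_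
  exact Finset.disjoint_of_subset_left (mdl41c_comp_sub_exp hi') (mdl41c_rec_disj h hr)

/-- (PC2) a later record crosses inside the chamber -/
theorem mdl41c_rec_in_ch {R B LE RE Top : Finset (ℤ × ℤ)} {M : ℕ} {β : ℕ → ℤ × ℤ} (G : Mdl41cGeo R B LE RE Top M β)
    {ω : RswCfg} {i i'' : ℕ} (h : i < i'') (hM : i'' < M) (hr : Mdl41cRec R Top β ω i'') :
    β i'' ∈ mdl41cCh B (mdl41cExp R β ω i) RE ∩ R ∧
      ∃ g ∈ Top, MdlNConn (mdl41cCh B (mdl41cExp R β ω i) RE ∩ R) ω (β i'') g := by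
  classical
  set E := mdl41cExp R β ω i with hE
  have hER : E ⊆ R := Finset.filter_subset _ _
  have hRB : R ⊆ B := by rw [G.hB]; exact fun x hx => Finset.mem_union_left _ (Finset.mem_union_left _ hx)
  have hREB : RE ⊆ B \ E := fun z hz => Finset.mem_sdiff.2
    ⟨by rw [G.hB]; exact Finset.mem_union_right _ hz, fun hzE => Finset.disjoint_left.1 G.hRE hz (hER hzE)⟩
  obtain ⟨g, hg, hc⟩ := hr.1
  have hb'' := G.bot i'' hM
  have hdis := mdl41c_rec_disj h hr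
  -- no later seed is explored
  have hnot : ∀ k, i'' ≤ k → k < M → β k ∉ E := by
    intro k hk hkM hkE
    rcases Nat.eq_or_lt_of_le hk with rfl | hlt
    · exact Finset.disjoint_left.1 hdis hkE (mdl41c_mem_comp.2 ⟨hb'', ReflTransGen.refl⟩)
    · obtain ⟨-, i', hi', h3⟩ := mdl41c_mem_exp.1 hkE
      have hb' := G.bot i' (by omega)
      refine G.ax1 (mdl41cComp R ω (β i')) (mdl41cComp R ω (β i'')) i' i'' k g (mdl41c_comp_sub _ _ _)
        (mdl41c_comp_sub _ _ _) (by omega) hlt hkM (mdl41c_mem_comp.2 ⟨hb', ReflTransGen.refl⟩)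
        (mdl41c_comp_join hb' h3) (mdl41c_mem_comp.2 ⟨hb'', ReflTransGen.refl⟩) hg (mdl41c_comp_join hb'' hc) ?_
      exact Finset.disjoint_of_subset_left (mdl41c_comp_sub_exp hi') hdis
  -- hence all later seeds are in the chamber
  have hin : ∀ d k, k + d = M - 1 → i'' ≤ k → β k ∈ mdl41cCh B E RE := by
    intro d
    induction d with
    | zero =>
      intro k hk hik
      obtain ⟨ρ, hρ, hadj⟩ := G.last
      have hk' : k = M - 1 := by omega
      subst hk'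
      exact mdl41c_ch_closed (mdl41c_re_sub_ch hREB hρ)
        (Finset.mem_sdiff.2 ⟨hRB (G.bot _ (by omega)), hnot _ hik (by omega)⟩) (mdl41c_adj_symm hadj)
    | succ d ih =>
      intro k hk hik
      exact mdl41c_ch_closed (ih (k + 1) (by omega) (by omega))
        (Finset.mem_sdiff.2 ⟨hRB (G.bot _ (by omega)), hnot _ hik (by omega)⟩) (mdl41c_adj_symm (G.adj k (by omega)))
  have hseed : β i'' ∈ mdl41cCh B E RE ∩ R := Finset.mem_inter.2 ⟨hin (M - 1 - i'') i'' (by omega) le_rfl, hb''⟩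
  refine ⟨hseed, g, hg, (mdl41c_nconn_into hc hseed ?_).2.1⟩
  intro a b ha hab
  have haC := (Finset.mem_inter.1 ha).1
  have hbE : b ∉ E := fun hbE =>
    (Finset.mem_sdiff.1 (mdl41c_ch_sub B E RE haC)).2 (mdl41c_exp_closed hbE (mdl41c_nstep_symm hab))
  exact Finset.mem_inter.2 ⟨mdl41c_ch_closed haC (Finset.mem_sdiff.2 ⟨hRB hab.2.1, hbE⟩) (mdl41c_nstep_adj hab), hab.2.1⟩

/-- the wall of the chamber is made of open edges -/
theorem mdl41c_wall_open {R B LE RE Top : Finset (ℤ × ℤ)} {M : ℕ} {β : ℕ → ℤ × ℤ} (G : Mdl41cGeo R B LE RE Top M β)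
    {ω : RswCfg} {i : ℕ} (hM : i < M) (hr : Mdl41cRec R Top β ω i)
    (hnt : ∀ x ∈ mdl41cExp R β ω i, ∀ ρ ∈ RE, ¬ Mdl41cAdj x ρ)
    {e : (ℤ × ℤ) × Bool} (he : e ∈ mdl41DisSet B (mdl41cCh B (mdl41cExp R β ω i) RE)) : e ∈ ω.O := by
  classical
  set E := mdl41cExp R β ω i with hE
  obtain ⟨h1, h2⟩ := mdl41_mem_disSet.1 he
  obtain ⟨h3, h4⟩ := mdl41_mem_int.1 h1
  -- the two faces
  obtain ⟨f, g, hf, hgB, hg, hfg⟩ : ∃ f g, f ∈ mdl41cCh B E RE ∧ g ∈ B ∧ g ∉ mdl41cCh B E RE ∧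
      ((f = e.1 ∧ g = rswCo e) ∨ (g = e.1 ∧ f = rswCo e)) := by
    unfold Mdl41Dis at h2
    by_cases h5 : e.1 ∈ mdl41cCh B E RE
    · exact ⟨e.1, rswCo e, h5, h4, fun h6 => h2 ⟨fun _ => h6, fun _ => h5⟩, Or.inl ⟨rfl, rfl⟩⟩
    · have h6 : rswCo e ∈ mdl41cCh B E RE := by
        by_contra h6
        exact h2 ⟨fun h => absurd h h5, fun h => absurd h h6⟩
      exact ⟨rswCo e, e.1, h6, h3, h5, Or.inr ⟨rfl, rfl⟩⟩
  have hadj : Mdl41cAdj f g := ⟨e, hfg⟩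
  have hgE : g ∈ E := by
    by_contra hgE
    exact hg (mdl41c_ch_closed hf (Finset.mem_sdiff.2 ⟨hgB, hgE⟩) hadj)
  have hfBE := mdl41c_ch_sub B E RE hf
  have hfR : f ∈ R := by
    have hfB := (Finset.mem_sdiff.1 hfBE).1
    rw [G.hB, Finset.mem_union, Finset.mem_union] at hfB
    rcases hfB with (hfR | hfL) | hfRE
    · exact hfR
    · exfalso
      obtain ⟨-, z, hz, hj⟩ := mdl41c_mem_ch.1 hf
      obtain ⟨g', hg', hc⟩ := hr.1
      have hb := G.bot i hM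
      refine G.ax3 (mdl41cComp R ω (β i)) i g' z f (mdl41c_comp_sub _ _ _) hM
        (mdl41c_mem_comp.2 ⟨hb, ReflTransGen.refl⟩) hg' (mdl41c_comp_join hb hc) hz hfL
        (mdl41c_join_mono (Finset.sdiff_subset_sdiff le_rfl (mdl41c_comp_sub_exp le_rfl)) hj)
    · exact absurd (mdl41c_adj_symm hadj) (hnt g hgE f hfRE)
  by_contra heO
  have hstep : MdlNStep R ω g f := ⟨(mdl41c_mem_exp.1 hgE).1, hfR, e, hfg.symm, heO⟩
  exact (Finset.mem_sdiff.1 hfBE).2 (mdl41c_exp_closed hgE hstep)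
/-! ## 7. elementary probability -/

theorem mdl41c_P_fsum_le {ι : Type*} {t : ℝ} (h0 : 0 ≤ t) (h1 : t ≤ 1) (F : Finset (ℤ × ℤ)) (b : Bool) (s : Finset ι)
    (A : ι → RswCfg → Prop) (C : RswCfg → Prop) (hd : ∀ α ∈ s, ∀ α' ∈ s, ∀ ω, A α ω → A α' ω → α = α')
    (hC : ∀ α ∈ s, ∀ ω, A α ω → C ω) : ∑ α ∈ s, rswP t F b (A α) ≤ rswP t F b C := by
  classical
  simp only [rsz_P_def]
  rw [← rsz_E_fsum]
  refine rsz_E_mono h0 h1 F b fun ω => ?_
  by_cases hex : ∃ α ∈ s, A α ω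
  · obtain ⟨α, hα, hA⟩ := hex
    rw [if_pos (hC α hα ω hA), Finset.sum_eq_single α, if_pos hA]
    · intro α' hα' hne
      exact if_neg fun hA' => hne (hd α' hα' α hα ω hA' hA)
    · exact fun h => absurd hα h
  · have : ∑ α ∈ s, (if A α ω then (1 : ℝ) else 0) = 0 :=
      Finset.sum_eq_zero fun α hα => if_neg fun hA => hex ⟨α, hα, hA⟩
    rw [this]
    split_ifs <;> norm_num

theorem mdl41c_P_le_fsum {ι : Type*} {t : ℝ} (h0 : 0 ≤ t) (h1 : t ≤ 1) (F : Finset (ℤ × ℤ)) (b : Bool) (s : Finset ι)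
    (A : ι → RswCfg → Prop) (C : RswCfg → Prop) (hcov : ∀ ω, C ω → ∃ α ∈ s, A α ω) :
    rswP t F b C ≤ ∑ α ∈ s, rswP t F b (A α) := by
  classical
  simp only [rsz_P_def]
  rw [← rsz_E_fsum]
  refine rsz_E_mono h0 h1 F b fun ω => ?_
  have hnn : ∀ α ∈ s, (0 : ℝ) ≤ if A α ω then (1 : ℝ) else 0 := fun α _ => by split_ifs <;> norm_num
  by_cases hCω : C ω
  · obtain ⟨α, hα, hA⟩ := hcov ω hCω
    rw [if_pos hCω]
    calc (1 : ℝ) = if A α ω then (1 : ℝ) else 0 := (if_pos hA).symm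
      _ ≤ _ := Finset.single_le_sum hnn hα
  · rw [if_neg hCω]
    exact Finset.sum_nonneg hnn

theorem mdl41c_P_add_le {t : ℝ} (h0 : 0 ≤ t) (h1 : t ≤ 1) (F : Finset (ℤ × ℤ)) (b : Bool) {A A' C : RswCfg → Prop}
    (hd : ∀ ω, A ω → A' ω → False) (hA : ∀ ω, A ω → C ω) (hA' : ∀ ω, A' ω → C ω) :
    rswP t F b A + rswP t F b A' ≤ rswP t F b C := by
  classical
  rw [rsz_P_def, rsz_P_def, rsz_P_def, ← rsz_E_add]
  refine rsz_E_mono h0 h1 F b fun ω => ?_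
  by_cases a : A ω
  · have a' : ¬ A' ω := fun a' => hd ω a a'
    simp [a, a', hA ω a]
  · by_cases a' : A' ω
    · simp [a, a', hA' ω a']
    · simp only [a, a', if_false, add_zero]
      split_ifs <;> norm_num

/-- an open interior edge of a configuration of nonzero weight has equal spins at its ends -/
theorem mdl41c_cons {t : ℝ} {F : Finset (ℤ × ℤ)} {b : Bool} {ω : RswCfg} (hw : rswWt t F b ω ≠ 0)
    {e : (ℤ × ℤ) × Bool} (he : e ∈ rswInt F) (hO : e ∈ ω.O) : e.1 ∈ ω.S ↔ rswEnd e ∈ ω.S := by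
  classical
  unfold rswWt at hw
  split_ifs at hw with hbc
  · have h1 := Finset.prod_ne_zero_iff.1 hw e he
    unfold rswFac at h1
    rw [if_pos hO] at h1
    by_contra h2
    rw [if_neg h2] at h1
    exact h1 rfl
  · exact absurd rfl hw

theorem mdl41c_cnt_succ {R A B : Finset (ℤ × ℤ)} {j : ℕ} {ω : RswCfg} (h : Mdl41cCnt R A B (j + 1) ω) :
    Mdl41cCnt R A B j ω := by
  classical
  obtain ⟨T, h1, h2, h3, h4⟩ := h
  obtain ⟨T', hT', hc⟩ := Finset.exists_subset_card_eq (s := T) (n := j) (by omega)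
  exact ⟨T', hT'.trans h1, hc, fun f hf => h3 f (hT' hf), fun f hf g hg => h4 f (hT' hf) g (hT' hg)⟩

/-! ## 8. the record (WB) and one step of the search -/

/-- no chain of `N` inside `P` from `Bot` to `Top` -/
def Mdl41cNoX (P Bot Top : Finset (ℤ × ℤ)) (ω : RswCfg) : Prop :=
  ∀ f ∈ Bot, ∀ g ∈ Top, f ∈ P → ¬ MdlNConn P ω f g

/-- **RECORD (WB) = WALL BLOCKING, at one problem** (TEX 03-spatial l.917-985: disintegration over the data off the chamber, adverse boundary condition,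
fill of the explored side, chain of circuits in the central strip): `Ch` a connected chamber of `B` which contains the right extension, with connected complement `B \ Ch`
which contains the left extension (or `Ch = B`); `H` ANY `(s,W)` data off `Bf \ (B \ Ch)` (= far data off the buffer `Bf` + data of the explored side `B \ Ch`) on which all the edges
between `Ch` and `B \ Ch` are good of colour `a`. Then with conditional probability `≥ p` no chain of `N` crosses `R` inside the chamber. -/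
def Mdl41cWBat (t : ℝ) (F : Finset (ℤ × ℤ)) (b : Bool) (p : ℝ) (R B Bf LE RE Bot Top : Finset (ℤ × ℤ)) : Prop :=
  ∀ (Ch : Finset (ℤ × ℤ)) (a : Bool) (H : RswCfg → Prop), RE ⊆ Ch → Ch ⊆ B → (Ch = B ∨ LE ⊆ B \ Ch) →
    (∀ f ∈ Ch, ∀ g ∈ Ch, Mdl41cJoin Ch f g) → (∀ f ∈ B \ Ch, ∀ g ∈ B \ Ch, Mdl41cJoin (B \ Ch) f g) →
    MdlExt (Bf \ (B \ Ch)) H → (∀ ω, H ω → Mdl41cWall B Ch a ω) →
    p * rswP t F b H ≤ rswP t F b (fun ω => H ω ∧ Mdl41cNoX (Ch ∩ R) Bot Top ω)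

/-- one step, on one stopping event -/
theorem mdl41c_step_at {R B LE RE Top : Finset (ℤ × ℤ)} {M : ℕ} {β : ℕ → ℤ × ℤ} (G : Mdl41cGeo R B LE RE Top M β)
    {t : ℝ} (ht0 : 0 < t) (ht1 : t ≤ 1) {F : Finset (ℤ × ℤ)} (hBF : B ⊆ F) (b : Bool) {p : ℝ} (hp1 : p ≤ 1)
    {Bf : Finset (ℤ × ℤ)}
    (hWB : Mdl41cWBat t F b p R B Bf LE RE ((Finset.range M).image β) Top) {L : RswCfg → Prop} (hL : MdlExt Bf L)
    (j : ℕ) {i : ℕ} (hi : i < M) (E : Finset (ℤ × ℤ)) :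
    p * rswP t F b (fun ω => L ω ∧ Mdl41cX R Top β j i E ω) ≤
      rswP t F b (fun ω => (L ω ∧ Mdl41cX R Top β j i E ω) ∧ ¬ Mdl41cCnt R ((Finset.range M).image β) Top (j + 1) ω) := by
  classical
  by_cases hex : ∃ ω₀, Mdl41cX R Top β j i E ω₀ ∧ Mdl41cCnt R ((Finset.range M).image β) Top (j + 1) ω₀
  swap
  · have : (fun ω => (L ω ∧ Mdl41cX R Top β j i E ω) ∧ ¬ Mdl41cCnt R ((Finset.range M).image β) Top (j + 1) ω) =
        fun ω => L ω ∧ Mdl41cX R Top β j i E ω :=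
      funext fun ω => propext ⟨And.left, fun h => ⟨h, fun hc => hex ⟨ω, h.2, hc⟩⟩⟩
    rw [this]
    exact mul_le_of_le_one_left (rsz_P_nonneg ht0.le ht1 F b _) hp1
  obtain ⟨ω₀, hX₀, hC₀⟩ := hex
  have hE₀ : mdl41cExp R β ω₀ i = E := hX₀.2.2
  obtain ⟨i₀, hi₀, hi₀M, hr₀⟩ := mdl41c_X_next hX₀ hC₀
  have hnt : ∀ x ∈ E, ∀ ρ ∈ RE, ¬ Mdl41cAdj x ρ := by
    intro x hx ρ hρ hxρ
    rw [← hE₀] at hx
    exact mdl41c_no_rec_of_touch G hi₀ hi₀M hr₀ hx hρ hxρ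
  have hER : E ⊆ R := by rw [← hE₀]; exact Finset.filter_subset _ _
  have hRB : R ⊆ B := by rw [G.hB]; exact fun x hx => Finset.mem_union_left _ (Finset.mem_union_left _ hx)
  have hREB : RE ⊆ B \ E := fun z hz => Finset.mem_sdiff.2
    ⟨by rw [G.hB]; exact Finset.mem_union_right _ hz, fun hzE => Finset.disjoint_left.1 G.hRE hz (hER hzE)⟩
  set Ch := mdl41cCh B E RE with hCh
  have hChB : Ch ⊆ B := fun x hx => (Finset.mem_sdiff.1 (mdl41c_ch_sub B E RE hx)).1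
  have hc1 : ∀ f ∈ Ch, ∀ g ∈ Ch, Mdl41cJoin Ch f g := fun f hf g hg => mdl41c_ch_conn hREB G.reC hf hg
  have hEc : ∀ f ∈ E, ∀ g ∈ E, Mdl41cJoin E f g := by
    intro f hf g hg
    rw [← hE₀] at hf hg ⊢
    exact mdl41c_exp_conn G ω₀ hi hf hg
  have hc2 : ∀ f ∈ B \ Ch, ∀ g ∈ B \ Ch, Mdl41cJoin (B \ Ch) f g := fun f hf g hg =>
    mdl41c_off_conn (hER.trans hRB) hREB G.bC hEc hf hg
  have hdis : Disjoint E Ch := Finset.disjoint_left.2 fun x hx hxC => (Finset.mem_sdiff.1 (mdl41c_ch_sub B E RE hxC)).2 hx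
  have hEX : E ⊆ B \ Ch := fun x hx => Finset.mem_sdiff.2 ⟨hRB (hER hx), fun hc => Finset.disjoint_left.1 hdis hx hc⟩
  have hVd : Disjoint (Bf \ (B \ Ch)) (B \ Ch) := Finset.sdiff_disjoint
  have hXext : MdlExt (Bf \ (B \ Ch)) (fun ω => L ω ∧ Mdl41cX R Top β j i E ω) :=
    mdl41c_ext_and (mdl41c_ext_mono Finset.sdiff_subset hL) (mdl41c_X_ext (fun i' hi' => G.bot i' (by omega))
      (Finset.disjoint_of_subset_left hEX hVd.symm))
  have hLE : Ch = B ∨ LE ⊆ B \ Ch := by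
    right
    intro l hl
    refine Finset.mem_sdiff.2 ⟨by rw [G.hB]; exact Finset.mem_union_left _ (Finset.mem_union_right _ hl), fun hlC => ?_⟩
    obtain ⟨-, z, hz, hj⟩ := mdl41c_mem_ch.1 hlC
    obtain ⟨g', hg', hc⟩ := hX₀.1.1
    have hb := G.bot i hi
    refine G.ax3 (mdl41cComp R ω₀ (β i)) i g' z l (mdl41c_comp_sub _ _ _) hi
      (mdl41c_mem_comp.2 ⟨hb, ReflTransGen.refl⟩) hg' (mdl41c_comp_join hb hc) hz hl
      (mdl41c_join_mono (Finset.sdiff_subset_sdiff le_rfl ?_) hj)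
    rw [← hE₀]
    exact mdl41c_comp_sub_exp le_rfl
  have r₁ := hWB Ch true (fun ω => (L ω ∧ Mdl41cX R Top β j i E ω) ∧ Mdl41cWall B Ch true ω)
    (mdl41c_re_sub_ch hREB) hChB hLE hc1 hc2 (mdl41c_ext_and hXext (mdl41c_wall_ext B Ch true hVd)) (fun ω h => h.2)
  have r₂ := hWB Ch false (fun ω => ((L ω ∧ Mdl41cX R Top β j i E ω) ∧ Mdl41cWall B Ch false ω) ∧ ¬ Mdl41cWall B Ch true ω)
    (mdl41c_re_sub_ch hREB) hChB hLE hc1 hc2
    (mdl41c_ext_and (mdl41c_ext_and hXext (mdl41c_wall_ext B Ch false hVd)) (mdl41c_ext_not (mdl41c_wall_ext B Ch true hVd)))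
    (fun ω h => h.1.2)
  -- covering
  have hcov : rswP t F b (fun ω => L ω ∧ Mdl41cX R Top β j i E ω) ≤
      rswP t F b (fun ω => (L ω ∧ Mdl41cX R Top β j i E ω) ∧ Mdl41cWall B Ch true ω) +
      rswP t F b (fun ω => ((L ω ∧ Mdl41cX R Top β j i E ω) ∧ Mdl41cWall B Ch false ω) ∧ ¬ Mdl41cWall B Ch true ω) := by
    refine le_trans (rsz_P_mono' ht0.le ht1 F b ?_) (rsz_P_union ht0.le ht1 F b _ _)
    intro ω _ _ _ hw h
    have hEω : mdl41cExp R β ω i = E := h.2.2.2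
    have hopen : ∀ e ∈ mdl41DisSet B Ch, e ∈ ω.O ∧ (e.1 ∈ ω.S ↔ rswEnd e ∈ ω.S) := by
      intro e he
      have hO : e ∈ ω.O := by
        refine mdl41c_wall_open G hi h.2.1 ?_ ?_
        · rw [hEω]; exact hnt
        · rw [hEω]; exact he
      have hint := mdl41_mem_int.1 (mdl41_mem_disSet.1 he).1
      exact ⟨hO, mdl41c_cons hw (mdl41_mem_int.2 ⟨hBF hint.1, hBF hint.2⟩) hO⟩
    by_cases hwt : Mdl41cWall B Ch true ω
    · exact Or.inl ⟨h, hwt⟩
    · rcases mdl41c_mono_wall G.conn hChB hc1 hc2 hopen with h' | h'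
      · exact absurd h' hwt
      · exact Or.inr ⟨⟨h, h'⟩, hwt⟩
  -- blocking kills the next component
  have hblock : ∀ ω, Mdl41cX R Top β j i E ω → Mdl41cNoX (Ch ∩ R) ((Finset.range M).image β) Top ω →
      ¬ Mdl41cCnt R ((Finset.range M).image β) Top (j + 1) ω := by
    intro ω hX hno hC
    obtain ⟨i'', h1, h2, h3⟩ := mdl41c_X_next hX hC
    obtain ⟨h4, g, hg, h5⟩ := mdl41c_rec_in_ch G h1 h2 h3
    rw [hX.2.2] at h4 h5
    exact hno (β i'') (Finset.mem_image_of_mem _ (Finset.mem_range.2 h2)) g hg h4 h5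
  have hfin := mdl41c_P_add_le ht0.le ht1 F b
    (A := fun ω => ((L ω ∧ Mdl41cX R Top β j i E ω) ∧ Mdl41cWall B Ch true ω) ∧ Mdl41cNoX (Ch ∩ R) ((Finset.range M).image β) Top ω)
    (A' := fun ω => (((L ω ∧ Mdl41cX R Top β j i E ω) ∧ Mdl41cWall B Ch false ω) ∧ ¬ Mdl41cWall B Ch true ω) ∧
      Mdl41cNoX (Ch ∩ R) ((Finset.range M).image β) Top ω)
    (C := fun ω => (L ω ∧ Mdl41cX R Top β j i E ω) ∧ ¬ Mdl41cCnt R ((Finset.range M).image β) Top (j + 1) ω)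
    (fun ω h h' => h'.1.2 h.1.2) (fun ω h => ⟨h.1.1, hblock ω h.1.1.2 h.2⟩) (fun ω h => ⟨h.1.1.1, hblock ω h.1.1.1.2 h.2⟩)
  by_cases hp0 : 0 ≤ p
  · calc p * rswP t F b (fun ω => L ω ∧ Mdl41cX R Top β j i E ω) ≤ p * (_ + _) := mul_le_mul_of_nonneg_left hcov hp0
      _ = p * _ + p * _ := mul_add _ _ _
      _ ≤ _ := le_trans (add_le_add r₁ r₂) hfin
  · exact le_trans (mul_nonpos_of_nonpos_of_nonneg (not_le.1 hp0).le (rsz_P_nonneg ht0.le ht1 F b _))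
      (rsz_P_nonneg ht0.le ht1 F b _)
/-- **one step of the search**, `j ≥ 1` -/
theorem mdl41c_step {R B LE RE Top : Finset (ℤ × ℤ)} {M : ℕ} {β : ℕ → ℤ × ℤ} (G : Mdl41cGeo R B LE RE Top M β)
    {t : ℝ} (ht0 : 0 < t) (ht1 : t ≤ 1) {F : Finset (ℤ × ℤ)} (hBF : B ⊆ F) (b : Bool) {p : ℝ} (hp0 : 0 ≤ p) (hp1 : p ≤ 1)
    {Bf : Finset (ℤ × ℤ)}
    (hWB : Mdl41cWBat t F b p R B Bf LE RE ((Finset.range M).image β) Top) {L : RswCfg → Prop} (hL : MdlExt Bf L)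
    {j : ℕ} (hj : 1 ≤ j) :
    rswP t F b (fun ω => L ω ∧ Mdl41cCnt R ((Finset.range M).image β) Top (j + 1) ω) ≤
      (1 - p) * rswP t F b (fun ω => L ω ∧ Mdl41cCnt R ((Finset.range M).image β) Top j ω) := by
  classical
  set Bot := (Finset.range M).image β with hBot
  set s : Finset (ℕ × Finset (ℤ × ℤ)) := (Finset.range M) ×ˢ R.powerset with hs
  have h1 : rswP t F b (fun ω => L ω ∧ Mdl41cCnt R Bot Top j ω) ≤
      ∑ α ∈ s, rswP t F b (fun ω => L ω ∧ Mdl41cX R Top β j α.1 α.2 ω) := by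
    refine mdl41c_P_le_fsum ht0.le ht1 F b s (fun α ω => L ω ∧ Mdl41cX R Top β j α.1 α.2 ω) _ ?_
    rintro ω ⟨hLω, hC⟩
    obtain ⟨i, hi, hX⟩ := mdl41c_X_cover hC hj
    exact ⟨(i, mdl41cExp R β ω i), Finset.mem_product.2 ⟨Finset.mem_range.2 hi,
      Finset.mem_powerset.2 (Finset.filter_subset _ _)⟩, hLω, hX⟩
  have h2 : ∑ α ∈ s, p * rswP t F b (fun ω => L ω ∧ Mdl41cX R Top β j α.1 α.2 ω) ≤
      ∑ α ∈ s, rswP t F b (fun ω => (L ω ∧ Mdl41cX R Top β j α.1 α.2 ω) ∧ ¬ Mdl41cCnt R Bot Top (j + 1) ω) :=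
    Finset.sum_le_sum fun α hα =>
      mdl41c_step_at G ht0 ht1 hBF b hp1 hWB hL j (Finset.mem_range.1 (Finset.mem_product.1 hα).1) α.2
  have h3 : ∑ α ∈ s, rswP t F b (fun ω => (L ω ∧ Mdl41cX R Top β j α.1 α.2 ω) ∧ ¬ Mdl41cCnt R Bot Top (j + 1) ω) ≤
      rswP t F b (fun ω => (L ω ∧ Mdl41cCnt R Bot Top j ω) ∧ ¬ Mdl41cCnt R Bot Top (j + 1) ω) := by
    refine mdl41c_P_fsum_le ht0.le ht1 F b s
      (fun α ω => (L ω ∧ Mdl41cX R Top β j α.1 α.2 ω) ∧ ¬ Mdl41cCnt R Bot Top (j + 1) ω) _ ?_ ?_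
    · intro α _ α' _ ω h h'
      obtain ⟨e1, e2⟩ := mdl41c_X_disj h.1.2 h'.1.2
      exact Prod.ext e1 e2
    · intro α hα ω h
      exact ⟨⟨h.1.1, mdl41c_X_cnt G.inj (Finset.mem_range.1 (Finset.mem_product.1 hα).1) h.1.2⟩, h.2⟩
  have h4 := mdl41c_P_add_le ht0.le ht1 F b
    (A := fun ω => (L ω ∧ Mdl41cCnt R Bot Top j ω) ∧ ¬ Mdl41cCnt R Bot Top (j + 1) ω)
    (A' := fun ω => L ω ∧ Mdl41cCnt R Bot Top (j + 1) ω) (C := fun ω => L ω ∧ Mdl41cCnt R Bot Top j ω)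
    (fun ω h h' => h.2 h'.2) (fun ω h => h.1) (fun ω h => ⟨h.1, mdl41c_cnt_succ h.2⟩)
  rw [← Finset.mul_sum] at h2
  have h5 := mul_le_mul_of_nonneg_left h1 hp0
  linarith

/-- the first step: no wall -/
theorem mdl41c_step0 {R B LE RE Top : Finset (ℤ × ℤ)} {M : ℕ} {β : ℕ → ℤ × ℤ} (G : Mdl41cGeo R B LE RE Top M β)
    {t : ℝ} (ht0 : 0 < t) (ht1 : t ≤ 1) (F : Finset (ℤ × ℤ)) (b : Bool) {p : ℝ}
    {Bf : Finset (ℤ × ℤ)}
    (hWB : Mdl41cWBat t F b p R B Bf LE RE ((Finset.range M).image β) Top) {L : RswCfg → Prop} (hL : MdlExt Bf L) :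
    rswP t F b (fun ω => L ω ∧ Mdl41cCnt R ((Finset.range M).image β) Top 1 ω) ≤ (1 - p) * rswP t F b L := by
  classical
  have hRB : R ⊆ B := by rw [G.hB]; exact fun x hx => Finset.mem_union_left _ (Finset.mem_union_left _ hx)
  have hREB : RE ⊆ B := by rw [G.hB]; exact fun x hx => Finset.mem_union_right _ hx
  have hc : ∀ f ∈ B, ∀ g ∈ B, Mdl41cJoin B f g := by
    intro f hf g hg
    obtain ⟨z, hz, h1⟩ := G.bC f hf
    obtain ⟨z', hz', h2⟩ := G.bC g hg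
    exact mdl41c_join_trans (mdl41c_join_symm h1) (mdl41c_join_trans (mdl41c_join_mono hREB (G.reC z hz z' hz')) h2)
  have r := hWB B true L hREB le_rfl (Or.inl rfl) hc (fun f hf => by simp at hf) (by simpa using hL) (by
    intro ω _ e he
    obtain ⟨h1, h2⟩ := mdl41_mem_disSet.1 he
    obtain ⟨h3, h4⟩ := mdl41_mem_int.1 h1
    exact absurd ⟨fun _ => h4, fun _ => h3⟩ h2)
  have h4 := mdl41c_P_add_le ht0.le ht1 F b
    (A := fun ω => L ω ∧ Mdl41cNoX (B ∩ R) ((Finset.range M).image β) Top ω)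
    (A' := fun ω => L ω ∧ Mdl41cCnt R ((Finset.range M).image β) Top 1 ω) (C := L)
    (by
      rintro ω ⟨-, hno⟩ ⟨-, T, hT, hc1, hx, -⟩
      obtain ⟨f, rfl⟩ := Finset.card_eq_one.1 hc1
      obtain ⟨g, hg, hfg⟩ := hx f (Finset.mem_singleton_self f)
      have hfB := hT (Finset.mem_singleton_self f)
      obtain ⟨k, hk, rfl⟩ := Finset.mem_image.1 hfB
      rw [Finset.inter_eq_right.2 hRB] at hno
      exact hno _ hfB g hg (G.bot k (Finset.mem_range.1 hk)) hfg)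
    (fun ω h => h.1) (fun ω h => h.1)
  linarith

/-- **geometric tail of the number of crossing components**, abstract geometry, from the record (WB) -/
theorem mdl41c_tail {R B LE RE Top : Finset (ℤ × ℤ)} {M : ℕ} {β : ℕ → ℤ × ℤ} (G : Mdl41cGeo R B LE RE Top M β)
    {t : ℝ} (ht0 : 0 < t) (ht1 : t ≤ 1) {F : Finset (ℤ × ℤ)} (hBF : B ⊆ F) (b : Bool) {p : ℝ} (hp0 : 0 ≤ p) (hp1 : p ≤ 1)
    {Bf : Finset (ℤ × ℤ)}
    (hWB : Mdl41cWBat t F b p R B Bf LE RE ((Finset.range M).image β) Top) {L : RswCfg → Prop} (hL : MdlExt Bf L) (j : ℕ) :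
    rswP t F b (fun ω => L ω ∧ Mdl41cCnt R ((Finset.range M).image β) Top j ω) ≤ (1 - p) ^ j * rswP t F b L := by
  induction j with
  | zero =>
    rw [pow_zero, one_mul]
    exact rsz_P_mono ht0.le ht1 F b fun ω h => h.1
  | succ j ih =>
    rcases Nat.eq_zero_or_pos j with rfl | hj
    · rw [zero_add, pow_one]
      exact mdl41c_step0 G ht0 ht1 F b hWB hL
    · calc _ ≤ (1 - p) * rswP t F b (fun ω => L ω ∧ Mdl41cCnt R ((Finset.range M).image β) Top j ω) :=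
            mdl41c_step G ht0 ht1 hBF b hp0 hp1 hWB hL hj
        _ ≤ (1 - p) * ((1 - p) ^ j * rswP t F b L) := mul_le_mul_of_nonneg_left ih (by linarith)
        _ = (1 - p) ^ (j + 1) * rswP t F b L := by ring

/-! ## 9. the contract -/

theorem mdl41c_trans_iff (Q₀ Q₁ : Finset (ℤ × ℤ)) (j : ℕ) (ω : RswCfg) :
    MdlTrans Q₀ Q₁ j ω ↔ Mdl41cCnt Q₁ Q₀ (rswLayer Q₁) j ω := Iff.rfl

/-- RECORD (S1) = the statement of `exit_mdl_circ` -/
def Mdl41cCirc (t : ℝ) : Prop :=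
  ∀ k : ℕ, ∃ p : ℝ, 0 < p ∧ ∃ n0 : ℕ, ∀ n : ℕ, n0 ≤ n → ∀ (F : Finset (ℤ × ℤ)) (z : ℤ × ℤ) (b a : Bool) (L : RswCfg → Prop),
      RswJordan F → rswBox z ((k + 3) * n) ⊆ F → MdlExt (rswBox z ((k + 3) * n) \ rswBox z (k * n)) L →
      p * rswP t F b L ≤
        rswP t F b fun ω => L ω ∧ RswSep F a ω (rswBox z ((k + 1) * n)) (F \ rswBox z ((k + 2) * n))

/-- (S2) the statement of `exit_mdl_trans` -/
def Mdl41cTrans (t : ℝ) (k : ℕ) : Prop :=
    ∃ C q : ℝ, 0 < C ∧ 0 < q ∧ q < 1 ∧ ∃ n0 : ℕ, ∀ n : ℕ, n0 ≤ n → ∀ (F : Finset (ℤ × ℤ)) (z : ℤ × ℤ) (b : Bool) (L : RswCfg → Prop) (j : ℕ),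
      RswJordan F → rswBox z ((k + 2) * n) ⊆ F → MdlExt (rswBox z ((k + 2) * n)) L →
      rswP t F b (fun ω => L ω ∧ MdlTrans (rswBox z (k * n)) (rswBox z ((k + 1) * n)) j ω) ≤ C * q ^ j * rswP t F b L

/-! ## 10. transport of a geometry by a symmetry of the lattice of faces -/

theorem mdl41c_adj_iff (f g : ℤ × ℤ) : Mdl41cAdj f g ↔
    (f.1 = g.1 ∧ (f.2 = g.2 + 1 ∨ g.2 = f.2 + 1)) ∨ (f.2 = g.2 ∧ (f.1 = g.1 + 1 ∨ g.1 = f.1 + 1)) := by
  obtain ⟨a, b⟩ := f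
  obtain ⟨c, d⟩ := g
  constructor
  · rintro ⟨⟨⟨x, y⟩, s⟩, h⟩
    cases s
    · simp only [rswCo, Bool.false_eq_true, if_false, Prod.mk.injEq] at h ⊢
      omega
    · simp only [rswCo, if_true, Prod.mk.injEq] at h ⊢
      omega
  · simp only
    rintro (⟨h1, h2 | h2⟩ | ⟨h1, h2 | h2⟩)
    · exact ⟨((a, b), false), Or.inl ⟨rfl, by simp only [rswCo, Bool.false_eq_true, if_false, Prod.mk.injEq]; omega⟩⟩
    · exact ⟨((c, d), false), Or.inr ⟨rfl, by simp only [rswCo, Bool.false_eq_true, if_false, Prod.mk.injEq]; omega⟩⟩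
    · exact ⟨((a, b), true), Or.inl ⟨rfl, by simp only [rswCo, if_true, Prod.mk.injEq]; omega⟩⟩
    · exact ⟨((c, d), true), Or.inr ⟨rfl, by simp only [rswCo, if_true, Prod.mk.injEq]; omega⟩⟩

theorem mdl41c_join_map (τ : (ℤ × ℤ) ≃ (ℤ × ℤ)) (hτ : ∀ f g, Mdl41cAdj f g → Mdl41cAdj (τ f) (τ g))
    {P : Finset (ℤ × ℤ)} {f g : ℤ × ℤ} (h : Mdl41cJoin P f g) : Mdl41cJoin (P.map τ.toEmbedding) (τ f) (τ g) :=
  ReflTransGen.lift τ (fun _ _ ⟨h1, h2, h3⟩ =>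
    ⟨Finset.mem_map_equiv.2 (by simpa using h1), Finset.mem_map_equiv.2 (by simpa using h2), hτ _ _ h3⟩) _ _ h

theorem mdl41c_map_symm_map (σ : (ℤ × ℤ) ≃ (ℤ × ℤ)) (P : Finset (ℤ × ℤ)) :
    (P.map σ.symm.toEmbedding).map σ.toEmbedding = P := by
  ext x
  simp [Finset.mem_map_equiv]

theorem mdl41c_conn_map (σ : (ℤ × ℤ) ≃ (ℤ × ℤ)) (h30 : ∀ f g, at30Adj f g → at30Adj (σ f) (σ g))
    {B : Finset (ℤ × ℤ)} (hB : Mdl41Conn B) : Mdl41Conn (B.map σ.toEmbedding) := by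
  intro S f0 hf0 hf0S hS g hg
  have key := hB (σ ⁻¹' S) (σ.symm f0) (fun h => hf0 (Finset.mem_map_equiv.2 h)) (by simpa using hf0S)
    (fun f g hf hg hfg hfS => hS (σ f) (σ g) (fun h => hf (by simpa using Finset.mem_map_equiv.1 h))
      (fun h => hg (by simpa using Finset.mem_map_equiv.1 h)) (h30 f g hfg) hfS)
    (σ.symm g) (fun h => hg (Finset.mem_map_equiv.2 h))
  simpa using key

/-- **transport** -/
theorem mdl41c_geo_map (σ : (ℤ × ℤ) ≃ (ℤ × ℤ)) (hσ : ∀ f g, Mdl41cAdj f g → Mdl41cAdj (σ f) (σ g))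
    (hσ' : ∀ f g, Mdl41cAdj f g → Mdl41cAdj (σ.symm f) (σ.symm g)) (h30 : ∀ f g, at30Adj f g → at30Adj (σ f) (σ g))
    {R B LE RE Top : Finset (ℤ × ℤ)} {M : ℕ} {β : ℕ → ℤ × ℤ} (G : Mdl41cGeo R B LE RE Top M β) :
    Mdl41cGeo (R.map σ.toEmbedding) (B.map σ.toEmbedding) (LE.map σ.toEmbedding) (RE.map σ.toEmbedding)
      (Top.map σ.toEmbedding) M (fun i => σ (β i)) := by
  classical
  have mem : ∀ (P : Finset (ℤ × ℤ)) (x : ℤ × ℤ), σ x ∈ P.map σ.toEmbedding ↔ x ∈ P := fun P x => by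
    rw [Finset.mem_map_equiv]; simp
  have memS : ∀ (P : Finset (ℤ × ℤ)) (x : ℤ × ℤ), x ∈ P.map σ.symm.toEmbedding ↔ σ x ∈ P := fun P x => by
    rw [Finset.mem_map_equiv]; simp
  have sub : ∀ P Q : Finset (ℤ × ℤ), P ⊆ Q.map σ.toEmbedding → P.map σ.symm.toEmbedding ⊆ Q := by
    intro P Q h x hx
    exact (mem Q x).1 (h ((memS P x).1 hx))
  have back : ∀ (P : Finset (ℤ × ℤ)) (x y : ℤ × ℤ), Mdl41cJoin P (σ x) (σ y) → Mdl41cJoin (P.map σ.symm.toEmbedding) x y := by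
    intro P x y h
    have := mdl41c_join_map σ.symm hσ' h
    simpa using this
  have dis : ∀ P Q : Finset (ℤ × ℤ), Disjoint P Q → Disjoint (P.map σ.symm.toEmbedding) (Q.map σ.symm.toEmbedding) :=
    fun P Q h => (Finset.disjoint_map _).2 h
  refine
    { hB := by rw [G.hB, Finset.map_union, Finset.map_union]
      hRE := (Finset.disjoint_map _).2 G.hRE
      top := Finset.map_subset_map.2 G.top
      bot := fun i hi => (mem R _).2 (G.bot i hi)
      inj := fun i hi i' hi' h => G.inj i hi i' hi' (σ.injective h)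
      adj := fun i hi => hσ _ _ (G.adj i hi)
      last := ?_
      reC := ?_
      bC := ?_
      conn := mdl41c_conn_map σ h30 G.conn
      ax1 := ?_
      ax2 := ?_
      ax3 := ?_ }
  · obtain ⟨ρ, hρ, h⟩ := G.last
    exact ⟨σ ρ, (mem RE ρ).2 hρ, hσ _ _ h⟩
  · intro z hz z' hz'
    have := mdl41c_join_map σ hσ (G.reC _ (Finset.mem_map_equiv.1 hz) _ (Finset.mem_map_equiv.1 hz'))
    simpa using this
  · intro g hg
    obtain ⟨z, hz, h⟩ := G.bC _ (Finset.mem_map_equiv.1 hg)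
    refine ⟨σ z, (mem RE z).2 hz, ?_⟩
    have := mdl41c_join_map σ hσ h
    simpa using this
  · intro P P' i₁ i₂ i₃ g hP hP' h12 h23 h3 hb1 hj hb2 hg hj' hd
    obtain ⟨g₀, rfl⟩ := σ.surjective g
    exact G.ax1 _ _ i₁ i₂ i₃ g₀ (sub P R hP) (sub P' R hP') h12 h23 h3 ((memS P _).2 hb1) (back P _ _ hj)
      ((memS P' _).2 hb2) ((mem Top g₀).1 hg) (back P' _ _ hj') (dis P P' hd)
  · intro P P' i₁ i₂ h ρ g hP hP' h12 h2 hb1 hj hρ hadj hb2 hg hj' hd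
    obtain ⟨g₀, rfl⟩ := σ.surjective g
    obtain ⟨h₀, rfl⟩ := σ.surjective h
    obtain ⟨ρ₀, rfl⟩ := σ.surjective ρ
    refine G.ax2 _ _ i₁ i₂ h₀ ρ₀ g₀ (sub P R hP) (sub P' R hP') h12 h2 ((memS P _).2 hb1) (back P _ _ hj)
      ((mem RE ρ₀).1 hρ) ?_ ((memS P' _).2 hb2) ((mem Top g₀).1 hg) (back P' _ _ hj') (dis P P' hd)
    have := hσ' _ _ hadj
    simpa using this
  · intro P i₁ g z l hP h1 hb1 hg hj hz hl hjoin
    obtain ⟨g₀, rfl⟩ := σ.surjective g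
    obtain ⟨z₀, rfl⟩ := σ.surjective z
    obtain ⟨l₀, rfl⟩ := σ.surjective l
    refine G.ax3 _ i₁ g₀ z₀ l₀ (sub P R hP) h1 ((memS P _).2 hb1) ((mem Top g₀).1 hg) (back P _ _ hj)
      ((mem RE z₀).1 hz) ((mem LE l₀).1 hl) ?_
    have h2 := back _ _ _ hjoin
    refine mdl41c_join_mono ?_ h2
    intro x hx
    have h3 := (memS _ x).1 hx
    rw [Finset.mem_sdiff] at h3 ⊢
    exact ⟨(mem B x).1 h3.1, fun h4 => h3.2 ((memS P x).1 h4)⟩
/-! ## 11. rectangles: runs, connectedness, connected exterior -/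

theorem mdl41c_hrun {Q : Finset (ℤ × ℤ)} (y a : ℤ) (n : ℕ) (h : ∀ k : ℕ, k ≤ n → (a + k, y) ∈ Q) :
    Mdl41cJoin Q (a, y) (a + n, y) := by
  induction n with
  | zero => simpa using mdl41c_join_refl Q (a, y)
  | succ n ih =>
    refine mdl41c_join_trans (ih fun k hk => h k (by omega)) (mdl41c_join_step (h n (by omega)) (h (n + 1) le_rfl) ?_)
    rw [mdl41c_adj_iff]
    right
    refine ⟨rfl, Or.inr ?_⟩
    show a + ((n + 1 : ℕ) : ℤ) = a + (n : ℤ) + 1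
    push_cast
    ring

theorem mdl41c_vrun {Q : Finset (ℤ × ℤ)} (x c : ℤ) (n : ℕ) (h : ∀ k : ℕ, k ≤ n → (x, c + k) ∈ Q) :
    Mdl41cJoin Q (x, c) (x, c + n) := by
  induction n with
  | zero => simpa using mdl41c_join_refl Q (x, c)
  | succ n ih =>
    refine mdl41c_join_trans (ih fun k hk => h k (by omega)) (mdl41c_join_step (h n (by omega)) (h (n + 1) le_rfl) ?_)
    rw [mdl41c_adj_iff]
    left
    refine ⟨rfl, Or.inr ?_⟩
    show c + ((n + 1 : ℕ) : ℤ) = c + (n : ℤ) + 1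
    push_cast
    ring

theorem mdl41c_hjoin {Q : Finset (ℤ × ℤ)} {y x x' : ℤ} (h : ∀ u, min x x' ≤ u → u ≤ max x x' → (u, y) ∈ Q) :
    Mdl41cJoin Q (x, y) (x', y) := by
  rcases le_total x x' with hle | hle
  · have := mdl41c_hrun (Q := Q) y x (x' - x).toNat (fun k hk => h _ (by omega) (by omega))
    rwa [show x + ((x' - x).toNat : ℤ) = x' by omega] at this
  · have := mdl41c_hrun (Q := Q) y x' (x - x').toNat (fun k hk => h _ (by omega) (by omega))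
    rw [show x' + ((x - x').toNat : ℤ) = x by omega] at this
    exact mdl41c_join_symm this

theorem mdl41c_vjoin {Q : Finset (ℤ × ℤ)} {x y y' : ℤ} (h : ∀ u, min y y' ≤ u → u ≤ max y y' → (x, u) ∈ Q) :
    Mdl41cJoin Q (x, y) (x, y') := by
  rcases le_total y y' with hle | hle
  · have := mdl41c_vrun (Q := Q) x y (y' - y).toNat (fun k hk => h _ (by omega) (by omega))
    rwa [show y + ((y' - y).toNat : ℤ) = y' by omega] at this
  · have := mdl41c_vrun (Q := Q) x y' (y - y').toNat (fun k hk => h _ (by omega) (by omega))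
    rw [show y' + ((y - y').toNat : ℤ) = y by omega] at this
    exact mdl41c_join_symm this

theorem mdl41c_mem_rect {a b c d : ℤ} {f : ℤ × ℤ} :
    f ∈ Finset.Ico a b ×ˢ Finset.Ico c d ↔ a ≤ f.1 ∧ f.1 < b ∧ c ≤ f.2 ∧ f.2 < d := by
  simp only [Finset.mem_product, Finset.mem_Ico]
  tauto

/-- a rectangle of faces is connected -/
theorem mdl41c_rect_conn {a b c d : ℤ} {f g : ℤ × ℤ} (hf : f ∈ Finset.Ico a b ×ˢ Finset.Ico c d)
    (hg : g ∈ Finset.Ico a b ×ˢ Finset.Ico c d) : Mdl41cJoin (Finset.Ico a b ×ˢ Finset.Ico c d) f g := by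
  obtain ⟨x, y⟩ := f
  obtain ⟨x', y'⟩ := g
  rw [mdl41c_mem_rect] at hf hg
  simp only at hf hg
  exact mdl41c_join_trans (mdl41c_hjoin (x' := x') fun u h1 h2 => mdl41c_mem_rect.2 (by simp only; omega))
    (mdl41c_vjoin fun u h1 h2 => mdl41c_mem_rect.2 (by simp only; omega))

theorem mdl41c_S_hrun {F : Finset (ℤ × ℤ)} {S : Set (ℤ × ℤ)}
    (hS : ∀ f g, f ∉ F → g ∉ F → at30Adj f g → f ∈ S → g ∈ S) (y a : ℤ) (n : ℕ)
    (h : ∀ k : ℕ, k ≤ n → (a + k, y) ∉ F) : (a, y) ∈ S ↔ (a + n, y) ∈ S := by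
  induction n with
  | zero => simp
  | succ n ih =>
    refine (ih fun k hk => h k (by omega)).trans ⟨?_, ?_⟩
    · refine hS _ _ (h n (by omega)) (h (n + 1) le_rfl) ⟨?_, ?_⟩ <;> simp only <;> push_cast <;> rw [abs_le] <;>
        constructor <;> linarith
    · refine hS _ _ (h (n + 1) le_rfl) (h n (by omega)) ⟨?_, ?_⟩ <;> simp only <;> push_cast <;> rw [abs_le] <;>
        constructor <;> linarith

theorem mdl41c_S_vrun {F : Finset (ℤ × ℤ)} {S : Set (ℤ × ℤ)}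
    (hS : ∀ f g, f ∉ F → g ∉ F → at30Adj f g → f ∈ S → g ∈ S) (x c : ℤ) (n : ℕ)
    (h : ∀ k : ℕ, k ≤ n → (x, c + k) ∉ F) : (x, c) ∈ S ↔ (x, c + n) ∈ S := by
  induction n with
  | zero => simp
  | succ n ih =>
    refine (ih fun k hk => h k (by omega)).trans ⟨?_, ?_⟩
    · refine hS _ _ (h n (by omega)) (h (n + 1) le_rfl) ⟨?_, ?_⟩ <;> simp only <;> push_cast <;> rw [abs_le] <;>
        constructor <;> linarith
    · refine hS _ _ (h (n + 1) le_rfl) (h n (by omega)) ⟨?_, ?_⟩ <;> simp only <;> push_cast <;> rw [abs_le] <;>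
        constructor <;> linarith

theorem mdl41c_S_h {F : Finset (ℤ × ℤ)} {S : Set (ℤ × ℤ)}
    (hS : ∀ f g, f ∉ F → g ∉ F → at30Adj f g → f ∈ S → g ∈ S) {y x x' : ℤ}
    (h : ∀ u, (u, y) ∉ F) : (x, y) ∈ S ↔ (x', y) ∈ S := by
  rcases le_total x x' with hle | hle
  · have := mdl41c_S_hrun hS y x (x' - x).toNat (fun k _ => h _)
    rwa [show x + ((x' - x).toNat : ℤ) = x' by omega] at this
  · have := mdl41c_S_hrun hS y x' (x - x').toNat (fun k _ => h _)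
    rw [show x' + ((x - x').toNat : ℤ) = x by omega] at this
    exact this.symm

theorem mdl41c_S_v {F : Finset (ℤ × ℤ)} {S : Set (ℤ × ℤ)}
    (hS : ∀ f g, f ∉ F → g ∉ F → at30Adj f g → f ∈ S → g ∈ S) {x y y' : ℤ}
    (h : ∀ u, (x, u) ∉ F) : (x, y) ∈ S ↔ (x, y') ∈ S := by
  rcases le_total y y' with hle | hle
  · have := mdl41c_S_vrun hS x y (y' - y).toNat (fun k _ => h _)
    rwa [show y + ((y' - y).toNat : ℤ) = y' by omega] at this
  · have := mdl41c_S_vrun hS x y' (y - y').toNat (fun k _ => h _)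
    rw [show y' + ((y - y').toNat : ℤ) = y by omega] at this
    exact this.symm

/-- the exterior of a rectangle of faces is connected -/
theorem mdl41c_rect_ext (a b c d : ℤ) : Mdl41Conn (Finset.Ico a b ×ˢ Finset.Ico c d) := by
  intro S f0 hf0 hf0S hS
  have hcol : ∀ x, (x < a ∨ b ≤ x) → ∀ u, (x, u) ∉ Finset.Ico a b ×ˢ Finset.Ico c d := by
    intro x hx u hu
    rw [mdl41c_mem_rect] at hu
    simp only at hu
    omega
  have hrow : ∀ y, (y < c ∨ d ≤ y) → ∀ u, (u, y) ∉ Finset.Ico a b ×ˢ Finset.Ico c d := by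
    intro y hy u hu
    rw [mdl41c_mem_rect] at hu
    simp only at hu
    omega
  have key : ∀ g, g ∉ Finset.Ico a b ×ˢ Finset.Ico c d → (g ∈ S ↔ (b, d) ∈ S) := by
    rintro ⟨x, y⟩ hg
    rw [mdl41c_mem_rect] at hg
    simp only at hg
    by_cases hx : x < a ∨ b ≤ x
    · exact (mdl41c_S_v hS (y' := d) (hcol x hx)).trans (mdl41c_S_h hS (hrow d (Or.inr le_rfl)))
    · have hy : y < c ∨ d ≤ y := by omega
      exact (mdl41c_S_h hS (x' := b) (hrow y hy)).trans (mdl41c_S_v hS (hcol b (Or.inr le_rfl)))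
  intro g hg
  exact (key g hg).2 ((key f0 hf0).1 hf0S)
/-! ## 12. the standard geometry -/

/-- (PL0) a bottom-top chain and a left-right chain of faces of one rectangle share a face -/
def Mdl41cMeet : Prop :=
  ∀ (x0 x1 y0 y1 : ℤ) (P P' : Finset (ℤ × ℤ)), P ⊆ Finset.Ico x0 x1 ×ˢ Finset.Ico y0 y1 →
    P' ⊆ Finset.Ico x0 x1 ×ˢ Finset.Ico y0 y1 → ∀ f g f' g' : ℤ × ℤ, f ∈ P → f.2 = y0 → g.2 = y1 - 1 → Mdl41cJoin P f g →
    f' ∈ P' → f'.1 = x0 → g'.1 = x1 - 1 → Mdl41cJoin P' f' g' → ¬ Disjoint P P'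

theorem mdl41c_vstep {Q : Finset (ℤ × ℤ)} {x y : ℤ} (h1 : (x, y) ∈ Q) (h2 : (x, y + 1) ∈ Q) :
    Mdl41cJoin Q (x, y) (x, y + 1) :=
  mdl41c_join_step h1 h2 ((mdl41c_adj_iff _ _).2 (Or.inl ⟨rfl, Or.inr rfl⟩))

theorem mdl41c_geo_std (hM : Mdl41cMeet) {W H w : ℕ} (hW : 1 ≤ W) (hH : 1 ≤ H) (hw : 1 ≤ w) :
    Mdl41cGeo (Finset.Ico (0 : ℤ) W ×ˢ Finset.Ico (0 : ℤ) H) (Finset.Ico (-(w : ℤ)) (W + w) ×ˢ Finset.Ico (0 : ℤ) H)
      (Finset.Ico (-(w : ℤ)) 0 ×ˢ Finset.Ico (0 : ℤ) H) (Finset.Ico (W : ℤ) (W + w) ×ˢ Finset.Ico (0 : ℤ) H)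
      (Finset.Ico (0 : ℤ) W ×ˢ Finset.Ico ((H : ℤ) - 1) H) W (fun i => ((i : ℤ), 0)) := by
  classical
  refine
    { hB := ?_
      hRE := ?_
      top := ?_
      bot := ?_
      inj := ?_
      adj := ?_
      last := ?_
      reC := fun z hz z' hz' => mdl41c_rect_conn hz hz'
      bC := ?_
      conn := mdl41c_rect_ext _ _ _ _
      ax1 := ?_
      ax2 := ?_
      ax3 := ?_ }
  · ext f
    simp only [Finset.mem_union, mdl41c_mem_rect]
    omega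
  · rw [Finset.disjoint_left]
    intro f h1 h2
    rw [mdl41c_mem_rect] at h1 h2
    omega
  · intro f hf
    rw [mdl41c_mem_rect] at hf ⊢
    omega
  · intro i hi
    rw [mdl41c_mem_rect]
    simp only
    omega
  · intro i _ i' _ h
    simp only [Prod.mk.injEq, and_true] at h
    exact_mod_cast h
  · intro i _
    rw [mdl41c_adj_iff]
    right
    refine ⟨rfl, Or.inr ?_⟩
    simp only
    push_cast
    ring
  · refine ⟨((W : ℤ), 0), mdl41c_mem_rect.2 (by simp only; omega), ?_⟩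
    rw [mdl41c_adj_iff]
    right
    refine ⟨rfl, Or.inr ?_⟩
    simp only
    omega
  · intro g hg
    exact ⟨((W : ℤ), 0), mdl41c_mem_rect.2 (by simp only; omega),
      mdl41c_rect_conn (mdl41c_mem_rect.2 (by simp only; omega)) hg⟩
  · -- ax1
    intro P P' i₁ i₂ i₃ g hP hP' h12 h23 h3 hb1 hj hb2 hg hj' hd
    set Pp : Finset (ℤ × ℤ) := P ∪ (Finset.Ico (0 : ℤ) (i₁ + 1) ×ˢ Finset.Ico (-1 : ℤ) 0) ∪
      (Finset.Ico (i₃ : ℤ) W ×ˢ Finset.Ico (-1 : ℤ) 0) with hPp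
    set Pq : Finset (ℤ × ℤ) := P' ∪ (Finset.Ico (i₂ : ℤ) (i₂ + 1) ×ˢ Finset.Ico (-1 : ℤ) 0) with hPq
    have s1 : P ⊆ Pp := fun x hx => Finset.mem_union_left _ (Finset.mem_union_left _ hx)
    have s2 : ∀ u : ℤ, 0 ≤ u → u ≤ i₁ → (u, (-1 : ℤ)) ∈ Pp := fun u h1 h2 =>
      Finset.mem_union_left _ (Finset.mem_union_right _ (mdl41c_mem_rect.2 (by simp only; omega)))
    have s3 : ∀ u : ℤ, (i₃ : ℤ) ≤ u → u < W → (u, (-1 : ℤ)) ∈ Pp := fun u h1 h2 =>
      Finset.mem_union_right _ (mdl41c_mem_rect.2 (by simp only; omega))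
    have s4 : P' ⊆ Pq := fun x hx => Finset.mem_union_left _ hx
    have s5 : ((i₂ : ℤ), (-1 : ℤ)) ∈ Pq := Finset.mem_union_right _ (mdl41c_mem_rect.2 (by simp only; omega))
    have hb3 : ((i₃ : ℤ), (0 : ℤ)) ∈ P := mdl41c_join_mem hj hb1
    have hgT := mdl41c_mem_rect.1 hg
    refine hM 0 W (-1) H Pq Pp ?_ ?_ ((i₂ : ℤ), -1) g ((0 : ℤ), -1) ((W : ℤ) - 1, -1) s5 rfl (by omega) ?_
      (s2 0 le_rfl (by omega)) rfl rfl ?_ ?_
    · intro x hx
      rcases Finset.mem_union.1 hx with hx | hx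
      · have := mdl41c_mem_rect.1 (hP' hx)
        exact mdl41c_mem_rect.2 (by omega)
      · have := mdl41c_mem_rect.1 hx
        exact mdl41c_mem_rect.2 (by omega)
    · intro x hx
      rcases Finset.mem_union.1 hx with hx | hx
      · rcases Finset.mem_union.1 hx with hx | hx
        · have := mdl41c_mem_rect.1 (hP hx)
          exact mdl41c_mem_rect.2 (by omega)
        · have := mdl41c_mem_rect.1 hx
          exact mdl41c_mem_rect.2 (by omega)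
      · have := mdl41c_mem_rect.1 hx
        exact mdl41c_mem_rect.2 (by omega)
    · have := mdl41c_vstep (Q := Pq) (x := i₂) (y := -1) s5 (by simpa using s4 hb2)
      exact mdl41c_join_trans (by simpa using this) (mdl41c_join_mono s4 hj')
    · have a1 : Mdl41cJoin Pp ((0 : ℤ), -1) ((i₁ : ℤ), -1) := mdl41c_hjoin fun u h1 h2 => s2 u (by omega) (by omega)
      have a2 := mdl41c_vstep (Q := Pp) (x := i₁) (y := -1) (s2 _ (by omega) le_rfl) (by simpa using s1 hb1)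
      have a3 := mdl41c_vstep (Q := Pp) (x := i₃) (y := -1) (s3 _ le_rfl (by omega)) (by simpa using s1 hb3)
      have a4 : Mdl41cJoin Pp ((i₃ : ℤ), -1) ((W : ℤ) - 1, -1) := mdl41c_hjoin fun u h1 h2 => s3 u (by omega) (by omega)
      exact mdl41c_join_trans a1 (mdl41c_join_trans (by simpa using a2) (mdl41c_join_trans (mdl41c_join_mono s1 hj)
        (mdl41c_join_trans (mdl41c_join_symm (by simpa using a3)) a4)))
    · rw [Finset.disjoint_left]
      intro x hx hx'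
      rcases Finset.mem_union.1 hx with hx | hx
      · have e1 := mdl41c_mem_rect.1 (hP' hx)
        rcases Finset.mem_union.1 hx' with hx' | hx'
        · rcases Finset.mem_union.1 hx' with hx' | hx'
          · exact Finset.disjoint_left.1 hd hx' hx
          · have := mdl41c_mem_rect.1 hx'; omega
        · have := mdl41c_mem_rect.1 hx'; omega
      · have e1 := mdl41c_mem_rect.1 hx
        rcases Finset.mem_union.1 hx' with hx' | hx'
        · rcases Finset.mem_union.1 hx' with hx' | hx'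
          · have := mdl41c_mem_rect.1 (hP hx'); omega
          · have := mdl41c_mem_rect.1 hx'; omega
        · have := mdl41c_mem_rect.1 hx'; omega
  · -- ax2
    intro P P' i₁ i₂ h ρ g hP hP' h12 h2 hb1 hj hρ hadj hb2 hg hj' hd
    set Pp : Finset (ℤ × ℤ) := P ∪ (Finset.Ico (0 : ℤ) (i₁ + 1) ×ˢ Finset.Ico (-1 : ℤ) 0) with hPp
    set Pq : Finset (ℤ × ℤ) := P' ∪ (Finset.Ico (i₂ : ℤ) (i₂ + 1) ×ˢ Finset.Ico (-1 : ℤ) 0) with hPq
    have s1 : P ⊆ Pp := fun x hx => Finset.mem_union_left _ hx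
    have s2 : ∀ u : ℤ, 0 ≤ u → u ≤ i₁ → (u, (-1 : ℤ)) ∈ Pp := fun u h1 h2 =>
      Finset.mem_union_right _ (mdl41c_mem_rect.2 (by simp only; omega))
    have s4 : P' ⊆ Pq := fun x hx => Finset.mem_union_left _ hx
    have s5 : ((i₂ : ℤ), (-1 : ℤ)) ∈ Pq := Finset.mem_union_right _ (mdl41c_mem_rect.2 (by simp only; omega))
    have hhP : h ∈ P := mdl41c_join_mem hj hb1
    have hgT := mdl41c_mem_rect.1 hg
    have hh1 : h.1 = (W : ℤ) - 1 := by
      have e1 := mdl41c_mem_rect.1 (hP hhP)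
      have e2 := mdl41c_mem_rect.1 hρ
      have e3 := (mdl41c_adj_iff _ _).1 hadj
      omega
    refine hM 0 W (-1) H Pq Pp ?_ ?_ ((i₂ : ℤ), -1) g ((0 : ℤ), -1) h s5 rfl (by omega) ?_
      (s2 0 le_rfl (by omega)) rfl hh1 ?_ ?_
    · intro x hx
      rcases Finset.mem_union.1 hx with hx | hx
      · have := mdl41c_mem_rect.1 (hP' hx)
        exact mdl41c_mem_rect.2 (by omega)
      · have := mdl41c_mem_rect.1 hx
        exact mdl41c_mem_rect.2 (by omega)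
    · intro x hx
      rcases Finset.mem_union.1 hx with hx | hx
      · have := mdl41c_mem_rect.1 (hP hx)
        exact mdl41c_mem_rect.2 (by omega)
      · have := mdl41c_mem_rect.1 hx
        exact mdl41c_mem_rect.2 (by omega)
    · have := mdl41c_vstep (Q := Pq) (x := i₂) (y := -1) s5 (by simpa using s4 hb2)
      exact mdl41c_join_trans (by simpa using this) (mdl41c_join_mono s4 hj')
    · have a1 : Mdl41cJoin Pp ((0 : ℤ), -1) ((i₁ : ℤ), -1) := mdl41c_hjoin fun u h1 h2 => s2 u (by omega) (by omega)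
      have a2 := mdl41c_vstep (Q := Pp) (x := i₁) (y := -1) (s2 _ (by omega) le_rfl) (by simpa using s1 hb1)
      exact mdl41c_join_trans a1 (mdl41c_join_trans (by simpa using a2) (mdl41c_join_mono s1 hj))
    · rw [Finset.disjoint_left]
      intro x hx hx'
      rcases Finset.mem_union.1 hx with hx | hx
      · have e1 := mdl41c_mem_rect.1 (hP' hx)
        rcases Finset.mem_union.1 hx' with hx' | hx'
        · exact Finset.disjoint_left.1 hd hx' hx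
        · have := mdl41c_mem_rect.1 hx'; omega
      · have e1 := mdl41c_mem_rect.1 hx
        rcases Finset.mem_union.1 hx' with hx' | hx'
        · have := mdl41c_mem_rect.1 (hP hx'); omega
        · have := mdl41c_mem_rect.1 hx'; omega
  · -- ax3
    intro P i₁ g z l hP h1 hb1 hg hj hz hl hjoin
    set B : Finset (ℤ × ℤ) := Finset.Ico (-(w : ℤ)) (W + w) ×ˢ Finset.Ico (0 : ℤ) H with hB
    have hgT := mdl41c_mem_rect.1 hg
    have ez := mdl41c_mem_rect.1 hz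
    have el := mdl41c_mem_rect.1 hl
    have out : ∀ u v : ℤ, -(w : ℤ) ≤ u → u < W + w → (u < 0 ∨ (W : ℤ) ≤ u) → 0 ≤ v → v < H → (u, v) ∈ B \ P := by
      intro u v h1 h2 h3 h4 h5
      refine Finset.mem_sdiff.2 ⟨mdl41c_mem_rect.2 (by simp only; omega), fun hP' => ?_⟩
      have := mdl41c_mem_rect.1 (hP hP')
      simp only at this
      omega
    have a1 : Mdl41cJoin (B \ P) (-(w : ℤ), l.2) (l.1, l.2) :=
      mdl41c_hjoin fun u h1 h2 => out u l.2 (by omega) (by omega) (by omega) (by omega) (by omega)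
    have a2 : Mdl41cJoin (B \ P) (z.1, z.2) ((W : ℤ) + w - 1, z.2) :=
      mdl41c_hjoin fun u h1 h2 => out u z.2 (by omega) (by omega) (by omega) (by omega) (by omega)
    refine hM (-(w : ℤ)) (W + w) 0 H P (B \ P) ?_ Finset.sdiff_subset ((i₁ : ℤ), 0) g (-(w : ℤ), l.2) ((W : ℤ) + w - 1, z.2)
      hb1 rfl (by omega) hj (out _ _ le_rfl (by omega) (by omega) (by omega) (by omega)) rfl rfl
      (mdl41c_join_trans a1 (mdl41c_join_trans (mdl41c_join_symm hjoin) a2)) Finset.disjoint_sdiff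
    intro x hx
    have := mdl41c_mem_rect.1 (hP hx)
    exact mdl41c_mem_rect.2 (by omega)
/-! ## 13. the four frames of a shell -/

/-- the frame: `(x, y) ↦ c + (x, y')` or `c + (y', x)` (`sw`), `y' = y` or `- 1 - y` (`fl`) -/
def mdl41cFrame (sw fl : Bool) (c : ℤ × ℤ) : (ℤ × ℤ) ≃ (ℤ × ℤ) where
  toFun f := if sw then (c.1 + (if fl then -1 - f.2 else f.2), c.2 + f.1) else (c.1 + f.1, c.2 + (if fl then -1 - f.2 else f.2))
  invFun g := if sw then (g.2 - c.2, if fl then -1 - (g.1 - c.1) else g.1 - c.1)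
    else (g.1 - c.1, if fl then -1 - (g.2 - c.2) else g.2 - c.2)
  left_inv f := by
    obtain ⟨x, y⟩ := f
    cases sw <;> cases fl <;> simp
  right_inv g := by
    obtain ⟨x, y⟩ := g
    cases sw <;> cases fl <;> simp

theorem mdl41c_frame_apply (sw fl : Bool) (c f : ℤ × ℤ) : mdl41cFrame sw fl c f =
    if sw then (c.1 + (if fl then -1 - f.2 else f.2), c.2 + f.1) else (c.1 + f.1, c.2 + (if fl then -1 - f.2 else f.2)) := rfl

theorem mdl41c_frame_symm_apply (sw fl : Bool) (c g : ℤ × ℤ) : (mdl41cFrame sw fl c).symm g =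
    if sw then (g.2 - c.2, if fl then -1 - (g.1 - c.1) else g.1 - c.1)
    else (g.1 - c.1, if fl then -1 - (g.2 - c.2) else g.2 - c.2) := rfl

theorem mdl41c_frame_adj (sw fl : Bool) (c f g : ℤ × ℤ) (h : Mdl41cAdj f g) :
    Mdl41cAdj (mdl41cFrame sw fl c f) (mdl41cFrame sw fl c g) := by
  rw [mdl41c_adj_iff] at h ⊢
  rw [mdl41c_frame_apply, mdl41c_frame_apply]
  cases sw <;> cases fl <;> simp only [Bool.false_eq_true, if_false, if_true] <;> omega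

theorem mdl41c_frame_symm_adj (sw fl : Bool) (c f g : ℤ × ℤ) (h : Mdl41cAdj f g) :
    Mdl41cAdj ((mdl41cFrame sw fl c).symm f) ((mdl41cFrame sw fl c).symm g) := by
  rw [mdl41c_adj_iff] at h ⊢
  rw [mdl41c_frame_symm_apply, mdl41c_frame_symm_apply]
  cases sw <;> cases fl <;> simp only [Bool.false_eq_true, if_false, if_true] <;> omega

theorem mdl41c_frame_30 (sw fl : Bool) (c f g : ℤ × ℤ) (h : at30Adj f g) :
    at30Adj (mdl41cFrame sw fl c f) (mdl41cFrame sw fl c g) := by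
  unfold at30Adj at h ⊢
  rw [abs_le, abs_le] at h ⊢
  rw [mdl41c_frame_apply, mdl41c_frame_apply]
  cases sw <;> cases fl <;> simp only [Bool.false_eq_true, if_false, if_true] <;> omega

/-- the frame of the rectangle `d` (`0 1 2 3` = right left top bottom, as `cnt101Phi`) of the shell `Λ_{r1} \ Λ_{r0}` about `z` -/
def mdl41cFr (z : ℤ × ℤ) (r0 r1 : ℕ) (d : Fin 4) : (ℤ × ℤ) ≃ (ℤ × ℤ) :=
  if d = 0 then mdl41cFrame true false (z.1 + r0, z.2 - r1) else if d = 1 then mdl41cFrame true true (z.1 - r0, z.2 - r1)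
  else if d = 2 then mdl41cFrame false false (z.1 - r1, z.2 + r0) else mdl41cFrame false true (z.1 - r1, z.2 - r0)

theorem mdl41c_fr_eq (z : ℤ × ℤ) (r0 r1 : ℕ) (d : Fin 4) : ∃ sw fl c, mdl41cFr z r0 r1 d = mdl41cFrame sw fl c := by
  unfold mdl41cFr
  split_ifs
  exacts [⟨_, _, _, rfl⟩, ⟨_, _, _, rfl⟩, ⟨_, _, _, rfl⟩, ⟨_, _, _, rfl⟩]

/-- the counted rectangle, the rectangle with its lateral extensions of width `w`, the extensions, the outer row, the seeds of the inner row -/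
noncomputable def mdl41cR (z : ℤ × ℤ) (r0 r1 : ℕ) (d : Fin 4) : Finset (ℤ × ℤ) :=
  (Finset.Ico (0 : ℤ) ((2 * r1 : ℕ) : ℤ) ×ˢ Finset.Ico (0 : ℤ) ((r1 - r0 : ℕ) : ℤ)).map (mdl41cFr z r0 r1 d).toEmbedding

noncomputable def mdl41cB (z : ℤ × ℤ) (r0 r1 w : ℕ) (d : Fin 4) : Finset (ℤ × ℤ) :=
  (Finset.Ico (-(w : ℤ)) (((2 * r1 : ℕ) : ℤ) + w) ×ˢ Finset.Ico (0 : ℤ) ((r1 - r0 : ℕ) : ℤ)).map (mdl41cFr z r0 r1 d).toEmbedding

noncomputable def mdl41cLE (z : ℤ × ℤ) (r0 r1 w : ℕ) (d : Fin 4) : Finset (ℤ × ℤ) :=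
  (Finset.Ico (-(w : ℤ)) 0 ×ˢ Finset.Ico (0 : ℤ) ((r1 - r0 : ℕ) : ℤ)).map (mdl41cFr z r0 r1 d).toEmbedding

noncomputable def mdl41cRE (z : ℤ × ℤ) (r0 r1 w : ℕ) (d : Fin 4) : Finset (ℤ × ℤ) :=
  (Finset.Ico (((2 * r1 : ℕ) : ℤ)) (((2 * r1 : ℕ) : ℤ) + w) ×ˢ Finset.Ico (0 : ℤ) ((r1 - r0 : ℕ) : ℤ)).map (mdl41cFr z r0 r1 d).toEmbedding

noncomputable def mdl41cTop (z : ℤ × ℤ) (r0 r1 : ℕ) (d : Fin 4) : Finset (ℤ × ℤ) :=
  (Finset.Ico (0 : ℤ) ((2 * r1 : ℕ) : ℤ) ×ˢ Finset.Ico (((r1 - r0 : ℕ) : ℤ) - 1) ((r1 - r0 : ℕ) : ℤ)).map (mdl41cFr z r0 r1 d).toEmbedding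

def mdl41cSeed (z : ℤ × ℤ) (r0 r1 : ℕ) (d : Fin 4) (i : ℕ) : ℤ × ℤ := mdl41cFr z r0 r1 d ((i : ℤ), 0)

/-- the geometry of the rectangle `d` of a shell -/
theorem mdl41c_geo_shell (hM : Mdl41cMeet) (z : ℤ × ℤ) {r0 r1 w : ℕ} (hr : r0 < r1) (hw : 1 ≤ w) (d : Fin 4) :
    Mdl41cGeo (mdl41cR z r0 r1 d) (mdl41cB z r0 r1 w d) (mdl41cLE z r0 r1 w d) (mdl41cRE z r0 r1 w d)
      (mdl41cTop z r0 r1 d) (2 * r1) (mdl41cSeed z r0 r1 d) := by
  obtain ⟨sw, fl, c, hfr⟩ := mdl41c_fr_eq z r0 r1 d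
  have G := mdl41c_geo_std hM (W := 2 * r1) (H := r1 - r0) (w := w) (by omega) (by omega) hw
  have := mdl41c_geo_map (mdl41cFr z r0 r1 d) (by rw [hfr]; exact mdl41c_frame_adj sw fl c)
    (by rw [hfr]; exact mdl41c_frame_symm_adj sw fl c) (by rw [hfr]; exact mdl41c_frame_30 sw fl c) G
  exact this

theorem mdl41c_fin4 (d : Fin 4) : d = 0 ∨ d = 1 ∨ d = 2 ∨ d = 3 := by
  fin_cases d <;> simp

theorem mdl41c_R_eq (z : ℤ × ℤ) {r0 r1 : ℕ} (hr : r0 < r1) (d : Fin 4) : mdl41cR z r0 r1 d = cnt101Rect z r0 r1 d := by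
  ext f
  unfold mdl41cR
  rw [Finset.mem_map_equiv, mdl41c_mem_rect]
  have hc : ((r1 - r0 : ℕ) : ℤ) = (r1 : ℤ) - r0 := Nat.cast_sub hr.le
  rcases mdl41c_fin4 d with rfl | rfl | rfl | rfl
  · rw [cnt101_rect_0, mdl41c_mem_rect, hc]
    simp [mdl41cFr, mdl41c_frame_symm_apply]
    omega
  · rw [cnt101_rect_1, mdl41c_mem_rect, hc]
    simp [mdl41cFr, mdl41c_frame_symm_apply]
    omega
  · rw [cnt101_rect_2, mdl41c_mem_rect, hc]
    simp [mdl41cFr, mdl41c_frame_symm_apply]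
    omega
  · rw [cnt101_rect_3, mdl41c_mem_rect, hc]
    simp [mdl41cFr, mdl41c_frame_symm_apply]
    omega
theorem mdl41c_in_sub (z : ℤ × ℤ) {r0 r1 : ℕ} (hr : r0 < r1) (d : Fin 4) :
    cnt101In z r0 r1 d ⊆ (Finset.range (2 * r1)).image (mdl41cSeed z r0 r1 d) := by
  intro f hf
  have key : ((mdl41cFr z r0 r1 d).symm f).2 = 0 ∧ 0 ≤ ((mdl41cFr z r0 r1 d).symm f).1 ∧
      ((mdl41cFr z r0 r1 d).symm f).1 < ((2 * r1 : ℕ) : ℤ) := by
    unfold cnt101In at hf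
    obtain ⟨h1, h2⟩ := Finset.mem_filter.1 hf
    unfold rswBox at h1
    rw [mdl41c_mem_rect] at h1
    rcases mdl41c_fin4 d with rfl | rfl | rfl | rfl
    · simp [cnt101Phi] at h2
      simp [mdl41cFr, mdl41c_frame_symm_apply]
      omega
    · simp [cnt101Phi] at h2
      simp [mdl41cFr, mdl41c_frame_symm_apply]
      omega
    · simp [cnt101Phi] at h2
      simp [mdl41cFr, mdl41c_frame_symm_apply]
      omega
    · simp [cnt101Phi] at h2
      simp [mdl41cFr, mdl41c_frame_symm_apply]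
      omega
  obtain ⟨k2, k0, k1⟩ := key
  refine Finset.mem_image.2 ⟨((mdl41cFr z r0 r1 d).symm f).1.toNat, Finset.mem_range.2 (by omega), ?_⟩
  unfold mdl41cSeed
  rw [Int.toNat_of_nonneg k0, ← k2]
  exact (mdl41cFr z r0 r1 d).apply_symm_apply f

theorem mdl41c_out_sub (z : ℤ × ℤ) {r0 r1 : ℕ} (hr : r0 < r1) (d : Fin 4) :
    cnt101Out z r1 d ⊆ mdl41cTop z r0 r1 d := by
  intro f hf
  unfold mdl41cTop
  rw [Finset.mem_map_equiv, mdl41c_mem_rect]
  have hc : ((r1 - r0 : ℕ) : ℤ) = (r1 : ℤ) - r0 := Nat.cast_sub hr.le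
  unfold cnt101Out at hf
  obtain ⟨h1, h2⟩ := Finset.mem_filter.1 hf
  unfold rswBox at h1
  rw [mdl41c_mem_rect] at h1
  rw [hc]
  rcases mdl41c_fin4 d with rfl | rfl | rfl | rfl
  · simp [cnt101Phi] at h2
    simp [mdl41cFr, mdl41c_frame_symm_apply]
    omega
  · simp [cnt101Phi] at h2
    simp [mdl41cFr, mdl41c_frame_symm_apply]
    omega
  · simp [cnt101Phi] at h2
    simp [mdl41cFr, mdl41c_frame_symm_apply]
    omega
  · simp [cnt101Phi] at h2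
    simp [mdl41cFr, mdl41c_frame_symm_apply]
    omega

theorem mdl41c_B_sub (z : ℤ × ℤ) {r0 r1 : ℕ} (hr : r0 < r1) (w : ℕ) (d : Fin 4) :
    mdl41cB z r0 r1 w d ⊆ rswBox z (r1 + w) := by
  intro f hf
  unfold mdl41cB at hf
  rw [Finset.mem_map_equiv, mdl41c_mem_rect] at hf
  have hc : ((r1 - r0 : ℕ) : ℤ) = (r1 : ℤ) - r0 := Nat.cast_sub hr.le
  rw [hc] at hf
  unfold rswBox
  rw [mdl41c_mem_rect]
  rcases mdl41c_fin4 d with rfl | rfl | rfl | rfl
  · simp [mdl41cFr, mdl41c_frame_symm_apply] at hf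
    push_cast
    omega
  · simp [mdl41cFr, mdl41c_frame_symm_apply] at hf
    push_cast
    omega
  · simp [mdl41cFr, mdl41c_frame_symm_apply] at hf
    push_cast
    omega
  · simp [mdl41cFr, mdl41c_frame_symm_apply] at hf
    push_cast
    omega

theorem mdl41c_cnt_mono_sets {R A A' B B' : Finset (ℤ × ℤ)} (hA : A ⊆ A') (hB : B ⊆ B') {j : ℕ} {ω : RswCfg}
    (h : Mdl41cCnt R A B j ω) : Mdl41cCnt R A' B' j ω := by
  obtain ⟨T, h1, h2, h3, h4⟩ := h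
  exact ⟨T, h1.trans hA, h2, fun f hf => (h3 f hf).imp fun g hg => ⟨hB hg.1, hg.2⟩, h4⟩

/-! ## 14. the record (WB) for the shells and the proof of (S2) from it -/

/-- **RECORD (WB)**: wall blocking in the four rectangles of the shell `Λ_{(k+1)n} \ Λ_{kn}`, lateral extensions of width `n / 2`, buffer `Λ_{(k+2)n}` -/
def Mdl41cWB (t : ℝ) : Prop :=
  ∀ k : ℕ, ∃ p : ℝ, 0 < p ∧ ∃ n0 : ℕ, ∀ n : ℕ, n0 ≤ n → ∀ (F : Finset (ℤ × ℤ)) (z : ℤ × ℤ) (b : Bool) (d : Fin 4),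
    RswJordan F → rswBox z ((k + 2) * n) ⊆ F →
    Mdl41cWBat t F b p (mdl41cR z (k * n) ((k + 1) * n) d) (mdl41cB z (k * n) ((k + 1) * n) (n / 2) d) (rswBox z ((k + 2) * n))
      (mdl41cLE z (k * n) ((k + 1) * n) (n / 2) d) (mdl41cRE z (k * n) ((k + 1) * n) (n / 2) d)
      ((Finset.range (2 * ((k + 1) * n))).image (mdl41cSeed z (k * n) ((k + 1) * n) d)) (mdl41cTop z (k * n) ((k + 1) * n) d)

theorem mdl41c_wbat_mono {t : ℝ} (ht0 : 0 ≤ t) (ht1 : t ≤ 1) {F : Finset (ℤ × ℤ)} {b : Bool} {p p' : ℝ} (hp : p' ≤ p)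
    {R B Bf LE RE Bot Top : Finset (ℤ × ℤ)} (h : Mdl41cWBat t F b p R B Bf LE RE Bot Top) :
    Mdl41cWBat t F b p' R B Bf LE RE Bot Top :=
  fun Ch a H h1 h2 h3 h4 h5 h6 h7 =>
    le_trans (mul_le_mul_of_nonneg_right hp (rsz_P_nonneg ht0 ht1 F b H)) (h Ch a H h1 h2 h3 h4 h5 h6 h7)

/-- **(S2) from the record (WB) and the planar fact (PL0)** -/
theorem mdl41c_trans_of_wb (hM : Mdl41cMeet) (t : ℝ) (ht1 : 1 / 2 ≤ t) (ht2 : t < 1) (hWB : Mdl41cWB t) (k : ℕ) :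
    Mdl41cTrans t k := by
  classical
  have ht0 : 0 < t := by linarith
  obtain ⟨p, hp, n0, hn0⟩ := hWB k
  set p' : ℝ := min p (1 / 2) with hp'
  have hp'0 : 0 < p' := lt_min hp (by norm_num)
  have hp'1 : p' ≤ 1 / 2 := min_le_right _ _
  set q : ℝ := Real.sqrt (Real.sqrt (1 - p')) with hq
  have hq4 : q ^ 4 = 1 - p' := by
    have h1 : (0 : ℝ) ≤ 1 - p' := by linarith
    have h2 : q ^ 2 = Real.sqrt (1 - p') := Real.sq_sqrt (Real.sqrt_nonneg _)
    calc q ^ 4 = (q ^ 2) ^ 2 := by ring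
      _ = 1 - p' := by rw [h2, Real.sq_sqrt h1]
  have hq0 : 0 < q := Real.sqrt_pos.2 (Real.sqrt_pos.2 (by linarith))
  have hq1 : q < 1 := by
    by_contra hge
    have h1 : (1 : ℝ) ≤ q ^ 4 := one_le_pow₀ (not_lt.1 hge)
    rw [hq4] at h1
    linarith
  refine ⟨4, q, by norm_num, hq0, hq1, max n0 2, ?_⟩
  intro n hn F z b L j hF hbox hL
  have hn2 : 2 ≤ n := le_trans (le_max_right _ _) hn
  have hn1 : 1 ≤ n / 2 := by omega
  have hr : k * n < (k + 1) * n := by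
    have : (k + 1) * n = k * n + n := by ring
    omega
  set m := (j + 3) / 4 with hm
  have hPL := rsz_P_nonneg ht0.le ht2.le F b L
  -- union bound over the four rectangles
  have h1 : rswP t F b (fun ω => L ω ∧ MdlTrans (rswBox z (k * n)) (rswBox z ((k + 1) * n)) j ω) ≤
      ∑ d : Fin 4, rswP t F b (fun ω => L ω ∧ Mdl41cCnt (mdl41cR z (k * n) ((k + 1) * n) d)
        ((Finset.range (2 * ((k + 1) * n))).image (mdl41cSeed z (k * n) ((k + 1) * n) d))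
        (mdl41cTop z (k * n) ((k + 1) * n) d) m ω) := by
    refine mdl41c_P_le_fsum ht0.le ht2.le F b Finset.univ _ _ ?_
    rintro ω ⟨hLω, hT⟩
    obtain ⟨d, hd⟩ := cnt101_shell_quarter hr hT
    refine ⟨d, Finset.mem_univ d, hLω, ?_⟩
    rw [mdl41c_R_eq z hr d]
    exact mdl41c_cnt_mono_sets (mdl41c_in_sub z hr d) (mdl41c_out_sub z hr d) hd
  have h2 : ∀ d : Fin 4, rswP t F b (fun ω => L ω ∧ Mdl41cCnt (mdl41cR z (k * n) ((k + 1) * n) d)
        ((Finset.range (2 * ((k + 1) * n))).image (mdl41cSeed z (k * n) ((k + 1) * n) d))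
        (mdl41cTop z (k * n) ((k + 1) * n) d) m ω) ≤ q ^ j * rswP t F b L := by
    intro d
    have hBsub : mdl41cB z (k * n) ((k + 1) * n) (n / 2) d ⊆ rswBox z ((k + 2) * n) := by
      refine (mdl41c_B_sub z hr (n / 2) d).trans ?_
      have h5 : (k + 1) * n + n / 2 ≤ (k + 2) * n := by
        have : (k + 2) * n = (k + 1) * n + n := by ring
        omega
      intro f hf
      unfold rswBox at hf ⊢
      rw [mdl41c_mem_rect] at hf ⊢
      have h6 : (((k + 1) * n + n / 2 : ℕ) : ℤ) ≤ (((k + 2) * n : ℕ) : ℤ) := by exact_mod_cast h5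
      omega
    have h3 := mdl41c_tail (mdl41c_geo_shell hM z hr hn1 d) ht0 ht2.le (hBsub.trans hbox) b hp'0.le (by linarith)
      (mdl41c_wbat_mono ht0.le ht2.le (min_le_left _ _) (hn0 n (le_trans (le_max_left _ _) hn) F z b d hF hbox))
      hL m
    refine le_trans h3 (mul_le_mul_of_nonneg_right ?_ hPL)
    rw [← hq4, ← pow_mul]
    exact pow_le_pow_of_le_one hq0.le hq1.le (by omega)
  calc _ ≤ _ := h1
    _ ≤ ∑ _d : Fin 4, q ^ j * rswP t F b L := Finset.sum_le_sum fun d _ => h2 d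
    _ = 4 * q ^ j * rswP t F b L := by
      rw [Finset.sum_const, Finset.card_univ, Fintype.card_fin]
      simp only [nsmul_eq_mul]
      push_cast
      ring

/-! ## 15. (PL0), the rectangle in absolute coordinates -/

/-- (PL0) = `cnt101_meet` of 101 (`Model/Arm101` sec 10, from `rdu251_duality'`) -/
theorem mdl41c_meet : Mdl41cMeet :=
  fun _ _ _ _ _ _ hP hP' _ _ _ _ hf hf0 hg h hf' hf0' hg' h' => cnt101_meet hP hP' hf hf0 hg h hf' hf0' hg' h'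

/-- the image of a rectangle by a frame is a rectangle -/
theorem mdl41c_frame_rect (sw fl : Bool) (c : ℤ × ℤ) (a b l h : ℤ) :
    (Finset.Ico a b ×ˢ Finset.Ico l h).map (mdl41cFrame sw fl c).toEmbedding =
      if sw then Finset.Ico (if fl then c.1 - h else c.1 + l) (if fl then c.1 - l else c.1 + h) ×ˢ Finset.Ico (c.2 + a) (c.2 + b)
      else Finset.Ico (c.1 + a) (c.1 + b) ×ˢ Finset.Ico (if fl then c.2 - h else c.2 + l) (if fl then c.2 - l else c.2 + h) := by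
  ext g
  rw [Finset.mem_map_equiv, mdl41c_mem_rect, mdl41c_frame_symm_apply]
  cases sw <;> cases fl <;> simp only [Bool.false_eq_true, if_false, if_true] <;> rw [mdl41c_mem_rect] <;>
    constructor <;> intro hh <;> omega

/-- **the rectangle `B` in absolute coordinates**, with the position of its two lateral extensions: `LE` holds the left column and `RE` the right column, or `LE` holds the bottom row and `RE` the top row -/
theorem mdl41c_B_rect (z : ℤ × ℤ) {r0 r1 w : ℕ} (hr : r0 + 2 ≤ r1) (hw : 1 ≤ w) (d : Fin 4) :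
    ∃ x0 x1 y0 y1 : ℤ, mdl41cB z r0 r1 w d = Finset.Ico x0 x1 ×ˢ Finset.Ico y0 y1 ∧ x0 + 2 ≤ x1 ∧ y0 + 2 ≤ y1 ∧
      ((∀ y, y0 ≤ y → y < y1 → (x0, y) ∈ mdl41cLE z r0 r1 w d ∧ (x1 - 1, y) ∈ mdl41cRE z r0 r1 w d) ∨
        (∀ x, x0 ≤ x → x < x1 → (x, y0) ∈ mdl41cLE z r0 r1 w d ∧ (x, y1 - 1) ∈ mdl41cRE z r0 r1 w d)) := by
  obtain ⟨sw, fl, c, hfr⟩ := mdl41c_fr_eq z r0 r1 d
  have hc : ((r1 - r0 : ℕ) : ℤ) = (r1 : ℤ) - r0 := Nat.cast_sub (by omega)
  have h2 : ((2 * r1 : ℕ) : ℤ) = 2 * (r1 : ℤ) := by push_cast; ring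
  have hr' : (r0 : ℤ) + 2 ≤ r1 := by exact_mod_cast hr
  have hw' : (1 : ℤ) ≤ w := by exact_mod_cast hw
  have h0 : (0 : ℤ) ≤ r0 := Int.natCast_nonneg _
  unfold mdl41cB mdl41cLE mdl41cRE
  rw [hfr, mdl41c_frame_rect, mdl41c_frame_rect, mdl41c_frame_rect, hc, h2]
  cases sw <;> cases fl <;> simp only [Bool.false_eq_true, if_false, if_true]
  · refine ⟨_, _, _, _, rfl, by omega, by omega, Or.inl fun y h1 h2 => ?_⟩
    rw [mdl41c_mem_rect, mdl41c_mem_rect]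
    simp only
    omega
  · refine ⟨_, _, _, _, rfl, by omega, by omega, Or.inl fun y h1 h2 => ?_⟩
    rw [mdl41c_mem_rect, mdl41c_mem_rect]
    simp only
    omega
  · refine ⟨_, _, _, _, rfl, by omega, by omega, Or.inr fun y h1 h2 => ?_⟩
    rw [mdl41c_mem_rect, mdl41c_mem_rect]
    simp only
    omega
  · refine ⟨_, _, _, _, rfl, by omega, by omega, Or.inr fun y h1 h2 => ?_⟩
    rw [mdl41c_mem_rect, mdl41c_mem_rect]
    simp only
    omega

/-! (WB) = `Mdl41cWB t` is proved DOWNSTREAM (`Model/Wall191` and its leaves import this file); (S2) `exit_mdl_trans` is wired in `Exit/MODEL` by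
`mdl41c_trans_of_wb mdl41c_meet t ht1 ht2 (..) k`. -/

/-- **BOX CONNECTIVITY** (for 261): two faces of a box inside `F` are joined by a chain of faces across interior edges of `F` -/
theorem mdl41c_box_conn (z : ℤ × ℤ) (m : ℕ) {F : Finset (ℤ × ℤ)} (hsub : rswBox z m ⊆ F) {x y : ℤ × ℤ}
    (hx : x ∈ rswBox z m) (hy : y ∈ rswBox z m) :
    Relation.ReflTransGen (fun u v => ∃ e ∈ rswInt F, (u = e.1 ∧ v = rswCo e) ∨ (v = e.1 ∧ u = rswCo e)) x y := by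
  have h : Mdl41cJoin (rswBox z m) x y := mdl41c_rect_conn hx hy
  unfold Mdl41cJoin at h
  refine Relation.ReflTransGen.mono ?_ _ _ h
  rintro u v ⟨hu, hv, e, he⟩
  refine ⟨e, rsz_mem_int.2 ?_, he⟩
  rcases he with ⟨rfl, rfl⟩ | ⟨rfl, rfl⟩
  · exact ⟨hsub hu, hsub hv⟩
  · exact ⟨hsub hv, hsub hu⟩

/-- the equation lemmas of the definitions of this file are generated HERE (RULES.md, rule 6) -/
theorem mdl41c_defs_eqns_cite : True := by
  have := @Mdl41cCnt.eq_1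
  have := @Mdl41cRec.eq_1
  have := @mdl41cNum.eq_1
  have := @mdl41cExp.eq_1
  have := @Mdl41cX.eq_1
  have := @Mdl41cAdj.eq_1
  have := @Mdl41cJoin.eq_1
  have := @mdl41cCh.eq_1
  have := @Mdl41cWall.eq_1
  have := @mdl41cComp.eq_1
  have := @Mdl41cNoX.eq_1
  have := @Mdl41cWBat.eq_1
  have := @Mdl41cCirc.eq_1
  have := @Mdl41cTrans.eq_1
  have := @Mdl41cMeet.eq_1
  have := @mdl41cFrame.eq_1
  have := @mdl41cFr.eq_1
  have := @mdl41cR.eq_1
  have := @mdl41cB.eq_1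
  have := @mdl41cLE.eq_1
  have := @mdl41cRE.eq_1
  have := @mdl41cTop.eq_1
  have := @mdl41cSeed.eq_1
  have := @Mdl41cWB.eq_1
  trivial

end Claimed.Agent.R292
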