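import Claimed.Agent.R292.Model.Dict21
import Claimed.Agent.R292.Defs.MODEL

/-!
# Row 292 (S0540), Model/DictM21 : (M1) THE DICTIONARY IN THE VOCABULARY OF `Defs/MODEL`      (owner helper21; prefix `mdl21m_`, defs `mdl21m*`)

`atExpect t δ F φ ψ = mdlFz t⁻¹ F fun h => ψ (mdlSm δ F φ h)`   from `Model/Dict21` (`mdl21_expect`) and the bijection `mdlCfg (mdlDom F) mdlRef ≃ mdl21Hts F`.
-/

set_option autoImplicit false

namespace Claimed.Agent.R292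

open Claims Claims.C0468

/-! ## 0. the turned lattice -/

/-- the inverse of `mdlV` (on the even sites) and of `mdlF` (on the odd sites) -/
def mdl21mU (u : MdlS) : ℤ × ℤ := ((u.1 - u.2) / 2, (u.1 + u.2) / 2)

theorem mdl21m_U_V (v : ℤ × ℤ) : mdl21mU (mdlV v) = v := by
  unfold mdl21mU mdlV
  refine Prod.ext ?_ ?_ <;> simp only <;> omega

theorem mdl21m_U_F (f : ℤ × ℤ) : mdl21mU (mdlF f) = f := by
  unfold mdl21mU mdlF
  refine Prod.ext ?_ ?_ <;> simp only <;> omega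

theorem mdl21m_V_U {u : MdlS} (h : (u.1 + u.2) % 2 = 0) : mdlV (mdl21mU u) = u := by
  unfold mdl21mU mdlV
  refine Prod.ext ?_ ?_ <;> simp only <;> omega

theorem mdl21m_F_U {u : MdlS} (h : ¬ (u.1 + u.2) % 2 = 0) : mdlF (mdl21mU u) = u := by
  unfold mdl21mU mdlF
  refine Prod.ext ?_ ?_ <;> simp only <;> omega

theorem mdl21m_V_even (v : ℤ × ℤ) : ((mdlV v).1 + (mdlV v).2) % 2 = 0 := by
  unfold mdlV
  simp only
  omega

theorem mdl21m_F_odd (f : ℤ × ℤ) : ¬ ((mdlF f).1 + (mdlF f).2) % 2 = 0 := by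
  unfold mdlF
  simp only
  omega

theorem mdl21m_V_inj : Function.Injective mdlV := fun a b h => by
  rw [← mdl21m_U_V a, ← mdl21m_U_V b, h]

theorem mdl21m_F_inj : Function.Injective mdlF := fun a b h => by
  rw [← mdl21m_U_F a, ← mdl21m_U_F b, h]

theorem mdl21m_V_ne_F (v f : ℤ × ℤ) : mdlV v ≠ mdlF f := fun h => mdl21m_F_odd f (h ▸ mdl21m_V_even v)

theorem mdl21m_ref_V (v : ℤ × ℤ) : mdlRef (mdlV v) = 0 := mdl21m_V_even v

theorem mdl21m_ref_F (f : ℤ × ℤ) : mdlRef (mdlF f) = 1 := by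
  have := mdl21m_F_odd f
  unfold mdlRef
  omega

/-- the four neighbours of a face -/
theorem mdl21m_F_add (f : ℤ × ℤ) :
    mdlF f + (1, 0) = mdlV (f.1 + 1, f.2 + 1) ∧ mdlF f + (-1, 0) = mdlV f ∧
      mdlF f + (0, 1) = mdlV (f.1, f.2 + 1) ∧ mdlF f + (0, -1) = mdlV (f.1 + 1, f.2) := by
  unfold mdlF mdlV
  refine ⟨Prod.ext ?_ ?_, Prod.ext ?_ ?_, Prod.ext ?_ ?_, Prod.ext ?_ ?_⟩ <;> simp <;> ring

/-- the four neighbours of a corner -/
theorem mdl21m_V_add (v : ℤ × ℤ) :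
    mdlV v + (1, 0) = mdlF v ∧ mdlV v + (-1, 0) = mdlF (v.1 - 1, v.2 - 1) ∧
      mdlV v + (0, 1) = mdlF (v.1 - 1, v.2) ∧ mdlV v + (0, -1) = mdlF (v.1, v.2 - 1) := by
  unfold mdlF mdlV
  refine ⟨Prod.ext ?_ ?_, Prod.ext ?_ ?_, Prod.ext ?_ ?_, Prod.ext ?_ ?_⟩ <;> simp <;> ring

theorem mdl21m_V_mem_dom {F : Finset (ℤ × ℤ)} (v : ℤ × ℤ) : mdlV v ∈ mdlDom F ↔ v ∈ cornersOf F ∧ ¬ OnPolygon F v := by
  classical
  unfold mdlDom
  simp only [Finset.mem_union, Finset.mem_image, Finset.mem_filter]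
  constructor
  · rintro (⟨w, hw, e⟩ | ⟨f, _, e⟩)
    · rwa [← mdl21m_V_inj e]
    · exact absurd e.symm (mdl21m_V_ne_F v f)
  · intro h
    exact Or.inl ⟨v, h, rfl⟩

theorem mdl21m_F_mem_dom {F : Finset (ℤ × ℤ)} (f : ℤ × ℤ) : mdlF f ∈ mdlDom F ↔ f ∈ F := by
  classical
  unfold mdlDom
  simp only [Finset.mem_union, Finset.mem_image, Finset.mem_filter]
  constructor
  · rintro (⟨w, _, e⟩ | ⟨g, hg, e⟩)
    · exact absurd e (mdl21m_V_ne_F w f)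
    · rwa [← mdl21m_F_inj e]
  · intro h
    exact Or.inr ⟨f, h, rfl⟩

/-! ## 1. the two maps -/

/-- height of `Defs/MODEL` from a height of `Dict21` -/
def mdl21mH (F : Finset (ℤ × ℤ)) (K : (ℤ × ℤ → ℤ) × (ℤ × ℤ → ℤ)) : MdlS → ℤ := fun u =>
  if (u.1 + u.2) % 2 = 0 then K.1 (mdl21mU u) else if mdl21mU u ∈ F then K.2 (mdl21mU u) else 1

/-- height of `Dict21` from a height of `Defs/MODEL` -/
def mdl21mK (F : Finset (ℤ × ℤ)) (h : MdlS → ℤ) : (ℤ × ℤ → ℤ) × (ℤ × ℤ → ℤ) :=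
  (fun v => if v ∈ cornersOf F then h (mdlV v) else 0, fun f => if f ∈ F then h (mdlF f) else 0)

theorem mdl21m_H_V (F : Finset (ℤ × ℤ)) (K : (ℤ × ℤ → ℤ) × (ℤ × ℤ → ℤ)) (v : ℤ × ℤ) : mdl21mH F K (mdlV v) = K.1 v := by
  unfold mdl21mH
  rw [if_pos (mdl21m_V_even v), mdl21m_U_V]

theorem mdl21m_H_F {F : Finset (ℤ × ℤ)} (K : (ℤ × ℤ → ℤ) × (ℤ × ℤ → ℤ)) {f : ℤ × ℤ} (hf : f ∈ F) :
    mdl21mH F K (mdlF f) = K.2 f := by
  unfold mdl21mH
  rw [if_neg (mdl21m_F_odd f), mdl21m_U_F, if_pos hf]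

theorem mdl21m_H_F' {F : Finset (ℤ × ℤ)} (K : (ℤ × ℤ → ℤ) × (ℤ × ℤ → ℤ)) {f : ℤ × ℤ} (hf : f ∉ F) :
    mdl21mH F K (mdlF f) = 1 := by
  unfold mdl21mH
  rw [if_neg (mdl21m_F_odd f), mdl21m_U_F, if_neg hf]

/-- every site is a corner or a face -/
theorem mdl21m_site (u : MdlS) : (∃ v, u = mdlV v) ∨ ∃ f, u = mdlF f := by
  by_cases h : (u.1 + u.2) % 2 = 0
  · exact Or.inl ⟨_, (mdl21m_V_U h).symm⟩
  · exact Or.inr ⟨_, (mdl21m_F_U h).symm⟩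

theorem mdl21m_abs_iff (a b : ℤ) : |a - b| = 1 ↔ (b - a = 1 ∨ b - a = -1) := by
  constructor
  · intro h
    rcases abs_eq (by norm_num : (0 : ℤ) ≤ 1) |>.1 h with h | h <;> omega
  · rintro (h | h)
    · have : a - b = -1 := by omega
      rw [this]; rfl
    · have : a - b = 1 := by omega
      rw [this]; rfl

theorem mdl21m_adm_of_ht {F : Finset (ℤ × ℤ)} {K : (ℤ × ℤ → ℤ) × (ℤ × ℤ → ℤ)} (h : Mdl21Ht F K) :
    MdlAdm (mdlDom F) mdlRef (mdl21mH F K) := by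
  refine ⟨fun u hu => ?_, fun u hu d hd => ?_⟩
  · rcases mdl21m_site u with ⟨v, rfl⟩ | ⟨f, rfl⟩
    · rw [mdl21m_H_V, mdl21m_ref_V]
      rw [mdl21m_V_mem_dom] at hu
      by_cases hv : v ∈ cornersOf F
      · exact h.bdry v hv (by_contra fun hp => hu ⟨hv, hp⟩)
      · exact h.offv v hv
    · rw [mdl21m_F_mem_dom] at hu
      rw [mdl21m_H_F' K hu, mdl21m_ref_F]
  · have hd' : d = (1, 0) ∨ d = (-1, 0) ∨ d = (0, 1) ∨ d = (0, -1) := by
      simpa [mdlDirs] using hd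
    rcases mdl21m_site u with ⟨v, rfl⟩ | ⟨f, rfl⟩
    · obtain ⟨hv, hp⟩ := (mdl21m_V_mem_dom v).1 hu
      unfold OnPolygon at hp
      rw [not_not] at hp
      obtain ⟨f1, f2, f3, f4⟩ := hp
      obtain ⟨e1, e2, e3, e4⟩ := mdl21m_V_add v
      rw [mdl21m_H_V, abs_sub_comm, mdl21m_abs_iff]
      rcases hd' with rfl | rfl | rfl | rfl
      · rw [e1, mdl21m_H_F K f1]
        exact h.step _ f1 v (by simp [mdl21Cor])
      · rw [e2, mdl21m_H_F K f4]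
        exact h.step _ f4 v (by simp [mdl21Cor])
      · rw [e3, mdl21m_H_F K f2]
        exact h.step _ f2 v (by simp [mdl21Cor])
      · rw [e4, mdl21m_H_F K f3]
        exact h.step _ f3 v (by simp [mdl21Cor])
    · have hf := (mdl21m_F_mem_dom f).1 hu
      obtain ⟨e1, e2, e3, e4⟩ := mdl21m_F_add f
      rw [mdl21m_H_F K hf, mdl21m_abs_iff]
      rcases hd' with rfl | rfl | rfl | rfl
      · rw [e1, mdl21m_H_V]
        exact h.step _ hf _ (by simp [mdl21Cor])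
      · rw [e2, mdl21m_H_V]
        exact h.step _ hf _ (by simp [mdl21Cor])
      · rw [e3, mdl21m_H_V]
        exact h.step _ hf _ (by simp [mdl21Cor])
      · rw [e4, mdl21m_H_V]
        exact h.step _ hf _ (by simp [mdl21Cor])

theorem mdl21m_ht_of_adm {F : Finset (ℤ × ℤ)} {h : MdlS → ℤ} (ha : MdlAdm (mdlDom F) mdlRef h) :
    Mdl21Ht F (mdl21mK F h) := by
  refine ⟨fun v hv hp => ?_, fun f hf v hv => ?_, fun v hv => if_neg hv, fun f hf => if_neg hf⟩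
  · show (if v ∈ cornersOf F then h (mdlV v) else 0) = 0
    rw [if_pos hv, ha.1 _ (fun hm => ((mdl21m_V_mem_dom v).1 hm).2 hp), mdl21m_ref_V]
  · show (if f ∈ F then h (mdlF f) else 0) - (if v ∈ cornersOf F then h (mdlV v) else 0) = 1 ∨
      (if f ∈ F then h (mdlF f) else 0) - (if v ∈ cornersOf F then h (mdlV v) else 0) = -1
    rw [if_pos hf, if_pos (mdl21_cor_sub hf hv), ← mdl21m_abs_iff]
    obtain ⟨e1, e2, e3, e4⟩ := mdl21m_F_add f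
    have hu := (mdl21m_F_mem_dom (F := F) f).2 hf
    rcases (mdl21_mem_cor f v).1 hv with rfl | rfl | rfl | rfl
    · rw [← e2]; exact ha.2 _ hu _ (by simp [mdlDirs])
    · rw [← e4]; exact ha.2 _ hu _ (by simp [mdlDirs])
    · rw [← e3]; exact ha.2 _ hu _ (by simp [mdlDirs])
    · rw [← e1]; exact ha.2 _ hu _ (by simp [mdlDirs])

theorem mdl21m_H_K {F : Finset (ℤ × ℤ)} {h : MdlS → ℤ} (ha : MdlAdm (mdlDom F) mdlRef h) :
    mdl21mH F (mdl21mK F h) = h := by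
  funext u
  rcases mdl21m_site u with ⟨v, rfl⟩ | ⟨f, rfl⟩
  · rw [mdl21m_H_V]
    show (if v ∈ cornersOf F then h (mdlV v) else 0) = _
    by_cases hv : v ∈ cornersOf F
    · rw [if_pos hv]
    · rw [if_neg hv, ha.1 _ (fun hm => hv ((mdl21m_V_mem_dom v).1 hm).1), mdl21m_ref_V]
  · by_cases hf : f ∈ F
    · rw [mdl21m_H_F _ hf]
      show (if f ∈ F then h (mdlF f) else 0) = _
      rw [if_pos hf]
    · rw [mdl21m_H_F' _ hf, ha.1 _ (fun hm => hf ((mdl21m_F_mem_dom f).1 hm)), mdl21m_ref_F]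

theorem mdl21m_K_H {F : Finset (ℤ × ℤ)} {K : (ℤ × ℤ → ℤ) × (ℤ × ℤ → ℤ)} (h : Mdl21Ht F K) :
    mdl21mK F (mdl21mH F K) = K := by
  refine Prod.ext (funext fun v => ?_) (funext fun f => ?_)
  · show (if v ∈ cornersOf F then mdl21mH F K (mdlV v) else 0) = _
    by_cases hv : v ∈ cornersOf F
    · rw [if_pos hv, mdl21m_H_V]
    · rw [if_neg hv, h.offv v hv]
  · show (if f ∈ F then mdl21mH F K (mdlF f) else 0) = _
    by_cases hf : f ∈ F
    · rw [if_pos hf, mdl21m_H_F _ hf]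
    · rw [if_neg hf, h.offf f hf]

/-- the admissible heights of `Defs/MODEL` are the images of the heights of `Dict21` -/
theorem mdl21m_cfg {F : Finset (ℤ × ℤ)} (hex : Mdl21Ex F) :
    mdlCfg (mdlDom F) mdlRef = (open Classical in (mdl21Hts F).image (mdl21mH F)) := by
  classical
  have hset : {h | MdlAdm (mdlDom F) mdlRef h} = ↑((mdl21Hts F).image (mdl21mH F)) := by
    ext h
    simp only [Set.mem_ofPred_eq, Finset.coe_image, Set.mem_image, Finset.mem_coe]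
    constructor
    · intro ha
      exact ⟨mdl21mK F h, mdl21_mem_hts_of (mdl21m_ht_of_adm ha), mdl21m_H_K ha⟩
    · rintro ⟨K, hK, rfl⟩
      exact mdl21m_adm_of_ht ((mdl21_mem_hts hex K).1 hK)
  have hfin : {h | MdlAdm (mdlDom F) mdlRef h}.Finite := by
    rw [hset]; exact Finset.finite_toSet _
  unfold mdlCfg
  rw [dif_pos hfin]
  ext h
  rw [Set.Finite.mem_toFinset, hset, Finset.mem_coe]

/-- change of variables -/
theorem mdl21m_sum {F : Finset (ℤ × ℤ)} (hex : Mdl21Ex F) (g : (MdlS → ℤ) → ℝ) :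
    ∑ h ∈ mdlCfg (mdlDom F) mdlRef, g h = ∑ K ∈ mdl21Hts F, g (mdl21mH F K) := by
  classical
  rw [mdl21m_cfg hex, Finset.sum_image]
  intro K hK K' hK' e
  rw [← mdl21m_K_H ((mdl21_mem_hts hex K).1 hK), ← mdl21m_K_H ((mdl21_mem_hts hex K').1 hK'), e]

theorem mdl21m_sm (δ : ℝ) (F : Finset (ℤ × ℤ)) (φ : ℝ × ℝ → ℝ) (K : (ℤ × ℤ → ℤ) × (ℤ × ℤ → ℤ)) :
    mdlSm δ F φ (mdl21mH F K) = mdl21X δ F φ K := by
  unfold mdlSm mdl21X
  simp only [mdl21m_H_V]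

/-! ## 2. the number of `c`-plaquettes -/

theorem mdl21m_F_diag (f : ℤ × ℤ) : mdlF f + (1, 1) = mdlF (f.1, f.2 + 1) := by
  unfold mdlF
  refine Prod.ext ?_ ?_ <;> simp <;> ring

theorem mdl21m_V_diag (v : ℤ × ℤ) : mdlV v + (1, 1) = mdlV (v.1, v.2 + 1) := by
  unfold mdlV
  refine Prod.ext ?_ ?_ <;> simp <;> ring

theorem mdl21m_C_F {F : Finset (ℤ × ℤ)} (K : (ℤ × ℤ → ℤ) × (ℤ × ℤ → ℤ)) {f : ℤ × ℤ} (hf : f ∈ F) (hf' : (f.1, f.2 + 1) ∈ F) :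
    MdlC (mdl21mH F K) (mdlF f) ↔ K.2 f = K.2 (f.1, f.2 + 1) ∧ K.1 (f.1 + 1, f.2 + 1) = K.1 (f.1, f.2 + 1) := by
  unfold MdlC MdlD1 MdlD2
  rw [mdl21m_F_diag, (mdl21m_F_add f).1, (mdl21m_F_add f).2.2.1, mdl21m_H_F K hf, mdl21m_H_F K hf', mdl21m_H_V, mdl21m_H_V]

theorem mdl21m_C_V {F : Finset (ℤ × ℤ)} (K : (ℤ × ℤ → ℤ) × (ℤ × ℤ → ℤ)) {v : ℤ × ℤ} (hf : v ∈ F) (hf' : (v.1 - 1, v.2) ∈ F) :
    MdlC (mdl21mH F K) (mdlV v) ↔ K.1 v = K.1 (v.1, v.2 + 1) ∧ K.2 v = K.2 (v.1 - 1, v.2) := by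
  unfold MdlC MdlD1 MdlD2
  rw [mdl21m_V_diag, (mdl21m_V_add v).1, (mdl21m_V_add v).2.2.1, mdl21m_H_F K hf, mdl21m_H_F K hf', mdl21m_H_V, mdl21m_H_V]

theorem mdl21m_N (F : Finset (ℤ × ℤ)) (K : (ℤ × ℤ → ℤ) × (ℤ × ℤ → ℤ)) :
    mdlN (mdlQ F) (mdl21mH F K) = mdl21NC F K := by
  classical
  unfold mdlN mdlQ mdl21NC
  rw [Finset.filter_union, Finset.card_union_of_disjoint, Finset.filter_image, Finset.filter_image,
    Finset.card_image_of_injective _ mdl21m_F_inj, Finset.card_image_of_injective _ mdl21m_V_inj,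
    Finset.sum_add_distrib, ← Finset.card_filter, ← Finset.card_filter]
  · congr 1
    · refine Finset.card_bij (fun f _ => (f.1, f.2 + 1)) ?_ ?_ ?_
      · intro f hf
        simp only [Finset.mem_filter] at hf ⊢
        obtain ⟨⟨h1, h2⟩, h3⟩ := hf
        obtain ⟨e1, e2⟩ := (mdl21m_C_F K h1 h2).1 h3
        refine ⟨mdl21_cor_sub h2 (by simp [mdl21Cor]), ⟨h2, by simpa using h1⟩, e2.symm, ?_⟩
        simp only [add_sub_cancel_right]
        exact e1.symm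
      · intro a _ b _ e
        simp only [Prod.mk.injEq] at e
        exact Prod.ext e.1 (by omega)
      · intro v hv
        simp only [Finset.mem_filter] at hv
        obtain ⟨-, ⟨h1, h2⟩, e1, e2⟩ := hv
        refine ⟨(v.1, v.2 - 1), ?_, by simp⟩
        simp only [Finset.mem_filter]
        have h1' : ((v.1, v.2 - 1 + 1) : ℤ × ℤ) ∈ F := by simpa using h1
        refine ⟨⟨h2, h1'⟩, (mdl21m_C_F K h2 h1').2 ⟨?_, ?_⟩⟩
        · simp only [sub_add_cancel]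
          exact e2.symm
        · simp only [sub_add_cancel]
          exact e1.symm
    · congr 1
      ext v
      simp only [Finset.mem_filter]
      constructor
      · rintro ⟨⟨h1, h2⟩, h3⟩
        exact ⟨mdl21_cor_sub h1 (by simp [mdl21Cor]), ⟨h1, h2⟩, (mdl21m_C_V K h1 h2).1 h3⟩
      · rintro ⟨-, ⟨h1, h2⟩, h3⟩
        exact ⟨⟨h1, h2⟩, (mdl21m_C_V K h1 h2).2 h3⟩
  · rw [Finset.disjoint_left]
    intro u hu hu'
    obtain ⟨f, -, rfl⟩ := Finset.mem_image.1 (Finset.mem_filter.1 hu).1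
    obtain ⟨v, -, e⟩ := Finset.mem_image.1 (Finset.mem_filter.1 hu').1
    exact mdl21m_V_ne_F v f e

/-! ## 3. (M1) -/

/-- (M1) under the combinatorial hypothesis -/
theorem mdl21m_dict_ex {F : Finset (ℤ × ℤ)} (hex : Mdl21Ex F) {t : ℝ} (ht : t ≠ 0) (δ : ℝ) (φ : ℝ × ℝ → ℝ) (ψ : ℝ → ℝ) :
    atExpect t δ F φ ψ = mdlFz t⁻¹ F fun h => ψ (mdlSm δ F φ h) := by
  rw [mdl21_expect ht δ hex]
  unfold mdlFz mdlEQ mdlZQ mdlWt
  rw [mdl21m_sum hex, mdl21m_sum hex]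
  simp only [mdl21m_N, mdl21m_sm]

/-- **(M1) THE DICTIONARY**, verbatim `exit_mdl_dict` -/
theorem mdl21m_dict {d : ℝ} (hd : 0 < d) {F : Finset (ℤ × ℤ)} (hc : IsPreconnected (frontier (faceRegionSq d F)))
    {t : ℝ} (ht : 0 < t) (δ : ℝ) (φ : ℝ × ℝ → ℝ) (ψ : ℝ → ℝ) :
    atExpect t δ F φ ψ = mdlFz t⁻¹ F fun h => ψ (mdlSm δ F φ h) :=
  mdl21m_dict_ex (mdl21_ex_of_ext fun S h1 h2 h3 => at92h_ext_conn hd F hc S h1 h2 h3) ht.ne' δ φ ψ

end Claimed.Agent.R292
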