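import Claimed.Agent.R292.Defs.MODEL
import Claimed.Agent.R292.Model.Fkg231

/-!
# Row 292 (S0540), Model/M3x201 : CONTRACT (M3) `exit_mdl_fkg` CLOSED IN THE VOCABULARY OF `Defs/MODEL`      (owner helper201; prefix `mdl201_`)      no sorry

* `mdl201_global`        an admissible height with a global boundary height is a global height (`MdlHt`)
* `mdl201_finite`, `mdl201_mem_cfg`, `mdl201_self_mem`, `mdl201_ZQ_pos`
* `mdl201_adm_inf_sup`, `mdl201_N_inf_sup`, `mdl201_wt_inf_sup`      the lattice condition, `1 ≤ c`, ANY finite set `Q` of weighted plaquettes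
* **`mdl201_fkg`**, **`mdl201_order`**, **`mdl201_exit_fkg`** = the statement of `exit_mdl_fkg`
* **`mdl201_exit_dlr`** = the statement of (M2) `exit_mdl_dlr` (ARBITRARY boundary function: `mdl201_finite_any`, `mdl201_mem_cfg_any`, `mdl201_adm_sub`, `_symm`, `mdl201_cfg_congr`)
* **`mdl201_exit_edge`** = the statement of (M5) `exit_mdl_edge` (`mdl201_sf_df`, `mdl201_flat_or`, `mdl201_edge_one`, `mdl201_wt_prod`)
The lattice lemmas `mdl231_one`, `mdl231_two`, `mdl231_step_inf_sup`, `mdl231_plaq` are those of `Model/Fkg231` (imported).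
-/

set_option autoImplicit false

namespace Claimed.Agent.R292

open Claims Claims.C0468 Filter Topology

/-! ### directions -/

theorem mdl201_dir_e1 : ((1, 0) : MdlS) ∈ mdlDirs := by simp [mdlDirs]
theorem mdl201_dir_e2 : ((0, 1) : MdlS) ∈ mdlDirs := by simp [mdlDirs]

theorem mdl201_dir_neg {d : MdlS} (hd : d ∈ mdlDirs) : -d ∈ mdlDirs := by
  simp only [mdlDirs, Finset.mem_insert, Finset.mem_singleton] at hd ⊢
  rcases hd with rfl | rfl | rfl | rfl <;> simp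

theorem mdl201_abs_one {x y : ℤ} (h : |x - y| = 1) : x - y = 1 ∨ x - y = -1 := by
  rcases abs_eq (by norm_num : (0 : ℤ) ≤ 1) |>.1 h with h | h
  · exact Or.inl h
  · exact Or.inr h

theorem mdl201_abs_one' {x y : ℤ} (h : x - y = 1 ∨ x - y = -1) : |x - y| = 1 := by
  rcases h with h | h <;> rw [h] <;> simp

/-! ### an admissible height is a global height -/

theorem mdl201_exists_right (A : Finset MdlS) : ∃ X : ℤ, ∀ u ∈ A, u.1 ≤ X := by
  classical
  obtain ⟨X, hX⟩ := (A.image Prod.fst).bddAbove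
  exact ⟨X, fun u hu => hX (Finset.mem_coe.2 (Finset.mem_image_of_mem _ hu))⟩

theorem mdl201_steps {A : Finset MdlS} {b h : MdlS → ℤ} (hb : MdlHt b) (hh : MdlAdm A b h) (u : MdlS) {d : MdlS}
    (hd : d ∈ mdlDirs) : |h (u + d) - h u| = 1 := by
  by_cases hu : u ∈ A
  · exact hh.2 u hu d hd
  · by_cases hv : u + d ∈ A
    · have := hh.2 (u + d) hv (-d) (mdl201_dir_neg hd)
      rw [add_neg_cancel_right] at this
      rw [abs_sub_comm]
      exact this
    · rw [hh.1 u hu, hh.1 _ hv]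
      exact hb.1 u d hd

theorem mdl201_parity {A : Finset MdlS} {b h : MdlS → ℤ} (hb : MdlHt b) (hh : MdlAdm A b h) (u : MdlS) :
    (h u - (u.1 + u.2)) % 2 = 0 := by
  obtain ⟨X, hX⟩ := mdl201_exists_right A
  have key : ∀ n : ℕ, ∀ u : MdlS, X + 1 - u.1 ≤ n → (h u - (u.1 + u.2)) % 2 = 0 := by
    intro n
    induction n with
    | zero =>
      intro u hu
      have hA : u ∉ A := fun h' => by have := hX u h'; push_cast at hu; omega
      rw [hh.1 u hA]
      exact hb.2 u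
    | succ n ih =>
      intro u hu
      have h1 := ih (u + (1, 0)) (by simp only [Prod.fst_add]; push_cast at hu ⊢; omega)
      have h2 := mdl201_abs_one (mdl201_steps hb hh u mdl201_dir_e1)
      simp only [Prod.fst_add, Prod.snd_add] at h1
      omega
  exact key (X + 1 - u.1).toNat u (Int.self_le_toNat _)

/-- an admissible height with a global boundary height is a global height -/
theorem mdl201_global {A : Finset MdlS} {b h : MdlS → ℤ} (hb : MdlHt b) (hh : MdlAdm A b h) : MdlHt h :=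
  ⟨fun u _ hd => mdl201_steps hb hh u hd, mdl201_parity hb hh⟩

theorem mdl201_bound {A : Finset MdlS} {b : MdlS → ℤ} (hb : MdlHt b) :
    ∃ n : MdlS → ℤ, ∀ h, MdlAdm A b h → ∀ u, |h u - b u| ≤ n u := by
  obtain ⟨X, hX⟩ := mdl201_exists_right A
  refine ⟨fun u => 2 * ((X + 1 - u.1).toNat : ℤ), fun h hh => ?_⟩
  have key : ∀ n : ℕ, ∀ u : MdlS, X + 1 - u.1 ≤ n → |h u - b u| ≤ 2 * (n : ℤ) := by
    intro n
    induction n with
    | zero =>
      intro u hu
      have hA : u ∉ A := fun h' => by have := hX u h'; push_cast at hu; omega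
      rw [hh.1 u hA]
      simp
    | succ n ih =>
      intro u hu
      have h1 := ih (u + (1, 0)) (by simp only [Prod.fst_add]; push_cast at hu ⊢; omega)
      have h2 := mdl201_abs_one (mdl201_steps hb hh u mdl201_dir_e1)
      have h3 := mdl201_abs_one (hb.1 u _ mdl201_dir_e1)
      rw [abs_le] at h1 ⊢
      push_cast
      constructor <;> omega
  exact fun u => key _ u (Int.self_le_toNat _)

theorem mdl201_finite (A : Finset MdlS) {b : MdlS → ℤ} (hb : MdlHt b) : {h | MdlAdm A b h}.Finite := by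
  classical
  obtain ⟨n, hn⟩ := mdl201_bound (A := A) hb
  let T : Finset (MdlS → ℤ) := (A.pi fun x => Finset.Icc (b x - n x) (b x + n x)).image
    (fun g => fun x => if hx : x ∈ A then g x hx else b x)
  refine T.finite_toSet.subset fun K hK => ?_
  refine Finset.mem_coe.2 (Finset.mem_image.2 ⟨fun x _ => K x, Finset.mem_pi.2 fun x _ => ?_, ?_⟩)
  · have := hn K hK x
    rw [abs_le] at this
    exact Finset.mem_Icc.2 ⟨by omega, by omega⟩
  · funext x
    by_cases hx : x ∈ A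
    · simp [hx]
    · simp [hx, hK.1 x hx]

theorem mdl201_mem_cfg (A : Finset MdlS) {b : MdlS → ℤ} (hb : MdlHt b) {h : MdlS → ℤ} :
    h ∈ mdlCfg A b ↔ MdlAdm A b h := by
  unfold mdlCfg
  rw [dif_pos (mdl201_finite A hb)]
  exact (mdl201_finite A hb).mem_toFinset

theorem mdl201_self_adm (A : Finset MdlS) {b : MdlS → ℤ} (hb : MdlHt b) : MdlAdm A b b :=
  ⟨fun _ _ => rfl, fun u _ d hd => hb.1 u d hd⟩

theorem mdl201_self_mem (A : Finset MdlS) {b : MdlS → ℤ} (hb : MdlHt b) : b ∈ mdlCfg A b :=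
  (mdl201_mem_cfg A hb).2 (mdl201_self_adm A hb)

theorem mdl201_wt_pos {c : ℝ} (hc : 0 < c) (Q : Finset MdlS) (h : MdlS → ℤ) : 0 < mdlWt c Q h := by
  unfold mdlWt; positivity

theorem mdl201_ZQ_pos {c : ℝ} (hc : 0 < c) (Q A : Finset MdlS) {b : MdlS → ℤ} (hb : MdlHt b) : 0 < mdlZQ c Q A b :=
  Finset.sum_pos (fun h _ => mdl201_wt_pos hc Q h) ⟨b, mdl201_self_mem A hb⟩

/-! ### the lattice condition -/

theorem mdl201_ht_par {h h' : MdlS → ℤ} (hh : MdlHt h) (hh' : MdlHt h') (u : MdlS) : (h u - h' u) % 2 = 0 := by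
  have h1 := hh.2 u
  have h2 := hh'.2 u
  omega

theorem mdl201_ht_step {h : MdlS → ℤ} (hh : MdlHt h) (u : MdlS) {d : MdlS} (hd : d ∈ mdlDirs) :
    h (u + d) - h u = 1 ∨ h (u + d) - h u = -1 := mdl201_abs_one (hh.1 u d hd)

theorem mdl201_adm_inf_sup {A : Finset MdlS} {b b' h h' : MdlS → ℤ} (hb : MdlHt b) (hb' : MdlHt b') (hbb : ∀ u, b u ≤ b' u)
    (hh : MdlAdm A b h) (hh' : MdlAdm A b' h') : MdlAdm A b (h ⊓ h') ∧ MdlAdm A b' (h ⊔ h') := by
  have g := mdl201_global hb hh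
  have g' := mdl201_global hb' hh'
  refine ⟨⟨fun u hu => ?_, fun u _ d hd => ?_⟩, ⟨fun u hu => ?_, fun u _ d hd => ?_⟩⟩
  · rw [Pi.inf_apply, hh.1 u hu, hh'.1 u hu]; exact inf_eq_left.2 (hbb u)
  · exact mdl201_abs_one' (mdl231_step_inf_sup _ _ _ _ (mdl201_ht_step g u hd) (mdl201_ht_step g' u hd)
      (mdl201_ht_par g g' _)).1
  · rw [Pi.sup_apply, hh.1 u hu, hh'.1 u hu]; exact sup_eq_right.2 (hbb u)
  · exact mdl201_abs_one' (mdl231_step_inf_sup _ _ _ _ (mdl201_ht_step g u hd) (mdl201_ht_step g' u hd)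
      (mdl201_ht_par g g' _)).2

theorem mdl201_N_eq (Q : Finset MdlS) (h : MdlS → ℤ) :
    mdlN Q h = ∑ p ∈ Q, if h p = h (p + (1, 1)) ∧ h (p + (1, 0)) = h (p + (0, 1)) then 1 else 0 := by
  classical
  unfold mdlN
  rw [Finset.card_filter]
  refine Finset.sum_congr rfl fun p _ => ?_
  unfold MdlC MdlD1 MdlD2
  congr

/-- the four sides of a plaquette -/
theorem mdl201_sides {h : MdlS → ℤ} (hh : MdlHt h) (p : MdlS) :
    (h p - h (p + (1, 0)) = 1 ∨ h p - h (p + (1, 0)) = -1) ∧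
    (h (p + (1, 1)) - h (p + (1, 0)) = 1 ∨ h (p + (1, 1)) - h (p + (1, 0)) = -1) ∧
    (h (p + (1, 1)) - h (p + (0, 1)) = 1 ∨ h (p + (1, 1)) - h (p + (0, 1)) = -1) ∧
    (h p - h (p + (0, 1)) = 1 ∨ h p - h (p + (0, 1)) = -1) := by
  have h1 := mdl201_ht_step hh p mdl201_dir_e1
  have h2 := mdl201_ht_step hh (p + (1, 0)) mdl201_dir_e2
  have h3 := mdl201_ht_step hh (p + (0, 1)) mdl201_dir_e1
  have h4 := mdl201_ht_step hh p mdl201_dir_e2
  have e2 : p + (1, 0) + (0, 1) = p + ((1, 1) : MdlS) := by ext <;> simp [add_assoc]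
  have e3 : p + (0, 1) + (1, 0) = p + ((1, 1) : MdlS) := by ext <;> simp [add_assoc]
  rw [e2] at h2
  rw [e3] at h3
  refine ⟨by omega, h2, h3, by omega⟩

theorem mdl201_N_inf_sup (Q : Finset MdlS) {h h' : MdlS → ℤ} (hh : MdlHt h) (hh' : MdlHt h') :
    mdlN Q h + mdlN Q h' ≤ mdlN Q (h ⊓ h') + mdlN Q (h ⊔ h') := by
  rw [mdl201_N_eq, mdl201_N_eq, mdl201_N_eq, mdl201_N_eq, ← Finset.sum_add_distrib, ← Finset.sum_add_distrib]
  refine Finset.sum_le_sum fun p _ => ?_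
  obtain ⟨s1, s2, s3, s4⟩ := mdl201_sides hh p
  obtain ⟨t1, t2, t3, t4⟩ := mdl201_sides hh' p
  exact mdl231_plaq _ _ _ _ _ _ _ _ s1 s2 s3 s4 t1 t2 t3 t4 (mdl201_ht_par hh hh' p)

theorem mdl201_wt_inf_sup {c : ℝ} (hc : 1 ≤ c) (Q : Finset MdlS) {h h' : MdlS → ℤ} (hh : MdlHt h) (hh' : MdlHt h') :
    mdlWt c Q h * mdlWt c Q h' ≤ mdlWt c Q (h ⊓ h') * mdlWt c Q (h ⊔ h') := by
  unfold mdlWt
  rw [← pow_add, ← pow_add]
  exact pow_le_pow_right₀ hc (mdl201_N_inf_sup Q hh hh')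

/-! ### association and order -/

/-- **association** -/
theorem mdl201_fkg {c : ℝ} (hc : 1 ≤ c) (Q A : Finset MdlS) {b : MdlS → ℤ} (hb : MdlHt b)
    {G₁ G₂ : (MdlS → ℤ) → ℝ} (h₁ : MdlMono G₁) (h₂ : MdlMono G₂) :
    mdlEQ c Q A b G₁ * mdlEQ c Q A b G₂ ≤ mdlEQ c Q A b fun h => G₁ h * G₂ h := by
  have hc0 : (0 : ℝ) < c := by linarith
  have hZ := mdl201_ZQ_pos hc0 Q A hb
  have key := mdl231_one (mdlCfg A b) (mdlWt c Q) G₁ G₂ (fun h _ => (mdl201_wt_pos hc0 Q h).le)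
    (fun h hh h' hh' => by
      rw [mdl201_mem_cfg A hb] at hh hh' ⊢
      rw [mdl201_mem_cfg A hb]
      obtain ⟨a1, a2⟩ := mdl201_adm_inf_sup hb hb (fun _ => le_rfl) hh hh'
      exact ⟨a1, a2, mdl201_wt_inf_sup hc Q (mdl201_global hb hh) (mdl201_global hb hh')⟩)
    (fun h _ h' _ hle => h₁ h h' hle) (fun h _ h' _ hle => h₂ h h' hle)
  unfold mdlEQ
  rw [div_mul_div_comm, div_le_div_iff₀ (mul_pos hZ hZ) hZ]
  have key' : (∑ h ∈ mdlCfg A b, mdlWt c Q h * G₁ h) * (∑ h ∈ mdlCfg A b, mdlWt c Q h * G₂ h) ≤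
      mdlZQ c Q A b * ∑ h ∈ mdlCfg A b, mdlWt c Q h * (G₁ h * G₂ h) := key
  nlinarith

/-- **order in the boundary height** -/
theorem mdl201_order {c : ℝ} (hc : 1 ≤ c) (Q A : Finset MdlS) {b b' : MdlS → ℤ} (hb : MdlHt b) (hb' : MdlHt b')
    (hbb : ∀ u, b u ≤ b' u) {G : (MdlS → ℤ) → ℝ} (hG : MdlMono G) : mdlEQ c Q A b G ≤ mdlEQ c Q A b' G := by
  have hc0 : (0 : ℝ) < c := by linarith
  have hZ := mdl201_ZQ_pos hc0 Q A hb
  have hZ' := mdl201_ZQ_pos hc0 Q A hb'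
  have key := mdl231_two (mdlCfg A b) (mdlCfg A b') (mdlWt c Q) (mdlWt c Q) G (fun h _ => (mdl201_wt_pos hc0 Q h).le)
    (fun h _ => (mdl201_wt_pos hc0 Q h).le)
    (fun h hh h' hh' => by
      rw [mdl201_mem_cfg A hb] at hh ⊢
      rw [mdl201_mem_cfg A hb'] at hh' ⊢
      obtain ⟨a1, a2⟩ := mdl201_adm_inf_sup hb hb' hbb hh hh'
      exact ⟨a1, a2, mdl201_wt_inf_sup hc Q (mdl201_global hb hh) (mdl201_global hb' hh')⟩)
    (fun h _ h' _ hle => hG h h' hle)
  unfold mdlEQ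
  rw [div_le_div_iff₀ hZ hZ']
  have key' : (∑ h ∈ mdlCfg A b, mdlWt c Q h * G h) * mdlZQ c Q A b' ≤
      mdlZQ c Q A b * ∑ h ∈ mdlCfg A b', mdlWt c Q h * G h := key
  linarith

/-- **(M3)**: the statement of `exit_mdl_fkg`. -/
theorem mdl201_exit_fkg {c : ℝ} (hc : 1 ≤ c) (Q A : Finset MdlS) {b : MdlS → ℤ} (hb : MdlHt b) :
    (∀ G₁ G₂ : (MdlS → ℤ) → ℝ, MdlMono G₁ → MdlMono G₂ →
      mdlEQ c Q A b G₁ * mdlEQ c Q A b G₂ ≤ mdlEQ c Q A b fun h => G₁ h * G₂ h) ∧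
    ∀ b' : MdlS → ℤ, MdlHt b' → (∀ u, b u ≤ b' u) → ∀ G : (MdlS → ℤ) → ℝ, MdlMono G →
      mdlEQ c Q A b G ≤ mdlEQ c Q A b' G :=
  ⟨fun _ _ h₁ h₂ => mdl201_fkg hc Q A hb h₁ h₂, fun _ hb' hbb _ hG => mdl201_order hc Q A hb hb' hbb hG⟩

/-! ### (M2) DLR, arbitrary boundary function -/

theorem mdl201_bound_any (A : Finset MdlS) (b : MdlS → ℤ) (u : MdlS) : ∃ N : ℤ, ∀ h, MdlAdm A b h → |h u| ≤ N := by
  obtain ⟨X, hX⟩ := mdl201_exists_right A
  have key : ∀ n : ℕ, ∀ u : MdlS, X + 1 - u.1 ≤ n → ∃ N : ℤ, ∀ h, MdlAdm A b h → |h u| ≤ N := by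
    intro n
    induction n with
    | zero =>
      intro u hu
      have hA : u ∉ A := fun h' => by have := hX u h'; push_cast at hu; omega
      exact ⟨|b u|, fun h hh => by rw [hh.1 u hA]⟩
    | succ n ih =>
      intro u hu
      by_cases hA : u ∈ A
      · obtain ⟨N, hN⟩ := ih (u + (1, 0)) (by simp only [Prod.fst_add]; push_cast at hu ⊢; omega)
        refine ⟨N + 1, fun h hh => ?_⟩
        have h1 := hN h hh
        have h2 := mdl201_abs_one (hh.2 u hA _ mdl201_dir_e1)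
        rw [abs_le] at h1 ⊢
        constructor <;> omega
      · exact ⟨|b u|, fun h hh => by rw [hh.1 u hA]⟩
  exact key (X + 1 - u.1).toNat u (Int.self_le_toNat _)

theorem mdl201_finite_any (A : Finset MdlS) (b : MdlS → ℤ) : {h | MdlAdm A b h}.Finite := by
  classical
  choose n hn using mdl201_bound_any A b
  let T : Finset (MdlS → ℤ) := (A.pi fun x => Finset.Icc (-(n x)) (n x)).image
    (fun g => fun x => if hx : x ∈ A then g x hx else b x)
  refine T.finite_toSet.subset fun K hK => ?_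
  refine Finset.mem_coe.2 (Finset.mem_image.2 ⟨fun x _ => K x, Finset.mem_pi.2 fun x _ => ?_, ?_⟩)
  · have := hn x K hK
    rw [abs_le] at this
    exact Finset.mem_Icc.2 this
  · funext x
    by_cases hx : x ∈ A
    · simp [hx]
    · simp [hx, hK.1 x hx]

theorem mdl201_mem_cfg_any {A : Finset MdlS} {b h : MdlS → ℤ} : h ∈ mdlCfg A b ↔ MdlAdm A b h := by
  unfold mdlCfg
  rw [dif_pos (mdl201_finite_any A b)]
  exact (mdl201_finite_any A b).mem_toFinset

/-- resampling inside `A' ⊆ A` keeps admissibility -/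
theorem mdl201_adm_sub {A' A : Finset MdlS} (hA : A' ⊆ A) {b h h' : MdlS → ℤ} (hh : MdlAdm A b h) (hh' : MdlAdm A' h h') :
    MdlAdm A b h' := by
  refine ⟨fun u hu => ?_, fun u hu d hd => ?_⟩
  · rw [hh'.1 u (fun h0 => hu (hA h0)), hh.1 u hu]
  · by_cases h1 : u ∈ A'
    · exact hh'.2 u h1 d hd
    · by_cases h2 : u + d ∈ A'
      · have := hh'.2 (u + d) h2 (-d) (mdl201_dir_neg hd)
        rw [add_neg_cancel_right] at this
        rw [abs_sub_comm]
        exact this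
      · rw [hh'.1 u h1, hh'.1 _ h2]
        exact hh.2 u hu d hd

theorem mdl201_adm_symm {A' A : Finset MdlS} (hA : A' ⊆ A) {b h h' : MdlS → ℤ} (hh : MdlAdm A b h) (hh' : MdlAdm A' h h') :
    MdlAdm A' h' h :=
  ⟨fun u hu => (hh'.1 u hu).symm, fun u hu d hd => hh.2 u (hA hu) d hd⟩

theorem mdl201_adm_congr {A : Finset MdlS} {b b' : MdlS → ℤ} (hbb : ∀ u, u ∉ A → b u = b' u) (h : MdlS → ℤ) :
    MdlAdm A b h ↔ MdlAdm A b' h := by
  unfold MdlAdm
  refine and_congr_left fun _ => forall_congr' fun u => forall_congr' fun hu => ?_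
  rw [hbb u hu]

theorem mdl201_cfg_congr {A : Finset MdlS} {b b' : MdlS → ℤ} (hbb : ∀ u, u ∉ A → b u = b' u) : mdlCfg A b = mdlCfg A b' := by
  ext h
  rw [mdl201_mem_cfg_any, mdl201_mem_cfg_any, mdl201_adm_congr hbb]

theorem mdl201_self_adm_sub {A' A : Finset MdlS} (hA : A' ⊆ A) {b h : MdlS → ℤ} (hh : MdlAdm A b h) : MdlAdm A' h h :=
  ⟨fun _ _ => rfl, fun u hu d hd => hh.2 u (hA hu) d hd⟩

/-- **(M2)**: the statement of `exit_mdl_dlr`. -/
theorem mdl201_exit_dlr {c : ℝ} (hc : 0 < c) (Q : Finset MdlS) {A' A : Finset MdlS} (hA : A' ⊆ A) (b : MdlS → ℤ)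
    (G : (MdlS → ℤ) → ℝ) : mdlEQ c Q A b G = mdlEQ c Q A b fun h => mdlEQ c Q A' h G := by
  classical
  unfold mdlEQ
  congr 1
  -- the inner law as a sum over the big configuration set
  have e1 : ∀ h ∈ mdlCfg A b, mdlWt c Q h * ((∑ h' ∈ mdlCfg A' h, mdlWt c Q h' * G h') / mdlZQ c Q A' h) =
      ∑ h' ∈ mdlCfg A b, if h' ∈ mdlCfg A' h then mdlWt c Q h * (mdlWt c Q h' * G h') / mdlZQ c Q A' h else 0 := by
    intro h hh
    rw [← Finset.sum_filter]
    have hs : (mdlCfg A b).filter (fun h' => h' ∈ mdlCfg A' h) = mdlCfg A' h := by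
      ext h'
      rw [Finset.mem_filter]
      refine ⟨fun x => x.2, fun x => ⟨?_, x⟩⟩
      rw [mdl201_mem_cfg_any] at hh x ⊢
      exact mdl201_adm_sub hA hh x
    rw [hs, ← mul_div_assoc, Finset.mul_sum, Finset.sum_div]
  rw [Finset.sum_congr rfl e1, Finset.sum_comm]
  refine Finset.sum_congr rfl fun h' hh' => ?_
  have hh'a := mdl201_mem_cfg_any.1 hh'
  -- the configurations `h` from which `h'` can be resampled are those of `mdlCfg A' h'`
  have e2 : ∀ h ∈ mdlCfg A b, (if h' ∈ mdlCfg A' h then mdlWt c Q h * (mdlWt c Q h' * G h') / mdlZQ c Q A' h else 0) =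
      if h ∈ mdlCfg A' h' then mdlWt c Q h * ((mdlWt c Q h' * G h') / mdlZQ c Q A' h') else 0 := by
    intro h hh
    have hha := mdl201_mem_cfg_any.1 hh
    by_cases hx : h' ∈ mdlCfg A' h
    · have hxa := mdl201_mem_cfg_any.1 hx
      have hy : h ∈ mdlCfg A' h' := mdl201_mem_cfg_any.2 (mdl201_adm_symm hA hha hxa)
      have hz : mdlZQ c Q A' h = mdlZQ c Q A' h' := by
        unfold mdlZQ
        rw [mdl201_cfg_congr (fun u hu => (hxa.1 u hu).symm)]
      rw [if_pos hx, if_pos hy, hz, mul_div_assoc]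
    · have hy : h ∉ mdlCfg A' h' := fun hy =>
        hx (mdl201_mem_cfg_any.2 (mdl201_adm_symm hA hh'a (mdl201_mem_cfg_any.1 hy)))
      rw [if_neg hx, if_neg hy]
  rw [Finset.sum_congr rfl e2, ← Finset.sum_filter]
  have hs : (mdlCfg A b).filter (fun h => h ∈ mdlCfg A' h') = mdlCfg A' h' := by
    ext h
    rw [Finset.mem_filter]
    refine ⟨fun x => x.2, fun x => ⟨?_, x⟩⟩
    rw [mdl201_mem_cfg_any] at x ⊢
    exact mdl201_adm_sub hA hh'a x
  rw [hs, ← Finset.sum_mul]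
  have hZ : 0 < mdlZQ c Q A' h' :=
    Finset.sum_pos (fun h _ => mdl201_wt_pos hc Q h) ⟨h', mdl201_mem_cfg_any.2 (mdl201_self_adm_sub hA hh'a)⟩
  have : (∑ h ∈ mdlCfg A' h', mdlWt c Q h) = mdlZQ c Q A' h' := rfl
  rw [this]
  field_simp

/-! ### (M5) the edge representation -/

theorem mdl201_sf_df (e : Bool) (h : MdlS → ℤ) (p : MdlS) :
    ((MdlSf e h p ↔ MdlD1 h p) ∧ (MdlDf e h p ↔ MdlD2 h p)) ∨ ((MdlSf e h p ↔ MdlD2 h p) ∧ (MdlDf e h p ↔ MdlD1 h p)) := by
  unfold MdlDf MdlSf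
  by_cases hpar : (p.1 + p.2) % 2 = 0 <;> cases e <;> simp [hpar]

/-- a plaquette of a global height has a flat diagonal -/
theorem mdl201_flat_or {h : MdlS → ℤ} (hh : MdlHt h) (p : MdlS) : MdlD1 h p ∨ MdlD2 h p := by
  obtain ⟨s1, s2, s3, s4⟩ := mdl201_sides hh p
  unfold MdlD1 MdlD2
  omega

open Classical in
/-- one plaquette: open + closed = the six-vertex weight -/
theorem mdl201_edge_one (c : ℝ) (e : Bool) {h : MdlS → ℤ} (hh : MdlHt h) (p : MdlS) :
    (if MdlSf e h p then (1 : ℝ) else 0) + (if MdlDf e h p then (if MdlSf e h p then c - 1 else 1) else 0) =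
      if MdlC h p then c else 1 := by
  have h0 := mdl201_flat_or hh p
  unfold MdlC
  rcases mdl201_sf_df e h p with ⟨a, b⟩ | ⟨a, b⟩ <;> by_cases h1 : MdlD1 h p <;> by_cases h2 : MdlD2 h p <;>
    simp_all

open Classical in
theorem mdl201_wt_prod (c : ℝ) (Q : Finset MdlS) (h : MdlS → ℤ) : mdlWt c Q h = ∏ p ∈ Q, if MdlC h p then c else 1 := by
  unfold mdlWt mdlN
  rw [Finset.prod_ite, Finset.prod_const, Finset.prod_const_one, mul_one]

/-- **(M5)**: the statement of `exit_mdl_edge`. -/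
theorem mdl201_exit_edge (c : ℝ) (e : Bool) {Γ Q : Finset MdlS} (hΓ : Γ ⊆ Q) {h : MdlS → ℤ} (hh : MdlHt h) :
    ∑ W ∈ Q.powerset.filter (fun W => Γ ⊆ W), mdlWtW c e Q W h =
      (open Classical in ∏ p ∈ Γ, if MdlSf e h p then (1 : ℝ) else 0) * mdlWt c (Q \ Γ) h := by
  classical
  rw [mdl201_wt_prod]
  simp only [← mdl201_edge_one c e hh]
  rw [Finset.prod_add, Finset.mul_sum]
  refine Finset.sum_nbij' (fun W => W \ Γ) (fun W' => Γ ∪ W') ?_ ?_ ?_ ?_ ?_
  · intro W hW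
    rw [Finset.mem_filter, Finset.mem_powerset] at hW
    exact Finset.mem_powerset.2 (Finset.sdiff_subset_sdiff hW.1 le_rfl)
  · intro W' hW'
    rw [Finset.mem_powerset] at hW'
    rw [Finset.mem_filter, Finset.mem_powerset]
    exact ⟨Finset.union_subset hΓ (hW'.trans Finset.sdiff_subset), Finset.subset_union_left⟩
  · intro W hW
    rw [Finset.mem_filter] at hW
    exact Finset.union_sdiff_of_subset hW.2
  · intro W' hW'
    rw [Finset.mem_powerset] at hW'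
    have hd : Disjoint W' Γ := Finset.disjoint_of_subset_left hW' Finset.sdiff_disjoint
    rw [Finset.union_sdiff_left]
    exact Finset.sdiff_eq_self_of_disjoint hd
  · intro W hW
    rw [Finset.mem_filter, Finset.mem_powerset] at hW
    unfold mdlWtW
    have e1 : W = Γ ∪ (W \ Γ) := (Finset.union_sdiff_of_subset hW.2).symm
    have e2 : (Q \ Γ) \ (W \ Γ) = Q \ W := by
      rw [sdiff_sdiff_left, Finset.sup_eq_union, Finset.union_sdiff_of_subset hW.2]
    rw [e2, ← mul_assoc]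
    congr 1
    conv_lhs => rw [e1]
    exact Finset.prod_union Finset.disjoint_sdiff

end Claimed.Agent.R292
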