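/-
Row 292 (S0540), unit MODEL, block S3 PATTERN = `prop:pattern-comparison` of the AT paper (03-spatial l.1208-1295), helper141,
prefix `mdl141p_` / `Mdl141p`.  Vocabulary `Defs/MODEL` (MdlPin, mdlSumK, MdlInc, MdlExt, MdlPat, mdlPiP) + `Model/Basic` (191) + `Rsw/Cut91` + `Rsw/Expl107`.

EXIT: **`mdl141p_exit`** = the text of `exit_mdl_pattern` (Exit/MODEL) VERBATIM, from three hypotheses of the types of `exit_mdl_cmp` (S0), `exit_mdl_circ` (S1),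
      `exit_rsw_plane`:   `exit_mdl_pattern := mdl141p_exit exit_mdl_cmp exit_mdl_circ exit_rsw_plane`.      Nothing is owed in this file.
PROOF SHAPE (paper): a complete pattern = 4 monotone batches; per batch `p lam_j P(L, K_j) ≤ P(L, K_{j+1}) ≤ lam_j P(L, K_j)`, `lam_j` = ratio in a reference box.
  Sec 1  one monotone batch: `mdl141p_up` (S0 + exact cut, pins form), `mdl141p_upper` (any exterior data, atoms of 191), `mdl141p_expl` (search from the layer of a sub-box,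
         tools of 107), `mdl141p_dom` (domain monotonicity under pins), `mdl141p_lower` (from a sealing circuit), `mdl141p_stepP` (both bounds, probabilities).
  Sec 2  chain rule over the boxes `mdl141p_chain`, plane law `mdl141p_plane_bounds`, `mdl141p_exit_of_one` (exit text from the one-box record `Mdl141pOne`).
  Sec 3  the four batches as prescriptions `mdl141pK1..K4`, monotone events `Mdl141pAs`, `Mdl141pAe`, positivity (101), `mdl141p_pat_iff` (pattern = batch 4 on the support).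
  Sec 4  geometry of boxes, `mdl141p_seal` (sealing circuit from (S1) given exterior data + inner prescriptions).
  Sec 5  `mdl141p_four_batches`, `mdl141p_one_core`, `mdl141p_one` (the record; (S1) is used at the ratio `4 k + 1` and the scale `n / 4`), `mdl141p_exit`.
-/
import Claimed.Agent.R292.Model.Basic
import Claimed.Agent.R292.Model.BoxPin101
import Claimed.Agent.R292.Rsw.Expl107
import Claimed.Agent.R292.Rsw.Base31

set_option autoImplicit false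
set_option linter.unusedVariables false

namespace Claimed.Agent.R292

open Claims Claims.C0468 Finset

/-! ## 1. One monotone batch in the vocabulary of `Defs/MODEL` -/

/-- union of two prescriptions -/
def mdl141pJoin (K K' : MdlPin) : MdlPin := ⟨K.Sp ∪ K'.Sp, K.Sm ∪ K'.Sm, K.Oo ∪ K'.Oo, K.Oc ∪ K'.Oc⟩

theorem mdl141p_join_holds (K K' : MdlPin) (ω : RswCfg) : (mdl141pJoin K K').Holds ω ↔ K.Holds ω ∧ K'.Holds ω := by
  unfold MdlPin.Holds mdl141pJoin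
  simp only [Finset.union_subset_iff, Finset.mem_union]
  constructor
  · rintro ⟨⟨a1, a2⟩, b, ⟨c1, c2⟩, d⟩
    exact ⟨⟨a1, fun v hv => b v (Or.inl hv), c1, fun e he => d e (Or.inl he)⟩,
      ⟨a2, fun v hv => b v (Or.inr hv), c2, fun e he => d e (Or.inr he)⟩⟩
  · rintro ⟨⟨a1, b1, c1, d1⟩, ⟨a2, b2, c2, d2⟩⟩
    exact ⟨⟨a1, a2⟩, fun v hv => hv.elim (b1 v) (b2 v), ⟨c1, c2⟩, fun e he => he.elim (d1 e) (d2 e)⟩

theorem mdl141p_join_ok {K K' : MdlPin} (h : K.Ok) (h' : K'.Ok) : (mdl141pJoin K K').Ok := by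
  intro e he
  have he' : e ∈ (K.Oo ∪ K.Oc) ∪ (K'.Oo ∪ K'.Oc) := by
    unfold mdl141pJoin at he
    simp only [Finset.mem_union] at he ⊢
    tauto
  unfold mdl141pJoin
  simp only [Finset.mem_union]
  rcases Finset.mem_union.1 he' with h1 | h1
  · have := h e h1
    simp only [Finset.mem_union] at this
    tauto
  · have := h' e h1
    simp only [Finset.mem_union] at this
    tauto

theorem mdl141p_sumK_join (t : ℝ) (F : Finset (ℤ × ℤ)) (b : Bool) (K K' : MdlPin) (X : RswCfg → ℝ) :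
    mdlSumK t F b (mdl141pJoin K K') X = mdlSumK t F b K' (fun ω => mdlInd K.Holds ω * X ω) := by
  classical
  unfold mdlSumK
  refine mdl_sum_congr t F b fun ω => ?_
  beta_reduce
  by_cases h1 : K.Holds ω <;> by_cases h2 : K'.Holds ω
  · rw [if_pos ((mdl141p_join_holds K K' ω).2 ⟨h1, h2⟩), if_pos h2, mdl_ind_pos h1, one_mul]
  · rw [if_neg (fun h => h2 ((mdl141p_join_holds K K' ω).1 h).2), if_neg h2]
  · rw [if_neg (fun h => h1 ((mdl141p_join_holds K K' ω).1 h).1), if_pos h2, mdl_ind_neg h1, zero_mul]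
  · rw [if_neg (fun h => h1 ((mdl141p_join_holds K K' ω).1 h).1), if_neg h2]

theorem mdl141p_cut_inc (U : Finset (ℤ × ℤ)) (a : Bool) : MdlInc a (rskInd U a) := by
  classical
  intro ω ω' hle
  unfold rskInd
  by_cases hc : RswCut U a ω
  · have hc' : RswCut U a ω' := fun e he => hle.2.1 e (hc e he)
    rw [if_pos hc, if_pos hc']
  · rw [if_neg hc]
    split_ifs <;> norm_num

/-- **UP** (pins form): under prescriptions `K` inside `U` and `K'` off the closed `U`, an observable inside `U` which is increasing in the colour `a` has at most the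
conditional expectation it has under the flat law of `U` wired in the colour `a`. -/
theorem mdl141p_up {t : ℝ} (ht0 : 0 < t) (ht2 : t < 1) {F U : Finset (ℤ × ℤ)} (hU : U ⊆ F) (b a : Bool) {K K' : MdlPin}
    (hfkg : MdlFkgAt t F b a (mdl141pJoin K K')) (hK' : K'.Ok)
    (hin : ∀ v ∈ cornersOf U, ¬ OnPolygon F v) (hKs : ∀ v ∈ cornersOf U, v ∉ K'.Sp ∪ K'.Sm)
    (hKin : RskInside U (mdlInd K.Holds)) {A : RswCfg → ℝ} (hA : MdlInc a A) (hAin : RskInside U A) :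
    mdlSumK t F b K' (fun ω => mdlInd K.Holds ω * A ω) * rswE t U a (mdlInd K.Holds) ≤
      rswE t U a (fun ω => mdlInd K.Holds ω * A ω) * mdlSumK t F b K' (mdlInd K.Holds) := by
  classical
  by_cases h0 : mdlSumK t F b K' (fun _ => 1) = 0
  · rw [mdl_sumK_zero ht0.le ht2.le h0, mdl_sumK_zero ht0.le ht2.le h0, zero_mul, mul_zero]
  have hG := mdl_cut_pos ht0 ht2 b a hK' hin hKs h0
  have hout : RskOutside U (fun ω => if K'.Holds ω then (1 : ℝ) else 0) := by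
    intro ω
    simp only [mdl_holds_out hK' hKs ω]
  have ecut : ∀ X : RswCfg → ℝ, RskInside U X →
      mdlSumK t F b (mdl141pJoin K K') (fun ω => X ω * rskInd U a ω) =
        rswE t U a (fun ω => mdlInd K.Holds ω * X ω) * mdlSumK t F b K' (rskInd U a) := by
    intro X hX
    have := rsk_cut ht0 ht2.le hU a b (rsk_inside_mul hKin hX) hout
    rw [mdl141p_sumK_join]
    unfold mdlSumK
    have l : (fun ω => if K'.Holds ω then mdlInd K.Holds ω * (X ω * rskInd U a ω) else 0)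
        = fun ω => rskInd U a ω * (mdlInd K.Holds ω * X ω) * (if K'.Holds ω then (1 : ℝ) else 0) := by
      funext ω
      split_ifs <;> ring
    have r : (fun ω => if K'.Holds ω then rskInd U a ω else 0)
        = fun ω => rskInd U a ω * (if K'.Holds ω then (1 : ℝ) else 0) := by
      funext ω
      split_ifs <;> ring
    rw [l, r]
    exact this
  have key := hfkg A (rskInd U a) hA (mdl141p_cut_inc U a)
  have e1 := ecut A hAin
  have e2 := ecut (fun _ => 1) (rsk_inside_const U 1)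
  simp only [one_mul, mul_one] at e2
  rw [e1, e2, mdl141p_sumK_join, mdl141p_sumK_join] at key
  simp only [mul_one] at key
  have : mdlSumK t F b K' (fun ω => mdlInd K.Holds ω * A ω) * rswE t U a (mdlInd K.Holds) * mdlSumK t F b K' (rskInd U a) ≤
      rswE t U a (fun ω => mdlInd K.Holds ω * A ω) * mdlSumK t F b K' (mdlInd K.Holds) * mdlSumK t F b K' (rskInd U a) := by
    nlinarith [key]
  exact le_of_mul_le_mul_right this hG

open Classical in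
theorem mdl141p_ite_eq (L : RswCfg → Prop) (Y : RswCfg → ℝ) :
    (fun ω => if L ω then Y ω else 0) = fun ω => mdlInd L ω * Y ω := by
  funext ω
  by_cases h : L ω
  · rw [if_pos h, mdl_ind_pos h, one_mul]
  · rw [if_neg h, mdl_ind_neg h, zero_mul]

/-- **UPPER BOUND of one batch**, any exterior data. -/
theorem mdl141p_upper {t : ℝ} (ht0 : 0 < t) (ht2 : t < 1) {F Λ Λp : Finset (ℤ × ℤ)} (hΛ : Λ ⊆ Λp) (hΛp : Λp ⊆ F)
    (hdeep : ∀ v ∈ cornersOf Λ, ¬ OnPolygon Λp v) (b a : Bool) (hcmp : ∀ K : MdlPin, K.Ok → MdlFkgAt t F b a K)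
    {K : MdlPin} (hK : K.Ok) (hKin : RskInside Λ (mdlInd K.Holds)) {A : RswCfg → ℝ} (hA : MdlInc a A) (hAin : RskInside Λ A)
    {L : RswCfg → Prop} (hL : MdlExt Λp L) :
    rswSum t F b (fun ω => mdlInd L ω * (mdlInd K.Holds ω * A ω)) * rswE t Λ a (mdlInd K.Holds) ≤
      rswE t Λ a (fun ω => mdlInd K.Holds ω * A ω) * rswSum t F b (fun ω => mdlInd L ω * mdlInd K.Holds ω) := by
  classical
  rw [← mdl141p_ite_eq L (fun ω => mdlInd K.Holds ω * A ω), ← mdl141p_ite_eq L (mdlInd K.Holds),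
    mdl_atoms t F Λp b hL, mdl_atoms t F Λp b hL, Finset.sum_mul, Finset.mul_sum]
  refine Finset.sum_le_sum fun ξ hξ => ?_
  simp only [Finset.mem_product, Finset.mem_powerset] at hξ
  split_ifs
  · refine mdl141p_up ht0 ht2 (hΛ.trans hΛp) b a (hcmp _ (mdl141p_join_ok hK (mdl_atom_ok hξ.2))) (mdl_atom_ok hξ.2)
      (fun v hv hc => hdeep v hv fun h => hc ⟨hΛp h.1, hΛp h.2.1, hΛp h.2.2.1, hΛp h.2.2.2⟩)
      (fun v hv hc => hdeep v hv (mdl_atom_pins hξ.1 hc)) hKin hA hAin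
  · rw [zero_mul, mul_zero]

theorem mdl141p_out_cut (F Λ : Finset (ℤ × ℤ)) (a : Bool) (ω : RswCfg) : RsxCut F (Λ \ rsxOut Λ a ω) a ω := by
  refine ⟨(rsx_out_cut Λ a ω).1, fun e _ he' hx => ?_⟩
  have hn : ¬ (e.1 ∈ Λ \ rsxOut Λ a ω ∧ rswCo e ∈ Λ \ rsxOut Λ a ω) := fun hh => he' (rsx_mem_int.2 hh)
  refine (rsx_cross_good (F := Λ) (a := a) (ω := ω) (e := e) ?_).1
  rcases hx with hx | hx
  · exact Or.inl ⟨hx, fun hh => hn ⟨hx, hh⟩⟩
  · exact Or.inr ⟨hx, fun hh => hn ⟨hh, hx⟩⟩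

/-- **EXPLORATION from the layer of a sub-box `Λ` of `F`**: behind the searched cut the law is the flat law of the unsearched set. -/
theorem mdl141p_expl {t : ℝ} (ht0 : 0 < t) (ht1 : t ≤ 1) {F Λ : Finset (ℤ × ℤ)} (hΛ : Λ ⊆ F) (G : Finset (ℤ × ℤ)) (a b : Bool)
    {X Y : RswCfg → ℝ} (hX : RsxLocIn (Λ \ G) X) (hY : RsxLocOut (Λ \ G) Y) :
    rswSum t F b (fun ω => rsxInd (rsxOut Λ a ω = G) * (Y ω * X ω)) =
      rswSum t F b (fun ω => rsxInd (rsxOut Λ a ω = G) * Y ω) * rswE t (Λ \ G) a X := by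
  have hY' : RsxLocOut (Λ \ G) (fun ω => rsxInd (rsxOut Λ a ω = G) * Y ω) := by
    intro ω ω' h1 h2 h3
    show rsxInd (rsxOut Λ a ω = G) * Y ω = rsxInd (rsxOut Λ a ω' = G) * Y ω'
    have := rsx_out_loc Λ G a ω ω' h1 h2 h3
    beta_reduce at this
    rw [hY ω ω' h1 h2 h3, this]
  have hs := rsx_swap_E ht0 ht1 (Finset.sdiff_subset.trans hΛ : Λ \ G ⊆ F) a b hX hY'
  have e1 : ∀ ω, rsxInd (RsxCut F (Λ \ G) a ω) * X ω * (rsxInd (rsxOut Λ a ω = G) * Y ω) =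
      rsxInd (rsxOut Λ a ω = G) * (Y ω * X ω) := by
    intro ω
    by_cases h : rsxOut Λ a ω = G
    · have hc : RsxCut F (Λ \ G) a ω := by rw [← h]; exact mdl141p_out_cut F Λ a ω
      rw [rsx_ind_pos hc, rsx_ind_pos h]; ring
    · rw [rsx_ind_neg h]; ring
  have e2 : ∀ ω, rsxInd (RsxCut F (Λ \ G) a ω) * (rsxInd (rsxOut Λ a ω = G) * Y ω) = rsxInd (rsxOut Λ a ω = G) * Y ω := by
    intro ω
    by_cases h : rsxOut Λ a ω = G
    · have hc : RsxCut F (Λ \ G) a ω := by rw [← h]; exact mdl141p_out_cut F Λ a ω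
      rw [rsx_ind_pos hc, rsx_ind_pos h]; ring
    · rw [rsx_ind_neg h]; ring
  rw [rsx_sum_congr t F b e1, rsx_sum_congr t F b e2] at hs
  exact hs

/-- exterior data do not read the strict inside of a subset of the buffer. -/
theorem mdl141p_ext_locOut {B U : Finset (ℤ × ℤ)} (hU : U ⊆ B) {L : RswCfg → Prop} (hL : MdlExt B L) : RsxLocOut U (mdlInd L) := by
  intro ω ω' hS _ hO
  have hiff : L ω ↔ L ω' := by
    refine hL ω ω' (fun v hv => rsx_sdiff_mem hS fun hc => ?_) (fun e he => rsx_sdiff_mem hO fun hc => he (rsx_int_mono hU hc))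
    exact (rsx_in_iff.1 (rsx_in_mono hU hc)) hv
  by_cases h : L ω
  · rw [mdl_ind_pos h, mdl_ind_pos (hiff.1 h)]
  · rw [mdl_ind_neg h, mdl_ind_neg fun h' => h (hiff.2 h')]

/-- the empty prescriptions -/
def mdl141pNo : MdlPin := ⟨∅, ∅, ∅, ∅⟩

theorem mdl141p_no_ok : mdl141pNo.Ok := by
  intro e he
  simp [mdl141pNo] at he

theorem mdl141p_no_sum (t : ℝ) (F : Finset (ℤ × ℤ)) (b : Bool) (X : RswCfg → ℝ) : mdlSumK t F b mdl141pNo X = rswSum t F b X := by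
  classical
  unfold mdlSumK
  refine mdl_sum_congr t F b fun ω => if_pos ?_
  unfold MdlPin.Holds mdl141pNo
  simp

theorem mdl141p_deep_layer {U Λ : Finset (ℤ × ℤ)} (hU : U ⊆ Λ) (h : Disjoint U (rswLayer Λ)) :
    ∀ v ∈ cornersOf U, ¬ OnPolygon Λ v := by
  intro v hv hP
  unfold cornersOf at hv
  obtain ⟨f, hf, hvf⟩ := Finset.mem_biUnion.1 hv
  exact Finset.disjoint_left.1 h hf (rsx_mem_layer.2 ⟨hU hf, v, hvf, hP⟩)

/-- domain monotonicity under prescriptions: `U` inside the open `Λ`, both wired in the colour `a`. -/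
theorem mdl141p_dom {t : ℝ} (ht0 : 0 < t) (ht2 : t < 1) {Λ U : Finset (ℤ × ℤ)} (hU : U ⊆ Λ) (a : Bool)
    (hcmp : ∀ K : MdlPin, K.Ok → MdlFkgAt t Λ a a K) (hin : ∀ v ∈ cornersOf U, ¬ OnPolygon Λ v)
    {K : MdlPin} (hK : K.Ok) (hKin : RskInside U (mdlInd K.Holds)) {A : RswCfg → ℝ} (hA : MdlInc a A) (hAin : RskInside U A) :
    rswE t Λ a (fun ω => mdlInd K.Holds ω * A ω) * rswE t U a (mdlInd K.Holds) ≤
      rswE t U a (fun ω => mdlInd K.Holds ω * A ω) * rswE t Λ a (mdlInd K.Holds) := by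
  have h := mdl141p_up ht0 ht2 hU a a (hcmp _ (mdl141p_join_ok hK mdl141p_no_ok)) mdl141p_no_ok hin
    (fun v _ hc => by simp [mdl141pNo] at hc) hKin hA hAin
  rw [mdl141p_no_sum, mdl141p_no_sum] at h
  have hZ := rsk_sum_one_pos ht0 ht2.le Λ a
  rw [rsx_E_eq t Λ a, rsx_E_eq t Λ a, div_mul_eq_mul_div, mul_div_assoc']
  exact div_le_div_of_nonneg_right h hZ.le

theorem mdl141p_loc_mul {R : Finset (ℤ × ℤ)} {R' : Finset ((ℤ × ℤ) × Bool)} {X X' : RswCfg → ℝ} (h : RswLoc R R' X) (h' : RswLoc R R' X') :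
    RswLoc R R' (fun ω => X ω * X' ω) := fun ω ω' h1 h2 h3 => by
  show X ω * X' ω = X ω' * X' ω'
  rw [h ω ω' h1 h2 h3, h' ω ω' h1 h2 h3]

theorem mdl141p_real_chain2 {p eAK eK fKY fAKY sK sAK SK SAK : ℝ} (h0 : 0 ≤ eAK) (h0' : 0 ≤ eK)
    (c1 : p * fKY ≤ sK) (c2 : sK = SK) (c3 : eAK * SK ≤ SAK * eK) (c4 : sAK = SAK) (c5 : sAK ≤ fAKY) :
    p * (eAK * fKY) ≤ fAKY * eK := by
  subst c2 c4
  calc p * (eAK * fKY) = eAK * (p * fKY) := by ring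
    _ ≤ eAK * sK := mul_le_mul_of_nonneg_left c1 h0
    _ ≤ sAK * eK := c3
    _ ≤ fAKY * eK := mul_le_mul_of_nonneg_right c5 h0'

/-- **LOWER BOUND of one batch**, any exterior data, from a sealing circuit of the colour `a` in `Λ` around `R`. -/
theorem mdl141p_lower {t : ℝ} (ht0 : 0 < t) (ht2 : t < 1) {F Λ R Q : Finset (ℤ × ℤ)} (hΛ : Λ ⊆ F) (hR : R ⊆ Λ) (b a : Bool)
    (hcmp : ∀ K : MdlPin, K.Ok → MdlFkgAt t Λ a a K) {K : MdlPin} (hK : K.Ok)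
    (hKloc : RswLoc (cornersOf Q) (mdlEd Q) (mdlInd K.Holds)) {A : RswCfg → ℝ} (hA : MdlInc a A)
    (hAloc : RswLoc (cornersOf Q) (mdlEd Q) A) (hA0 : ∀ ω, 0 ≤ A ω) (hQR : ∀ v ∈ cornersOf Q, ¬ OnPolygon R v)
    {L : RswCfg → Prop} (hL : MdlExt Λ L) {p : ℝ}
    (hseal : p * rswSum t F b (fun ω => mdlInd L ω * mdlInd K.Holds ω) ≤
      rswSum t F b (fun ω => rsxInd (RswSep Λ a ω R (rswLayer Λ)) * (mdlInd L ω * mdlInd K.Holds ω))) :
    p * (rswE t Λ a (fun ω => mdlInd K.Holds ω * A ω) * rswSum t F b (fun ω => mdlInd L ω * mdlInd K.Holds ω)) ≤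
      rswSum t F b (fun ω => mdlInd L ω * (mdlInd K.Holds ω * A ω)) * rswE t Λ a (mdlInd K.Holds) := by
  classical
  set g : Finset (ℤ × ℤ) → ℝ := fun G => rswSum t F b (fun ω => rsxInd (rsxOut Λ a ω = G) * mdlInd L ω) with hg
  have hg0 : ∀ G, 0 ≤ g G := fun G =>
    rsx_sum_nonneg ht0.le ht2.le F b fun ω => mul_nonneg (rsx_ind_nonneg _) (mdl_ind_nonneg _ _)
  have hgeo : ∀ G ∈ rsxSets Λ R, cornersOf Q ⊆ rsxIn (Λ \ G) ∧ mdlEd Q ⊆ rswInt (Λ \ G) := by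
    intro G hG
    have hRU := rsx_sub_sdiff hR hG
    exact ⟨fun v hv => rsx_in_mono hRU (rsx_in_iff.2 (hQR v hv)), fun e he => rsx_int_mono hRU (mdl_ed_int hQR he)⟩
  have hdec : ∀ X : RswCfg → ℝ, RswLoc (cornersOf Q) (mdlEd Q) X →
      rswSum t F b (fun ω => rsxInd (RswSep Λ a ω R (rswLayer Λ)) * (mdlInd L ω * X ω)) =
        ∑ G ∈ rsxSets Λ R, g G * rswE t (Λ \ G) a X := by
    intro X hX
    have e : ∀ ω, rsxInd (RswSep Λ a ω R (rswLayer Λ)) * (mdlInd L ω * X ω) =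
        ∑ G ∈ rsxSets Λ R, rsxInd (rsxOut Λ a ω = G) * (mdlInd L ω * X ω) := by
      intro ω
      rw [rsx_ind_sum, Finset.sum_mul]
    rw [rsx_sum_congr t F b e, rsx_sum_finsum]
    refine Finset.sum_congr rfl fun G hG => ?_
    exact mdl141p_expl ht0 ht2.le hΛ G a b (rsx_locIn_of_loc hX (hgeo G hG).1 (hgeo G hG).2)
      (mdl141p_ext_locOut Finset.sdiff_subset hL)
  have hKA := mdl141p_loc_mul hKloc hAloc
  have hE1 : 0 ≤ rswE t Λ a (mdlInd K.Holds) := by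
    rw [rsx_E_eq]
    exact div_nonneg (rsx_sum_nonneg ht0.le ht2.le Λ a fun ω => mdl_ind_nonneg _ _) (rsx_Z_pos ht0 ht2.le Λ a).le
  have hE2 : 0 ≤ rswE t Λ a (fun ω => mdlInd K.Holds ω * A ω) := by
    rw [rsx_E_eq]
    exact div_nonneg (rsx_sum_nonneg ht0.le ht2.le Λ a fun ω => mul_nonneg (mdl_ind_nonneg _ _) (hA0 ω))
      (rsx_Z_pos ht0 ht2.le Λ a).le
  have s1 : rswSum t F b (fun ω => rsxInd (RswSep Λ a ω R (rswLayer Λ)) * (mdlInd L ω * (mdlInd K.Holds ω * A ω))) ≤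
      rswSum t F b (fun ω => mdlInd L ω * (mdlInd K.Holds ω * A ω)) := by
    refine rsx_sum_mono ht0.le ht2.le F b fun ω => ?_
    have h1 := rsx_ind_le_one (RswSep Λ a ω R (rswLayer Λ))
    have h2 : 0 ≤ mdlInd L ω * (mdlInd K.Holds ω * A ω) :=
      mul_nonneg (mdl_ind_nonneg _ _) (mul_nonneg (mdl_ind_nonneg _ _) (hA0 ω))
    nlinarith
  have s5 : rswE t Λ a (fun ω => mdlInd K.Holds ω * A ω) * ∑ G ∈ rsxSets Λ R, g G * rswE t (Λ \ G) a (mdlInd K.Holds) ≤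
      (∑ G ∈ rsxSets Λ R, g G * rswE t (Λ \ G) a (fun ω => mdlInd K.Holds ω * A ω)) * rswE t Λ a (mdlInd K.Holds) := by
    rw [Finset.mul_sum, Finset.sum_mul]
    refine Finset.sum_le_sum fun G hG => ?_
    obtain ⟨hG1, hG2, hG3, -⟩ := rsx_mem_sets.1 hG
    have hsub : cornersOf Q ⊆ Λ \ G := fun v hv => (rsx_mem_in.1 ((hgeo G hG).1 hv)).1
    have h := mdl141p_dom ht0 ht2 (Finset.sdiff_subset : Λ \ G ⊆ Λ) a hcmp
      (mdl141p_deep_layer Finset.sdiff_subset (Finset.disjoint_of_subset_right hG3 Finset.sdiff_disjoint)) hK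
      (rsk_inside_of_loc hKloc hsub (hgeo G hG).2) hA (rsk_inside_of_loc hAloc hsub (hgeo G hG).2)
    have hgG := hg0 G
    calc rswE t Λ a (fun ω => mdlInd K.Holds ω * A ω) * (g G * rswE t (Λ \ G) a (mdlInd K.Holds))
        = (rswE t Λ a (fun ω => mdlInd K.Holds ω * A ω) * rswE t (Λ \ G) a (mdlInd K.Holds)) * g G := by ring
      _ ≤ (rswE t (Λ \ G) a (fun ω => mdlInd K.Holds ω * A ω) * rswE t Λ a (mdlInd K.Holds)) * g G :=
        mul_le_mul_of_nonneg_right h hgG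
      _ = g G * rswE t (Λ \ G) a (fun ω => mdlInd K.Holds ω * A ω) * rswE t Λ a (mdlInd K.Holds) := by ring
  exact mdl141p_real_chain2 hE2 hE1 hseal (hdec _ hKloc) s5 (hdec _ hKA) s1

theorem mdl141p_P_congr (t : ℝ) (F : Finset (ℤ × ℤ)) (b : Bool) {L L' : RswCfg → Prop} (h : ∀ ω, L ω ↔ L' ω) :
    rswP t F b L = rswP t F b L' := by
  have : L = L' := funext fun ω => propext (h ω)
  rw [this]

theorem mdl141p_P_true {t : ℝ} (ht0 : 0 < t) (ht1 : t ≤ 1) (F : Finset (ℤ × ℤ)) (b : Bool) :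
    rswP t F b (fun _ => True) = 1 := by
  have hZ := rsk_sum_one_pos ht0 ht1 F b
  unfold rswP rswE
  simp only [if_true]
  exact div_self hZ.ne'

theorem mdl141p_mdlExt_mono {B' B : Finset (ℤ × ℤ)} (h : B' ⊆ B) {L : RswCfg → Prop} (hL : MdlExt B L) : MdlExt B' L :=
  fun ω ω' h1 h2 => hL ω ω' (fun v hv => h1 v fun hc => hv ⟨h hc.1, h hc.2.1, h hc.2.2.1, h hc.2.2.2⟩)
    fun e he => h2 e fun hc => he (rsk_int_mono h hc)

/-- a pattern in a region which does not meet the buffer `B` is exterior data of `B`. -/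
theorem mdl141p_pat_ext {Q B : Finset (ℤ × ℤ)} (h : Disjoint Q B) (ω₀ : RswCfg) : MdlExt B (MdlPat Q ω₀) := by
  intro ω ω' h1 h2
  have hv : ∀ v ∈ cornersOf Q, OnPolygon B v := by
    intro v hv hc
    rcases rsk_mem_corners.1 hv with h' | h' | h' | h'
    · exact Finset.disjoint_left.1 h h' hc.1
    · exact Finset.disjoint_left.1 h h' hc.2.1
    · exact Finset.disjoint_left.1 h h' hc.2.2.1
    · exact Finset.disjoint_left.1 h h' hc.2.2.2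
  have he : ∀ e ∈ mdlEd Q, e ∉ rswInt B := by
    intro e he hc
    obtain ⟨c1, c2⟩ := rsk_mem_int.1 hc
    rcases mdl_mem_ed.1 he with h' | h'
    · exact Finset.disjoint_left.1 h h' c1
    · exact Finset.disjoint_left.1 h h' c2
  unfold MdlPat
  constructor
  · rintro ⟨a1, a2⟩
    exact ⟨fun v hv' => (h1 v (hv v hv')).symm.trans (a1 v hv'), fun e he' => (h2 e (he e he')).symm.trans (a2 e he')⟩
  · rintro ⟨a1, a2⟩
    exact ⟨fun v hv' => (h1 v (hv v hv')).trans (a1 v hv'), fun e he' => (h2 e (he e he')).trans (a2 e he')⟩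

theorem mdl141p_ext_and {B : Finset (ℤ × ℤ)} {L L' : RswCfg → Prop} (h : MdlExt B L) (h' : MdlExt B L') :
    MdlExt B (fun ω => L ω ∧ L' ω) := fun ω ω' h1 h2 => and_congr (h ω ω' h1 h2) (h' ω ω' h1 h2)

theorem mdl141p_ext_forall {ι : Type} {B : Finset (ℤ × ℤ)} (s : Finset ι) {L : ι → RswCfg → Prop} (h : ∀ i ∈ s, MdlExt B (L i)) :
    MdlExt B (fun ω => ∀ i ∈ s, L i ω) := fun ω ω' h1 h2 =>
  forall_congr' fun i => forall_congr' fun hi => h i hi ω ω' h1 h2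

theorem mdl141p_box_mono' (z : ℤ × ℤ) {n m : ℕ} (h : n ≤ m) : rswBox z n ⊆ rswBox z m := by
  intro f hf
  unfold rswBox at hf ⊢
  rw [Finset.mem_product, Finset.mem_Ico, Finset.mem_Ico] at hf ⊢
  have : (n : ℤ) ≤ m := by exact_mod_cast h
  omega

/-- `E` reads the primal spins and the `W` edges of the closed region `Q` only. -/
def Mdl141pRd (Q : Finset (ℤ × ℤ)) (E : RswCfg → Prop) : Prop :=
  ∀ ω ω' : RswCfg, (∀ v ∈ cornersOf Q, (v ∈ ω.S ↔ v ∈ ω'.S)) → (∀ e ∈ mdlEd Q, (e ∈ ω.O ↔ e ∈ ω'.O)) → E ω → E ω'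

theorem mdl141p_rd_iff {Q : Finset (ℤ × ℤ)} {E : RswCfg → Prop} (h : Mdl141pRd Q E) {ω ω' : RswCfg}
    (h1 : ∀ v ∈ cornersOf Q, (v ∈ ω.S ↔ v ∈ ω'.S)) (h2 : ∀ e ∈ mdlEd Q, (e ∈ ω.O ↔ e ∈ ω'.O)) : E ω ↔ E ω' :=
  ⟨h ω ω' h1 h2, h ω' ω (fun v hv => (h1 v hv).symm) fun e he => (h2 e he).symm⟩

theorem mdl141p_rd_loc {Q : Finset (ℤ × ℤ)} {E : RswCfg → Prop} (h : Mdl141pRd Q E) :
    RswLoc (cornersOf Q) (mdlEd Q) (mdlInd E) := by
  intro ω ω' hS _ hO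
  have hSv : ∀ v ∈ cornersOf Q, (v ∈ ω.S ↔ v ∈ ω'.S) := by
    intro v hv
    have := Finset.ext_iff.1 hS v
    simp only [Finset.mem_inter, hv, and_true] at this
    exact this
  have hOe : ∀ e ∈ mdlEd Q, (e ∈ ω.O ↔ e ∈ ω'.O) := by
    intro e he
    have := Finset.ext_iff.1 hO e
    simp only [Finset.mem_inter, he, and_true] at this
    exact this
  have hiff := mdl141p_rd_iff h hSv hOe
  by_cases h' : E ω
  · rw [mdl_ind_pos h', mdl_ind_pos (hiff.1 h')]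
  · rw [mdl_ind_neg h', mdl_ind_neg fun h'' => h' (hiff.2 h'')]

theorem mdl141p_rd_ext {Q B : Finset (ℤ × ℤ)} (hd : Disjoint Q B) {E : RswCfg → Prop} (h : Mdl141pRd Q E) : MdlExt B E := by
  intro ω ω' h1 h2
  have hv : ∀ v ∈ cornersOf Q, OnPolygon B v := by
    intro v hv hc
    rcases rsk_mem_corners.1 hv with h' | h' | h' | h'
    · exact Finset.disjoint_left.1 hd h' hc.1
    · exact Finset.disjoint_left.1 hd h' hc.2.1
    · exact Finset.disjoint_left.1 hd h' hc.2.2.1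
    · exact Finset.disjoint_left.1 hd h' hc.2.2.2
  have he : ∀ e ∈ mdlEd Q, e ∉ rswInt B := by
    intro e he hc
    obtain ⟨c1, c2⟩ := rsk_mem_int.1 hc
    rcases mdl_mem_ed.1 he with h' | h'
    · exact Finset.disjoint_left.1 hd h' c1
    · exact Finset.disjoint_left.1 hd h' c2
  exact mdl141p_rd_iff h (fun v hv' => h1 v (hv v hv')) fun e he' => h2 e (he e he')

/-- prescriptions in the closed region `Q`. -/
def Mdl141pInQ (Q : Finset (ℤ × ℤ)) (K : MdlPin) : Prop :=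
  K.Sp ⊆ cornersOf Q ∧ K.Sm ⊆ cornersOf Q ∧ K.Oo ⊆ mdlEd Q ∧ K.Oc ⊆ mdlEd Q

theorem mdl141p_inQ_rd {Q : Finset (ℤ × ℤ)} {K : MdlPin} (h : Mdl141pInQ Q K) : Mdl141pRd Q K.Holds := by
  rintro ω ω' h1 h2 ⟨a1, a2, a3, a4⟩
  exact ⟨fun v hv => (h1 v (h.1 hv)).1 (a1 hv), fun v hv hc => a2 v hv ((h1 v (h.2.1 hv)).2 hc),
    fun e he => (h2 e (h.2.2.1 he)).1 (a3 he), fun e he hc => a4 e he ((h2 e (h.2.2.2 he)).2 hc)⟩

theorem mdl141p_P_and_sum (t : ℝ) (F : Finset (ℤ × ℤ)) (b : Bool) (L E : RswCfg → Prop) :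
    rswP t F b (fun ω => L ω ∧ E ω) = rswSum t F b (fun ω => mdlInd L ω * mdlInd E ω) / rswSum t F b (fun _ => 1) := by
  rw [mdl_P_eq, rsx_E_eq]
  congr 1
  exact mdl_sum_congr t F b fun ω => mdl_ind_and L E ω

/-- **ONE MONOTONE BATCH**, probabilities. -/
theorem mdl141p_stepP {t : ℝ} (ht0 : 0 < t) (ht2 : t < 1) {F Λ Λp R Q : Finset (ℤ × ℤ)} (hR : R ⊆ Λ) (hΛ : Λ ⊆ Λp) (hΛp : Λp ⊆ F)
    (hQR : ∀ v ∈ cornersOf Q, ¬ OnPolygon R v) (hdeep : ∀ v ∈ cornersOf Λ, ¬ OnPolygon Λp v) (b a : Bool)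
    (hcmpF : ∀ K : MdlPin, K.Ok → MdlFkgAt t F b a K) (hcmpΛ : ∀ K : MdlPin, K.Ok → MdlFkgAt t Λ a a K)
    {K K' : MdlPin} (hK : K.Ok) (hKQ : Mdl141pInQ Q K) {A : RswCfg → Prop} (hA : MdlIncP a A) (hAQ : Mdl141pRd Q A)
    (hKK' : ∀ ω, K'.Holds ω ↔ K.Holds ω ∧ A ω) {L : RswCfg → Prop} (hL : MdlExt Λp L) {p : ℝ}
    (hseal : p * rswP t F b (fun ω => L ω ∧ K.Holds ω) ≤
      rswP t F b (fun ω => (L ω ∧ K.Holds ω) ∧ RswSep Λ a ω R (rswLayer Λ))) :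
    rswP t F b (fun ω => L ω ∧ K'.Holds ω) * rswP t Λ a K.Holds ≤
        rswP t Λ a K'.Holds * rswP t F b (fun ω => L ω ∧ K.Holds ω) ∧
      p * (rswP t Λ a K'.Holds * rswP t F b (fun ω => L ω ∧ K.Holds ω)) ≤
        rswP t F b (fun ω => L ω ∧ K'.Holds ω) * rswP t Λ a K.Holds := by
  have hZ := rsk_sum_one_pos ht0 ht2.le F b
  have hKloc := mdl141p_rd_loc (mdl141p_inQ_rd hKQ)
  have hAloc := mdl141p_rd_loc hAQ
  have hQΛ : ∀ v ∈ cornersOf Q, ¬ OnPolygon Λ v := fun v hv hc =>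
    hQR v hv fun h => hc ⟨hR h.1, hR h.2.1, hR h.2.2.1, hR h.2.2.2⟩
  have hsub : cornersOf Q ⊆ Λ := fun v hv => by
    have := hQΛ v hv
    unfold OnPolygon at this
    rw [not_not] at this
    exact this.1
  have hed : mdlEd Q ⊆ rswInt Λ := fun e he => mdl_ed_int hQΛ he
  have eK' : mdlInd K'.Holds = fun ω => mdlInd K.Holds ω * mdlInd A ω := by
    rw [mdl_ind_congr hKK']
    funext ω
    exact mdl_ind_and _ _ ω
  have e1 : rswP t Λ a K'.Holds = rswE t Λ a (fun ω => mdlInd K.Holds ω * mdlInd A ω) := by rw [mdl_P_eq, eK']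
  have e2 : rswP t F b (fun ω => L ω ∧ K'.Holds ω) =
      rswSum t F b (fun ω => mdlInd L ω * (mdlInd K.Holds ω * mdlInd A ω)) / rswSum t F b (fun _ => 1) := by
    rw [mdl141p_P_and_sum, eK']
  have e3 := mdl141p_P_and_sum t F b L K.Holds
  have up := mdl141p_upper ht0 ht2 hΛ hΛp hdeep b a hcmpF hK (rsk_inside_of_loc hKloc hsub hed) (mdl_inc_ind hA)
    (rsk_inside_of_loc hAloc hsub hed) hL
  have hseal' : p * rswSum t F b (fun ω => mdlInd L ω * mdlInd K.Holds ω) ≤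
      rswSum t F b (fun ω => rsxInd (RswSep Λ a ω R (rswLayer Λ)) * (mdlInd L ω * mdlInd K.Holds ω)) := by
    have e4 : rswP t F b (fun ω => (L ω ∧ K.Holds ω) ∧ RswSep Λ a ω R (rswLayer Λ)) =
        rswSum t F b (fun ω => rsxInd (RswSep Λ a ω R (rswLayer Λ)) * (mdlInd L ω * mdlInd K.Holds ω)) /
          rswSum t F b (fun _ => 1) := by
      rw [mdl141p_P_and_sum]
      congr 1
      refine mdl_sum_congr t F b fun ω => ?_
      rw [mdl_ind_and, mul_comm]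
      rfl
    rw [e3, e4, ← mul_div_assoc, div_le_div_iff_of_pos_right hZ] at hseal
    exact hseal
  have lo := mdl141p_lower ht0 ht2 (hΛ.trans hΛp) hR b a hcmpΛ hK hKloc (mdl_inc_ind hA) hAloc (mdl_ind_nonneg A) hQR
    (mdl141p_mdlExt_mono hΛ hL) hseal'
  rw [e1, e2, e3, mdl_P_eq t Λ a K.Holds]
  constructor
  · rw [div_mul_eq_mul_div, mul_div_assoc', div_le_div_iff_of_pos_right hZ]
    exact up
  · rw [div_mul_eq_mul_div, mul_div_assoc', mul_div_assoc', div_le_div_iff_of_pos_right hZ]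
    exact lo

/-! ## 2. THE EXIT TEXT: chain rule over the boxes + plane law, from the one-box record -/

/-- **THE ONE-BOX RECORD**, ratio `k : k + 1`, vocabulary of `Defs/MODEL`: the conditional probability of a complete pattern given any exterior data is, up to the
factor `p`, a number `lam` which does not depend on the law. -/
structure Mdl141pOne (t : ℝ) (k n0 : ℕ) (p : ℝ) : Prop where
  pos : 0 < p
  le1 : p ≤ 1
  one : ∀ n : ℕ, n0 ≤ n → ∀ (z : ℤ × ℤ) (ω₀ : RswCfg), ∃ lam : ℝ, 0 ≤ lam ∧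
    ∀ (F : Finset (ℤ × ℤ)) (b : Bool) (L : RswCfg → Prop), RswJordan F → rswBox z ((k + 1) * n) ⊆ F →
      MdlExt (rswBox z ((k + 1) * n)) L →
      p * lam * rswP t F b L ≤ rswP t F b (fun ω => L ω ∧ MdlPat (rswBox z (k * n)) ω₀ ω) ∧
      rswP t F b (fun ω => L ω ∧ MdlPat (rswBox z (k * n)) ω₀ ω) ≤ lam * rswP t F b L

/-- **CHAIN RULE** (eq:spatial-product-patterns). -/
theorem mdl141p_chain {t : ℝ} {k : ℕ} {p : ℝ} (hp : 0 ≤ p) {m : ℕ} (z : Fin m → ℤ × ℤ) (n : Fin m → ℕ)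
    (ω₀ : Fin m → RswCfg) (lam : Fin m → ℝ) (hl0 : ∀ i, 0 ≤ lam i)
    {F : Finset (ℤ × ℤ)} (b : Bool)
    (hlam : ∀ i, ∀ L : RswCfg → Prop, MdlExt (rswBox (z i) ((k + 1) * n i)) L →
      p * lam i * rswP t F b L ≤ rswP t F b (fun ω => L ω ∧ MdlPat (rswBox (z i) (k * n i)) (ω₀ i) ω) ∧
      rswP t F b (fun ω => L ω ∧ MdlPat (rswBox (z i) (k * n i)) (ω₀ i) ω) ≤ lam i * rswP t F b L)
    (hd : ∀ i j, i ≠ j → Disjoint (rswBox (z i) ((k + 1) * n i)) (rswBox (z j) ((k + 1) * n j)))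
    {L : RswCfg → Prop} (hL : ∀ i, MdlExt (rswBox (z i) ((k + 1) * n i)) L) (s : Finset (Fin m)) :
    (∏ i ∈ s, p * lam i) * rswP t F b L ≤ rswP t F b (fun ω => L ω ∧ ∀ i ∈ s, MdlPat (rswBox (z i) (k * n i)) (ω₀ i) ω) ∧
      rswP t F b (fun ω => L ω ∧ ∀ i ∈ s, MdlPat (rswBox (z i) (k * n i)) (ω₀ i) ω) ≤ (∏ i ∈ s, lam i) * rswP t F b L := by
  classical
  induction s using Finset.induction_on with
  | empty =>
    have e : rswP t F b (fun ω => L ω ∧ ∀ i ∈ (∅ : Finset (Fin m)), MdlPat (rswBox (z i) (k * n i)) (ω₀ i) ω) = rswP t F b L :=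
      mdl141p_P_congr t F b fun ω => by simp
    rw [e]
    simp
  | insert i s hi ih =>
    obtain ⟨ih1, ih2⟩ := ih
    have hext : MdlExt (rswBox (z i) ((k + 1) * n i))
        (fun ω => L ω ∧ ∀ j ∈ s, MdlPat (rswBox (z j) (k * n j)) (ω₀ j) ω) := by
      refine mdl141p_ext_and (hL i) (mdl141p_ext_forall s fun j hj => mdl141p_pat_ext ?_ _)
      have hne : j ≠ i := fun h => hi (h ▸ hj)
      exact Finset.disjoint_of_subset_left (mdl141p_box_mono' _ (Nat.mul_le_mul_right _ (Nat.le_succ k))) (hd j i hne)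
    obtain ⟨a1, a2⟩ := hlam i _ hext
    have e : rswP t F b (fun ω => L ω ∧ ∀ j ∈ insert i s, MdlPat (rswBox (z j) (k * n j)) (ω₀ j) ω) =
        rswP t F b (fun ω => (L ω ∧ ∀ j ∈ s, MdlPat (rswBox (z j) (k * n j)) (ω₀ j) ω) ∧
          MdlPat (rswBox (z i) (k * n i)) (ω₀ i) ω) :=
      mdl141p_P_congr t F b fun ω => by
        rw [Finset.forall_mem_insert]
        tauto
    rw [e, Finset.prod_insert hi, Finset.prod_insert hi]
    have hpl : 0 ≤ p * lam i := mul_nonneg hp (hl0 i)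
    constructor
    · calc p * lam i * (∏ j ∈ s, p * lam j) * rswP t F b L = p * lam i * ((∏ j ∈ s, p * lam j) * rswP t F b L) := by ring
        _ ≤ p * lam i * rswP t F b (fun ω => L ω ∧ ∀ j ∈ s, MdlPat (rswBox (z j) (k * n j)) (ω₀ j) ω) :=
          mul_le_mul_of_nonneg_left ih1 hpl
        _ ≤ _ := a1
    · calc _ ≤ lam i * rswP t F b (fun ω => L ω ∧ ∀ j ∈ s, MdlPat (rswBox (z j) (k * n j)) (ω₀ j) ω) := a2
        _ ≤ lam i * ((∏ j ∈ s, lam j) * rswP t F b L) := mul_le_mul_of_nonneg_left ih2 (hl0 i)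
        _ = lam i * (∏ j ∈ s, lam j) * rswP t F b L := by ring

/-- the type of `exit_rsw_plane` at `t` -/
def Mdl141pPlane (t : ℝ) : Prop :=
  ∀ (R : Finset (ℤ × ℤ)) (R' : Finset ((ℤ × ℤ) × Bool)) (X : RswCfg → ℝ), RswLoc R R' X →
    ∃ ℓ : ℝ, ∀ ε : ℝ, 0 < ε → ∃ n0 : ℕ, ∀ (F : Finset (ℤ × ℤ)) (b : Bool),
      RswJordan F → rswBox 0 n0 ⊆ F → |rswE t F b X - ℓ| < ε

theorem mdl141p_pat_loc (Q : Finset (ℤ × ℤ)) (ω₀ : RswCfg) : RswLoc (cornersOf Q) (mdlEd Q) (mdlInd (MdlPat Q ω₀)) := by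
  intro ω ω' hS _ hO
  have hSv : ∀ v ∈ cornersOf Q, (v ∈ ω.S ↔ v ∈ ω'.S) := by
    intro v hv
    have := Finset.ext_iff.1 hS v
    simp only [Finset.mem_inter, hv, and_true] at this
    exact this
  have hOe : ∀ e ∈ mdlEd Q, (e ∈ ω.O ↔ e ∈ ω'.O) := by
    intro e he
    have := Finset.ext_iff.1 hO e
    simp only [Finset.mem_inter, he, and_true] at this
    exact this
  have hiff : MdlPat Q ω₀ ω ↔ MdlPat Q ω₀ ω' := by
    unfold MdlPat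
    constructor
    · rintro ⟨a1, a2⟩
      exact ⟨fun v hv => (hSv v hv).symm.trans (a1 v hv), fun e he => (hOe e he).symm.trans (a2 e he)⟩
    · rintro ⟨a1, a2⟩
      exact ⟨fun v hv => (hSv v hv).trans (a1 v hv), fun e he => (hOe e he).trans (a2 e he)⟩
  by_cases h : MdlPat Q ω₀ ω
  · rw [mdl_ind_pos h, mdl_ind_pos (hiff.1 h)]
  · rw [mdl_ind_neg h, mdl_ind_neg fun h' => h (hiff.2 h')]

theorem mdl141p_box_sub_big (z : ℤ × ℤ) (r : ℕ) {N : ℕ} (hN : z.1.natAbs + z.2.natAbs + r ≤ N) : rswBox z r ⊆ rswBox 0 N := by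
  intro f hf
  unfold rswBox at hf ⊢
  rw [Finset.mem_product, Finset.mem_Ico, Finset.mem_Ico] at hf ⊢
  have : ((z.1.natAbs + z.2.natAbs + r : ℕ) : ℤ) ≤ N := by exact_mod_cast hN
  push_cast at this
  simp only [Prod.fst_zero, Prod.snd_zero]
  omega

/-- the plane probability of a pattern lies between `p * lam` and `lam`. -/
theorem mdl141p_plane_bounds {t : ℝ} (ht0 : 0 < t) (ht1 : t ≤ 1) (hpl : Mdl141pPlane t)
    (hbox : ∀ (z : ℤ × ℤ) (n : ℕ), 1 ≤ n → RswJordan (rswBox z n)) {Q B : Finset (ℤ × ℤ)} {N1 : ℕ}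
    (hB : ∀ N, N1 ≤ N → B ⊆ rswBox 0 N) (ω₀ : RswCfg) {c lam : ℝ}
    (h : ∀ (F : Finset (ℤ × ℤ)) (b : Bool) (L : RswCfg → Prop), RswJordan F → B ⊆ F → MdlExt B L →
      c * rswP t F b L ≤ rswP t F b (fun ω => L ω ∧ MdlPat Q ω₀ ω) ∧
      rswP t F b (fun ω => L ω ∧ MdlPat Q ω₀ ω) ≤ lam * rswP t F b L) :
    c ≤ mdlPiP t (MdlPat Q ω₀) ∧ mdlPiP t (MdlPat Q ω₀) ≤ lam := by
  obtain ⟨ℓ, hℓ⟩ := hpl _ _ _ (mdl141p_pat_loc Q ω₀)
  have htend : Filter.Tendsto (fun N : ℕ => rswE t (rswBox 0 N) true (mdlInd (MdlPat Q ω₀))) Filter.atTop (nhds ℓ) := by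
    rw [Metric.tendsto_atTop]
    intro ε hε
    obtain ⟨n0, hn0⟩ := hℓ ε hε
    refine ⟨max n0 1, fun N hN => ?_⟩
    rw [Real.dist_eq]
    exact hn0 _ true (hbox 0 N (le_trans (le_max_right _ _) hN)) (mdl141p_box_mono' 0 (le_trans (le_max_left _ _) hN))
  have hlim : mdlPiP t (MdlPat Q ω₀) = ℓ := htend.limUnder_eq
  rw [hlim]
  have hev : ∀ N : ℕ, max N1 1 ≤ N → c ≤ rswE t (rswBox 0 N) true (mdlInd (MdlPat Q ω₀)) ∧
      rswE t (rswBox 0 N) true (mdlInd (MdlPat Q ω₀)) ≤ lam := by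
    intro N hN
    have h1 := h (rswBox 0 N) true (fun _ => True) (hbox 0 N (le_trans (le_max_right _ _) hN))
      (hB N (le_trans (le_max_left _ _) hN)) (fun _ _ _ _ => Iff.rfl)
    rw [mdl141p_P_true ht0 ht1, mul_one, mul_one] at h1
    have e : rswP t (rswBox 0 N) true (fun ω => True ∧ MdlPat Q ω₀ ω) = rswE t (rswBox 0 N) true (mdlInd (MdlPat Q ω₀)) := by
      rw [mdl141p_P_congr t _ true (L' := MdlPat Q ω₀) fun ω => by simp]
      rfl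
    rw [e] at h1
    exact h1
  constructor
  · exact ge_of_tendsto htend (Filter.eventually_atTop.2 ⟨max N1 1, fun N hN => (hev N hN).1⟩)
  · exact le_of_tendsto htend (Filter.eventually_atTop.2 ⟨max N1 1, fun N hN => (hev N hN).2⟩)

/-- **(S3) THE EXIT TEXT**, from the one-box record, the plane law and the Jordan property of boxes. -/
theorem mdl141p_exit_of_one (t : ℝ) (ht1 : 1 / 2 ≤ t) (ht2 : t < 1) (k : ℕ) (hpl : Mdl141pPlane t)
    (hbox : ∀ (z : ℤ × ℤ) (n : ℕ), 1 ≤ n → RswJordan (rswBox z n))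
    (hone : ∃ (n0 : ℕ) (p : ℝ), Mdl141pOne t k n0 p) :
    ∃ C : ℝ, 1 ≤ C ∧ ∃ n0 : ℕ, ∀ (m : ℕ) (z : Fin m → ℤ × ℤ) (n : Fin m → ℕ) (F : Finset (ℤ × ℤ)) (b : Bool) (L : RswCfg → Prop)
      (ω₀ : Fin m → RswCfg), RswJordan F → (∀ i, n0 ≤ n i) → (∀ i, rswBox (z i) ((k + 1) * n i) ⊆ F) →
      (∀ i j, i ≠ j → Disjoint (rswBox (z i) ((k + 1) * n i)) (rswBox (z j) ((k + 1) * n j))) →
      MdlExt (Finset.univ.biUnion fun i => rswBox (z i) ((k + 1) * n i)) L →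
      (C⁻¹) ^ m * (∏ i, mdlPiP t (MdlPat (rswBox (z i) (k * n i)) (ω₀ i))) * rswP t F b L
          ≤ rswP t F b (fun ω => L ω ∧ ∀ i, MdlPat (rswBox (z i) (k * n i)) (ω₀ i) ω) ∧
      rswP t F b (fun ω => L ω ∧ ∀ i, MdlPat (rswBox (z i) (k * n i)) (ω₀ i) ω)
          ≤ C ^ m * (∏ i, mdlPiP t (MdlPat (rswBox (z i) (k * n i)) (ω₀ i))) * rswP t F b L := by
  classical
  obtain ⟨n0, p, H⟩ := hone
  have ht0 : 0 < t := by linarith
  have hp := H.pos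
  refine ⟨p⁻¹, (one_le_inv₀ hp).2 H.le1, n0, fun m z n F b L ω₀ hF hn hB hd hL => ?_⟩
  choose lam hl0 hlam using fun i => H.one (n i) (hn i) (z i) (ω₀ i)
  have hLi : ∀ i, MdlExt (rswBox (z i) ((k + 1) * n i)) L := fun i =>
    mdl141p_mdlExt_mono (Finset.subset_biUnion_of_mem (fun i => rswBox (z i) ((k + 1) * n i)) (Finset.mem_univ i)) hL
  obtain ⟨c1, c2⟩ := mdl141p_chain hp.le z n ω₀ lam hl0 b (fun i L' hL' => hlam i F b L' hF (hB i) hL') hd hLi Finset.univ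
  have e : rswP t F b (fun ω => L ω ∧ ∀ i ∈ (Finset.univ : Finset (Fin m)), MdlPat (rswBox (z i) (k * n i)) (ω₀ i) ω) =
      rswP t F b (fun ω => L ω ∧ ∀ i, MdlPat (rswBox (z i) (k * n i)) (ω₀ i) ω) :=
    mdl141p_P_congr t F b fun ω => by simp
  rw [e] at c1 c2
  have hpi : ∀ i, p * lam i ≤ mdlPiP t (MdlPat (rswBox (z i) (k * n i)) (ω₀ i)) ∧
      mdlPiP t (MdlPat (rswBox (z i) (k * n i)) (ω₀ i)) ≤ lam i := fun i =>
    mdl141p_plane_bounds ht0 ht2.le hpl hbox (fun N hN => mdl141p_box_sub_big (z i) _ hN) (ω₀ i) (hlam i)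
  have hP0 : 0 ≤ rswP t F b L := rsx_P_nonneg ht0 ht2.le F b L
  have hpi0 : ∀ i, 0 ≤ mdlPiP t (MdlPat (rswBox (z i) (k * n i)) (ω₀ i)) := fun i =>
    le_trans (mul_nonneg hp.le (hl0 i)) (hpi i).1
  constructor
  · refine le_trans (mul_le_mul_of_nonneg_right ?_ hP0) c1
    rw [inv_inv, Finset.prod_mul_distrib, Finset.prod_const, Finset.card_univ, Fintype.card_fin]
    exact mul_le_mul_of_nonneg_left (Finset.prod_le_prod (fun i _ => hpi0 i) fun i _ => (hpi i).2) (pow_nonneg hp.le m)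
  · refine le_trans c2 (mul_le_mul_of_nonneg_right ?_ hP0)
    have : ∏ i, lam i ≤ ∏ i, p⁻¹ * mdlPiP t (MdlPat (rswBox (z i) (k * n i)) (ω₀ i)) := by
      refine Finset.prod_le_prod (fun i _ => hl0 i) fun i _ => ?_
      rw [inv_mul_eq_div, le_div_iff₀ hp, mul_comm]
      exact (hpi i).1
    rw [Finset.prod_mul_distrib, Finset.prod_const, Finset.card_univ, Fintype.card_fin] at this
    exact this

/-! ## 3. The four monotone batches of a complete pattern -/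

open Classical in
/-- the corners of `Q` which have the colour `a` in the pattern `ω₀` -/
noncomputable def mdl141pV (Q : Finset (ℤ × ℤ)) (ω₀ : RswCfg) (a : Bool) : Finset (ℤ × ℤ) :=
  (cornersOf Q).filter fun v => (v ∈ ω₀.S ↔ a = true)

open Classical in
/-- the open edges of colour `a` of the pattern -/
noncomputable def mdl141pEo (Q : Finset (ℤ × ℤ)) (ω₀ : RswCfg) (a : Bool) : Finset ((ℤ × ℤ) × Bool) :=
  (mdlEd Q).filter fun e => RswGood a ω₀ e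

open Classical in
/-- the closed edges of the pattern with both endpoints of colour `a` -/
noncomputable def mdl141pEc (Q : Finset (ℤ × ℤ)) (ω₀ : RswCfg) (a : Bool) : Finset ((ℤ × ℤ) × Bool) :=
  (mdlEd Q).filter fun e => e ∉ ω₀.O ∧ (e.1 ∈ ω₀.S ↔ a = true) ∧ (rswEnd e ∈ ω₀.S ↔ a = true)

theorem mdl141p_mem_V {Q : Finset (ℤ × ℤ)} {ω₀ : RswCfg} {a : Bool} {v : ℤ × ℤ} :
    v ∈ mdl141pV Q ω₀ a ↔ v ∈ cornersOf Q ∧ (v ∈ ω₀.S ↔ a = true) := by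
  classical
  unfold mdl141pV
  rw [Finset.mem_filter]

theorem mdl141p_mem_Eo {Q : Finset (ℤ × ℤ)} {ω₀ : RswCfg} {a : Bool} {e : (ℤ × ℤ) × Bool} :
    e ∈ mdl141pEo Q ω₀ a ↔ e ∈ mdlEd Q ∧ RswGood a ω₀ e := by
  classical
  unfold mdl141pEo
  rw [Finset.mem_filter]

theorem mdl141p_mem_Ec {Q : Finset (ℤ × ℤ)} {ω₀ : RswCfg} {a : Bool} {e : (ℤ × ℤ) × Bool} :
    e ∈ mdl141pEc Q ω₀ a ↔ e ∈ mdlEd Q ∧ e ∉ ω₀.O ∧ (e.1 ∈ ω₀.S ↔ a = true) ∧ (rswEnd e ∈ ω₀.S ↔ a = true) := by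
  classical
  unfold mdl141pEc
  rw [Finset.mem_filter]

/-- batch 1: the plus sites -/
noncomputable def mdl141pK1 (Q : Finset (ℤ × ℤ)) (ω₀ : RswCfg) : MdlPin := ⟨mdl141pV Q ω₀ true, ∅, ∅, ∅⟩

/-- batch 2: all sites -/
noncomputable def mdl141pK2 (Q : Finset (ℤ × ℤ)) (ω₀ : RswCfg) : MdlPin := ⟨mdl141pV Q ω₀ true, mdl141pV Q ω₀ false, ∅, ∅⟩

/-- one batch of edges: the open edges of colour `a` and the closed edges of colour `!a` -/
noncomputable def mdl141pAdd (Q : Finset (ℤ × ℤ)) (ω₀ : RswCfg) (K : MdlPin) (a : Bool) : MdlPin :=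
  ⟨K.Sp, K.Sm, K.Oo ∪ mdl141pEo Q ω₀ a, K.Oc ∪ mdl141pEc Q ω₀ (!a)⟩

/-- the monotone event of a batch of sites -/
def Mdl141pAs (Q : Finset (ℤ × ℤ)) (ω₀ : RswCfg) (a : Bool) (ω : RswCfg) : Prop :=
  ∀ v ∈ mdl141pV Q ω₀ a, (v ∈ ω.S ↔ a = true)

/-- the monotone event of a batch of edges -/
def Mdl141pAe (Q : Finset (ℤ × ℤ)) (ω₀ : RswCfg) (a : Bool) (ω : RswCfg) : Prop :=
  (∀ e ∈ mdl141pEo Q ω₀ a, RswGood a ω e) ∧ ∀ e ∈ mdl141pEc Q ω₀ (!a), ¬ RswGood (!a) ω e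

theorem mdl141p_As_inc (Q : Finset (ℤ × ℤ)) (ω₀ : RswCfg) (a : Bool) : MdlIncP a (Mdl141pAs Q ω₀ a) :=
  fun _ _ hle h v hv => hle.1 v (h v hv)

theorem mdl141p_Ae_inc (Q : Finset (ℤ × ℤ)) (ω₀ : RswCfg) (a : Bool) : MdlIncP a (Mdl141pAe Q ω₀ a) :=
  fun _ _ hle h => ⟨fun e he => hle.2.1 e (h.1 e he), fun e he hc => h.2 e he (hle.2.2 e hc)⟩

theorem mdl141p_As_rd (Q : Finset (ℤ × ℤ)) (ω₀ : RswCfg) (a : Bool) : Mdl141pRd Q (Mdl141pAs Q ω₀ a) :=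
  fun _ _ h1 _ h v hv => (h1 v (mdl141p_mem_V.1 hv).1).symm.trans (h v hv)

theorem mdl141p_good_congr {Q : Finset (ℤ × ℤ)} {ω ω' : RswCfg} (h1 : ∀ v ∈ cornersOf Q, (v ∈ ω.S ↔ v ∈ ω'.S))
    (h2 : ∀ e ∈ mdlEd Q, (e ∈ ω.O ↔ e ∈ ω'.O)) (a : Bool) {e : (ℤ × ℤ) × Bool} (he : e ∈ mdlEd Q) :
    RswGood a ω e ↔ RswGood a ω' e := by
  unfold RswGood
  rw [h2 e he, h1 _ (mdl_ed_fst he), h1 _ (mdl_ed_end he)]

theorem mdl141p_Ae_rd (Q : Finset (ℤ × ℤ)) (ω₀ : RswCfg) (a : Bool) : Mdl141pRd Q (Mdl141pAe Q ω₀ a) :=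
  fun _ _ h1 h2 h => ⟨fun e he => (mdl141p_good_congr h1 h2 a (mdl141p_mem_Eo.1 he).1).1 (h.1 e he),
    fun e he hc => h.2 e he ((mdl141p_good_congr h1 h2 (!a) (mdl141p_mem_Ec.1 he).1).2 hc)⟩

theorem mdl141p_no_holds (ω : RswCfg) : mdl141pNo.Holds ω := by
  unfold MdlPin.Holds mdl141pNo
  simp

theorem mdl141p_K1_iff (Q : Finset (ℤ × ℤ)) (ω₀ ω : RswCfg) :
    (mdl141pK1 Q ω₀).Holds ω ↔ mdl141pNo.Holds ω ∧ Mdl141pAs Q ω₀ true ω := by
  unfold MdlPin.Holds mdl141pK1 mdl141pNo Mdl141pAs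
  simp [Finset.subset_iff]

theorem mdl141p_K2_iff (Q : Finset (ℤ × ℤ)) (ω₀ ω : RswCfg) :
    (mdl141pK2 Q ω₀).Holds ω ↔ (mdl141pK1 Q ω₀).Holds ω ∧ Mdl141pAs Q ω₀ false ω := by
  unfold MdlPin.Holds mdl141pK1 mdl141pK2 Mdl141pAs
  simp [Finset.subset_iff]

/-- under batch 2 the spins of `Q` are those of the pattern -/
theorem mdl141p_K2_spin {Q : Finset (ℤ × ℤ)} {ω₀ ω : RswCfg} (h : (mdl141pK2 Q ω₀).Holds ω) {v : ℤ × ℤ} (hv : v ∈ cornersOf Q) :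
    v ∈ ω.S ↔ v ∈ ω₀.S := by
  obtain ⟨h1, h2, -, -⟩ := h
  by_cases h0 : v ∈ ω₀.S
  · exact ⟨fun _ => h0, fun _ => h1 (mdl141p_mem_V.2 ⟨hv, by simp [h0]⟩)⟩
  · exact ⟨fun hc => absurd hc (h2 v (mdl141p_mem_V.2 ⟨hv, by simp [h0]⟩)), fun hc => absurd hc h0⟩

theorem mdl141p_Add_iff {Q : Finset (ℤ × ℤ)} {ω₀ : RswCfg} {K : MdlPin}
    (hsp : ∀ ω, K.Holds ω → ∀ v ∈ cornersOf Q, (v ∈ ω.S ↔ v ∈ ω₀.S)) (a : Bool) (ω : RswCfg) :
    (mdl141pAdd Q ω₀ K a).Holds ω ↔ K.Holds ω ∧ Mdl141pAe Q ω₀ a ω := by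
  constructor
  · rintro ⟨h1, h2, h3, h4⟩
    have hK : K.Holds ω := ⟨h1, h2, fun e he => h3 (Finset.mem_union_left _ he), fun e he => h4 e (Finset.mem_union_left _ he)⟩
    refine ⟨hK, fun e he => ?_, fun e he hc => h4 e (Finset.mem_union_right _ he) hc.1⟩
    obtain ⟨he1, he2⟩ := mdl141p_mem_Eo.1 he
    exact ⟨h3 (Finset.mem_union_right _ he), (hsp ω hK _ (mdl_ed_fst he1)).trans he2.2.1,
      (hsp ω hK _ (mdl_ed_end he1)).trans he2.2.2⟩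
  · rintro ⟨hK, h5, h6⟩
    obtain ⟨h1, h2, h3, h4⟩ := hK
    refine ⟨h1, h2, fun e he => ?_, fun e he hc => ?_⟩
    · rcases Finset.mem_union.1 he with h | h
      · exact h3 h
      · exact (h5 e h).1
    · rcases Finset.mem_union.1 he with h | h
      · exact h4 e h hc
      · obtain ⟨he1, -, he3, he4⟩ := mdl141p_mem_Ec.1 h
        exact h6 e h ⟨hc, (hsp ω ⟨h1, h2, h3, h4⟩ _ (mdl_ed_fst he1)).trans he3,
          (hsp ω ⟨h1, h2, h3, h4⟩ _ (mdl_ed_end he1)).trans he4⟩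

/-- batch 3 -/
noncomputable def mdl141pK3 (Q : Finset (ℤ × ℤ)) (ω₀ : RswCfg) : MdlPin := mdl141pAdd Q ω₀ (mdl141pK2 Q ω₀) true

/-- batch 4 -/
noncomputable def mdl141pK4 (Q : Finset (ℤ × ℤ)) (ω₀ : RswCfg) : MdlPin := mdl141pAdd Q ω₀ (mdl141pK3 Q ω₀) false

theorem mdl141p_K3_iff (Q : Finset (ℤ × ℤ)) (ω₀ ω : RswCfg) :
    (mdl141pK3 Q ω₀).Holds ω ↔ (mdl141pK2 Q ω₀).Holds ω ∧ Mdl141pAe Q ω₀ true ω :=
  mdl141p_Add_iff (fun _ h _ hv => mdl141p_K2_spin h hv) true ω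

theorem mdl141p_K4_iff (Q : Finset (ℤ × ℤ)) (ω₀ ω : RswCfg) :
    (mdl141pK4 Q ω₀).Holds ω ↔ (mdl141pK3 Q ω₀).Holds ω ∧ Mdl141pAe Q ω₀ false ω :=
  mdl141p_Add_iff (fun ω h _ hv => mdl141p_K2_spin ((mdl141p_K3_iff Q ω₀ ω).1 h).1 hv) false ω

theorem mdl141p_no_inQ (Q : Finset (ℤ × ℤ)) : Mdl141pInQ Q mdl141pNo := by
  unfold Mdl141pInQ mdl141pNo
  simp

theorem mdl141p_V_sub (Q : Finset (ℤ × ℤ)) (ω₀ : RswCfg) (a : Bool) : mdl141pV Q ω₀ a ⊆ cornersOf Q :=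
  fun _ hv => (mdl141p_mem_V.1 hv).1

theorem mdl141p_K1_inQ (Q : Finset (ℤ × ℤ)) (ω₀ : RswCfg) : Mdl141pInQ Q (mdl141pK1 Q ω₀) :=
  ⟨mdl141p_V_sub Q ω₀ true, Finset.empty_subset _, Finset.empty_subset _, Finset.empty_subset _⟩

theorem mdl141p_K2_inQ (Q : Finset (ℤ × ℤ)) (ω₀ : RswCfg) : Mdl141pInQ Q (mdl141pK2 Q ω₀) :=
  ⟨mdl141p_V_sub Q ω₀ true, mdl141p_V_sub Q ω₀ false, Finset.empty_subset _, Finset.empty_subset _⟩

theorem mdl141p_K3_inQ (Q : Finset (ℤ × ℤ)) (ω₀ : RswCfg) : Mdl141pInQ Q (mdl141pK3 Q ω₀) :=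
  ⟨mdl141p_V_sub Q ω₀ true, mdl141p_V_sub Q ω₀ false,
    Finset.union_subset (Finset.empty_subset _) fun _ he => (mdl141p_mem_Eo.1 he).1,
    Finset.union_subset (Finset.empty_subset _) fun _ he => (mdl141p_mem_Ec.1 he).1⟩

theorem mdl141p_K1_ok (Q : Finset (ℤ × ℤ)) (ω₀ : RswCfg) : (mdl141pK1 Q ω₀).Ok := by
  intro e he
  simp [mdl141pK1] at he

theorem mdl141p_K2_ok (Q : Finset (ℤ × ℤ)) (ω₀ : RswCfg) : (mdl141pK2 Q ω₀).Ok := by
  intro e he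
  simp [mdl141pK2] at he

theorem mdl141p_V_cover {Q : Finset (ℤ × ℤ)} (ω₀ : RswCfg) {v : ℤ × ℤ} (hv : v ∈ cornersOf Q) :
    v ∈ mdl141pV Q ω₀ true ∪ mdl141pV Q ω₀ false := by
  by_cases h0 : v ∈ ω₀.S
  · exact Finset.mem_union_left _ (mdl141p_mem_V.2 ⟨hv, by simp [h0]⟩)
  · exact Finset.mem_union_right _ (mdl141p_mem_V.2 ⟨hv, by simp [h0]⟩)

theorem mdl141p_K3_ok (Q : Finset (ℤ × ℤ)) (ω₀ : RswCfg) : (mdl141pK3 Q ω₀).Ok := by
  intro e he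
  have hQ := mdl141p_K3_inQ Q ω₀
  have he' : e ∈ mdlEd Q := by
    rcases Finset.mem_union.1 he with h | h
    · exact hQ.2.2.1 h
    · exact hQ.2.2.2 h
  exact ⟨mdl141p_V_cover ω₀ (mdl_ed_fst he'), mdl141p_V_cover ω₀ (mdl_ed_end he')⟩

theorem mdl141p_P_eq_sumK (t : ℝ) (F : Finset (ℤ × ℤ)) (b : Bool) (K : MdlPin) :
    rswP t F b K.Holds = mdlSumK t F b K (fun _ => 1) / rswSum t F b (fun _ => 1) := rfl

/-- batch 3 has positive probability in every flat law whose open domain contains the closed `Q`. -/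
theorem mdl141p_K3_pos {t : ℝ} (ht0 : 0 < t) (ht2 : t < 1) {Q Λ : Finset (ℤ × ℤ)} (hQ : ∀ v ∈ cornersOf Q, ¬ OnPolygon Λ v)
    (ω₀ : RswCfg) (a : Bool) : 0 < rswP t Λ a (mdl141pK3 Q ω₀).Holds := by
  rw [mdl141p_P_eq_sumK]
  refine div_pos (bp101_pin_pos ht0 ht2 Λ a ?_ ?_ ?_ ?_ ?_) (rsk_sum_one_pos ht0 ht2.le Λ a)
  · rw [Finset.disjoint_left]
    intro v h1 h2
    have a1 := (mdl141p_mem_V.1 h1).2
    have a2 := (mdl141p_mem_V.1 h2).2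
    simp only [iff_true] at a1
    simp [a1] at a2
  · rw [Finset.disjoint_left]
    intro e h1 h2
    rcases Finset.mem_union.1 h1 with h | h
    · simp [mdl141pK2] at h
    rcases Finset.mem_union.1 h2 with h' | h'
    · simp [mdl141pK2] at h'
    exact (mdl141p_mem_Ec.1 h').2.1 (mdl141p_mem_Eo.1 h).2.1
  · intro e he
    rcases Finset.mem_union.1 he with h | h
    · simp [mdl141pK2] at h
    obtain ⟨h1, h2⟩ := mdl141p_mem_Eo.1 h
    exact Or.inl ⟨mdl141p_mem_V.2 ⟨mdl_ed_fst h1, h2.2.1⟩, mdl141p_mem_V.2 ⟨mdl_ed_end h1, h2.2.2⟩⟩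
  · intro e he
    exact mdl_ed_int hQ ((mdl141p_K3_inQ Q ω₀).2.2.1 he)
  · intro v hv
    rcases Finset.mem_union.1 hv with h | h
    · exact hQ v ((mdl141p_K3_inQ Q ω₀).1 h)
    · exact hQ v ((mdl141p_K3_inQ Q ω₀).2.1 h)

/-- the pattern has no open edge with disagreeing endpoints -/
def Mdl141pFeas (Q : Finset (ℤ × ℤ)) (ω₀ : RswCfg) : Prop :=
  ∀ e ∈ mdlEd Q, e ∈ ω₀.O → (e.1 ∈ ω₀.S ↔ rswEnd e ∈ ω₀.S)

/-- on the support of a flat law a feasible complete pattern is batch 4. -/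
theorem mdl141p_pat_iff {t : ℝ} {Q F : Finset (ℤ × ℤ)} {b : Bool} {ω₀ ω : RswCfg} (hQ : mdlEd Q ⊆ rswInt F)
    (hf : Mdl141pFeas Q ω₀) (hw : rswWt t F b ω ≠ 0) : MdlPat Q ω₀ ω ↔ (mdl141pK4 Q ω₀).Holds ω := by
  rw [mdl141p_K4_iff, mdl141p_K3_iff]
  constructor
  · rintro ⟨h1, h2⟩
    have hK2 : (mdl141pK2 Q ω₀).Holds ω := by
      refine ⟨fun v hv => ?_, fun v hv hc => ?_, Finset.empty_subset _, fun e he => by simp [mdl141pK2] at he⟩
      · obtain ⟨a1, a2⟩ := mdl141p_mem_V.1 hv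
        exact (h1 v a1).2 (a2.2 rfl)
      · obtain ⟨a1, a2⟩ := mdl141p_mem_V.1 hv
        have := a2.1 ((h1 v a1).1 hc)
        simp at this
    have hAe : ∀ a, Mdl141pAe Q ω₀ a ω := fun a =>
      ⟨fun e he => (mdl141p_good_congr h1 h2 a (mdl141p_mem_Eo.1 he).1).2 (mdl141p_mem_Eo.1 he).2,
        fun e he hc => (mdl141p_mem_Ec.1 he).2.1 ((h2 e (mdl141p_mem_Ec.1 he).1).1 hc.1)⟩
    exact ⟨⟨hK2, hAe true⟩, hAe false⟩
  · rintro ⟨⟨hK2, hT⟩, hF⟩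
    have hsp : ∀ v ∈ cornersOf Q, (v ∈ ω.S ↔ v ∈ ω₀.S) := fun v hv => mdl141p_K2_spin hK2 hv
    refine ⟨hsp, fun e he => ?_⟩
    have s1 := hsp _ (mdl_ed_fst he)
    have s2 := hsp _ (mdl_ed_end he)
    have hsupp := ((rsb_wt_ne_zero hw).2 e (hQ he)).2.1
    by_cases c1 : e.1 ∈ ω₀.S <;> by_cases c2 : rswEnd e ∈ ω₀.S
    · by_cases c0 : e ∈ ω₀.O
      · exact ⟨fun _ => c0, fun _ => (hT.1 e (mdl141p_mem_Eo.2 ⟨he, c0, by simp [c1], by simp [c2]⟩)).1⟩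
      · refine ⟨fun hc => absurd ?_ (hF.2 e (mdl141p_mem_Ec.2 ⟨he, c0, by simp [c1], by simp [c2]⟩)), fun hc => absurd hc c0⟩
        exact ⟨hc, by simp [s1, c1], by simp [s2, c2]⟩
    · have c0 : e ∉ ω₀.O := fun hc => c2 ((hf e he hc).1 c1)
      exact ⟨fun hc => absurd ((s2.1 ((hsupp hc).1 (s1.2 c1)))) c2, fun hc => absurd hc c0⟩
    · have c0 : e ∉ ω₀.O := fun hc => c1 ((hf e he hc).2 c2)
      exact ⟨fun hc => absurd ((s1.1 ((hsupp hc).2 (s2.2 c2)))) c1, fun hc => absurd hc c0⟩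
    · by_cases c0 : e ∈ ω₀.O
      · exact ⟨fun _ => c0, fun _ => (hF.1 e (mdl141p_mem_Eo.2 ⟨he, c0, by simp [c1], by simp [c2]⟩)).1⟩
      · refine ⟨fun hc => absurd ?_ (hT.2 e (mdl141p_mem_Ec.2 ⟨he, c0, by simp [c1], by simp [c2]⟩)), fun hc => absurd hc c0⟩
        exact ⟨hc, by simp [s1, c1], by simp [s2, c2]⟩

/-- an infeasible pattern is never seen on the support. -/
theorem mdl141p_pat_infeas {t : ℝ} {Q F : Finset (ℤ × ℤ)} {b : Bool} {ω₀ ω : RswCfg} (hQ : mdlEd Q ⊆ rswInt F)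
    (hf : ¬ Mdl141pFeas Q ω₀) (hw : rswWt t F b ω ≠ 0) : ¬ MdlPat Q ω₀ ω := by
  rintro ⟨h1, h2⟩
  apply hf
  intro e he hO
  have hsupp := ((rsb_wt_ne_zero hw).2 e (hQ he)).2.1 ((h2 e he).2 hO)
  rw [← h1 _ (mdl_ed_fst he), ← h1 _ (mdl_ed_end he)]
  exact hsupp

/-! ## 4. Geometry of boxes, the sealing circuit from (S1) -/

theorem mdl141p_mem_box {z f : ℤ × ℤ} {n : ℕ} :
    f ∈ rswBox z n ↔ (z.1 - n ≤ f.1 ∧ f.1 < z.1 + n) ∧ (z.2 - n ≤ f.2 ∧ f.2 < z.2 + n) := by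
  unfold rswBox
  rw [Finset.mem_product, Finset.mem_Ico, Finset.mem_Ico]

theorem mdl141p_box_deep (z : ℤ × ℤ) {r r' : ℕ} (h : r + 1 ≤ r') : ∀ v ∈ cornersOf (rswBox z r), ¬ OnPolygon (rswBox z r') v := by
  intro v hv
  have hr : (r : ℤ) + 1 ≤ r' := by exact_mod_cast h
  rw [rsk_mem_corners] at hv
  simp only [mdl141p_mem_box] at hv
  unfold OnPolygon
  rw [not_not]
  simp only [mdl141p_mem_box]
  omega

theorem mdl141p_layer_box (z : ℤ × ℤ) (r : ℕ) {g : ℤ × ℤ} (hg : g ∈ rswLayer (rswBox z (r + 1))) : g ∉ rswBox z r := by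
  intro hc
  obtain ⟨-, v, hv, hP⟩ := rsx_mem_layer.1 hg
  apply hP
  rw [mdl141p_mem_box] at hc
  simp only [Finset.mem_insert, Finset.mem_singleton] at hv
  simp only [mdl141p_mem_box]
  push_cast
  rcases hv with rfl | rfl | rfl | rfl <;> (try simp only) <;> omega

theorem mdl141p_seal_of_sep {F : Finset (ℤ × ℤ)} {z : ℤ × ℤ} {r : ℕ} (hΛ : rswBox z (r + 1) ⊆ F) {a : Bool} {ω : RswCfg}
    {R : Finset (ℤ × ℤ)} (h : RswSep F a ω R (F \ rswBox z r)) :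
    RswSep (rswBox z (r + 1)) a ω R (rswLayer (rswBox z (r + 1))) := by
  intro f hf g hg hpath
  refine h f hf g (Finset.mem_sdiff.2 ⟨hΛ (rsx_layer_sub _ hg), mdl141p_layer_box z r hg⟩) ?_
  have hmono : RswStep (rswBox z (r + 1)) a ω ≤ RswStep F a ω := fun x y hxy => ⟨hΛ hxy.1, hΛ hxy.2.1, hxy.2.2⟩
  exact Relation.ReflTransGen.mono hmono f g hpath

/-- the statement of (S1) `exit_mdl_circ` at one ratio and one scale -/
def Mdl141pCirc (t : ℝ) (k n : ℕ) (p : ℝ) : Prop :=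
  ∀ (F : Finset (ℤ × ℤ)) (z : ℤ × ℤ) (b a : Bool) (L : RswCfg → Prop),
    RswJordan F → rswBox z ((k + 3) * n) ⊆ F → MdlExt (rswBox z ((k + 3) * n) \ rswBox z (k * n)) L →
    p * rswP t F b L ≤
      rswP t F b fun ω => L ω ∧ RswSep F a ω (rswBox z ((k + 1) * n)) (F \ rswBox z ((k + 2) * n))

/-- the sealing circuit given exterior data and prescriptions in the inner box. -/
theorem mdl141p_seal {t : ℝ} (ht0 : 0 < t) (ht2 : t < 1) {k n : ℕ} {p : ℝ} (hc : Mdl141pCirc t k n p) (hn : 1 ≤ n)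
    {F : Finset (ℤ × ℤ)} (hF : RswJordan F) {z : ℤ × ℤ} (hB : rswBox z ((k + 3) * n) ⊆ F) (b a : Bool) {r0 : ℕ} (hr0 : r0 ≤ k * n)
    {K : MdlPin} (hKQ : Mdl141pInQ (rswBox z r0) K) {L : RswCfg → Prop} (hL : MdlExt (rswBox z ((k + 3) * n)) L) :
    p * rswP t F b (fun ω => L ω ∧ K.Holds ω) ≤
      rswP t F b (fun ω => (L ω ∧ K.Holds ω) ∧
        RswSep (rswBox z ((k + 2) * n + 1)) a ω (rswBox z ((k + 1) * n)) (rswLayer (rswBox z ((k + 2) * n + 1)))) := by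
  have hext : MdlExt (rswBox z ((k + 3) * n) \ rswBox z (k * n)) (fun ω => L ω ∧ K.Holds ω) := by
    refine mdl141p_ext_and (mdl141p_mdlExt_mono Finset.sdiff_subset hL) (mdl141p_rd_ext ?_ (mdl141p_inQ_rd hKQ))
    exact Finset.disjoint_of_subset_left (mdl141p_box_mono' z hr0) Finset.disjoint_sdiff
  refine (hc F z b a _ hF hB hext).trans (rsb_P_mono ht0 ht2.le fun ω _ _ h => ⟨h.1, mdl141p_seal_of_sep ?_ h.2⟩)
  exact (mdl141p_box_mono' z (by nlinarith)).trans hB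

theorem mdl141p_ratio {p x y e f : ℝ} (he : 0 < e) (u : y * e ≤ f * x) (l : p * (f * x) ≤ y * e) :
    y ≤ f / e * x ∧ p * (f / e) * x ≤ y := by
  constructor
  · rw [div_mul_eq_mul_div, le_div_iff₀ he]
    exact u
  · rw [mul_assoc, div_mul_eq_mul_div, mul_div_assoc', div_le_iff₀ he]
    exact l

/-! ## 5. The one-box record -/

/-- the reference number of a pattern: product of the four conditional probabilities in the reference box `Λ`, wired in the colour of the batch. -/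
noncomputable def mdl141pLam (t : ℝ) (Λ Q : Finset (ℤ × ℤ)) (ω₀ : RswCfg) : ℝ :=
  rswP t Λ true (mdl141pK1 Q ω₀).Holds / rswP t Λ true mdl141pNo.Holds *
    (rswP t Λ false (mdl141pK2 Q ω₀).Holds / rswP t Λ false (mdl141pK1 Q ω₀).Holds) *
    (rswP t Λ true (mdl141pK3 Q ω₀).Holds / rswP t Λ true (mdl141pK2 Q ω₀).Holds) *
    (rswP t Λ false (mdl141pK4 Q ω₀).Holds / rswP t Λ false (mdl141pK3 Q ω₀).Holds)

theorem mdl141p_lam_nonneg {t : ℝ} (ht0 : 0 < t) (ht1 : t ≤ 1) (Λ Q : Finset (ℤ × ℤ)) (ω₀ : RswCfg) : 0 ≤ mdl141pLam t Λ Q ω₀ := by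
  have h : ∀ (a : Bool) (E : RswCfg → Prop), 0 ≤ rswP t Λ a E := fun a E => rsb_P_nonneg ht0 ht1 Λ a E
  unfold mdl141pLam
  exact mul_nonneg (mul_nonneg (mul_nonneg (div_nonneg (h _ _) (h _ _)) (div_nonneg (h _ _) (h _ _)))
    (div_nonneg (h _ _) (h _ _))) (div_nonneg (h _ _) (h _ _))

theorem mdl141p_real_four {p x0 x1 x2 x3 x4 l0 l1 l2 l3 : ℝ} (hp : 0 ≤ p) (h1 : 0 ≤ l1) (h2 : 0 ≤ l2) (h3 : 0 ≤ l3)
    (s0 : x1 ≤ l0 * x0 ∧ p * l0 * x0 ≤ x1) (s1 : x2 ≤ l1 * x1 ∧ p * l1 * x1 ≤ x2)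
    (s2 : x3 ≤ l2 * x2 ∧ p * l2 * x2 ≤ x3) (s3 : x4 ≤ l3 * x3 ∧ p * l3 * x3 ≤ x4) :
    p ^ 4 * (l0 * l1 * l2 * l3) * x0 ≤ x4 ∧ x4 ≤ l0 * l1 * l2 * l3 * x0 := by
  constructor
  · calc p ^ 4 * (l0 * l1 * l2 * l3) * x0 = (p * l3) * ((p * l2) * ((p * l1) * (p * l0 * x0))) := by ring
      _ ≤ (p * l3) * ((p * l2) * ((p * l1) * x1)) := by
        have := s0.2
        gcongr
      _ ≤ (p * l3) * ((p * l2) * x2) := by
        have := s1.2
        gcongr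
      _ ≤ (p * l3) * x3 := by
        have := s2.2
        gcongr
      _ ≤ x4 := s3.2
  · calc x4 ≤ l3 * x3 := s3.1
      _ ≤ l3 * (l2 * x2) := by
        have := s2.1
        gcongr
      _ ≤ l3 * (l2 * (l1 * x1)) := by
        have := s1.1
        gcongr
      _ ≤ l3 * (l2 * (l1 * (l0 * x0))) := by
        have := s0.1
        gcongr
      _ = l0 * l1 * l2 * l3 * x0 := by ring

/-- **the four batches**: a feasible complete pattern, abstract geometry. -/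
theorem mdl141p_four_batches {t : ℝ} (ht0 : 0 < t) (ht2 : t < 1) {F Λ Λp R Q : Finset (ℤ × ℤ)} (hR : R ⊆ Λ) (hΛ : Λ ⊆ Λp) (hΛp : Λp ⊆ F)
    (hQR : ∀ v ∈ cornersOf Q, ¬ OnPolygon R v) (hdeep : ∀ v ∈ cornersOf Λ, ¬ OnPolygon Λp v) (b : Bool)
    (hcmpF : ∀ (a : Bool) (K : MdlPin), K.Ok → MdlFkgAt t F b a K) (hcmpΛ : ∀ (a : Bool) (K : MdlPin), K.Ok → MdlFkgAt t Λ a a K)
    (ω₀ : RswCfg) (hf : Mdl141pFeas Q ω₀) {L : RswCfg → Prop} (hL : MdlExt Λp L) {p : ℝ} (hp : 0 ≤ p)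
    (hseal : ∀ (a : Bool) (K : MdlPin), Mdl141pInQ Q K → p * rswP t F b (fun ω => L ω ∧ K.Holds ω) ≤
      rswP t F b (fun ω => (L ω ∧ K.Holds ω) ∧ RswSep Λ a ω R (rswLayer Λ))) :
    p ^ 4 * mdl141pLam t Λ Q ω₀ * rswP t F b L ≤ rswP t F b (fun ω => L ω ∧ MdlPat Q ω₀ ω) ∧
      rswP t F b (fun ω => L ω ∧ MdlPat Q ω₀ ω) ≤ mdl141pLam t Λ Q ω₀ * rswP t F b L := by
  have hQΛ : ∀ v ∈ cornersOf Q, ¬ OnPolygon Λ v := fun v hv hc =>
    hQR v hv fun h => hc ⟨hR h.1, hR h.2.1, hR h.2.2.1, hR h.2.2.2⟩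
  have hQF : mdlEd Q ⊆ rswInt F := fun e he => rsk_int_mono (hΛ.trans hΛp) (mdl_ed_int hQΛ he)
  have p3 : ∀ a, 0 < rswP t Λ a (mdl141pK3 Q ω₀).Holds := fun a => mdl141p_K3_pos ht0 ht2 hQΛ ω₀ a
  have p2 : ∀ a, 0 < rswP t Λ a (mdl141pK2 Q ω₀).Holds := fun a =>
    lt_of_lt_of_le (p3 a) (rsb_P_mono ht0 ht2.le fun ω _ _ h => ((mdl141p_K3_iff Q ω₀ ω).1 h).1)
  have p1 : ∀ a, 0 < rswP t Λ a (mdl141pK1 Q ω₀).Holds := fun a =>
    lt_of_lt_of_le (p2 a) (rsb_P_mono ht0 ht2.le fun ω _ _ h => ((mdl141p_K2_iff Q ω₀ ω).1 h).1)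
  have p0 : ∀ a, 0 < rswP t Λ a mdl141pNo.Holds := fun a =>
    lt_of_lt_of_le (p1 a) (rsb_P_mono ht0 ht2.le fun ω _ _ _ => mdl141p_no_holds ω)
  have hP : ∀ (a : Bool) (E : RswCfg → Prop), 0 ≤ rswP t Λ a E := fun a E => rsb_P_nonneg ht0 ht2.le Λ a E
  have s0 := mdl141p_stepP ht0 ht2 hR hΛ hΛp hQR hdeep b true (hcmpF true) (hcmpΛ true) mdl141p_no_ok (mdl141p_no_inQ Q)
    (mdl141p_As_inc Q ω₀ true) (mdl141p_As_rd Q ω₀ true) (mdl141p_K1_iff Q ω₀) hL (hseal true _ (mdl141p_no_inQ Q))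
  have s1 := mdl141p_stepP ht0 ht2 hR hΛ hΛp hQR hdeep b false (hcmpF false) (hcmpΛ false) (mdl141p_K1_ok Q ω₀) (mdl141p_K1_inQ Q ω₀)
    (mdl141p_As_inc Q ω₀ false) (mdl141p_As_rd Q ω₀ false) (mdl141p_K2_iff Q ω₀) hL (hseal false _ (mdl141p_K1_inQ Q ω₀))
  have s2 := mdl141p_stepP ht0 ht2 hR hΛ hΛp hQR hdeep b true (hcmpF true) (hcmpΛ true) (mdl141p_K2_ok Q ω₀) (mdl141p_K2_inQ Q ω₀)
    (mdl141p_Ae_inc Q ω₀ true) (mdl141p_Ae_rd Q ω₀ true) (mdl141p_K3_iff Q ω₀) hL (hseal true _ (mdl141p_K2_inQ Q ω₀))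
  have s3 := mdl141p_stepP ht0 ht2 hR hΛ hΛp hQR hdeep b false (hcmpF false) (hcmpΛ false) (mdl141p_K3_ok Q ω₀) (mdl141p_K3_inQ Q ω₀)
    (mdl141p_Ae_inc Q ω₀ false) (mdl141p_Ae_rd Q ω₀ false) (mdl141p_K4_iff Q ω₀) hL (hseal false _ (mdl141p_K3_inQ Q ω₀))
  have e0 : rswP t F b (fun ω => L ω ∧ mdl141pNo.Holds ω) = rswP t F b L :=
    mdl141p_P_congr t F b fun ω => ⟨fun h => h.1, fun h => ⟨h, mdl141p_no_holds ω⟩⟩
  have e4 : rswP t F b (fun ω => L ω ∧ (mdl141pK4 Q ω₀).Holds ω) = rswP t F b (fun ω => L ω ∧ MdlPat Q ω₀ ω) :=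
    rsb_P_congr fun ω _ hw => by rw [mdl141p_pat_iff hQF hf hw]
  rw [e0] at s0
  rw [e4] at s3
  unfold mdl141pLam
  exact mdl141p_real_four hp (div_nonneg (hP _ _) (hP _ _)) (div_nonneg (hP _ _) (hP _ _))
    (div_nonneg (hP _ _) (hP _ _)) (mdl141p_ratio (p0 true) s0.1 s0.2) (mdl141p_ratio (p1 false) s1.1 s1.2)
    (mdl141p_ratio (p2 true) s2.1 s2.2) (mdl141p_ratio (p3 false) s3.1 s3.2)

/-- the type of (S0) `exit_mdl_cmp` at `t` -/
def Mdl141pCmp (t : ℝ) : Prop :=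
  ∀ (F : Finset (ℤ × ℤ)), RswJordan F → ∀ (b a : Bool) (K : MdlPin), K.Ok → ∀ X Y : RswCfg → ℝ, MdlInc a X → MdlInc a Y →
    mdlSumK t F b K X * mdlSumK t F b K Y ≤ mdlSumK t F b K (fun _ => 1) * mdlSumK t F b K fun ω => X ω * Y ω

/-- **one box**, radii `r0 ≤ k n` (pattern) and `(k + 3) n ≤ rB` (buffer), circuits of (S1) at the ratio `k` and the scale `n`. -/
theorem mdl141p_one_core {t : ℝ} (ht0 : 0 < t) (ht2 : t < 1) (hcmp : Mdl141pCmp t) {k n : ℕ} {p : ℝ} (hp : 0 ≤ p)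
    (hc : Mdl141pCirc t k n p) (hn : 2 ≤ n) (z : ℤ × ℤ) {r0 rB : ℕ} (hr0 : r0 ≤ k * n) (hrB : (k + 3) * n ≤ rB) (ω₀ : RswCfg) :
    ∃ lam : ℝ, 0 ≤ lam ∧ ∀ (F : Finset (ℤ × ℤ)) (b : Bool) (L : RswCfg → Prop), RswJordan F → rswBox z rB ⊆ F →
      MdlExt (rswBox z rB) L →
      p ^ 4 * lam * rswP t F b L ≤ rswP t F b (fun ω => L ω ∧ MdlPat (rswBox z r0) ω₀ ω) ∧
      rswP t F b (fun ω => L ω ∧ MdlPat (rswBox z r0) ω₀ ω) ≤ lam * rswP t F b L := by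
  have hR : rswBox z ((k + 1) * n) ⊆ rswBox z ((k + 2) * n + 1) := mdl141p_box_mono' z (by nlinarith)
  have hΛ : rswBox z ((k + 2) * n + 1) ⊆ rswBox z ((k + 2) * n + 2) := mdl141p_box_mono' z (by omega)
  have hΛpB : rswBox z ((k + 2) * n + 2) ⊆ rswBox z ((k + 3) * n) := mdl141p_box_mono' z (by nlinarith)
  have hQR : ∀ v ∈ cornersOf (rswBox z r0), ¬ OnPolygon (rswBox z ((k + 1) * n)) v := mdl141p_box_deep z (by nlinarith)
  have hdeep : ∀ v ∈ cornersOf (rswBox z ((k + 2) * n + 1)), ¬ OnPolygon (rswBox z ((k + 2) * n + 2)) v :=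
    mdl141p_box_deep z (by omega)
  have hΛJ : RswJordan (rswBox z ((k + 2) * n + 1)) := bp101_jordan_box z (by omega)
  by_cases hf : Mdl141pFeas (rswBox z r0) ω₀
  · refine ⟨mdl141pLam t (rswBox z ((k + 2) * n + 1)) (rswBox z r0) ω₀, mdl141p_lam_nonneg ht0 ht2.le _ _ _,
      fun F b L hF hB hL => ?_⟩
    have hBF : rswBox z ((k + 3) * n) ⊆ F := (mdl141p_box_mono' z hrB).trans hB
    have hL3 : MdlExt (rswBox z ((k + 3) * n)) L := mdl141p_mdlExt_mono (mdl141p_box_mono' z hrB) hL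
    exact mdl141p_four_batches ht0 ht2 hR hΛ (hΛpB.trans hBF) hQR hdeep b (fun a K hK => hcmp F hF b a K hK)
      (fun a K hK => hcmp _ hΛJ a a K hK) ω₀ hf (mdl141p_mdlExt_mono hΛpB hL3) hp
      (fun a K hKQ => mdl141p_seal ht0 ht2 hc (by omega) hF hBF b a hr0 hKQ hL3)
  · refine ⟨0, le_rfl, fun F b L hF hB hL => ?_⟩
    have hBF : rswBox z ((k + 3) * n) ⊆ F := (mdl141p_box_mono' z hrB).trans hB
    have hQF : mdlEd (rswBox z r0) ⊆ rswInt F := fun e he =>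
      rsk_int_mono ((hR.trans (hΛ.trans hΛpB)).trans hBF) (mdl_ed_int hQR he)
    have e : rswP t F b (fun ω => L ω ∧ MdlPat (rswBox z r0) ω₀ ω) = 0 := by
      rw [rsb_P_congr (L' := fun _ => False) fun ω _ hw => ⟨fun h => mdl141p_pat_infeas hQF hf hw h.2, False.elim⟩]
      exact rsb_P_false t F b
    rw [e]
    simp

/-- **THE ONE-BOX RECORD** from (S0) and (S1) at the ratio `4 k + 1`. -/
theorem mdl141p_one {t : ℝ} (ht0 : 0 < t) (ht2 : t < 1) (k : ℕ) (hcmp : Mdl141pCmp t)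
    (hcirc : ∃ p : ℝ, 0 < p ∧ ∃ n0 : ℕ, ∀ n : ℕ, n0 ≤ n → Mdl141pCirc t (4 * k + 1) n p) :
    ∃ (n0 : ℕ) (p : ℝ), Mdl141pOne t k n0 p := by
  obtain ⟨p, hp, n1, hc⟩ := hcirc
  have hq : 0 < min p 1 := lt_min hp one_pos
  refine ⟨4 * n1 + 4 * (3 * k + 2), (min p 1) ^ 4, pow_pos hq 4, pow_le_one₀ hq.le (min_le_right _ _), fun n hn z ω₀ => ?_⟩
  have h1 : n1 ≤ n / 4 := by omega
  have h2 : 3 * k + 2 ≤ n / 4 := by omega
  have h3 : n ≤ 4 * (n / 4) + 3 := by omega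
  have h4 : 4 * (n / 4) ≤ n := by omega
  have hc' : Mdl141pCirc t (4 * k + 1) (n / 4) (min p 1) := by
    intro F z b a L hF hB hL
    refine le_trans (mul_le_mul_of_nonneg_right (min_le_left _ _) (rsb_P_nonneg ht0 ht2.le F b L)) (hc _ h1 F z b a L hF hB hL)
  refine mdl141p_one_core ht0 ht2 hcmp hq.le hc' (by omega) z ?_ ?_ ω₀
  · calc k * n ≤ k * (4 * (n / 4) + 3) := Nat.mul_le_mul_left k h3
      _ = 4 * k * (n / 4) + 3 * k := by ring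
      _ ≤ 4 * k * (n / 4) + n / 4 := by omega
      _ = (4 * k + 1) * (n / 4) := by ring
  · calc (4 * k + 1 + 3) * (n / 4) = (k + 1) * (4 * (n / 4)) := by ring
      _ ≤ (k + 1) * n := Nat.mul_le_mul_left _ h4

/-- **(S3) `exit_mdl_pattern`, THE EXIT TEXT VERBATIM**, from (S0) `exit_mdl_cmp`, (S1) `exit_mdl_circ` and `exit_rsw_plane` (as hypotheses of their own types). -/
theorem mdl141p_exit
    (hcmp : ∀ (t : ℝ) (ht1 : 1 / 2 ≤ t) (ht2 : t < 1) (F : Finset (ℤ × ℤ)) (hF : RswJordan F) (b a : Bool)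
      (K : MdlPin) (hK : K.Ok) (X Y : RswCfg → ℝ) (hX : MdlInc a X) (hY : MdlInc a Y),
      mdlSumK t F b K X * mdlSumK t F b K Y ≤ mdlSumK t F b K (fun _ => 1) * mdlSumK t F b K fun ω => X ω * Y ω)
    (hcirc : ∀ (t : ℝ) (ht1 : 1 / 2 ≤ t) (ht2 : t < 1) (k : ℕ),
      ∃ p : ℝ, 0 < p ∧ ∃ n0 : ℕ, ∀ n : ℕ, n0 ≤ n → ∀ (F : Finset (ℤ × ℤ)) (z : ℤ × ℤ) (b a : Bool) (L : RswCfg → Prop),
        RswJordan F → rswBox z ((k + 3) * n) ⊆ F → MdlExt (rswBox z ((k + 3) * n) \ rswBox z (k * n)) L →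
        p * rswP t F b L ≤
          rswP t F b fun ω => L ω ∧ RswSep F a ω (rswBox z ((k + 1) * n)) (F \ rswBox z ((k + 2) * n)))
    (hplane : ∀ (t : ℝ) (ht1 : 1 / 2 ≤ t) (ht2 : t < 1)
      (R : Finset (ℤ × ℤ)) (R' : Finset ((ℤ × ℤ) × Bool)) (X : RswCfg → ℝ) (hX : RswLoc R R' X),
      ∃ ℓ : ℝ, ∀ ε : ℝ, 0 < ε → ∃ n0 : ℕ, ∀ (F : Finset (ℤ × ℤ)) (b : Bool),
        RswJordan F → rswBox 0 n0 ⊆ F → |rswE t F b X - ℓ| < ε)
    (t : ℝ) (ht1 : 1 / 2 ≤ t) (ht2 : t < 1) (k : ℕ) :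
    ∃ C : ℝ, 1 ≤ C ∧ ∃ n0 : ℕ, ∀ (m : ℕ) (z : Fin m → ℤ × ℤ) (n : Fin m → ℕ) (F : Finset (ℤ × ℤ)) (b : Bool) (L : RswCfg → Prop)
      (ω₀ : Fin m → RswCfg), RswJordan F → (∀ i, n0 ≤ n i) → (∀ i, rswBox (z i) ((k + 1) * n i) ⊆ F) →
      (∀ i j, i ≠ j → Disjoint (rswBox (z i) ((k + 1) * n i)) (rswBox (z j) ((k + 1) * n j))) →
      MdlExt (Finset.univ.biUnion fun i => rswBox (z i) ((k + 1) * n i)) L →
      (C⁻¹) ^ m * (∏ i, mdlPiP t (MdlPat (rswBox (z i) (k * n i)) (ω₀ i))) * rswP t F b L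
          ≤ rswP t F b (fun ω => L ω ∧ ∀ i, MdlPat (rswBox (z i) (k * n i)) (ω₀ i) ω) ∧
      rswP t F b (fun ω => L ω ∧ ∀ i, MdlPat (rswBox (z i) (k * n i)) (ω₀ i) ω)
          ≤ C ^ m * (∏ i, mdlPiP t (MdlPat (rswBox (z i) (k * n i)) (ω₀ i))) * rswP t F b L :=
  mdl141p_exit_of_one t ht1 ht2 k (hplane t ht1 ht2) (fun z _ hn => bp101_jordan_box z hn)
    (mdl141p_one (by linarith) ht2 k (hcmp t ht1 ht2) (hcirc t ht1 ht2 (4 * k + 1)))

theorem mdl141p_eqns_cite : True := by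
  have := @mdl141pJoin.eq_1
  have := @mdl141pNo.eq_1
  have := @Mdl141pRd.eq_1
  have := @Mdl141pInQ.eq_1
  have := @Mdl141pPlane.eq_1
  have := @mdl141pV.eq_1
  have := @mdl141pEo.eq_1
  have := @mdl141pEc.eq_1
  have := @mdl141pK1.eq_1
  have := @mdl141pK2.eq_1
  have := @mdl141pAdd.eq_1
  have := @Mdl141pAs.eq_1
  have := @Mdl141pAe.eq_1
  have := @mdl141pK3.eq_1
  have := @mdl141pK4.eq_1
  have := @Mdl141pFeas.eq_1
  have := @Mdl141pCirc.eq_1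
  have := @mdl141pLam.eq_1
  have := @Mdl141pCmp.eq_1
  trivial

end Claimed.Agent.R292
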