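import Claimed.Agent.R292.Model.Dual261

/-!
# Row 292 (S0540), unit MODEL, road of 261 to `exit_mdl_wstep` : the deterministic leaf (CM)      (pen helper72; prefix `cm72_`; 0 sorry)

**`cm72_main`** : `ω` feasible for the flat problem `(F, b)`, `M` a finite set of marks, pairwise joined by dual paths in `F`, not all in one `N`-cluster
   ⟹ there are a colour `a` and a mark `i0` such that every mark reached from `i0` off the good edges of colour `a` is in the `N`-cluster of `i0` (a leaf of the cluster tree).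

PROOF (261).  Take `(f, g) ∈ M × M`, not `N`-connected, with `#X(f,g)` maximal, `X(f,g)` = the faces reached from `g` off the cluster `C(f)`.
(1) `cm72_col` (the block `hcol` of `dua261_duality`): ONE colour `a` for all the interior edges with exactly one face in `X(f,g)`.
(2) `cm72_sub`: a mark `y` off `C(f)` and off `X(f,g)` would give `X(y,f) ⊇ X(f,g) ∪ {f}`: strictly larger.
(3) `cm72_avoid`: a path from `f` off the good edges of colour `a` never enters `X(f,g)`.
-/

set_option autoImplicit false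

namespace Claimed.Agent.R292

open Claims Claims.C0468

section Proof

variable {F : Finset (ℤ × ℤ)} {b : Bool} {ω : RswCfg} {f g : ℤ × ℤ}

/-- (1) one colour for the whole cut between `X(f,g)` and the rest (the blocks `hC hX hcut hcol` of `dua261_duality`) -/
theorem cm72_col (hω : Dua261Feas F b ω) (hfg : ¬ Relation.ReflTransGen (Col261NStep F ω) f g) :
    ∃ a : Bool, ∀ e ∈ rswInt F, ¬ (Dua261X F ω f g e.1 ↔ Dua261X F ω f g (rswCo e)) → RswGood a ω e := by
  classical
  obtain ⟨γ, hγ⟩ := mdl41_exact _ (dua261_cycle hω hfg)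
  have hC : ∀ x, Relation.ReflTransGen (Col261NStep F ω) f x → γ x = γ f := by
    intro x hx
    induction hx with
    | refl => rfl
    | tail _ h ih =>
      obtain ⟨e, he, hxy, hO⟩ := h
      have h0 : mdl41Ch (dua261D1 F b ω f g) e = 0 := by
        rw [mdl41_ch_apply, if_neg]
        intro h1
        exact hO (dua261_open' hfg he (dua261_mem_D1.1 h1).2.1)
      have h1 := hγ e
      rw [h0] at h1
      have h2 : γ e.1 = γ (rswCo e) := by
        have := CharTwo.add_eq_zero.1 h1.symm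
        exact this
      rcases hxy with ⟨r1, r2⟩ | ⟨r1, r2⟩
      · rw [r2, ← h2, ← r1]; exact ih
      · rw [r1, h2, ← r2]; exact ih
  have hX : ∀ x, Dua261X F ω f g x → γ x = γ g := by
    intro x hx
    induction hx with
    | refl => rfl
    | @tail y z hy h ih =>
      have hz : Dua261X F ω f g z := Relation.ReflTransGen.tail hy h
      obtain ⟨e, he, hxy, _, _⟩ := h
      have h0 : mdl41Ch (dua261D1 F b ω f g) e = 0 := by
        rw [mdl41_ch_apply, if_neg]
        intro h1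
        apply (dua261_mem_D1.1 h1).2.1
        rcases hxy with ⟨r1, r2⟩ | ⟨r1, r2⟩
        · rw [← r1, ← r2]; exact ⟨fun _ => hz, fun _ => hy⟩
        · rw [← r1, ← r2]; exact ⟨fun _ => hy, fun _ => hz⟩
      have h1 := hγ e
      rw [h0] at h1
      have h2 : γ e.1 = γ (rswCo e) := CharTwo.add_eq_zero.1 h1.symm
      rcases hxy with ⟨r1, r2⟩ | ⟨r1, r2⟩
      · rw [r2, ← h2, ← r1]; exact ih
      · rw [r1, h2, ← r2]; exact ih
  have hcut : ∀ e ∈ rswInt F, ¬ (Dua261X F ω f g e.1 ↔ Dua261X F ω f g (rswCo e)) →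
      mdl41Ch (dua261D1 F b ω f g) e = γ f + γ g := by
    intro e he hx
    rw [hγ e]
    by_cases h1 : Dua261X F ω f g e.1
    · have h2 : ¬ Dua261X F ω f g (rswCo e) := fun h2 => hx ⟨fun _ => h2, fun _ => h1⟩
      rcases dua261_nbr hfg he (Or.inl ⟨rfl, rfl⟩) h1 with h3 | h3
      · exact absurd h3 h2
      · rw [hX _ h1, hC _ h3, add_comm]
    · have h2 : Dua261X F ω f g (rswCo e) := by
        by_contra h2
        exact hx ⟨fun h => absurd h h1, fun h => absurd h h2⟩
      rcases dua261_nbr hfg he (Or.inr ⟨rfl, rfl⟩) h2 with h3 | h3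
      · exact absurd h3 h1
      · rw [hX _ h2, hC _ h3]
  by_cases hγ0 : γ f + γ g = 0
  · refine ⟨b, fun e he hx => ?_⟩
    have h1 := hcut e he hx
    rw [hγ0, mdl41_ch_apply] at h1
    have h2 : e ∉ dua261D1 F b ω f g := by
      intro h; rw [if_pos h] at h1; exact one_ne_zero h1
    have h3 : (e.1 ∈ ω.S ↔ b = true) := by
      by_contra h3
      exact h2 (dua261_mem_D1.2 ⟨he, hx, h3⟩)
    exact ⟨dua261_open' hfg he hx, h3, (dua261_mono hω hfg he hx).symm.trans h3⟩
  · refine ⟨!b, fun e he hx => ?_⟩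
    have h1 := hcut e he hx
    rw [mdl41_ch_apply] at h1
    have h2 : e ∈ dua261D1 F b ω f g := by
      by_contra h; rw [if_neg h] at h1; exact hγ0 h1.symm
    have h3 : (e.1 ∈ ω.S ↔ (!b) = true) := by
      have := (dua261_mem_D1.1 h2).2.2
      cases b <;> simp_all
    exact ⟨dua261_open' hfg he hx, h3, (dua261_mono hω hfg he hx).symm.trans h3⟩

/-- (3) a path from `f` off the good edges of the colour of the cut never enters `X(f,g)` -/
theorem cm72_avoid (hfg : ¬ Relation.ReflTransGen (Col261NStep F ω) f g) {a : Bool}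
    (ha : ∀ e ∈ rswInt F, ¬ (Dua261X F ω f g e.1 ↔ Dua261X F ω f g (rswCo e)) → RswGood a ω e) {x : ℤ × ℤ}
    (hx : Relation.ReflTransGen (Col261StepIn F F a ω) f x) : ¬ Dua261X F ω f g x := by
  induction hx with
  | refl => exact fun h => dua261_X_not_C hfg h Relation.ReflTransGen.refl
  | @tail y z _ h ih =>
    obtain ⟨e, he, hxy, hng⟩ := h
    intro hz
    apply hng
    have hmem : e ∈ col261E F F := Finset.mem_filter.2 ⟨he, Or.inl (mdl41_mem_int.1 he).1⟩
    refine ⟨ha e he ?_, hmem⟩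
    rcases hxy with ⟨r1, r2⟩ | ⟨r1, r2⟩
    · rw [← r1, ← r2]; exact fun h => ih (h.2 hz)
    · rw [← r1, ← r2]; exact fun h => ih (h.1 hz)

theorem cm72_N_symm {x y : ℤ × ℤ} (h : Relation.ReflTransGen (Col261NStep F ω) x y) :
    Relation.ReflTransGen (Col261NStep F ω) y x :=
  col261_rtg_symm (fun _ _ h' => col261_nstep_symm h') h

theorem cm72_St_symm {c x y : ℤ × ℤ} (h : Dua261St F ω c x y) : Dua261St F ω c y x := by
  obtain ⟨e, he, h1, h2, h3⟩ := h
  exact ⟨e, he, h1.symm, h3, h2⟩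

/-- `X(f,g)` touches the cluster of `f`: first entry of a dual path from `g` to `f` -/
theorem cm72_touch (hfg : ¬ Relation.ReflTransGen (Col261NStep F ω) f g)
    (hp : Relation.ReflTransGen (fun u v => ∃ e ∈ rswInt F, (u = e.1 ∧ v = rswCo e) ∨ (v = e.1 ∧ u = rswCo e)) g f) :
    ∃ p q : ℤ × ℤ, Dua261X F ω f g p ∧ Relation.ReflTransGen (Col261NStep F ω) f q ∧
      ∃ e ∈ rswInt F, (p = e.1 ∧ q = rswCo e) ∨ (q = e.1 ∧ p = rswCo e) := by
  have key : ∀ x, Relation.ReflTransGen (fun u v => ∃ e ∈ rswInt F, (u = e.1 ∧ v = rswCo e) ∨ (v = e.1 ∧ u = rswCo e)) g x →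
      Dua261X F ω f g x ∨ ∃ p q : ℤ × ℤ, Dua261X F ω f g p ∧ Relation.ReflTransGen (Col261NStep F ω) f q ∧
        ∃ e ∈ rswInt F, (p = e.1 ∧ q = rswCo e) ∨ (q = e.1 ∧ p = rswCo e) := by
    intro x hx
    induction hx with
    | refl => exact Or.inl Relation.ReflTransGen.refl
    | @tail y z _ h ih =>
      rcases ih with ih | ih
      · obtain ⟨e, he, hxy⟩ := h
        rcases dua261_nbr hfg he hxy ih with h1 | h1
        · exact Or.inl h1
        · exact Or.inr ⟨y, z, ih, h1, e, he, hxy⟩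
      · exact Or.inr ih
  rcases key f hp with h | h
  · exact absurd Relation.ReflTransGen.refl (dua261_X_not_C hfg h)
  · exact h

/-- (2) a face `y` off the cluster of `f` and off `X(f,g)`: `X(y,f)` contains `X(f,g)` -/
theorem cm72_sub (hfg : ¬ Relation.ReflTransGen (Col261NStep F ω) f g)
    (hp : Relation.ReflTransGen (fun u v => ∃ e ∈ rswInt F, (u = e.1 ∧ v = rswCo e) ∨ (v = e.1 ∧ u = rswCo e)) g f)
    {y : ℤ × ℤ} (hy : ¬ Relation.ReflTransGen (Col261NStep F ω) f y) (hyX : ¬ Dua261X F ω f g y) {x : ℤ × ℤ}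
    (hx : Dua261X F ω f g x) : Dua261X F ω y f x := by
  -- (a) the two clusters are disjoint
  have ha : ∀ z, Relation.ReflTransGen (Col261NStep F ω) f z → ¬ Relation.ReflTransGen (Col261NStep F ω) y z :=
    fun z h1 h2 => hy (h1.trans (cm72_N_symm h2))
  -- (b) the cluster of `y` misses `X(f,g)`
  have hb : ∀ z, Dua261X F ω f g z → ¬ Relation.ReflTransGen (Col261NStep F ω) y z := by
    intro z hz hyz
    apply hyX
    have : ∀ u, Relation.ReflTransGen (Col261NStep F ω) z u → Dua261X F ω f g u := by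
      intro u hu
      induction hu with
      | refl => exact hz
      | @tail u v huz h ih =>
        have h' : Col261NStep F ω u v := h
        obtain ⟨e, he, hxy, _⟩ := h
        refine Relation.ReflTransGen.tail ih ⟨e, he, hxy, fun hc => ha u hc (hyz.trans huz), fun hc => ha v hc ((hyz.trans huz).tail h')⟩
    exact this y (cm72_N_symm hyz)
  -- (c) the cluster of `f` is in `X(y,f)`
  have hc : ∀ z, Relation.ReflTransGen (Col261NStep F ω) f z → Dua261X F ω y f z := by
    intro z hz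
    induction hz with
    | refl => exact Relation.ReflTransGen.refl
    | @tail u v hu h ih =>
      have h' : Col261NStep F ω u v := h
      obtain ⟨e, he, hxy, _⟩ := h
      exact Relation.ReflTransGen.tail ih ⟨e, he, hxy, ha u hu, ha v (hu.tail h')⟩
  -- (d) the contact
  obtain ⟨p, q, hpX, hqC, e, he, hpq⟩ := cm72_touch hfg hp
  have hd : Dua261X F ω y f p := Relation.ReflTransGen.tail (hc q hqC) ⟨e, he, hpq.symm, ha q hqC, hb p hpX⟩
  -- (e) travel inside `X(f,g)`
  have hpx : Relation.ReflTransGen (Dua261St F ω f) p x :=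
    (col261_rtg_symm (fun _ _ h' => cm72_St_symm h') hpX).trans hx
  have : ∀ u, Relation.ReflTransGen (Dua261St F ω f) p u → Dua261X F ω y f u := by
    intro u hu
    induction hu with
    | refl => exact hd
    | @tail u v hpu h ih =>
      have hu' : Dua261X F ω f g u := Relation.ReflTransGen.trans hpX hpu
      have hv' : Dua261X F ω f g v := Relation.ReflTransGen.tail hu' h
      obtain ⟨e, he, hxy, _, _⟩ := h
      exact Relation.ReflTransGen.tail ih ⟨e, he, hxy, hb u hu', hb v hv'⟩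
  exact this x hpx

end Proof

/-- **(CM)** a leaf of the cluster tree of the marks -/
theorem cm72_main {F : Finset (ℤ × ℤ)} {b : Bool} {w : RswCfg} (hw : Dua261Feas F b w) (M : Finset (ℤ × ℤ))
    (h2 : ∃ x ∈ M, ∃ y ∈ M, ¬ Relation.ReflTransGen (Col261NStep F w) x y)
    (hc : ∀ x ∈ M, ∀ y ∈ M,
      Relation.ReflTransGen (fun u v => ∃ e ∈ rswInt F, (u = e.1 ∧ v = rswCo e) ∨ (v = e.1 ∧ u = rswCo e)) x y) :
    ∃ a : Bool, ∃ i0 ∈ M, ∀ m ∈ M, Relation.ReflTransGen (Col261StepIn F F a w) i0 m →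
      Relation.ReflTransGen (Col261NStep F w) i0 m := by
  classical
  set P : Finset ((ℤ × ℤ) × (ℤ × ℤ)) := (M ×ˢ M).filter (fun p => ¬ Relation.ReflTransGen (Col261NStep F w) p.1 p.2) with hP
  have hPne : P.Nonempty := by
    obtain ⟨x, hx, y, hy, hxy⟩ := h2
    exact ⟨(x, y), Finset.mem_filter.2 ⟨Finset.mem_product.2 ⟨hx, hy⟩, hxy⟩⟩
  obtain ⟨⟨f, g⟩, hfgP, hmax⟩ := Finset.exists_max_image P (fun p => (F.filter (Dua261X F w p.1 p.2)).card) hPne
  obtain ⟨hfgM, hfg⟩ := Finset.mem_filter.1 hfgP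
  obtain ⟨hfM, hgM⟩ := Finset.mem_product.1 hfgM
  simp only at hfg hfM hgM hmax
  have hfF : f ∈ F := by
    rcases Relation.ReflTransGen.cases_head (hc f hfM g hgM) with h | ⟨c, ⟨e, he, h⟩, _⟩
    · exact absurd (h ▸ Relation.ReflTransGen.refl) hfg
    · rcases h with ⟨r1, _⟩ | ⟨_, r2⟩
      · rw [r1]; exact (mdl41_mem_int.1 he).1
      · rw [r2]; exact (mdl41_mem_int.1 he).2
  obtain ⟨a, ha⟩ := cm72_col hw hfg
  refine ⟨a, f, hfM, fun m hm hpath => ?_⟩
  by_contra hNm
  have hmX : ¬ Dua261X F w f g m := cm72_avoid hfg ha hpath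
  have hmf : ¬ Relation.ReflTransGen (Col261NStep F w) m f := fun h => hNm (cm72_N_symm h)
  have hle := hmax (m, f) (Finset.mem_filter.2 ⟨Finset.mem_product.2 ⟨hm, hfM⟩, hmf⟩)
  simp only at hle
  have hlt : (F.filter (Dua261X F w f g)).card < (F.filter (Dua261X F w m f)).card := by
    apply Finset.card_lt_card
    rw [Finset.ssubset_iff_of_subset]
    · exact ⟨f, Finset.mem_filter.2 ⟨hfF, Relation.ReflTransGen.refl⟩,
        fun h => dua261_X_not_C hfg (Finset.mem_filter.1 h).2 Relation.ReflTransGen.refl⟩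
    · intro x hx
      obtain ⟨hxF, hxX⟩ := Finset.mem_filter.1 hx
      exact Finset.mem_filter.2 ⟨hxF, cm72_sub hfg (hc g hgM f hfM) hNm hmX hxX⟩
  exact absurd hle (not_le.2 hlt)

/-! ## box connectivity (hypothesis `hc` of `cm72_main` for marks in a box) -/

theorem cm72_mem_box {z : ℤ × ℤ} {n : ℕ} {v : ℤ × ℤ} :
    v ∈ rswBox z n ↔ (z.1 - (n : ℤ) ≤ v.1 ∧ v.1 < z.1 + n) ∧ (z.2 - (n : ℤ) ≤ v.2 ∧ v.2 < z.2 + n) := by
  unfold rswBox
  simp [Finset.mem_product, Finset.mem_Ico]

/-- walk to the right along a row of the box -/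
theorem cm72_row (z : ℤ × ℤ) (m : ℕ) {F : Finset (ℤ × ℤ)} (hsub : rswBox z m ⊆ F) (x1 x2 : ℤ) (k : ℕ)
    (h0 : (x1, x2) ∈ rswBox z m) (h1 : (x1 + k, x2) ∈ rswBox z m) :
    Relation.ReflTransGen (fun u v => ∃ e ∈ rswInt F, (u = e.1 ∧ v = rswCo e) ∨ (v = e.1 ∧ u = rswCo e)) (x1, x2) (x1 + k, x2) := by
  induction k with
  | zero => simp only [Nat.cast_zero, add_zero]; exact Relation.ReflTransGen.refl
  | succ k ih =>
    rw [cm72_mem_box] at h0 h1
    simp only [Nat.cast_add, Nat.cast_one] at h0 h1 ⊢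
    have hk : (x1 + k, x2) ∈ rswBox z m := by
      rw [cm72_mem_box]
      simp only
      refine ⟨⟨by omega, by omega⟩, h0.2⟩
    have hk1 : (x1 + (k + 1), x2) ∈ rswBox z m := by
      rw [cm72_mem_box]
      exact h1
    refine Relation.ReflTransGen.tail (ih hk) ⟨((x1 + (k + 1), x2), true), ?_, Or.inr ⟨rfl, ?_⟩⟩
    · rw [mdl41_mem_int]
      refine ⟨hsub hk1, ?_⟩
      rw [col261_co_true]
      have : (x1 + ((k : ℤ) + 1) - 1, x2) = (x1 + k, x2) := by ext <;> simp <;> ring
      simp only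
      rw [this]
      exact hsub hk
    · rw [col261_co_true]
      ext <;> simp <;> ring

/-- walk upwards along a column of the box -/
theorem cm72_column (z : ℤ × ℤ) (m : ℕ) {F : Finset (ℤ × ℤ)} (hsub : rswBox z m ⊆ F) (x1 x2 : ℤ) (k : ℕ)
    (h0 : (x1, x2) ∈ rswBox z m) (h1 : (x1, x2 + k) ∈ rswBox z m) :
    Relation.ReflTransGen (fun u v => ∃ e ∈ rswInt F, (u = e.1 ∧ v = rswCo e) ∨ (v = e.1 ∧ u = rswCo e)) (x1, x2) (x1, x2 + k) := by
  induction k with
  | zero => simp only [Nat.cast_zero, add_zero]; exact Relation.ReflTransGen.refl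
  | succ k ih =>
    rw [cm72_mem_box] at h0 h1
    simp only [Nat.cast_add, Nat.cast_one] at h0 h1 ⊢
    have hk : (x1, x2 + k) ∈ rswBox z m := by
      rw [cm72_mem_box]
      simp only
      refine ⟨h0.1, ⟨by omega, by omega⟩⟩
    have hk1 : (x1, x2 + (k + 1)) ∈ rswBox z m := by
      rw [cm72_mem_box]
      exact h1
    refine Relation.ReflTransGen.tail (ih hk) ⟨((x1, x2 + (k + 1)), false), ?_, Or.inr ⟨rfl, ?_⟩⟩
    · rw [mdl41_mem_int]
      refine ⟨hsub hk1, ?_⟩
      rw [col261_co_false]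
      have : (x1, x2 + ((k : ℤ) + 1) - 1) = (x1, x2 + k) := by ext <;> simp <;> ring
      simp only
      rw [this]
      exact hsub hk
    · rw [col261_co_false]
      ext <;> simp <;> ring

theorem cm72_adj_symm {F : Finset (ℤ × ℤ)} {x y : ℤ × ℤ}
    (h : Relation.ReflTransGen (fun u v => ∃ e ∈ rswInt F, (u = e.1 ∧ v = rswCo e) ∨ (v = e.1 ∧ u = rswCo e)) x y) :
    Relation.ReflTransGen (fun u v => ∃ e ∈ rswInt F, (u = e.1 ∧ v = rswCo e) ∨ (v = e.1 ∧ u = rswCo e)) y x :=
  col261_rtg_symm (fun _ _ ⟨e, he, h'⟩ => ⟨e, he, h'.symm⟩) h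

/-- **BOX CONNECTIVITY**: two faces of a box inside `F` are joined by a dual path in `F` (along the row, then along the column) -/
theorem cm72_box_conn (z : ℤ × ℤ) (m : ℕ) {F : Finset (ℤ × ℤ)} (hsub : rswBox z m ⊆ F) {x y : ℤ × ℤ}
    (hx : x ∈ rswBox z m) (hy : y ∈ rswBox z m) :
    Relation.ReflTransGen (fun u v => ∃ e ∈ rswInt F, (u = e.1 ∧ v = rswCo e) ∨ (v = e.1 ∧ u = rswCo e)) x y := by
  obtain ⟨x1, x2⟩ := x
  obtain ⟨y1, y2⟩ := y
  have hm : (y1, x2) ∈ rswBox z m := by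
    rw [cm72_mem_box] at hx hy ⊢
    exact ⟨hy.1, hx.2⟩
  have hrow : Relation.ReflTransGen (fun u v => ∃ e ∈ rswInt F, (u = e.1 ∧ v = rswCo e) ∨ (v = e.1 ∧ u = rswCo e))
      (x1, x2) (y1, x2) := by
    rcases le_total x1 y1 with h | h
    · obtain ⟨k, hk⟩ := Int.eq_ofNat_of_zero_le (sub_nonneg.2 h)
      have e1 : y1 = x1 + k := by omega
      rw [e1] at hm ⊢
      exact cm72_row z m hsub x1 x2 k hx hm
    · obtain ⟨k, hk⟩ := Int.eq_ofNat_of_zero_le (sub_nonneg.2 h)
      have e1 : x1 = y1 + k := by omega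
      rw [e1] at hx ⊢
      exact cm72_adj_symm (cm72_row z m hsub y1 x2 k hm hx)
  have hcol : Relation.ReflTransGen (fun u v => ∃ e ∈ rswInt F, (u = e.1 ∧ v = rswCo e) ∨ (v = e.1 ∧ u = rswCo e))
      (y1, x2) (y1, y2) := by
    rcases le_total x2 y2 with h | h
    · obtain ⟨k, hk⟩ := Int.eq_ofNat_of_zero_le (sub_nonneg.2 h)
      have e1 : y2 = x2 + k := by omega
      rw [e1] at hy ⊢
      exact cm72_column z m hsub y1 x2 k hm hy
    · obtain ⟨k, hk⟩ := Int.eq_ofNat_of_zero_le (sub_nonneg.2 h)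
      have e1 : x2 = y2 + k := by omega
      rw [e1] at hm ⊢
      exact cm72_adj_symm (cm72_column z m hsub y1 y2 k hy hm)
  exact hrow.trans hcol

end Claimed.Agent.R292
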