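import Claimed.Agent.R292.Model.Step261
import Claimed.Agent.R292.Model.Leaf72
import Claimed.Agent.R292.Model.Count41

/-!
# Row 292 (S0540), Model/Step191 : eq:spatial-witness-step (`Ctg261W1`) FROM (CM) `cm72_main` + THE EXPLORATION STEP `stp261_explore`      (helper191; prefix `stx_`, `Stx`)

Road of 261 (no lem:collar).  `Pm` = the missing pairs, `M'` = their marks.  On a feasible compatible configuration (CM) gives a colour `a` and a mark `i₀ ∈ M'` whose `a`-class `I`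
(in `M'`) lies in its `N`-class; `J = M' \ I`.  Type `(a, i₀, I)`: union bound over the types.  For one type: `J` is separated from `I` by the colour `a`, the missing pairs with first point in `J`
are not `N`-connected: `stp261_explore` cuts `i₀` off inside `Λo`; then compatibility holds and the missing pair of `i₀` is short (`ctg261_localise`).
-/

set_option autoImplicit false

namespace Claimed.Agent.R292

open Claims Claims.C0468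

/-- union bound -/
theorem stx_P_union {ι : Type*} {t : ℝ} (h0 : 0 ≤ t) (h1 : t ≤ 1) (F : Finset (ℤ × ℤ)) (b : Bool) {A : RswCfg → Prop} (s : Finset ι)
    (Bi : ι → RswCfg → Prop) (h : ∀ ω : RswCfg, rswWt t F b ω ≠ 0 → A ω → ∃ i ∈ s, Bi i ω) :
    rswP t F b A ≤ ∑ i ∈ s, rswP t F b (Bi i) := by
  simp only [ctg261_P_eq]
  rw [← rsz_E_fsum]
  refine rsz_E_mono' h0 h1 F b fun ω _ _ _ hw => ?_
  by_cases hA : A ω
  · obtain ⟨i, hi, hB⟩ := h ω hw hA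
    rw [ctg261_ind_pos hA]
    calc (1 : ℝ) = ctg261Ind (Bi i) ω := (ctg261_ind_pos hB).symm
      _ ≤ ∑ j ∈ s, ctg261Ind (Bi j) ω :=
        Finset.single_le_sum (f := fun j => ctg261Ind (Bi j) ω) (fun j _ => ctg261_ind_nonneg _ _) hi
  · rw [ctg261_ind_neg hA]
    exact Finset.sum_nonneg fun j _ => ctg261_ind_nonneg _ _

theorem stx_rstep_symm {F : Finset (ℤ × ℤ)} {a : Bool} {ω : RswCfg} : ∀ x y, RswStep F a ω x y → RswStep F a ω y x := by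
  rintro x y ⟨hx, hy, e, he, hn⟩
  exact ⟨hy, hx, e, he.symm, hn⟩

theorem stx_nstep_symm {F : Finset (ℤ × ℤ)} {ω : RswCfg} : ∀ x y, MdlNStep F ω x y → MdlNStep F ω y x := by
  rintro x y ⟨hx, hy, e, he, hn⟩
  exact ⟨hy, hx, e, he.symm, hn⟩

theorem stx_wstep_symm {K : Finset (ℤ × ℤ)} {a : Bool} {ω : RswCfg} : ∀ x y, Ctg261Step K a ω x y → Ctg261Step K a ω y x := by
  rintro x y ⟨e, he, hn⟩
  exact ⟨e, he.symm, hn⟩

theorem stx_n_r {F : Finset (ℤ × ℤ)} (a : Bool) {ω : RswCfg} : ∀ x y, MdlNStep F ω x y → RswStep F a ω x y := by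
  rintro x y ⟨hx, hy, e, he, hn⟩
  exact ⟨hx, hy, e, he, fun hg => hn hg.1⟩

theorem stx_col_n {F : Finset (ℤ × ℤ)} {ω : RswCfg} : ∀ x y, Col261NStep F ω x y → MdlNStep F ω x y := by
  rintro x y ⟨e, he, hx, hO⟩
  have h2 := rsz_mem_int.1 he
  rcases hx with ⟨h1, h3⟩ | ⟨h1, h3⟩
  · exact ⟨h1 ▸ h2.1, h3 ▸ h2.2, e, Or.inl ⟨h1, h3⟩, hO⟩
  · exact ⟨h3 ▸ h2.2, h1 ▸ h2.1, e, Or.inr ⟨h1, h3⟩, hO⟩

theorem stx_r_col {F : Finset (ℤ × ℤ)} {a : Bool} {ω : RswCfg} : ∀ x y, RswStep F a ω x y → Col261StepIn F F a ω x y := by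
  rintro x y ⟨hx, hy, e, he, hn⟩
  refine ⟨e, rsz_mem_int.2 ?_, he, fun hh => hn hh.1⟩
  rcases he with ⟨h1, h3⟩ | ⟨h1, h3⟩
  · exact ⟨h1 ▸ hx, h3 ▸ hy⟩
  · exact ⟨h1 ▸ hy, h3 ▸ hx⟩

/-- the type `(a, i₀, I)` of a configuration: `I` = the marks of `M'` reached from `i₀` off the good edges of colour `a`; they are `N`-connected to `i₀` -/
def StxTy (F M' : Finset (ℤ × ℤ)) (τ : Bool × (ℤ × ℤ) × Finset (ℤ × ℤ)) (ω : RswCfg) : Prop :=
  τ.2.1 ∈ M' ∧ (∀ m, m ∈ τ.2.2 ↔ (m ∈ M' ∧ Relation.ReflTransGen (RswStep F τ.1 ω) τ.2.1 m)) ∧ ∀ m ∈ τ.2.2, MdlNConn F ω τ.2.1 m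

theorem stx_type_exists {t : ℝ} {F : Finset (ℤ × ℤ)} {b : Bool} {ω : RswCfg} (hw : rswWt t F b ω ≠ 0) {M' : Finset (ℤ × ℤ)}
    (h2 : ∃ x ∈ M', ∃ y ∈ M', ¬ MdlNConn F ω x y)
    (hc : ∀ x ∈ M', ∀ y ∈ M',
      Relation.ReflTransGen (fun u v => ∃ e ∈ rswInt F, (u = e.1 ∧ v = rswCo e) ∨ (v = e.1 ∧ u = rswCo e)) x y) :
    ∃ τ ∈ (Finset.univ : Finset Bool) ×ˢ (M' ×ˢ M'.powerset), StxTy F M' τ ω := by
  classical
  have h2' : ∃ x ∈ M', ∃ y ∈ M', ¬ Relation.ReflTransGen (Col261NStep F ω) x y := by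
    obtain ⟨x, hx, y, hy, h⟩ := h2
    exact ⟨x, hx, y, hy, fun hc' => h (ctg261_rtg_mono (s := MdlNStep F ω) stx_col_n hc')⟩
  obtain ⟨a, i0, hi0, hcl⟩ := cm72_main (dua261_feas_of_wt hw) M' h2' hc
  refine ⟨(a, i0, M'.filter fun m => Relation.ReflTransGen (RswStep F a ω) i0 m), ?_, hi0, fun m => ?_, fun m hm => ?_⟩
  · simp only [Finset.mem_product, Finset.mem_univ, true_and, Finset.mem_powerset]
    exact ⟨hi0, Finset.filter_subset _ _⟩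
  · exact Finset.mem_filter
  · obtain ⟨hm1, hm2⟩ := Finset.mem_filter.1 hm
    exact ctg261_rtg_mono (s := MdlNStep F ω) stx_col_n (hcl m hm1 (ctg261_rtg_mono (s := Col261StepIn F F a ω) stx_r_col hm2))

/-- the deterministic end: type event + `i₀` cut off inside `Λo` ⟹ compatibility and one more short pair -/
theorem stx_final {F K K' Λo Mp Mm : Finset (ℤ × ℤ)} {a : Bool} {ω g : RswCfg} (hKK : K ⊆ K') (hK'F : K' ⊆ F)
    (hdeep : ∀ e : (ℤ × ℤ) × Bool, (e.1 ∈ Λo ∨ rswCo e ∈ Λo) → e ∈ rswInt K')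
    (hpat : MdlPat K g ω) {I J : Finset (ℤ × ℤ)} {i0 : ℤ × ℤ} (hi0I : i0 ∈ I) (hi0o : i0 ∈ Λo)
    (hcov : ∀ pr ∈ (Mp ×ˢ Mm) \ ctg261Sh K Mp Mm g, (pr.1 ∈ J ∨ pr.1 ∈ I) ∧ (pr.2 ∈ J ∨ pr.2 ∈ I) ∧ ¬ (pr.1 ∈ I ∧ pr.2 ∈ I))
    (hpart : ∃ pr ∈ (Mp ×ˢ Mm) \ ctg261Sh K Mp Mm g, pr.1 = i0 ∨ pr.2 = i0)
    (hT : Stp261T F J I a (open Classical in ((Mp ×ˢ Mm) \ ctg261Sh K Mp Mm g).filter fun pr => pr.1 ∈ J) ω)
    (hsep : RswSep F a ω {i0} (F \ Λo)) :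
    Ctg261Compat F Mp Mm ω ∧ (ctg261Sh K Mp Mm g).card < (ctg261Sh K' Mp Mm ω).card := by
  classical
  constructor
  · intro f hf f' hf' hc
    by_cases hsh : (f, f') ∈ ctg261Sh K Mp Mm g
    · rw [ctg261_sh_pat hpat] at hsh
      obtain ⟨-, a', ha'⟩ := ctg261_mem_sh.1 hsh
      refine ha' (ctg261_rtg_mono (s := Ctg261Step K a' ω) ?_ hc)
      rintro x y ⟨_, _, e, he, heO⟩
      exact ⟨e, he, fun h => heO h.2.1⟩
    · have hpm : (f, f') ∈ (Mp ×ˢ Mm) \ ctg261Sh K Mp Mm g := Finset.mem_sdiff.2 ⟨Finset.mem_product.2 ⟨hf, hf'⟩, hsh⟩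
      obtain ⟨c1, c2, c3⟩ := hcov _ hpm
      rcases c1 with c1 | c1
      · exact hT.2 (f, f') (Finset.mem_filter.2 ⟨hpm, c1⟩) hc
      · rcases c2 with c2 | c2
        · exact hT.1 f' c2 f c1 (ctg261_rtg_symm stx_rstep_symm (ctg261_rtg_mono (s := RswStep F a ω) (stx_n_r a) hc))
        · exact c3 ⟨c1, c2⟩
  · obtain ⟨pr, hpr, hor⟩ := hpart
    have hsub : ctg261Sh K Mp Mm g ⊆ ctg261Sh K' Mp Mm ω := by
      rw [ctg261_sh_pat hpat]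
      exact ctg261_sh_mono hKK Mp Mm ω
    obtain ⟨hprod, hnsh⟩ := Finset.mem_sdiff.1 hpr
    obtain ⟨c1, c2, c3⟩ := hcov _ hpr
    have hnew : pr ∈ ctg261Sh K' Mp Mm ω := by
      refine ctg261_mem_sh.2 ⟨Finset.mem_product.1 hprod, a, ?_⟩
      rcases hor with h | h
      · have hJ : pr.2 ∈ J := by
          rcases c2 with c2 | c2
          · exact c2
          · exact absurd ⟨h ▸ hi0I, c2⟩ c3
        have hs : ¬ Relation.ReflTransGen (RswStep F a ω) i0 pr.2 := fun hc =>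
          hT.1 pr.2 hJ i0 hi0I (ctg261_rtg_symm stx_rstep_symm hc)
        rw [h]
        exact ctg261_localise hK'F hdeep hsep (Finset.mem_singleton_self i0) hi0o hs
      · have hJ : pr.1 ∈ J := by
          rcases c1 with c1 | c1
          · exact c1
          · exact absurd ⟨c1, h ▸ hi0I⟩ c3
        have hs : ¬ Relation.ReflTransGen (RswStep F a ω) i0 pr.1 := fun hc =>
          hT.1 pr.1 hJ i0 hi0I (ctg261_rtg_symm stx_rstep_symm hc)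
        rw [h]
        exact fun hc => ctg261_localise hK'F hdeep hsep (Finset.mem_singleton_self i0) hi0o hs (ctg261_rtg_symm stx_wstep_symm hc)
    exact Finset.card_lt_card ⟨hsub, fun hcon => hnsh (hcon hnew)⟩

/-- **THE STEP on abstract sets** -/
theorem stx_step {t : ℝ} (h0 : 0 < t) (h1 : t ≤ 1) {F K K' Λi Λo B Mp Mm : Finset (ℤ × ℤ)} {b : Bool}
    (hfkg : ∀ (a : Bool) (K : MdlPin), K.Ok → MdlFkgAt t F b a K) (hKK : K ⊆ K') (hK'F : K' ⊆ F)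
    (hdeep : ∀ e : (ℤ × ℤ) × Bool, (e.1 ∈ Λo ∨ rswCo e ∈ Λo) → e ∈ rswInt K') (hio : Λi ⊆ Λo) (hiF : Λi ⊆ F)
    (hMp : Mp ⊆ Λi) (hMm : Mm ⊆ Λi)
    (hconn : ∀ x ∈ Λi, ∀ y ∈ Λi,
      Relation.ReflTransGen (fun u v => ∃ e ∈ rswInt F, (u = e.1 ∧ v = rswCo e) ∨ (v = e.1 ∧ u = rswCo e)) x y)
    {L : RswCfg → Prop} {g : RswCfg} (hA : MdlExt B (fun ω => L ω ∧ MdlPat K g ω)) {p1 : ℝ} (hp1 : 0 ≤ p1)
    (hcirc : ∀ (a : Bool) (L' : RswCfg → Prop), MdlExt B L' →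
      p1 * rswP t F b L' ≤ rswP t F b (fun ω => L' ω ∧ RswSep F a ω Λi (F \ Λo)))
    (hmiss : ¬ Ctg261Wit K Mp Mm g) :
    ∃ c : ℕ, c ≤ Mp.card + Mm.card ∧
      p1 * rswP t F b (fun ω => (L ω ∧ MdlPat K g ω) ∧ Ctg261Compat F Mp Mm ω) ≤
        ((2 * (c * 2 ^ c) : ℕ) : ℝ) * rswP t F b (fun ω => (L ω ∧ MdlPat K g ω) ∧ Ctg261Compat F Mp Mm ω ∧
          (ctg261Sh K Mp Mm g).card < (ctg261Sh K' Mp Mm ω).card) := by
  classical
  obtain ⟨Pm, hPm⟩ : ∃ Pm, Pm = (Mp ×ˢ Mm) \ ctg261Sh K Mp Mm g := ⟨_, rfl⟩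
  obtain ⟨M', hM'⟩ : ∃ M', M' = (Mp ∪ Mm).filter (fun m => ∃ pr ∈ Pm, pr.1 = m ∨ pr.2 = m) := ⟨_, rfl⟩
  have hPmem : ∀ pr ∈ Pm, pr.1 ∈ Mp ∧ pr.2 ∈ Mm := by
    intro pr hpr
    rw [hPm] at hpr
    exact Finset.mem_product.1 (Finset.mem_sdiff.1 hpr).1
  have hPmne : ∃ pr, pr ∈ Pm := by
    by_contra hne
    apply hmiss
    intro f hf f' hf'
    by_contra hno
    apply hne
    refine ⟨(f, f'), ?_⟩
    rw [hPm]
    exact Finset.mem_sdiff.2 ⟨Finset.mem_product.2 ⟨hf, hf'⟩, fun hsh => hno (ctg261_mem_sh.1 hsh).2⟩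
  have hM1 : ∀ pr ∈ Pm, pr.1 ∈ M' ∧ pr.2 ∈ M' := by
    intro pr hpr
    rw [hM']
    exact ⟨Finset.mem_filter.2 ⟨Finset.mem_union_left _ (hPmem pr hpr).1, pr, hpr, Or.inl rfl⟩,
      Finset.mem_filter.2 ⟨Finset.mem_union_right _ (hPmem pr hpr).2, pr, hpr, Or.inr rfl⟩⟩
  have hM'sub : M' ⊆ Mp ∪ Mm := by
    rw [hM']
    exact Finset.filter_subset _ _
  have hM'Λ : M' ⊆ Λi := hM'sub.trans (Finset.union_subset hMp hMm)
  have hM'part : ∀ m ∈ M', ∃ pr ∈ Pm, pr.1 = m ∨ pr.2 = m := by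
    intro m hm
    rw [hM'] at hm
    exact (Finset.mem_filter.1 hm).2
  have htgt := rsz_P_nonneg h0.le h1 F b (fun ω => (L ω ∧ MdlPat K g ω) ∧ Ctg261Compat F Mp Mm ω ∧
          (ctg261Sh K Mp Mm g).card < (ctg261Sh K' Mp Mm ω).card)
  refine ⟨M'.card, (Finset.card_le_card hM'sub).trans (Finset.card_union_le _ _), ?_⟩
  have hunion := stx_P_union h0.le h1 F b (A := fun ω => (L ω ∧ MdlPat K g ω) ∧ Ctg261Compat F Mp Mm ω)
    ((Finset.univ : Finset Bool) ×ˢ (M' ×ˢ M'.powerset))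
    (fun τ ω => ((L ω ∧ MdlPat K g ω) ∧ Ctg261Compat F Mp Mm ω) ∧ StxTy F M' τ ω) (fun ω hw hE => by
      obtain ⟨pr, hpr⟩ := hPmne
      obtain ⟨τ, hτ, hty⟩ := stx_type_exists hw (M' := M')
        ⟨pr.1, (hM1 pr hpr).1, pr.2, (hM1 pr hpr).2, hE.2 pr.1 (hPmem pr hpr).1 pr.2 (hPmem pr hpr).2⟩
        (fun x hx y hy => hconn x (hM'Λ hx) y (hM'Λ hy))
      exact ⟨τ, hτ, hE, hty⟩)
  have each : ∀ τ ∈ (Finset.univ : Finset Bool) ×ˢ (M' ×ˢ M'.powerset),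
      p1 * rswP t F b (fun ω => ((L ω ∧ MdlPat K g ω) ∧ Ctg261Compat F Mp Mm ω) ∧ StxTy F M' τ ω) ≤
        rswP t F b (fun ω => (L ω ∧ MdlPat K g ω) ∧ Ctg261Compat F Mp Mm ω ∧
          (ctg261Sh K Mp Mm g).card < (ctg261Sh K' Mp Mm ω).card) := by
    rintro ⟨a, i0, I⟩ -
    by_cases hex : ∃ ω, ((L ω ∧ MdlPat K g ω) ∧ Ctg261Compat F Mp Mm ω) ∧ StxTy F M' (a, i0, I) ω
    swap
    · rw [ctg261_P_false t F b (A := fun ω => ((L ω ∧ MdlPat K g ω) ∧ Ctg261Compat F Mp Mm ω) ∧ StxTy F M' (a, i0, I) ω)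
        (fun ω hω => hex ⟨ω, hω⟩), mul_zero]
      exact htgt
    obtain ⟨ω₁, hE₁, hτ1, hτ2, hτ3⟩ := hex
    simp only at hτ1 hτ2 hτ3
    have hi0I : i0 ∈ I := (hτ2 i0).2 ⟨hτ1, Relation.ReflTransGen.refl⟩
    have hcov : ∀ pr ∈ (Mp ×ˢ Mm) \ ctg261Sh K Mp Mm g,
        (pr.1 ∈ M' \ I ∨ pr.1 ∈ I) ∧ (pr.2 ∈ M' \ I ∨ pr.2 ∈ I) ∧ ¬ (pr.1 ∈ I ∧ pr.2 ∈ I) := by
      intro pr hpr
      rw [← hPm] at hpr
      refine ⟨?_, ?_, ?_⟩
      · by_cases h : pr.1 ∈ I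
        · exact Or.inr h
        · exact Or.inl (Finset.mem_sdiff.2 ⟨(hM1 pr hpr).1, h⟩)
      · by_cases h : pr.2 ∈ I
        · exact Or.inr h
        · exact Or.inl (Finset.mem_sdiff.2 ⟨(hM1 pr hpr).2, h⟩)
      · rintro ⟨q1, q2⟩
        have n1 : MdlNConn F ω₁ pr.1 i0 := ctg261_rtg_symm stx_nstep_symm (hτ3 _ q1)
        exact hE₁.2 pr.1 (hPmem pr hpr).1 pr.2 (hPmem pr hpr).2 (Relation.ReflTransGen.trans n1 (hτ3 _ q2))
    have hpart : ∃ pr ∈ (Mp ×ˢ Mm) \ ctg261Sh K Mp Mm g, pr.1 = i0 ∨ pr.2 = i0 := by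
      rw [← hPm]
      exact hM'part i0 hτ1
    have step1 : rswP t F b (fun ω => ((L ω ∧ MdlPat K g ω) ∧ Ctg261Compat F Mp Mm ω) ∧ StxTy F M' (a, i0, I) ω) ≤
        rswP t F b (fun ω => (L ω ∧ MdlPat K g ω) ∧
          Stp261T F (M' \ I) I a (((Mp ×ˢ Mm) \ ctg261Sh K Mp Mm g).filter fun pr => pr.1 ∈ M' \ I) ω) := by
      refine ctg261_P_mono h0.le h1 F b fun ω _ _ _ _ x => ⟨x.1.1, ?_, ?_⟩
      · intro j hj i hi hji
        obtain ⟨-, y2, -⟩ := x.2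
        simp only at y2
        have hi' := ((y2 i).1 hi).2
        have : j ∈ I := (y2 j).2 ⟨(Finset.mem_sdiff.1 hj).1, hi'.trans (ctg261_rtg_symm stx_rstep_symm hji)⟩
        exact (Finset.mem_sdiff.1 hj).2 this
      · intro pr hpr
        have hp := (Finset.mem_filter.1 hpr).1
        rw [← hPm] at hp
        exact x.1.2 pr.1 (hPmem pr hp).1 pr.2 (hPmem pr hp).2
    have step2 := stp261_explore h0 h1 (hfkg a) (J := M' \ I) (I := I) (Finset.sdiff_subset.trans (hM'Λ.trans hiF))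
      (Pr := ((Mp ×ˢ Mm) \ ctg261Sh K Mp Mm g).filter fun pr => pr.1 ∈ M' \ I) (fun pr hpr => (Finset.mem_filter.1 hpr).2)
      hA (hcirc a) hi0I (hiF (hM'Λ hτ1)) (hM'Λ hτ1)
    have step3 : rswP t F b (fun ω => (L ω ∧ MdlPat K g ω) ∧
          Stp261T F (M' \ I) I a (((Mp ×ˢ Mm) \ ctg261Sh K Mp Mm g).filter fun pr => pr.1 ∈ M' \ I) ω ∧
          RswSep F a ω {i0} (F \ Λo)) ≤
        rswP t F b (fun ω => (L ω ∧ MdlPat K g ω) ∧ Ctg261Compat F Mp Mm ω ∧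
          (ctg261Sh K Mp Mm g).card < (ctg261Sh K' Mp Mm ω).card) := by
      refine ctg261_P_mono h0.le h1 F b fun ω _ _ _ _ x => ⟨x.1, ?_⟩
      exact stx_final hKK hK'F hdeep x.1.2 hi0I (hio (hM'Λ hτ1)) hcov hpart (by convert x.2.1) x.2.2
    exact ((mul_le_mul_of_nonneg_left step1 hp1).trans step2).trans step3
  calc p1 * rswP t F b (fun ω => (L ω ∧ MdlPat K g ω) ∧ Ctg261Compat F Mp Mm ω)
      ≤ p1 * ∑ τ ∈ (Finset.univ : Finset Bool) ×ˢ (M' ×ˢ M'.powerset),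
          rswP t F b (fun ω => ((L ω ∧ MdlPat K g ω) ∧ Ctg261Compat F Mp Mm ω) ∧ StxTy F M' τ ω) :=
        mul_le_mul_of_nonneg_left hunion hp1
    _ = ∑ τ ∈ (Finset.univ : Finset Bool) ×ˢ (M' ×ˢ M'.powerset),
          p1 * rswP t F b (fun ω => ((L ω ∧ MdlPat K g ω) ∧ Ctg261Compat F Mp Mm ω) ∧ StxTy F M' τ ω) := Finset.mul_sum _ _ _
    _ ≤ ∑ _τ ∈ (Finset.univ : Finset Bool) ×ˢ (M' ×ˢ M'.powerset),
          rswP t F b (fun ω => (L ω ∧ MdlPat K g ω) ∧ Ctg261Compat F Mp Mm ω ∧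
            (ctg261Sh K Mp Mm g).card < (ctg261Sh K' Mp Mm ω).card) := Finset.sum_le_sum each
    _ = _ := by
        rw [Finset.sum_const, nsmul_eq_mul, Finset.card_product, Finset.card_product, Finset.card_powerset, Finset.card_univ,
          Fintype.card_bool]

/-- **eq:spatial-witness-step** from (S0), (S1) -/
theorem stx_w1 {t : ℝ} (h0 : 0 < t) (h1 : t ≤ 1) (hS0 : Ctg261S0 t) (hS1 : Ctg261S1 t) : Ctg261W1 t := by
  classical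
  intro k M α hα
  obtain ⟨p1, hp1, n1, H1⟩ := hS1 (4 * k + 5)
  have hN : (0 : ℝ) < ((2 * (M * 2 ^ M) : ℕ) : ℝ) + 1 := by positivity
  refine ⟨p1 * α / (((2 * (M * 2 ^ M) : ℕ) : ℝ) + 1), by positivity, 4 * (n1 + 3 * (k + 1) + 1) + 4,
    fun n hn F z b L g Mp Mm hF hsub hL hMp hMm hM hmiss hc => ?_⟩
  obtain ⟨n', hn'def⟩ : ∃ n' : ℕ, n' = n / 4 := ⟨_, rfl⟩
  have a1 : 4 * n' ≤ n := by omega
  have a2 : n < 4 * n' + 4 := by omega
  have a3 : n1 + 3 * (k + 1) + 1 ≤ n' := by omega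
  have g0 : k * n ≤ (4 * k + 5 + 1) * n' := by nlinarith
  have g1 : (k + 1) * n ≤ (4 * k + 5) * n' := by nlinarith
  have g2 : (4 * k + 5 + 3) * n' ≤ (k + 2) * n := by nlinarith
  have g3 : (4 * k + 5 + 2) * n' + 1 ≤ (k + 2) * n := by nlinarith
  have g4 : (k + 2) * n ≤ (k + 3) * n := by nlinarith
  have g5 : (k + 1) * n ≤ (k + 2) * n := by nlinarith
  have g6 : (4 * k + 5 + 1) * n' ≤ (4 * k + 5 + 2) * n' := by nlinarith
  have g7 : (4 * k + 5 + 1) * n' ≤ (4 * k + 5 + 3) * n' := by nlinarith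
  have sK' : rswBox z ((k + 2) * n) ⊆ F := (ctg261_box_mono z g4).trans hsub
  have sB : rswBox z ((4 * k + 5 + 3) * n') ⊆ F := (ctg261_box_mono z g2).trans sK'
  have sI : rswBox z ((4 * k + 5 + 1) * n') ⊆ F := (ctg261_box_mono z g7).trans sB
  have hBsub : rswBox z ((4 * k + 5 + 3) * n') \ rswBox z ((4 * k + 5) * n') ⊆ rswBox z ((k + 3) * n) :=
    Finset.sdiff_subset.trans ((ctg261_box_mono z g2).trans (ctg261_box_mono z g4))
  have hdisj : Disjoint (rswBox z ((k + 1) * n)) (rswBox z ((4 * k + 5 + 3) * n') \ rswBox z ((4 * k + 5) * n')) :=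
    Finset.disjoint_of_subset_left (ctg261_box_mono z g1) Finset.disjoint_sdiff
  have hA : MdlExt (rswBox z ((4 * k + 5 + 3) * n') \ rswBox z ((4 * k + 5) * n'))
      (fun ω => L ω ∧ MdlPat (rswBox z ((k + 1) * n)) g ω) :=
    ctg261_ext_and (ctg261_ext_mono hBsub hL) (ctg261_pat_ext hdisj g)
  obtain ⟨c, hcM, res⟩ := stx_step h0 h1 (fun a K hK => hS0 F hF b a K hK) (ctg261_box_mono z g5) sK' (ctg261_box_deep z g3)
    (ctg261_box_mono z g6) sI (hMp.trans (ctg261_box_mono z g0)) (hMm.trans (ctg261_box_mono z g0))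
    (fun x hx y hy => mdl41c_box_conn z _ sI hx hy) hA hp1.le
    (fun a L' hL' => H1 n' (by omega) F z b a L' hF sB hL') hmiss
  have htgt := rsz_P_nonneg h0.le h1 F b (fun ω => (L ω ∧ MdlPat (rswBox z ((k + 1) * n)) g ω) ∧ Ctg261Compat F Mp Mm ω ∧
    (ctg261Sh (rswBox z ((k + 1) * n)) Mp Mm g).card < (ctg261Sh (rswBox z ((k + 2) * n)) Mp Mm ω).card)
  have hcard : ((2 * (c * 2 ^ c) : ℕ) : ℝ) ≤ ((2 * (M * 2 ^ M) : ℕ) : ℝ) + 1 := by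
    have hcM' : c ≤ M := hcM.trans hM
    have : 2 * (c * 2 ^ c) ≤ 2 * (M * 2 ^ M) :=
      Nat.mul_le_mul_left 2 (Nat.mul_le_mul hcM' (Nat.pow_le_pow_right (by norm_num) hcM'))
    have h' : ((2 * (c * 2 ^ c) : ℕ) : ℝ) ≤ ((2 * (M * 2 ^ M) : ℕ) : ℝ) := by exact_mod_cast this
    linarith
  have m1 := mul_le_mul_of_nonneg_left hc hp1.le
  have m2 := res.trans (mul_le_mul_of_nonneg_right hcard htgt)
  rw [div_mul_eq_mul_div, div_le_iff₀ hN]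
  calc p1 * α * rswP t F b (fun ω => L ω ∧ MdlPat (rswBox z ((k + 1) * n)) g ω)
      = p1 * (α * rswP t F b (fun ω => L ω ∧ MdlPat (rswBox z ((k + 1) * n)) g ω)) := by ring
    _ ≤ _ := m1
    _ ≤ _ := m2
    _ = _ := by ring

theorem stx_eqns_cite : True := by
  have := @StxTy.eq_1
  trivial

end Claimed.Agent.R292
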