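import Claimed.Agent.R292.Defs.MODEL
import Claimed.Agent.R292.Rsw.Cut91

/-!
# Row 292 (S0540), Model/CircGeo61 : THE TWO SMALL FACTS ON THE SEPARATION EVENT      (helper61; prefix `mdl61c_`)      no sorry

* `mdl61c_step_anti`    under `MdlLe a ω ω'` a bad step of `ω'` is a bad step of `ω`
* `mdl61c_sep_mono`     `RswSep` is increasing in the order (3.4) of its own colour
* **`mdl61c_sep_inc`**  the indicator of `RswSep Λ a · A B` is `MdlInc a`          (any `A`, `B`)
* `mdl61c_good_in`      goodness of an interior edge of `Λ` is read inside `Λ`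
* `mdl61c_step_in`, `mdl61c_sep_in`
* **`mdl61c_sep_inside`** the indicator of `RswSep Λ a · A B` is `RskInside Λ`     (any `A`, `B`)
-/

set_option autoImplicit false

namespace Claimed.Agent.R292

open Claims Claims.C0468

theorem mdl61c_step_anti {a : Bool} {ω ω' : RswCfg} (h : MdlLe a ω ω') (Λ : Finset (ℤ × ℤ)) {f g : ℤ × ℤ}
    (hs : RswStep Λ a ω' f g) : RswStep Λ a ω f g := by
  obtain ⟨hf, hg, e, he, hb⟩ := hs
  exact ⟨hf, hg, e, he, fun hgood => hb (h.2.1 e hgood)⟩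

theorem mdl61c_sep_mono {a : Bool} {ω ω' : RswCfg} (h : MdlLe a ω ω') {Λ A B : Finset (ℤ × ℤ)}
    (hs : RswSep Λ a ω A B) : RswSep Λ a ω' A B := by
  intro f hf g hg hp
  exact hs f hf g hg (Relation.ReflTransGen.mono (fun _ _ hst => mdl61c_step_anti h Λ hst) f g hp)

open Classical in
/-- the separation event of colour `a` is increasing in the order (3.4) of colour `a` -/
theorem mdl61c_sep_inc (Λ A B : Finset (ℤ × ℤ)) (a : Bool) :
    MdlInc a (fun ω => if RswSep Λ a ω A B then (1 : ℝ) else 0) := by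
  intro ω ω' h
  by_cases h1 : RswSep Λ a ω A B
  · simp only [if_pos h1, if_pos (mdl61c_sep_mono h h1), le_refl]
  · simp only [if_neg h1]
    split_ifs <;> norm_num

theorem mdl61c_good_in {Λ : Finset (ℤ × ℤ)} {e : (ℤ × ℤ) × Bool} (he : e ∈ rswInt Λ) (a : Bool) (ω : RswCfg) :
    RswGood a (rskIn Λ ω) e ↔ RswGood a ω e := by
  have h1 := rsk_int_fst he
  have h2 := rsk_int_end he
  unfold RswGood rskIn
  simp only [Finset.mem_inter, he, h1, h2, and_true]

theorem mdl61c_step_in (Λ : Finset (ℤ × ℤ)) (a : Bool) (ω : RswCfg) (f g : ℤ × ℤ) :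
    RswStep Λ a (rskIn Λ ω) f g ↔ RswStep Λ a ω f g := by
  have key : ∀ e : (ℤ × ℤ) × Bool, f ∈ Λ → g ∈ Λ → ((f = e.1 ∧ g = rswCo e) ∨ (g = e.1 ∧ f = rswCo e)) →
      e ∈ rswInt Λ := by
    intro e hf hg he
    rw [rsk_mem_int]
    rcases he with ⟨rfl, rfl⟩ | ⟨rfl, rfl⟩
    · exact ⟨hf, hg⟩
    · exact ⟨hg, hf⟩
  constructor
  · rintro ⟨hf, hg, e, he, hb⟩
    exact ⟨hf, hg, e, he, fun hgood => hb ((mdl61c_good_in (key e hf hg he) a ω).2 hgood)⟩
  · rintro ⟨hf, hg, e, he, hb⟩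
    exact ⟨hf, hg, e, he, fun hgood => hb ((mdl61c_good_in (key e hf hg he) a ω).1 hgood)⟩

theorem mdl61c_sep_in (Λ A B : Finset (ℤ × ℤ)) (a : Bool) (ω : RswCfg) :
    RswSep Λ a (rskIn Λ ω) A B ↔ RswSep Λ a ω A B := by
  have e : RswStep Λ a (rskIn Λ ω) = RswStep Λ a ω := by
    funext f g
    exact propext (mdl61c_step_in Λ a ω f g)
  unfold RswSep
  rw [e]

open Classical in
/-- the separation event inside `Λ` is read inside `Λ` -/
theorem mdl61c_sep_inside (Λ A B : Finset (ℤ × ℤ)) (a : Bool) :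
    RskInside Λ (fun ω => if RswSep Λ a ω A B then (1 : ℝ) else 0) := by
  intro ω
  simp only [mdl61c_sep_in]

end Claimed.Agent.R292
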