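import Claimed.Agent.R292.Model.Explore191
import Claimed.Agent.R292.Model.Count41
import Claimed.Agent.R292.Model.CircGeo61
import Claimed.Agent.R292.Model.BoxPin101

/-!
# Row 292 (S0540), Model/Wall191 : (WB) WALL BLOCKING, SPLIT INTO TYPED RECORDS + ASSEMBLY      (owner helper191; prefix `wl`, `Wl`)

AT paper Sec 3.4 (TEX 03-spatial l.917-985).  `K` = an atom of the `(s,W)` data off the chamber `Ch ⊆ B ⊆ F`, wall good of colour `a`.  `X` = blocking event, increasing in colour `a`, read inside `Ch`.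
`P_F(X | K)  ≥[W1 Holley]  P_F(X | K lowered on the closed B)  =[exact cut `rsk_cut`]  P_B^{!a}(X | wlLow)  =[W2 screening: seals of 91 + W3]  P_B^{!a}(X | WlFillEv)  ≥[S0 in B]  P_B^{!a}(X)  ≥[W5]  p`,
and `X ⟹` no chain of `N` crosses `Ch ∩ R` [W6, deterministic].
-/

set_option autoImplicit false

namespace Claimed.Agent.R292

open Claims Claims.C0468

/-! ## 1. vocabulary -/

/-- the vertices pinned to the colour `a` -/
def MdlPin.col (K : MdlPin) (a : Bool) : Finset (ℤ × ℤ) := if a = true then K.Sp else K.Sm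

/-- order (3.4), colour `a`, of two prescriptions of the same vertices and edges -/
def WlPinLe (a : Bool) (K₁ K₂ : MdlPin) : Prop :=
  K₁.Sp ∪ K₁.Sm = K₂.Sp ∪ K₂.Sm ∧ K₁.Oo ∪ K₁.Oc = K₂.Oo ∪ K₂.Oc ∧ K₁.col a ⊆ K₂.col a ∧
  (∀ e ∈ K₁.Oo, e.1 ∈ K₁.col a → rswEnd e ∈ K₁.col a → e ∈ K₂.Oo) ∧
  (∀ e ∈ K₂.Oo, e.1 ∈ K₂.col (!a) → rswEnd e ∈ K₂.col (!a) → e ∈ K₁.Oo)

/-- a prescription is coherent -/
def MdlPin.Coh (K : MdlPin) : Prop := K.Ok ∧ Disjoint K.Sp K.Sm ∧ Disjoint K.Oo K.Oc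

/-- **(W1) HOLLEY WITH PRESCRIPTIONS** (prop:comparison, second sentence) -/
def WlHolley (t : ℝ) (F : Finset (ℤ × ℤ)) (b : Bool) : Prop :=
  ∀ (a : Bool) (K₁ K₂ : MdlPin), K₁.Coh → K₂.Coh → WlPinLe a K₁ K₂ → ∀ X : RswCfg → ℝ, MdlInc a X →
    mdlSumK t F b K₁ X * mdlSumK t F b K₂ (fun _ => 1) ≤ mdlSumK t F b K₁ (fun _ => 1) * mdlSumK t F b K₂ X

/-- `X` does not read the face spins -/
def WlBlind (X : RswCfg → ℝ) : Prop := ∀ S D D' O, X ⟨S, D, O⟩ = X ⟨S, D', O⟩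

/-- the `(s,W)` part of a seal of `Ch` in `B`: spins on the polygon of `Ch`, states of the edges of `B` between `Ch` and `B \ Ch` -/
def WlSealSO (B Ch : Finset (ℤ × ℤ)) (β ω : RswCfg) : Prop :=
  (∀ v ∈ cornersOf Ch, v ∉ rskCore Ch → (v ∈ ω.S ↔ v ∈ β.S)) ∧ ∀ e ∈ rswInt B, RskBd Ch e → (e ∈ ω.O ↔ e ∈ β.O)

/-- the face spin is the same at all the closed edges of the seal -/
def WlOneD (B Ch : Finset (ℤ × ℤ)) (ω : RswCfg) : Prop :=
  ∀ e ∈ rswInt B, ∀ e' ∈ rswInt B, RskBd Ch e → RskBd Ch e' → e ∉ ω.O → e' ∉ ω.O → (e.1 ∈ ω.D ↔ e'.1 ∈ ω.D)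

/-- **(W2) SCREENING, generic** (from `rsk_seal_cross`, `rsk_flip_sum` of `Rsw/Cut91`): two exterior observables which force the same `(s,W)` seal, with one face spin on its closed edges,
give the same conditional law inside `Ch` -/
def WlScreen (t : ℝ) (B Ch : Finset (ℤ × ℤ)) (c : Bool) : Prop :=
  ∀ (β : RswCfg) (X Y₁ Y₂ : RswCfg → ℝ), RskInside Ch X → WlBlind X → RskOutside Ch Y₁ → WlBlind Y₁ → RskOutside Ch Y₂ → WlBlind Y₂ →
    (∀ ω, rswWt t B c ω ≠ 0 → Y₁ ω ≠ 0 → WlSealSO B Ch β ω ∧ WlOneD B Ch ω) →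
    (∀ ω, rswWt t B c ω ≠ 0 → Y₂ ω ≠ 0 → WlSealSO B Ch β ω ∧ WlOneD B Ch ω) →
    rswSum t B c (fun ω => Y₁ ω * X ω) * rswSum t B c Y₂ = rswSum t B c (fun ω => Y₂ ω * X ω) * rswSum t B c Y₁

/-- **(W3) ONE FACE SPIN** (deterministic; `mdl41_exists_D`, `mdl41c_mono_wall`): flat problem `(B, !a)`, the inner vertices of the wall have colour `a`, the inner edges of the wall are open -/
def WlGC (t : ℝ) (B Ch : Finset (ℤ × ℤ)) (a : Bool) : Prop :=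
  ∀ ω : RswCfg, rswWt t B (!a) ω ≠ 0 →
    (∀ v ∈ cornersOf Ch, v ∉ rskCore Ch → ¬ OnPolygon B v → (v ∈ ω.S ↔ a = true)) →
    (∀ e ∈ mdl41DisSet B Ch, ¬ OnPolygon B e.1 → ¬ OnPolygon B (rswEnd e) → e ∈ ω.O) → WlOneD B Ch ω

/-- one step of a dual path inside `Λ` across an edge INTERIOR TO THE CHAMBER which is not good -/
def WlStep (Λ Ch : Finset (ℤ × ℤ)) (a : Bool) (ω : RswCfg) (f g : ℤ × ℤ) : Prop :=
  f ∈ Λ ∧ g ∈ Λ ∧ ∃ e, ((f = e.1 ∧ g = rswCo e) ∨ (g = e.1 ∧ f = rswCo e)) ∧ e ∈ rswInt Ch ∧ ¬ RswGood a ω e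

/-- separation in the configuration FILLED off the chamber -/
def WlSep (Λ Ch : Finset (ℤ × ℤ)) (a : Bool) (ω : RswCfg) (A T : Finset (ℤ × ℤ)) : Prop :=
  ∀ f ∈ A, ∀ g ∈ T, ¬ Relation.ReflTransGen (WlStep Λ Ch a ω) f g

/-- the blocking event: filled separations in the boxes `Λ_{2ρ}(x)`, `x ∈ J` -/
def WlBlk (J : Finset (ℤ × ℤ)) (ρ : ℕ) (Ch : Finset (ℤ × ℤ)) (a : Bool) (ω : RswCfg) : Prop :=
  ∀ x ∈ J, WlSep (rswBox x (2 * ρ)) Ch a ω (rswBox x ρ) (rswLayer (rswBox x (2 * ρ)))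

/-- the same without chamber -/
def WlBlk0 (J : Finset (ℤ × ℤ)) (ρ : ℕ) (a : Bool) (ω : RswCfg) : Prop :=
  ∀ x ∈ J, RswSep (rswBox x (2 * ρ)) a ω (rswBox x ρ) (rswLayer (rswBox x (2 * ρ)))

/-- **(W5) + (W6) THE CHAIN OF BOXES** for one rectangle: centres `J`, radius `ρ`: boxes inside `B`; probability `≥ p` in the flat problem `(B, c)`, every `c a`; deterministic blocking in every chamber -/
def WlChain (t : ℝ) (p : ℝ) (R B Bot Top : Finset (ℤ × ℤ)) : Prop :=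
  ∃ (J : Finset (ℤ × ℤ)) (ρ : ℕ), (∀ x ∈ J, rswBox x (2 * ρ) ⊆ B) ∧
    (∀ c a : Bool, p ≤ rswP t B c (WlBlk0 J ρ a)) ∧
    ∀ (Ch : Finset (ℤ × ℤ)) (a : Bool) (ω : RswCfg), Ch ⊆ B → WlBlk J ρ Ch a ω → Mdl41cNoX (Ch ∩ R) Bot Top ω

theorem wl_defs_eqns_cite : True := by
  have := @MdlPin.col.eq_1
  have := @WlPinLe.eq_1
  have := @MdlPin.Coh.eq_1
  have := @WlHolley.eq_1
  have := @WlBlind.eq_1
  have := @WlSealSO.eq_1
  have := @WlOneD.eq_1
  have := @WlScreen.eq_1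
  have := @WlGC.eq_1
  have := @WlStep.eq_1
  have := @WlSep.eq_1
  have := @WlBlk.eq_1
  have := @WlBlk0.eq_1
  have := @WlChain.eq_1
  trivial

/-! ## 2. prescriptions read off a configuration -/

/-- the prescriptions "as in `ω₀`" on the vertices `V` and the edges `E` -/
def wlPin (V : Finset (ℤ × ℤ)) (E : Finset ((ℤ × ℤ) × Bool)) (ω₀ : RswCfg) : MdlPin :=
  ⟨ω₀.S ∩ V, V \ ω₀.S, ω₀.O ∩ E, E \ ω₀.O⟩

theorem wl_pin_holds (V : Finset (ℤ × ℤ)) (E : Finset ((ℤ × ℤ) × Bool)) (ω₀ ω : RswCfg) :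
    (wlPin V E ω₀).Holds ω ↔ ((∀ v ∈ V, (v ∈ ω.S ↔ v ∈ ω₀.S)) ∧ ∀ e ∈ E, (e ∈ ω.O ↔ e ∈ ω₀.O)) := by
  unfold MdlPin.Holds wlPin
  simp only
  constructor
  · rintro ⟨h1, h2, h3, h4⟩
    refine ⟨fun v hv => ⟨fun h => ?_, fun h => h1 (Finset.mem_inter.2 ⟨h, hv⟩)⟩,
      fun e he => ⟨fun h => ?_, fun h => h3 (Finset.mem_inter.2 ⟨h, he⟩)⟩⟩
    · by_contra hc
      exact h2 v (Finset.mem_sdiff.2 ⟨hv, hc⟩) h
    · by_contra hc
      exact h4 e (Finset.mem_sdiff.2 ⟨he, hc⟩) h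
  · rintro ⟨h1, h2⟩
    refine ⟨fun v hv => ?_, fun v hv => ?_, fun e he => ?_, fun e he => ?_⟩
    · obtain ⟨x, y⟩ := Finset.mem_inter.1 hv
      exact (h1 v y).2 x
    · obtain ⟨x, y⟩ := Finset.mem_sdiff.1 hv
      exact fun h => y ((h1 v x).1 h)
    · obtain ⟨x, y⟩ := Finset.mem_inter.1 he
      exact (h2 e y).2 x
    · obtain ⟨x, y⟩ := Finset.mem_sdiff.1 he
      exact fun h => y ((h2 e x).1 h)

theorem wl_pin_verts (V : Finset (ℤ × ℤ)) (E : Finset ((ℤ × ℤ) × Bool)) (ω₀ : RswCfg) :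
    (wlPin V E ω₀).Sp ∪ (wlPin V E ω₀).Sm = V := by
  classical
  ext v
  simp only [wlPin, Finset.mem_union, Finset.mem_inter, Finset.mem_sdiff]
  tauto

theorem wl_pin_edges (V : Finset (ℤ × ℤ)) (E : Finset ((ℤ × ℤ) × Bool)) (ω₀ : RswCfg) :
    (wlPin V E ω₀).Oo ∪ (wlPin V E ω₀).Oc = E := by
  classical
  ext v
  simp only [wlPin, Finset.mem_union, Finset.mem_inter, Finset.mem_sdiff]
  tauto

theorem wl_pin_coh {V : Finset (ℤ × ℤ)} {E : Finset ((ℤ × ℤ) × Bool)} (hOk : ∀ e ∈ E, e.1 ∈ V ∧ rswEnd e ∈ V) (ω₀ : RswCfg) :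
    (wlPin V E ω₀).Coh := by
  refine ⟨fun e he => ?_, ?_, ?_⟩
  · rw [wl_pin_edges] at he
    rw [wl_pin_verts]
    exact hOk e he
  · rw [Finset.disjoint_left]
    intro v h1 h2
    exact (Finset.mem_sdiff.1 h2).2 (Finset.mem_inter.1 h1).1
  · rw [Finset.disjoint_left]
    intro v h1 h2
    exact (Finset.mem_sdiff.1 h2).2 (Finset.mem_inter.1 h1).1

theorem wl_pin_col {V : Finset (ℤ × ℤ)} {E : Finset ((ℤ × ℤ) × Bool)} {ω₀ : RswCfg} {a : Bool} {v : ℤ × ℤ} :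
    v ∈ (wlPin V E ω₀).col a ↔ (v ∈ V ∧ (v ∈ ω₀.S ↔ a = true)) := by
  cases a
  · simp only [MdlPin.col, wlPin, Bool.false_eq_true, if_false, Finset.mem_sdiff, iff_false]
  · simp only [MdlPin.col, wlPin, if_true, Finset.mem_inter, iff_true]
    exact and_comm

theorem wl_pin_union (V V' : Finset (ℤ × ℤ)) (E E' : Finset ((ℤ × ℤ) × Bool)) (ω₀ ω : RswCfg) :
    (wlPin (V ∪ V') (E ∪ E') ω₀).Holds ω ↔ ((wlPin V E ω₀).Holds ω ∧ (wlPin V' E' ω₀).Holds ω) := by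
  simp only [wl_pin_holds, Finset.mem_union]
  constructor
  · rintro ⟨h1, h2⟩
    exact ⟨⟨fun v hv => h1 v (Or.inl hv), fun e he => h2 e (Or.inl he)⟩, ⟨fun v hv => h1 v (Or.inr hv), fun e he => h2 e (Or.inr he)⟩⟩
  · rintro ⟨⟨h1, h2⟩, ⟨h3, h4⟩⟩
    exact ⟨fun v hv => hv.elim (h1 v) (h3 v), fun e he => he.elim (h2 e) (h4 e)⟩

/-- the order of two configurations on `(V, E)` gives the order of the prescriptions -/
theorem wl_pin_le {V : Finset (ℤ × ℤ)} {E : Finset ((ℤ × ℤ) × Bool)} {a : Bool} {ω₁ ω₂ : RswCfg}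
    (hV : ∀ v ∈ V, (v ∈ ω₁.S ↔ a = true) → (v ∈ ω₂.S ↔ a = true))
    (h1 : ∀ e ∈ E, RswGood a ω₁ e → e ∈ ω₂.O) (h2 : ∀ e ∈ E, RswGood (!a) ω₂ e → e ∈ ω₁.O) :
    WlPinLe a (wlPin V E ω₁) (wlPin V E ω₂) := by
  refine ⟨by rw [wl_pin_verts, wl_pin_verts], by rw [wl_pin_edges, wl_pin_edges], fun v hv => ?_, fun e he p q => ?_, fun e he p q => ?_⟩
  · obtain ⟨x, y⟩ := wl_pin_col.1 hv
    exact wl_pin_col.2 ⟨x, hV v x y⟩
  · obtain ⟨x, y⟩ := Finset.mem_inter.1 he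
    exact Finset.mem_inter.2 ⟨h1 e y ⟨x, (wl_pin_col.1 p).2, (wl_pin_col.1 q).2⟩, y⟩
  · obtain ⟨x, y⟩ := Finset.mem_inter.1 he
    exact Finset.mem_inter.2 ⟨h2 e y ⟨x, (wl_pin_col.1 p).2, (wl_pin_col.1 q).2⟩, y⟩

theorem wl_sumK_congr (t : ℝ) (F : Finset (ℤ × ℤ)) (b : Bool) {K K' : MdlPin} (h : ∀ ω, K.Holds ω ↔ K'.Holds ω) (X : RswCfg → ℝ) :
    mdlSumK t F b K X = mdlSumK t F b K' X := by
  rw [mdlx_sumK_eq, mdlx_sumK_eq, mdl_ind_congr h]

theorem wl_atom_holds {F B : Finset (ℤ × ℤ)} {S₀ : Finset (ℤ × ℤ)} {O₀ : Finset ((ℤ × ℤ) × Bool)}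
    (hS : S₀ ⊆ mdlVext F B) (hO : O₀ ⊆ mdlEext F B) (ω : RswCfg) :
    (mdlAtom F B S₀ O₀).Holds ω ↔ (wlPin (mdlVext F B) (mdlEext F B) ⟨S₀, ∅, O₀⟩).Holds ω := by
  rw [mdl_atom_holds hS hO, wl_pin_holds]
  constructor
  · rintro ⟨h1, h2⟩
    refine ⟨fun v hv => ?_, fun e he => ?_⟩
    · show v ∈ ω.S ↔ v ∈ S₀
      rw [← h1, Finset.mem_inter]
      exact ⟨fun h => ⟨h, hv⟩, fun h => h.1⟩
    · show e ∈ ω.O ↔ e ∈ O₀
      rw [← h2, Finset.mem_inter]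
      exact ⟨fun h => ⟨h, he⟩, fun h => h.1⟩
  · rintro ⟨h1, h2⟩
    constructor
    · ext v
      rw [Finset.mem_inter]
      exact ⟨fun h => (h1 v h.2).1 h.1, fun h => ⟨(h1 v (hS h)).2 h, hS h⟩⟩
    · ext e
      rw [Finset.mem_inter]
      exact ⟨fun h => (h2 e h.2).1 h.1, fun h => ⟨(h2 e (hO h)).2 h, hO h⟩⟩

/-- prescriptions off the strict inside of `Λ` are read outside -/
theorem wl_pin_outside {Λ V : Finset (ℤ × ℤ)} {E : Finset ((ℤ × ℤ) × Bool)} (hV : ∀ v ∈ V, v ∉ rskCore Λ) (hE : ∀ e ∈ E, e ∉ rswInt Λ)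
    (ω₀ : RswCfg) : RskOutside Λ (mdlInd (wlPin V E ω₀).Holds) := by
  intro ω
  refine congrFun (mdl_ind_congr (A := fun ω => (wlPin V E ω₀).Holds (rskOut Λ ω)) fun ω => ?_) ω
  rw [wl_pin_holds, wl_pin_holds]
  refine and_congr (forall_congr' fun v => imp_congr_right fun hv => ?_) (forall_congr' fun e => imp_congr_right fun he => ?_)
  · rw [rsk_out_S (hV v hv)]
  · rw [rsk_out_O (hE e he)]

theorem wl_pin_blind (V : Finset (ℤ × ℤ)) (E : Finset ((ℤ × ℤ) × Bool)) (ω₀ : RswCfg) : WlBlind (mdlInd (wlPin V E ω₀).Holds) :=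
  fun _ _ _ _ => rfl

theorem wl_pin_in {G V : Finset (ℤ × ℤ)} {E : Finset ((ℤ × ℤ) × Bool)} (hV : V ⊆ cornersOf G) (hE : E ⊆ rswInt G) (ω₀ : RswCfg) :
    (wlPin V E ω₀).In G := by
  refine ⟨fun v hv => ?_, fun e he => ?_⟩
  · rw [wl_pin_verts] at hv
    exact hV hv
  · rw [wl_pin_edges] at he
    exact hE he

/-! ## 3. the blocking event -/

theorem wl_blk_inc (J : Finset (ℤ × ℤ)) (ρ : ℕ) (Ch : Finset (ℤ × ℤ)) (a : Bool) : MdlIncP a (WlBlk J ρ Ch a) := by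
  intro ω ω' hle h x hx f hf g hg hp
  refine h x hx f hf g hg (Relation.ReflTransGen.mono ?_ _ _ hp)
  rintro u v ⟨hu, hv, e, he, hi, hn⟩
  exact ⟨hu, hv, e, he, hi, fun hgood => hn (hle.2.1 e hgood)⟩

theorem wl_blk_inside (J : Finset (ℤ × ℤ)) (ρ : ℕ) (Ch : Finset (ℤ × ℤ)) (a : Bool) : RskInside Ch (mdlInd (WlBlk J ρ Ch a)) := by
  intro ω
  refine congrFun (mdl_ind_congr (A := fun ω => WlBlk J ρ Ch a (rskIn Ch ω)) fun ω => ?_) ω
  have hs : ∀ Λ u v, WlStep Λ Ch a (rskIn Ch ω) u v ↔ WlStep Λ Ch a ω u v := by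
    intro Λ u v
    unfold WlStep
    refine and_congr_right fun _ => and_congr_right fun _ => exists_congr fun e => and_congr_right fun _ =>
      and_congr_right fun hi => not_congr (mdl61c_good_in hi a ω)
  unfold WlBlk WlSep
  have hs' : ∀ Λ, WlStep Λ Ch a (rskIn Ch ω) = WlStep Λ Ch a ω := fun Λ => funext fun u => funext fun v => propext (hs Λ u v)
  simp only [hs']

theorem wl_blk_blind (J : Finset (ℤ × ℤ)) (ρ : ℕ) (Ch : Finset (ℤ × ℤ)) (a : Bool) : WlBlind (mdlInd (WlBlk J ρ Ch a)) :=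
  fun _ _ _ _ => rfl

theorem wl_blk0_le {J : Finset (ℤ × ℤ)} {ρ : ℕ} (Ch : Finset (ℤ × ℤ)) {a : Bool} {ω : RswCfg} (h : WlBlk0 J ρ a ω) : WlBlk J ρ Ch a ω := by
  intro x hx f hf g hg hp
  refine h x hx f hf g hg (Relation.ReflTransGen.mono ?_ _ _ hp)
  rintro u v ⟨hu, hv, e, he, -, hn⟩
  exact ⟨hu, hv, e, he, hn⟩

/-! ## 4. geometry of the wall -/

/-- an inner vertex of `B` on the polygon of the chamber is an end of a wall edge -/
theorem wl_wall_vertex {B Ch : Finset (ℤ × ℤ)} {v : ℤ × ℤ} (h1 : v ∈ cornersOf Ch) (h2 : v ∉ rskCore Ch) (h3 : v ∈ rskCore B) :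
    ∃ e ∈ mdl41DisSet B Ch, v = e.1 ∨ v = rswEnd e := by
  obtain ⟨x, y⟩ := v
  rw [rsk_mem_corners] at h1
  rw [rsk_mem_core] at h2 h3
  simp only at h1 h2 h3
  obtain ⟨b1, b2, b3, b4⟩ := h3
  by_contra hne
  have r1 : rswCo ((x, y), false) = (x, y - 1) := rfl
  have r2 : rswCo ((x, y), true) = (x - 1, y) := rfl
  have r3 : rswCo ((x - 1, y), false) = (x - 1, y - 1) := rfl
  have r4 : rswEnd ((x - 1, y), false) = (x, y) := by simp [rswEnd]
  have e1 : ((x, y) ∈ Ch ↔ (x, y - 1) ∈ Ch) := by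
    by_contra hd
    exact hne ⟨((x, y), false), mdl41_mem_disSet.2 ⟨mdl41_mem_int.2 ⟨b1, r1 ▸ b3⟩, by unfold Mdl41Dis; rw [r1]; exact hd⟩, Or.inl rfl⟩
  have e2 : ((x, y) ∈ Ch ↔ (x - 1, y) ∈ Ch) := by
    by_contra hd
    exact hne ⟨((x, y), true), mdl41_mem_disSet.2 ⟨mdl41_mem_int.2 ⟨b1, r2 ▸ b2⟩, by unfold Mdl41Dis; rw [r2]; exact hd⟩, Or.inl rfl⟩
  have e3 : ((x - 1, y) ∈ Ch ↔ (x - 1, y - 1) ∈ Ch) := by
    by_contra hd
    exact hne ⟨((x - 1, y), false), mdl41_mem_disSet.2 ⟨mdl41_mem_int.2 ⟨b2, r3 ▸ b4⟩, by unfold Mdl41Dis; rw [r3]; exact hd⟩, Or.inr r4.symm⟩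
  tauto

/-- the ends of a wall edge are corners of the chamber on its polygon -/
theorem wl_wall_ends {B Ch : Finset (ℤ × ℤ)} {e : (ℤ × ℤ) × Bool} (he : e ∈ mdl41DisSet B Ch) :
    (e.1 ∈ cornersOf Ch ∧ e.1 ∉ rskCore Ch) ∧ (rswEnd e ∈ cornersOf Ch ∧ rswEnd e ∉ rskCore Ch) := by
  obtain ⟨-, hd⟩ := mdl41_mem_disSet.1 he
  have hno : e ∉ rswInt Ch := fun h => hd ⟨fun _ => (rsk_mem_int.1 h).2, fun _ => (rsk_mem_int.1 h).1⟩
  have hed : e ∈ mdlEd Ch := by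
    rw [mdl_mem_ed]
    unfold Mdl41Dis at hd
    by_contra hc
    rw [not_or] at hc
    exact hd ⟨fun h => absurd h hc.1, fun h => absurd h hc.2⟩
  exact ⟨⟨mdl_ed_fst hed, fun h => hno (rsk_fst_core h)⟩, ⟨mdl_ed_end hed, fun h => hno (rsk_end_core h)⟩⟩

/-! ## 5. the lowered exterior data -/

open Classical in
/-- spins of the lowered data: on the closed `B` only the inner vertices of the wall keep the colour `a` -/
noncomputable def wlLowS (F B Ch : Finset (ℤ × ℤ)) (a : Bool) (ω₀ : RswCfg) : Finset (ℤ × ℤ) :=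
  (cornersOf F).filter fun v =>
    if v ∈ cornersOf B then ((v ∈ cornersOf Ch ∧ v ∉ rskCore Ch ∧ v ∈ rskCore B) ↔ a = true) else v ∈ ω₀.S

open Classical in
/-- edges of the lowered data -/
noncomputable def wlLowO (F B Ch : Finset (ℤ × ℤ)) (a : Bool) (ω₀ : RswCfg) : Finset ((ℤ × ℤ) × Bool) :=
  (rswInt F).filter fun e =>
    (e ∈ ω₀.O ∧ e.1 ∉ cornersOf B ∧ rswEnd e ∉ cornersOf B) ∨
    (e ∈ mdl41DisSet B Ch ∧ e.1 ∈ rskCore B ∧ rswEnd e ∈ rskCore B) ∨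
    (¬ (e.1 ∈ wlLowS F B Ch a ω₀ ↔ a = true) ∧ ¬ (rswEnd e ∈ wlLowS F B Ch a ω₀ ↔ a = true) ∧ (e ∈ mdlEd B ∨ e ∈ ω₀.O))

/-- the lowered configuration -/
noncomputable def wlLow (F B Ch : Finset (ℤ × ℤ)) (a : Bool) (ω₀ : RswCfg) : RswCfg :=
  ⟨wlLowS F B Ch a ω₀, F, wlLowO F B Ch a ω₀⟩

theorem wl_corners_sub {F B : Finset (ℤ × ℤ)} (hin : ∀ v ∈ cornersOf B, ¬ OnPolygon F v) : cornersOf B ⊆ cornersOf F :=
  fun v hv => bp101_corner_of_inner (hin v hv)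

theorem wl_sub_of_in {F B : Finset (ℤ × ℤ)} (hin : ∀ v ∈ cornersOf B, ¬ OnPolygon F v) : B ⊆ F := by
  intro f hf
  have h := hin f (rsk_mem_corners.2 (Or.inl hf))
  unfold OnPolygon at h
  rw [not_not] at h
  exact h.1

theorem wl_low_in {F B : Finset (ℤ × ℤ)} (hin : ∀ v ∈ cornersOf B, ¬ OnPolygon F v) (Ch : Finset (ℤ × ℤ)) (a : Bool) (ω₀ : RswCfg)
    {v : ℤ × ℤ} (hv : v ∈ cornersOf B) :
    ((v ∈ wlLowS F B Ch a ω₀) ↔ a = true) ↔ (v ∈ cornersOf Ch ∧ v ∉ rskCore Ch ∧ v ∈ rskCore B) := by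
  classical
  unfold wlLowS
  rw [Finset.mem_filter, if_pos hv]
  have := wl_corners_sub hin hv
  cases a <;> simp only [this, true_and, Bool.false_eq_true, iff_false, iff_true, not_not]

theorem wl_low_out {F : Finset (ℤ × ℤ)} (B Ch : Finset (ℤ × ℤ)) (a : Bool) (ω₀ : RswCfg) {v : ℤ × ℤ} (hv : v ∈ cornersOf F)
    (hv' : v ∉ cornersOf B) : v ∈ wlLowS F B Ch a ω₀ ↔ v ∈ ω₀.S := by
  classical
  unfold wlLowS
  rw [Finset.mem_filter, if_neg hv']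
  exact ⟨fun h => h.2, fun h => ⟨hv, h⟩⟩

theorem wl_col_absurd {p : Prop} {a : Bool} (h1 : p ↔ a = true) (h2 : p ↔ (!a) = true) : False := by
  cases a <;> simp_all

theorem wl_col_not {p : Prop} {a : Bool} (h1 : ¬ (p ↔ a = true)) : (p ↔ (!a) = true) := by
  cases a <;> simp_all

/-- the lowered data are below the data -/
theorem wl_low_vert {F B Ch : Finset (ℤ × ℤ)} (hin : ∀ v ∈ cornersOf B, ¬ OnPolygon F v) {a : Bool} {ω₀ : RswCfg}
    (hwall : Mdl41cWall B Ch a ω₀) {v : ℤ × ℤ} (hv : v ∈ cornersOf F) (h : v ∈ wlLowS F B Ch a ω₀ ↔ a = true) :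
    (v ∈ ω₀.S ↔ a = true) := by
  by_cases hB : v ∈ cornersOf B
  · obtain ⟨c1, c2, c3⟩ := (wl_low_in hin Ch a ω₀ hB).1 h
    obtain ⟨e, he, hve⟩ := wl_wall_vertex c1 c2 c3
    obtain ⟨-, g1, g2⟩ := hwall e he
    rcases hve with rfl | rfl
    · exact g1
    · exact g2
  · rw [← wl_low_out B Ch a ω₀ hv hB]
    exact h

theorem wl_low_le {F B Ch : Finset (ℤ × ℤ)} (hin : ∀ v ∈ cornersOf B, ¬ OnPolygon F v) {a : Bool} {ω₀ : RswCfg}
    (hwall : Mdl41cWall B Ch a ω₀) :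
    WlPinLe a (wlPin (mdlVext F Ch) (mdlEext F Ch) (wlLow F B Ch a ω₀)) (wlPin (mdlVext F Ch) (mdlEext F Ch) ω₀) := by
  classical
  refine wl_pin_le (fun v hv h => wl_low_vert hin hwall (mdl_mem_vext.1 hv).1 h) (fun e he hg => ?_) (fun e he hg => ?_)
  · obtain ⟨g0, g1, g2⟩ := hg
    have g0' : e ∈ wlLowO F B Ch a ω₀ := g0
    unfold wlLowO at g0'
    rcases (Finset.mem_filter.1 g0').2 with h | h | h
    · exact h.1
    · exact (hwall e h.1).1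
    · exact absurd g1 h.1
  · obtain ⟨g0, g1, g2⟩ := hg
    show e ∈ wlLowO F B Ch a ω₀
    unfold wlLowO
    refine Finset.mem_filter.2 ⟨(Finset.mem_sdiff.1 he).1, Or.inr (Or.inr ⟨fun h => ?_, fun h => ?_, Or.inr g0⟩)⟩
    · exact wl_col_absurd (wl_low_vert hin hwall (mdl_mem_vext.1 (mdl_eext_fst he)).1 h) g1
    · exact wl_col_absurd (wl_low_vert hin hwall (mdl_mem_vext.1 (mdl_eext_end he)).1 h) g2

/-- under the lowered data the polygon of `B` is a cut of the opposite colour -/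
theorem wl_low_cut {F B Ch : Finset (ℤ × ℤ)} (hin : ∀ v ∈ cornersOf B, ¬ OnPolygon F v) (hCh : Ch ⊆ B) (a : Bool) (ω₀ : RswCfg) {ω : RswCfg}
    (h : (wlPin (mdlVext F Ch) (mdlEext F Ch) (wlLow F B Ch a ω₀)).Holds ω) : RswCut B (!a) ω := by
  classical
  obtain ⟨hS, hO⟩ := (wl_pin_holds _ _ _ _).1 h
  intro e he
  obtain ⟨h1, h2⟩ := mdl_bd_iff.1 he
  have hF : e ∈ rswInt F := mdl_ed_int hin h1
  have hE : e ∈ mdlEext F Ch := Finset.mem_sdiff.2 ⟨hF, fun hc => h2 (rsk_int_mono hCh hc)⟩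
  obtain ⟨p1, p2⟩ := mdl41c_onpoly h2
  have n1 : ¬ (e.1 ∈ wlLowS F B Ch a ω₀ ↔ a = true) := fun hc =>
    (rsk_core_iff.1 ((wl_low_in hin Ch a ω₀ (mdl_ed_fst h1)).1 hc).2.2) p1
  have n2 : ¬ (rswEnd e ∈ wlLowS F B Ch a ω₀ ↔ a = true) := fun hc =>
    (rsk_core_iff.1 ((wl_low_in hin Ch a ω₀ (mdl_ed_end h1)).1 hc).2.2) p2
  have hopen : e ∈ wlLowO F B Ch a ω₀ := by
    unfold wlLowO
    exact Finset.mem_filter.2 ⟨hF, Or.inr (Or.inr ⟨n1, n2, Or.inl h1⟩)⟩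
  refine ⟨(hO e hE).2 hopen, ?_, ?_⟩
  · rw [hS _ (mdl_eext_fst hE)]
    exact wl_col_not n1
  · rw [hS _ (mdl_eext_end hE)]
    exact wl_col_not n2

/-- positivity of the lowered data -/
theorem wl_low_pos {t : ℝ} (ht0 : 0 < t) (ht2 : t < 1) {F B Ch : Finset (ℤ × ℤ)} (hin : ∀ v ∈ cornersOf B, ¬ OnPolygon F v) (b a : Bool)
    {ω₀ : RswCfg} (hmono : ∀ e ∈ ω₀.O, e ∈ rswInt F → (e.1 ∈ ω₀.S ↔ rswEnd e ∈ ω₀.S))
    (hbc : ∀ v ∈ cornersOf F, OnPolygon F v → (v ∈ ω₀.S ↔ b = true)) (V : Finset (ℤ × ℤ)) (E : Finset ((ℤ × ℤ) × Bool)) :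
    0 < mdlSumK t F b (wlPin V E (wlLow F B Ch a ω₀)) (fun _ => 1) := by
  classical
  have hS' : wlLowS F B Ch a ω₀ ⊆ cornersOf F := Finset.filter_subset _ _
  have hO' : wlLowO F B Ch a ω₀ ⊆ rswInt F := Finset.filter_subset _ _
  have hbc' : RswBc F b ⟨wlLowS F B Ch a ω₀, F, wlLowO F B Ch a ω₀⟩ := by
    intro v hv hp
    show v ∈ wlLowS F B Ch a ω₀ ↔ b = true
    rw [wl_low_out B Ch a ω₀ hv (fun hc => hin v hc hp)]
    exact hbc v hv hp
  have hfac' : ∀ e ∈ rswInt F, 0 < rswFac t ⟨wlLowS F B Ch a ω₀, F, wlLowO F B Ch a ω₀⟩ e := by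
    intro e he
    unfold rswFac
    simp only
    by_cases heO : e ∈ wlLowO F B Ch a ω₀
    · have hiff : (e.1 ∈ wlLowS F B Ch a ω₀ ↔ rswEnd e ∈ wlLowS F B Ch a ω₀) := by
        have heO' := heO
        unfold wlLowO at heO'
        rcases (Finset.mem_filter.1 heO').2 with h | h | h
        · rw [wl_low_out B Ch a ω₀ (rsk_int_fst he) h.2.1, wl_low_out B Ch a ω₀ (rsk_int_end he) h.2.2]
          exact hmono e h.1 he
        · obtain ⟨⟨w1, w2⟩, ⟨w3, w4⟩⟩ := wl_wall_ends h.1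
          have q1 := (wl_low_in hin Ch a ω₀ (rsk_core_sub B h.2.1)).2 ⟨w1, w2, h.2.1⟩
          have q2 := (wl_low_in hin Ch a ω₀ (rsk_core_sub B h.2.2)).2 ⟨w3, w4, h.2.2⟩
          exact q1.trans q2.symm
        · exact (wl_col_not h.1).trans (wl_col_not h.2.1).symm
      rw [if_pos heO, if_pos hiff]
      exact ht0
    · have hD' : (e.1 ∈ F ↔ rswCo e ∈ F) := by
        have := rsk_mem_int.1 he
        exact ⟨fun _ => this.2, fun _ => this.1⟩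
      rw [if_neg heO, if_pos hD']
      split_ifs
      · linarith
      · exact ht0
  have hHolds : (wlPin V E (wlLow F B Ch a ω₀)).Holds ⟨wlLowS F B Ch a ω₀, F, wlLowO F B Ch a ω₀⟩ :=
    (wl_pin_holds _ _ _ _).2 ⟨fun _ _ => Iff.rfl, fun _ _ => Iff.rfl⟩
  unfold mdlSumK
  rw [mdl_sum_idx]
  refine Finset.sum_pos' (fun x _ => ?_) ⟨(wlLowS F B Ch a ω₀, F, wlLowO F B Ch a ω₀), ?_, ?_⟩
  · refine mul_nonneg (rsk_wt_nonneg ht0.le ht2.le F b _) ?_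
    split_ifs <;> norm_num
  · simp only [Finset.mem_product, Finset.mem_powerset]
    exact ⟨hS', le_rfl, hO'⟩
  · simp only
    rw [if_pos hHolds, mul_one]
    unfold rswWt
    rw [if_pos hbc']
    exact Finset.prod_pos hfac'

/-! ## 6. the exact cut under the lowered data -/

theorem wl_vext_split {F B Ch : Finset (ℤ × ℤ)} (hin : ∀ v ∈ cornersOf B, ¬ OnPolygon F v) :
    mdlVext F Ch = (cornersOf B \ rskCore Ch) ∪ (mdlVext F Ch \ cornersOf B) := by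
  classical
  ext v
  simp only [Finset.mem_union, Finset.mem_sdiff, mdl_mem_vext, rsk_core_iff, not_not]
  constructor
  · rintro ⟨h1, h2⟩
    by_cases hB : v ∈ cornersOf B
    · exact Or.inl ⟨hB, h2⟩
    · exact Or.inr ⟨⟨h1, h2⟩, hB⟩
  · rintro (⟨h1, h2⟩ | ⟨h1, -⟩)
    · exact ⟨wl_corners_sub hin h1, h2⟩
    · exact h1

theorem wl_eext_split {F B Ch : Finset (ℤ × ℤ)} (hBF : B ⊆ F) (hCh : Ch ⊆ B) :
    mdlEext F Ch = (rswInt B \ rswInt Ch) ∪ (rswInt F \ rswInt B) := by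
  classical
  ext e
  simp only [mdlEext, Finset.mem_union, Finset.mem_sdiff]
  constructor
  · rintro ⟨h1, h2⟩
    by_cases hB : e ∈ rswInt B
    · exact Or.inl ⟨hB, h2⟩
    · exact Or.inr ⟨h1, hB⟩
  · rintro (⟨h1, h2⟩ | ⟨h1, h2⟩)
    · exact ⟨rsk_int_mono hBF h1, h2⟩
    · exact ⟨h1, fun hc => h2 (rsk_int_mono hCh hc)⟩

/-- the lowered data inside the closed `B` -/
noncomputable def wlYin (F B Ch : Finset (ℤ × ℤ)) (a : Bool) (ω₀ : RswCfg) : RswCfg → ℝ :=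
  mdlInd (wlPin (cornersOf B \ rskCore Ch) (rswInt B \ rswInt Ch) (wlLow F B Ch a ω₀)).Holds

/-- the lowered data off the closed `B` -/
noncomputable def wlYout (F B Ch : Finset (ℤ × ℤ)) (a : Bool) (ω₀ : RswCfg) : RswCfg → ℝ :=
  mdlInd (wlPin (mdlVext F Ch \ cornersOf B) (rswInt F \ rswInt B) (wlLow F B Ch a ω₀)).Holds

theorem wl_low_sum {t : ℝ} (ht0 : 0 < t) (ht1 : t ≤ 1) {F B Ch : Finset (ℤ × ℤ)} (hin : ∀ v ∈ cornersOf B, ¬ OnPolygon F v) (hCh : Ch ⊆ B)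
    (b a : Bool) (ω₀ : RswCfg) {X : RswCfg → ℝ} (hX : RskInside B X) :
    mdlSumK t F b (wlPin (mdlVext F Ch) (mdlEext F Ch) (wlLow F B Ch a ω₀)) X =
      rswE t B (!a) (fun ω => wlYin F B Ch a ω₀ ω * X ω) * rswSum t F b (fun ω => rskInd B (!a) ω * wlYout F B Ch a ω₀ ω) := by
  classical
  have hBF := wl_sub_of_in hin
  have hYin : RskInside B (wlYin F B Ch a ω₀) :=
    mdlx_in_inside (wl_pin_in Finset.sdiff_subset Finset.sdiff_subset _)
  have hYout : RskOutside B (wlYout F B Ch a ω₀) :=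
    wl_pin_outside (fun v hv hc => (Finset.mem_sdiff.1 hv).2 (rsk_core_sub B hc)) (fun e he => (Finset.mem_sdiff.1 he).2) _
  rw [← rsk_cut ht0 ht1 hBF (!a) b (rsk_inside_mul hYin hX) hYout, mdlx_sumK_eq]
  refine mdl_sum_congr t F b fun ω => ?_
  have hsplit : (wlPin (mdlVext F Ch) (mdlEext F Ch) (wlLow F B Ch a ω₀)).Holds ω ↔
      ((wlPin (cornersOf B \ rskCore Ch) (rswInt B \ rswInt Ch) (wlLow F B Ch a ω₀)).Holds ω ∧
        (wlPin (mdlVext F Ch \ cornersOf B) (rswInt F \ rswInt B) (wlLow F B Ch a ω₀)).Holds ω) := by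
    rw [← wl_pin_union, ← wl_vext_split hin, ← wl_eext_split hBF hCh]
  by_cases h : (wlPin (mdlVext F Ch) (mdlEext F Ch) (wlLow F B Ch a ω₀)).Holds ω
  · have hc := wl_low_cut hin hCh a ω₀ h
    obtain ⟨h1, h2⟩ := hsplit.1 h
    unfold wlYin wlYout rskInd
    rw [mdl_ind_pos h, mdl_ind_pos h1, mdl_ind_pos h2, if_pos hc]
    ring
  · rw [mdl_ind_neg h, mul_zero]
    unfold wlYin wlYout
    by_cases h1 : (wlPin (cornersOf B \ rskCore Ch) (rswInt B \ rswInt Ch) (wlLow F B Ch a ω₀)).Holds ω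
    · have h2 : ¬ (wlPin (mdlVext F Ch \ cornersOf B) (rswInt F \ rswInt B) (wlLow F B Ch a ω₀)).Holds ω :=
        fun h2 => h (hsplit.2 ⟨h1, h2⟩)
      rw [mdl_ind_neg h2, mul_zero]
    · rw [mdl_ind_neg h1]
      ring

/-! ## 7. the common seal; the filled event -/

open Classical in
/-- the seal: colour `a` at the inner vertices of `B`, the edges between inner vertices open -/
noncomputable def wlBeta (B : Finset (ℤ × ℤ)) (a : Bool) : RswCfg :=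
  ⟨(cornersOf B).filter fun v => (v ∈ rskCore B ↔ a = true), ∅, (rswInt B).filter fun e => e.1 ∈ rskCore B ∧ rswEnd e ∈ rskCore B⟩

theorem wl_beta_col (B : Finset (ℤ × ℤ)) (a : Bool) {v : ℤ × ℤ} (hv : v ∈ cornersOf B) :
    ((v ∈ (wlBeta B a).S) ↔ a = true) ↔ v ∈ rskCore B := by
  classical
  unfold wlBeta
  simp only
  rw [Finset.mem_filter]
  cases a <;> simp only [hv, true_and, Bool.false_eq_true, iff_false, iff_true, not_not]

theorem wl_iff_of_col {p p' r : Prop} {a : Bool} (h : (p ↔ a = true) ↔ r) (h' : (p' ↔ a = true) ↔ r) : p ↔ p' := by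
  cases a <;> simp only [Bool.false_eq_true, iff_false, iff_true] at h h' <;> tauto

theorem wl_bd_dis {B Ch : Finset (ℤ × ℤ)} {e : (ℤ × ℤ) × Bool} (he : e ∈ rswInt B) (hb : RskBd Ch e) : e ∈ mdl41DisSet B Ch := by
  refine mdl41_mem_disSet.2 ⟨he, ?_⟩
  unfold Mdl41Dis
  unfold RskBd at hb
  tauto

/-- the hypotheses of (W3) follow from the seal -/
theorem wl_seal_gc {B Ch : Finset (ℤ × ℤ)} (hCh : Ch ⊆ B) {a : Bool} {ω : RswCfg} (h : WlSealSO B Ch (wlBeta B a) ω) :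
    (∀ v ∈ cornersOf Ch, v ∉ rskCore Ch → ¬ OnPolygon B v → (v ∈ ω.S ↔ a = true)) ∧
    (∀ e ∈ mdl41DisSet B Ch, ¬ OnPolygon B e.1 → ¬ OnPolygon B (rswEnd e) → e ∈ ω.O) := by
  classical
  refine ⟨fun v h1 h2 h3 => ?_, fun e he h1 h2 => ?_⟩
  · rw [h.1 v h1 h2]
    exact (wl_beta_col B a (rsk_corners_mono hCh h1)).2 (rsk_core_iff.2 h3)
  · obtain ⟨hi, hd⟩ := mdl41_mem_disSet.1 he
    have hb : RskBd Ch e := by
      unfold Mdl41Dis at hd
      unfold RskBd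
      tauto
    rw [h.2 e hi hb]
    unfold wlBeta
    exact Finset.mem_filter.2 ⟨hi, rsk_core_iff.2 h1, rsk_core_iff.2 h2⟩

/-- the lowered data force the seal -/
theorem wl_low_seal {F B Ch : Finset (ℤ × ℤ)} (hin : ∀ v ∈ cornersOf B, ¬ OnPolygon F v) (hCh : Ch ⊆ B)
    (hthin : ∀ e ∈ rswInt B, ¬ (OnPolygon B e.1 ∧ OnPolygon B (rswEnd e))) (a : Bool) (ω₀ : RswCfg) {ω : RswCfg}
    (h : wlYin F B Ch a ω₀ ω ≠ 0) : WlSealSO B Ch (wlBeta B a) ω := by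
  classical
  have hH : (wlPin (cornersOf B \ rskCore Ch) (rswInt B \ rswInt Ch) (wlLow F B Ch a ω₀)).Holds ω := by
    by_contra hc
    exact h (mdl_ind_neg hc)
  obtain ⟨hS, hO⟩ := (wl_pin_holds _ _ _ _).1 hH
  refine ⟨fun v h1 h2 => ?_, fun e he hb => ?_⟩
  · have hvB := rsk_corners_mono hCh h1
    rw [hS v (Finset.mem_sdiff.2 ⟨hvB, h2⟩)]
    refine wl_iff_of_col (a := a) (r := v ∈ rskCore B) ?_ (wl_beta_col B a hvB)
    show (v ∈ wlLowS F B Ch a ω₀ ↔ a = true) ↔ v ∈ rskCore B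
    rw [wl_low_in hin Ch a ω₀ hvB]
    exact ⟨fun q => q.2.2, fun q => ⟨h1, h2, q⟩⟩
  · have hd := wl_bd_dis he hb
    rw [hO e (Finset.mem_sdiff.2 ⟨he, rsk_bd_not_int hb⟩)]
    show e ∈ wlLowO F B Ch a ω₀ ↔ e ∈ (wlBeta B a).O
    unfold wlLowO wlBeta
    simp only
    rw [Finset.mem_filter, Finset.mem_filter]
    obtain ⟨⟨w1, w2⟩, ⟨w3, w4⟩⟩ := wl_wall_ends hd
    constructor
    · rintro ⟨-, q | q | q⟩
      · exact absurd (rsk_int_fst he) q.2.1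
      · exact ⟨he, q.2⟩
      · exfalso
        refine hthin e he ⟨?_, ?_⟩
        · by_contra hc
          exact q.1 ((wl_low_in hin Ch a ω₀ (rsk_int_fst he)).2 ⟨w1, w2, rsk_core_iff.2 hc⟩)
        · by_contra hc
          exact q.2.1 ((wl_low_in hin Ch a ω₀ (rsk_int_end he)).2 ⟨w3, w4, rsk_core_iff.2 hc⟩)
    · rintro ⟨-, q⟩
      exact ⟨rsk_int_mono (wl_sub_of_in hin) he, Or.inr (Or.inl ⟨hd, q⟩)⟩

/-- the explored side is FILLED with good edges of colour `a` (an increasing event) -/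
def WlFillEv (B Ch : Finset (ℤ × ℤ)) (a : Bool) (ω : RswCfg) : Prop :=
  (∀ v ∈ rskCore B, v ∉ rskCore Ch → (v ∈ ω.S ↔ a = true)) ∧
    ∀ e ∈ rswInt B, e ∉ rswInt Ch → e.1 ∈ rskCore B → rswEnd e ∈ rskCore B → e ∈ ω.O

theorem wl_fill_inc (B Ch : Finset (ℤ × ℤ)) (a : Bool) : MdlIncP a (WlFillEv B Ch a) := by
  intro ω ω' hle h
  refine ⟨fun v h1 h2 => hle.1 v (h.1 v h1 h2), fun e h1 h2 h3 h4 => ?_⟩
  exact (hle.2.1 e ⟨h.2 e h1 h2 h3 h4, h.1 _ h3 (fun hc => h2 (rsk_fst_core hc)), h.1 _ h4 (fun hc => h2 (rsk_end_core hc))⟩).1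

theorem wl_fill_outside (B Ch : Finset (ℤ × ℤ)) (a : Bool) : RskOutside Ch (mdlInd (WlFillEv B Ch a)) := by
  intro ω
  refine congrFun (mdl_ind_congr (A := fun ω => WlFillEv B Ch a (rskOut Ch ω)) fun ω => ?_) ω
  unfold WlFillEv
  refine and_congr (forall_congr' fun v => imp_congr_right fun _ => imp_congr_right fun hv => ?_)
    (forall_congr' fun e => imp_congr_right fun _ => imp_congr_right fun he => ?_)
  · rw [rsk_out_S hv]
  · rw [rsk_out_O he]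

theorem wl_fill_blind (B Ch : Finset (ℤ × ℤ)) (a : Bool) : WlBlind (mdlInd (WlFillEv B Ch a)) := fun _ _ _ _ => rfl

theorem wl_wt_bc {t : ℝ} {F : Finset (ℤ × ℤ)} {b : Bool} {ω : RswCfg} (hw : rswWt t F b ω ≠ 0) : RswBc F b ω := by
  classical
  by_contra hc
  unfold rswWt at hw
  rw [if_neg hc] at hw
  exact hw rfl

/-- the filled event forces the seal on the support of the flat law `(B, !a)` -/
theorem wl_fill_seal {t : ℝ} {B Ch : Finset (ℤ × ℤ)} (hCh : Ch ⊆ B)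
    (hthin : ∀ e ∈ rswInt B, ¬ (OnPolygon B e.1 ∧ OnPolygon B (rswEnd e))) (a : Bool) {ω : RswCfg}
    (hw : rswWt t B (!a) ω ≠ 0) (h : mdlInd (WlFillEv B Ch a) ω ≠ 0) : WlSealSO B Ch (wlBeta B a) ω := by
  classical
  have hH : WlFillEv B Ch a ω := by
    by_contra hc
    exact h (mdl_ind_neg hc)
  have hbc := wl_wt_bc hw
  have hcol : ∀ v ∈ cornersOf B, v ∉ rskCore Ch → ((v ∈ ω.S ↔ a = true) ↔ v ∈ rskCore B) := by
    intro v hv h2
    constructor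
    · intro q
      by_contra hc
      exact wl_col_absurd q (hbc v hv (by by_contra hp; exact hc (rsk_core_iff.2 hp)))
    · intro q
      exact hH.1 v q h2
  refine ⟨fun v h1 h2 => ?_, fun e he hb => ?_⟩
  · have hvB := rsk_corners_mono hCh h1
    exact wl_iff_of_col (hcol v hvB h2) (wl_beta_col B a hvB)
  · have hno := rsk_bd_not_int hb
    have n1 : e.1 ∉ rskCore Ch := fun hc => hno (rsk_fst_core hc)
    have n2 : rswEnd e ∉ rskCore Ch := fun hc => hno (rsk_end_core hc)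
    unfold wlBeta
    simp only
    rw [Finset.mem_filter]
    constructor
    · intro hO
      have hm := mdl41c_cons hw he hO
      have c1 := hcol _ (rsk_int_fst he) n1
      have c2 := hcol _ (rsk_int_end he) n2
      have hor : e.1 ∈ rskCore B ∨ rswEnd e ∈ rskCore B := by
        by_contra hc
        rw [not_or] at hc
        exact hthin e he ⟨by by_contra hp; exact hc.1 (rsk_core_iff.2 hp), by by_contra hp; exact hc.2 (rsk_core_iff.2 hp)⟩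
      rcases hor with q | q
      · exact ⟨he, q, c2.1 (hm.symm.trans (c1.2 q))⟩
      · exact ⟨he, c1.1 (hm.trans (c2.2 q)), q⟩
    · rintro ⟨-, q1, q2⟩
      exact hH.2 e he hno q1 q2

theorem wl_fill_pos {t : ℝ} (ht0 : 0 < t) (ht2 : t < 1) (B Ch : Finset (ℤ × ℤ)) (c a : Bool) :
    0 < rswSum t B c (mdlInd (WlFillEv B Ch a)) := by
  classical
  let A : Finset (ℤ × ℤ) := rskCore B \ rskCore Ch
  let Oo : Finset ((ℤ × ℤ) × Bool) := (rswInt B \ rswInt Ch).filter fun e => e.1 ∈ rskCore B ∧ rswEnd e ∈ rskCore B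
  have hA : ∀ e ∈ Oo, e.1 ∈ A ∧ rswEnd e ∈ A := by
    intro e he
    obtain ⟨h1, h2, h3⟩ := Finset.mem_filter.1 he
    have hno := (Finset.mem_sdiff.1 h1).2
    exact ⟨Finset.mem_sdiff.2 ⟨h2, fun hc => hno (rsk_fst_core hc)⟩, Finset.mem_sdiff.2 ⟨h3, fun hc => hno (rsk_end_core hc)⟩⟩
  have hOo : Oo ⊆ rswInt B := fun e he => (Finset.mem_sdiff.1 (Finset.mem_filter.1 he).1).1
  have hpolA : ∀ v ∈ A, ¬ OnPolygon B v := fun v hv => rsk_core_iff.1 (Finset.mem_sdiff.1 hv).1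
  let K : MdlPin := if a = true then ⟨A, ∅, Oo, ∅⟩ else ⟨∅, A, Oo, ∅⟩
  have hpos : 0 < mdlSumK t B c K (fun _ => 1) := by
    cases a
    · refine bp101_pin_pos ht0 ht2 B c (K := ⟨∅, A, Oo, ∅⟩) (Finset.disjoint_empty_left _) (Finset.disjoint_empty_right _)
        (fun e he => Or.inr (hA e he)) hOo (fun v hv => hpolA v ?_)
      simpa using hv
    · refine bp101_pin_pos ht0 ht2 B c (K := ⟨A, ∅, Oo, ∅⟩) (Finset.disjoint_empty_right _) (Finset.disjoint_empty_right _)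
        (fun e he => Or.inl (hA e he)) hOo (fun v hv => hpolA v ?_)
      simpa using hv
  refine lt_of_lt_of_le hpos ?_
  rw [mdlx_sumK_eq]
  refine mdlx_sum_mono ht0.le ht2.le B c fun ω => ?_
  rw [one_mul]
  by_cases h : K.Holds ω
  · have hF : WlFillEv B Ch a ω := by
      have hO : Oo ⊆ ω.O := by
        cases a
        · exact h.2.2.1
        · exact h.2.2.1
      refine ⟨fun v h1 h2 => ?_, fun e h1 h2 h3 h4 => hO (Finset.mem_filter.2 ⟨Finset.mem_sdiff.2 ⟨h1, h2⟩, h3, h4⟩)⟩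
      have hvA : v ∈ A := Finset.mem_sdiff.2 ⟨h1, h2⟩
      cases a
      · simp only [Bool.false_eq_true, iff_false]
        exact h.2.1 v hvA
      · simp only [iff_true]
        exact h.1 hvA
    rw [mdl_ind_pos hF]
    exact mdl_ind_le_one _ _
  · rw [mdl_ind_neg h]
    exact mdl_ind_nonneg _ _

/-! ## 8. assembly in `F` -/

theorem wl_exists_of_ne {t : ℝ} {F : Finset (ℤ × ℤ)} {b : Bool} {K : MdlPin} (hpos : mdlSumK t F b K (fun _ => 1) ≠ 0) :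
    ∃ ω : RswCfg, rswWt t F b ω ≠ 0 ∧ K.Holds ω := by
  classical
  by_contra hne
  push Not at hne
  apply hpos
  unfold mdlSumK
  rw [mdl_sum_idx]
  refine Finset.sum_eq_zero fun x _ => ?_
  by_cases hw : rswWt t F b ⟨x.1, x.2.1, x.2.2⟩ = 0
  · rw [hw, zero_mul]
  · rw [if_neg (hne _ hw), mul_zero]

open Classical in
/-- an inequality on every atom OF THE DATA gives the inequality under the data -/
theorem wl_of_atoms (t : ℝ) (F B : Finset (ℤ × ℤ)) (b : Bool) {L : RswCfg → Prop} (hL : MdlExt B L) (c : ℝ) (Y Y' : RswCfg → ℝ)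
    (h : ∀ S₀ ⊆ mdlVext F B, ∀ O₀ ⊆ mdlEext F B, L ⟨S₀, ∅, O₀⟩ →
      c * mdlSumK t F b (mdlAtom F B S₀ O₀) Y ≤ mdlSumK t F b (mdlAtom F B S₀ O₀) Y') :
    c * rswSum t F b (fun ω => if L ω then Y ω else 0) ≤ rswSum t F b (fun ω => if L ω then Y' ω else 0) := by
  rw [mdl_atoms t F B b hL Y, mdl_atoms t F B b hL Y', Finset.mul_sum]
  refine Finset.sum_le_sum fun ξ hξ => ?_
  simp only [Finset.mem_product, Finset.mem_powerset] at hξ
  split_ifs with hl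
  · exact h _ hξ.1 _ hξ.2 hl
  · rw [mul_zero]

theorem wl_P_of_atoms {t : ℝ} (ht0 : 0 < t) (ht1 : t ≤ 1) (F B : Finset (ℤ × ℤ)) (b : Bool) {L : RswCfg → Prop} (hL : MdlExt B L)
    (p : ℝ) (E : RswCfg → Prop)
    (h : ∀ S₀ ⊆ mdlVext F B, ∀ O₀ ⊆ mdlEext F B, L ⟨S₀, ∅, O₀⟩ →
      p * mdlSumK t F b (mdlAtom F B S₀ O₀) (fun _ => 1) ≤ mdlSumK t F b (mdlAtom F B S₀ O₀) (mdlInd E)) :
    p * rswP t F b L ≤ rswP t F b fun ω => L ω ∧ E ω := by
  classical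
  have key := wl_of_atoms t F B b hL p (fun _ => 1) (mdlInd E) h
  have hZ := rsk_sum_one_pos ht0 ht1 F b
  rw [mdl_P_eq, mdl_P_eq]
  unfold rswE
  rw [← mul_div_assoc]
  refine div_le_div_of_nonneg_right ?_ hZ.le
  have e1 : rswSum t F b (mdlInd L) = rswSum t F b (fun ω => if L ω then (1 : ℝ) else 0) :=
    mdl_sum_congr t F b fun ω => by
      by_cases h1 : L ω
      · rw [mdl_ind_pos h1, if_pos h1]
      · rw [mdl_ind_neg h1, if_neg h1]
  have e2 : rswSum t F b (mdlInd fun ω => L ω ∧ E ω) = rswSum t F b (fun ω => if L ω then mdlInd E ω else 0) :=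
    mdl_sum_congr t F b fun ω => by
      rw [mdl_ind_and]
      by_cases h1 : L ω
      · rw [mdl_ind_pos h1, if_pos h1, one_mul]
      · rw [mdl_ind_neg h1, if_neg h1, zero_mul]
  rw [e1, e2]
  exact key

/-- **one atom**: Holley in `F`, exact cut along the polygon of `B`, the inequality inside `B` -/
theorem wl_atom {t p : ℝ} (ht0 : 0 < t) (ht2 : t < 1) {F B Ch : Finset (ℤ × ℤ)} {b : Bool}
    (hin : ∀ v ∈ cornersOf B, ¬ OnPolygon F v) (hCh : Ch ⊆ B) (hHol : WlHolley t F b) (a : Bool) {ω₀ : RswCfg}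
    (hO₀ : ω₀.O ⊆ mdlEext F Ch) (hwall : Mdl41cWall B Ch a ω₀) {X : RswCfg → ℝ} (hXinc : MdlInc a X) (hXin : RskInside B X)
    (hInB : p * rswSum t B (!a) (wlYin F B Ch a ω₀) ≤ rswSum t B (!a) (fun ω => wlYin F B Ch a ω₀ ω * X ω)) :
    p * mdlSumK t F b (wlPin (mdlVext F Ch) (mdlEext F Ch) ω₀) (fun _ => 1) ≤
      mdlSumK t F b (wlPin (mdlVext F Ch) (mdlEext F Ch) ω₀) X := by
  classical
  have hBF := wl_sub_of_in hin
  by_cases hA1 : mdlSumK t F b (wlPin (mdlVext F Ch) (mdlEext F Ch) ω₀) (fun _ => 1) = 0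
  · rw [hA1, mul_zero, mdl_sumK_zero ht0.le ht2.le hA1]
  obtain ⟨ω, hw, hH⟩ := wl_exists_of_ne hA1
  obtain ⟨hS, hO⟩ := (wl_pin_holds _ _ _ _).1 hH
  have hmono : ∀ e ∈ ω₀.O, e ∈ rswInt F → (e.1 ∈ ω₀.S ↔ rswEnd e ∈ ω₀.S) := by
    intro e he hi
    have hE := hO₀ he
    rw [← hS _ (mdl_eext_fst hE), ← hS _ (mdl_eext_end hE)]
    exact mdl41c_cons hw hi ((hO e hE).2 he)
  have hbc : ∀ v ∈ cornersOf F, OnPolygon F v → (v ∈ ω₀.S ↔ b = true) := by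
    intro v hv hp
    have hV : v ∈ mdlVext F Ch := by
      refine mdl_mem_vext.2 ⟨hv, ?_⟩
      unfold OnPolygon at hp ⊢
      exact fun ⟨q1, q2, q3, q4⟩ => hp ⟨hBF (hCh q1), hBF (hCh q2), hBF (hCh q3), hBF (hCh q4)⟩
    rw [← hS v hV]
    exact wl_wt_bc hw v hv hp
  have hOk : ∀ e ∈ mdlEext F Ch, e.1 ∈ mdlVext F Ch ∧ rswEnd e ∈ mdlVext F Ch := fun e he => ⟨mdl_eext_fst he, mdl_eext_end he⟩
  have hol := hHol a _ _ (wl_pin_coh hOk (wlLow F B Ch a ω₀)) (wl_pin_coh hOk ω₀) (wl_low_le hin hwall) X hXinc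
  have hB1 := wl_low_pos ht0 ht2 (Ch := Ch) hin b a hmono hbc (mdlVext F Ch) (mdlEext F Ch)
  have eX := wl_low_sum ht0 ht2.le hin hCh b a ω₀ hXin
  have e1 := wl_low_sum ht0 ht2.le hin hCh b a ω₀ (rsk_inside_const B 1)
  simp only [mul_one] at e1
  have hZ := rsk_sum_one_pos ht0 ht2.le B (!a)
  have hco : 0 ≤ rswSum t F b (fun ω => rskInd B (!a) ω * wlYout F B Ch a ω₀ ω) :=
    mdlx_sum_nonneg ht0.le ht2.le F b fun ω => mul_nonneg (by unfold rskInd; split_ifs <;> norm_num) (mdl_ind_nonneg _ _)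
  have hE : p * rswE t B (!a) (wlYin F B Ch a ω₀) ≤ rswE t B (!a) (fun ω => wlYin F B Ch a ω₀ ω * X ω) := by
    unfold rswE
    rw [← mul_div_assoc]
    exact div_le_div_of_nonneg_right hInB hZ.le
  have hpB : p * mdlSumK t F b (wlPin (mdlVext F Ch) (mdlEext F Ch) (wlLow F B Ch a ω₀)) (fun _ => 1) ≤
      mdlSumK t F b (wlPin (mdlVext F Ch) (mdlEext F Ch) (wlLow F B Ch a ω₀)) X := by
    rw [eX, e1, ← mul_assoc]
    exact mul_le_mul_of_nonneg_right hE hco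
  have hA1' : 0 ≤ mdlSumK t F b (wlPin (mdlVext F Ch) (mdlEext F Ch) ω₀) (fun _ => 1) := mdl_sumK_one_nonneg ht0.le ht2.le F b _
  refine le_of_mul_le_mul_left ?_ hB1
  calc _ = (p * mdlSumK t F b (wlPin (mdlVext F Ch) (mdlEext F Ch) (wlLow F B Ch a ω₀)) (fun _ => 1)) *
        mdlSumK t F b (wlPin (mdlVext F Ch) (mdlEext F Ch) ω₀) (fun _ => 1) := by ring
    _ ≤ mdlSumK t F b (wlPin (mdlVext F Ch) (mdlEext F Ch) (wlLow F B Ch a ω₀)) X *
        mdlSumK t F b (wlPin (mdlVext F Ch) (mdlEext F Ch) ω₀) (fun _ => 1) := mul_le_mul_of_nonneg_right hpB hA1'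
    _ ≤ _ := hol

/-- **(WB) at one rectangle**, from the records: (W1) Holley in `F`, the part inside `B` (`wb201_inB`: W2 + W3 + S0 in `B` + W5), (W6) -/
theorem wl_wbat {t p : ℝ} (ht0 : 0 < t) (ht2 : t < 1) (hp0 : 0 ≤ p) {F B Bf R LE RE Bot Top : Finset (ℤ × ℤ)} {b : Bool}
    (hin : ∀ v ∈ cornersOf B, ¬ OnPolygon F v) (hBBf : B ⊆ Bf) (hHol : WlHolley t F b)
    (hInB : ∀ (Ch : Finset (ℤ × ℤ)) (a : Bool) (ω₀ : RswCfg) (J : Finset (ℤ × ℤ)) (ρ : ℕ), Ch ⊆ B →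
      (∀ f ∈ Ch, ∀ g ∈ Ch, Mdl41cJoin Ch f g) → (∀ f ∈ B \ Ch, ∀ g ∈ B \ Ch, Mdl41cJoin (B \ Ch) f g) →
      p ≤ rswP t B (!a) (WlBlk0 J ρ a) →
      p * rswSum t B (!a) (wlYin F B Ch a ω₀) ≤ rswSum t B (!a) (fun ω => wlYin F B Ch a ω₀ ω * mdlInd (WlBlk J ρ Ch a) ω))
    (hChain : WlChain t p R B Bot Top) :
    Mdl41cWBat t F b p R B Bf LE RE Bot Top := by
  classical
  intro Ch a H _ hCh _ hc hx hExt hwall
  obtain ⟨J, ρ, _, hprob, hdet⟩ := hChain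
  have hExt' : MdlExt Ch H := by
    refine mdl41c_ext_mono (fun f hf => ?_) hExt
    exact Finset.mem_sdiff.2 ⟨hBBf (hCh hf), fun hq => (Finset.mem_sdiff.1 hq).2 hf⟩
  refine wl_P_of_atoms ht0 ht2.le F Ch b hExt' p _ fun S₀ hS O₀ hO hL => ?_
  rw [wl_sumK_congr t F b (wl_atom_holds hS hO), wl_sumK_congr t F b (wl_atom_holds hS hO)]
  have key := wl_atom ht0 ht2 hin hCh hHol a (ω₀ := ⟨S₀, ∅, O₀⟩) hO (hwall _ hL) (mdl_inc_ind (wl_blk_inc J ρ Ch a))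
    (mdlx_inside_mono hCh (wl_blk_inside J ρ Ch a)) (hInB Ch a _ J ρ hCh hc hx (hprob (!a) a))
  refine key.trans (mdlx_sumK_mono ht0.le ht2.le F b _ fun ω => ?_)
  by_cases h : WlBlk J ρ Ch a ω
  · rw [mdl_ind_pos h, mdl_ind_pos (hdet Ch a ω hCh h)]
  · rw [mdl_ind_neg h]
    exact mdl_ind_nonneg _ _

/-- the part inside `B`: screening (W2 + W3), FKG in `B`, the chain (W5) -/
theorem wl_inB {t p : ℝ} (ht0 : 0 < t) (ht2 : t < 1) {F B Ch : Finset (ℤ × ℤ)} (hin : ∀ v ∈ cornersOf B, ¬ OnPolygon F v) (hCh : Ch ⊆ B)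
    (hthin : ∀ e ∈ rswInt B, ¬ (OnPolygon B e.1 ∧ OnPolygon B (rswEnd e))) (a : Bool) (ω₀ : RswCfg)
    (hfkg : MdlFkgAt t B (!a) a mdlPin0) (hScr : WlScreen t B Ch (!a)) (hGC : WlGC t B Ch a)
    {J : Finset (ℤ × ℤ)} {ρ : ℕ} (hp : p ≤ rswP t B (!a) (WlBlk0 J ρ a)) :
    p * rswSum t B (!a) (wlYin F B Ch a ω₀) ≤ rswSum t B (!a) (fun ω => wlYin F B Ch a ω₀ ω * mdlInd (WlBlk J ρ Ch a) ω) := by
  classical
  have hYo : RskOutside Ch (wlYin F B Ch a ω₀) :=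
    wl_pin_outside (fun v hv => (Finset.mem_sdiff.1 hv).2) (fun e he => (Finset.mem_sdiff.1 he).2) _
  have scr := hScr (wlBeta B a) (mdlInd (WlBlk J ρ Ch a)) (wlYin F B Ch a ω₀) (mdlInd (WlFillEv B Ch a))
    (wl_blk_inside J ρ Ch a) (wl_blk_blind J ρ Ch a) hYo (wl_pin_blind _ _ _) (wl_fill_outside B Ch a) (wl_fill_blind B Ch a)
    (fun ω hw h => by
      have hs := wl_low_seal hin hCh hthin a ω₀ h
      exact ⟨hs, hGC ω hw (wl_seal_gc hCh hs).1 (wl_seal_gc hCh hs).2⟩)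
    (fun ω hw h => by
      have hs := wl_fill_seal hCh hthin a hw h
      exact ⟨hs, hGC ω hw (wl_seal_gc hCh hs).1 (wl_seal_gc hCh hs).2⟩)
  have fkg := hfkg _ _ (mdl_inc_ind (wl_fill_inc B Ch a)) (mdl_inc_ind (wl_blk_inc J ρ Ch a))
  rw [mdlx_sumK_pin0, mdlx_sumK_pin0, mdlx_sumK_pin0, mdlx_sumK_pin0] at fkg
  have hZ := rsk_sum_one_pos ht0 ht2.le B (!a)
  have hf := wl_fill_pos ht0 ht2 B Ch (!a) a
  have hl : 0 ≤ rswSum t B (!a) (wlYin F B Ch a ω₀) := mdlx_sum_nonneg ht0.le ht2.le B (!a) fun ω => mdl_ind_nonneg _ _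
  have hx : p * rswSum t B (!a) (fun _ => 1) ≤ rswSum t B (!a) (mdlInd (WlBlk J ρ Ch a)) := by
    rw [mdl_P_eq] at hp
    unfold rswE at hp
    rw [le_div_iff₀ hZ] at hp
    refine hp.trans (mdlx_sum_mono ht0.le ht2.le B (!a) fun ω => ?_)
    by_cases h : WlBlk0 J ρ a ω
    · rw [mdl_ind_pos h, mdl_ind_pos (wl_blk0_le Ch h)]
    · rw [mdl_ind_neg h]
      exact mdl_ind_nonneg _ _
  set Z := rswSum t B (!a) (fun _ => 1) with hZdef
  set sl := rswSum t B (!a) (wlYin F B Ch a ω₀) with hsl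
  set slx := rswSum t B (!a) (fun ω => wlYin F B Ch a ω₀ ω * mdlInd (WlBlk J ρ Ch a) ω) with hslx
  set sf := rswSum t B (!a) (mdlInd (WlFillEv B Ch a)) with hsf
  set sfx := rswSum t B (!a) (fun ω => mdlInd (WlFillEv B Ch a) ω * mdlInd (WlBlk J ρ Ch a) ω) with hsfx
  set sx := rswSum t B (!a) (mdlInd (WlBlk J ρ Ch a)) with hsx
  have hpos : 0 < Z * sf := mul_pos hZ hf
  refine le_of_mul_le_mul_left ?_ hpos
  calc Z * sf * (p * sl) = (p * Z) * (sf * sl) := by ring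
    _ ≤ sx * (sf * sl) := mul_le_mul_of_nonneg_right hx (mul_nonneg hf.le hl)
    _ = (sf * sx) * sl := by ring
    _ ≤ (Z * sfx) * sl := mul_le_mul_of_nonneg_right fkg hl
    _ = Z * (sfx * sl) := by ring
    _ = Z * (slx * sf) := by rw [scr]
    _ = Z * sf * slx := by ring

theorem wl_defs2_eqns_cite : True := by
  have := @wlPin.eq_1
  have := @wlLowS.eq_1
  have := @wlLowO.eq_1
  have := @wlLow.eq_1
  have := @wlYin.eq_1
  have := @wlYout.eq_1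
  have := @wlBeta.eq_1
  have := @WlFillEv.eq_1
  trivial

/-! ## 9. a region sealed by good edges (exploration step; no lowering, no face spin: the seal has only open edges) -/

/-- the frontier of `V` in `F` is good of colour `a` -/
def WlFront (F V : Finset (ℤ × ℤ)) (a : Bool) (ω : RswCfg) : Prop := ∀ e ∈ rswInt F, RskBd V e → RswGood a ω e

theorem wl_front_inc (F V : Finset (ℤ × ℤ)) (a : Bool) : MdlIncP a (WlFront F V a) :=
  fun _ _ hle h e he hb => hle.2.1 e (h e he hb)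

theorem wl_front_outside (F V : Finset (ℤ × ℤ)) (a : Bool) : RskOutside V (mdlInd (WlFront F V a)) := by
  intro ω
  refine congrFun (mdl_ind_congr (A := fun ω => WlFront F V a (rskOut V ω)) fun ω => ?_) ω
  unfold WlFront
  refine forall_congr' fun e => imp_congr_right fun _ => imp_congr_right fun hb => ?_
  have hno := rsk_bd_not_int hb
  have n1 : e.1 ∉ rskCore V := fun hc => hno (rsk_fst_core hc)
  have n2 : rswEnd e ∉ rskCore V := fun hc => hno (rsk_end_core hc)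
  unfold RswGood
  rw [rsk_out_O hno, rsk_out_S n1, rsk_out_S n2]

theorem wl_front_blind (F V : Finset (ℤ × ℤ)) (a : Bool) : WlBlind (mdlInd (WlFront F V a)) := fun _ _ _ _ => rfl

open Classical in
/-- the seal of a region with good frontier: colour `a` at the inner vertices of `F`, colour `b` on its polygon, all edges open -/
noncomputable def wlBetaF (F : Finset (ℤ × ℤ)) (b a : Bool) : RswCfg :=
  ⟨(cornersOf F).filter fun v => if v ∈ rskCore F then a = true else b = true, ∅, rswInt F⟩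

theorem wl_front_seal {t : ℝ} {F V : Finset (ℤ × ℤ)} (hV : V ⊆ F) {b a : Bool} {ω : RswCfg} (hw : rswWt t F b ω ≠ 0)
    (h : WlFront F V a ω) : WlSealSO F V (wlBetaF F b a) ω ∧ WlOneD F V ω := by
  classical
  refine ⟨⟨fun v h1 h2 => ?_, fun e he hb => ?_⟩, fun e he e' _ hb _ hO _ => absurd (h e he hb).1 hO⟩
  · have hvF := rsk_corners_mono hV h1
    unfold wlBetaF
    simp only
    rw [Finset.mem_filter]
    by_cases hc : v ∈ rskCore F
    · rw [if_pos hc]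
      obtain ⟨e, he, hve⟩ := wl_wall_vertex h1 h2 hc
      obtain ⟨hi, hd⟩ := mdl41_mem_disSet.1 he
      have hb : RskBd V e := by
        unfold Mdl41Dis at hd
        unfold RskBd
        tauto
      obtain ⟨-, g1, g2⟩ := h e hi hb
      have hcol : v ∈ ω.S ↔ a = true := by
        rcases hve with rfl | rfl
        · exact g1
        · exact g2
      rw [hcol]
      exact ⟨fun q => ⟨hvF, q⟩, fun q => q.2⟩
    · rw [if_neg hc]
      have hcol : v ∈ ω.S ↔ b = true := wl_wt_bc hw v hvF (by by_contra hp; exact hc (rsk_core_iff.2 hp))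
      rw [hcol]
      exact ⟨fun q => ⟨hvF, q⟩, fun q => q.2⟩
  · exact ⟨fun _ => he, fun _ => (h e he hb).1⟩

theorem wl_sum_zero_of {t : ℝ} (ht0 : 0 ≤ t) (ht1 : t ≤ 1) {F : Finset (ℤ × ℤ)} {b : Bool} {E : RswCfg → Prop}
    (h : rswSum t F b (mdlInd E) = 0) {Y : RswCfg → ℝ} (hY : ∀ ω, ¬ E ω → Y ω = 0) : rswSum t F b Y = 0 := by
  classical
  rw [mdl_sum_idx] at h ⊢
  have hnn : ∀ x ∈ (cornersOf F).powerset ×ˢ (F.powerset ×ˢ (rswInt F).powerset),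
      0 ≤ rswWt t F b ⟨x.1, x.2.1, x.2.2⟩ * mdlInd E ⟨x.1, x.2.1, x.2.2⟩ :=
    fun x _ => mul_nonneg (rsk_wt_nonneg ht0 ht1 F b _) (mdl_ind_nonneg _ _)
  have h0 := (Finset.sum_eq_zero_iff_of_nonneg hnn).1 h
  refine Finset.sum_eq_zero fun x hx => ?_
  by_cases hE : E ⟨x.1, x.2.1, x.2.2⟩
  · have := h0 x hx
    rw [mdl_ind_pos hE, mul_one] at this
    rw [this, zero_mul]
  · rw [hY _ hE, mul_zero]

theorem wl_atom_ext {F B : Finset (ℤ × ℤ)} {S₀ : Finset (ℤ × ℤ)} {O₀ : Finset ((ℤ × ℤ) × Bool)}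
    (hS : S₀ ⊆ mdlVext F B) (hO : O₀ ⊆ mdlEext F B) : MdlExt B (mdlAtom F B S₀ O₀).Holds := by
  intro ω ω' h1 h2
  rw [wl_atom_holds hS hO, wl_atom_holds hS hO, wl_pin_holds, wl_pin_holds]
  refine and_congr (forall_congr' fun v => imp_congr_right fun hv => ?_) (forall_congr' fun e => imp_congr_right fun he => ?_)
  · rw [h1 v (mdl_mem_vext.1 hv).2]
  · rw [h2 e (Finset.mem_sdiff.1 he).2]

/-- an increasing event `Φ` may be added to arbitrary exterior data of the buffer: atoms + (S0) + the conditional bound -/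
theorem wl_inc_step {t p : ℝ} (ht0 : 0 < t) (ht2 : t < 1) {F Buf : Finset (ℤ × ℤ)} {b a : Bool}
    (hfkg : ∀ K : MdlPin, K.Ok → MdlFkgAt t F b a K) {G X Φ : RswCfg → Prop} (hGext : MdlExt Buf G)
    (hXinc : MdlIncP a X) (hΦ : MdlIncP a Φ)
    (hS1 : ∀ L : RswCfg → Prop, MdlExt Buf L → p * rswP t F b L ≤ rswP t F b (fun ω => L ω ∧ X ω)) :
    p * rswSum t F b (fun ω => mdlInd Φ ω * mdlInd G ω) ≤ rswSum t F b (fun ω => mdlInd Φ ω * (mdlInd G ω * mdlInd X ω)) := by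
  classical
  have hZ := rsk_sum_one_pos ht0 ht2.le F b
  have key := mdl_of_atoms t F Buf b hGext p (mdlInd Φ) (fun ω => mdlInd Φ ω * mdlInd X ω) (fun S₀ hS O₀ hO => by
    have hOk : (mdlAtom F Buf S₀ O₀).Ok := mdl_atom_ok hO
    have fk := hfkg _ hOk _ _ (mdl_inc_ind hΦ) (mdl_inc_ind hXinc)
    have s1 : p * mdlSumK t F b (mdlAtom F Buf S₀ O₀) (fun _ => 1) ≤ mdlSumK t F b (mdlAtom F Buf S₀ O₀) (mdlInd X) := by
      have h := hS1 _ (wl_atom_ext hS hO)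
      rw [mdl_P_eq, mdl_P_eq] at h
      unfold rswE at h
      rw [← mul_div_assoc, div_le_div_iff_of_pos_right hZ] at h
      rw [mdlx_sumK_eq, mdlx_sumK_eq]
      simp only [one_mul]
      refine h.trans (le_of_eq (mdl_sum_congr t F b fun ω => ?_))
      rw [mdl_ind_and, mul_comm]
    have h1 := mdl_sumK_one_nonneg ht0.le ht2.le F b (mdlAtom F Buf S₀ O₀)
    have hΦ0 : 0 ≤ mdlSumK t F b (mdlAtom F Buf S₀ O₀) (mdlInd Φ) :=
      mdlx_sumK_nonneg ht0.le ht2.le F b _ fun ω => mdl_ind_nonneg _ _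
    rcases h1.eq_or_lt with h0 | hpos
    · rw [mdl_sumK_zero ht0.le ht2.le h0.symm, mdl_sumK_zero ht0.le ht2.le h0.symm, mul_zero]
    · refine le_of_mul_le_mul_left ?_ hpos
      calc _ = mdlSumK t F b (mdlAtom F Buf S₀ O₀) (mdlInd Φ) * (p * mdlSumK t F b (mdlAtom F Buf S₀ O₀) (fun _ => 1)) := by ring
        _ ≤ mdlSumK t F b (mdlAtom F Buf S₀ O₀) (mdlInd Φ) * mdlSumK t F b (mdlAtom F Buf S₀ O₀) (mdlInd X) :=
            mul_le_mul_of_nonneg_left s1 hΦ0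
        _ ≤ _ := fk)
  have e1 : rswSum t F b (fun ω => if G ω then mdlInd Φ ω else 0) = rswSum t F b (fun ω => mdlInd Φ ω * mdlInd G ω) :=
    mdl_sum_congr t F b fun ω => by
      by_cases h : G ω
      · rw [if_pos h, mdl_ind_pos h, mul_one]
      · rw [if_neg h, mdl_ind_neg h, mul_zero]
  have e2 : rswSum t F b (fun ω => if G ω then mdlInd Φ ω * mdlInd X ω else 0) =
      rswSum t F b (fun ω => mdlInd Φ ω * (mdlInd G ω * mdlInd X ω)) :=
    mdl_sum_congr t F b fun ω => by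
      by_cases h : G ω
      · rw [if_pos h, mdl_ind_pos h, one_mul]
      · rw [if_neg h, mdl_ind_neg h, zero_mul, mul_zero]
  rw [e1, e2] at key
  exact key

/-- **THE SEALED STEP**: `Y` = any history off the strict inside of `V` which forces the frontier of `V` to be good of colour `a`; `G` = `(s,W)` data inside `V`, off the buffer;
`X` = an event inside `V`, increasing in the colour `a`, of conditional probability `≥ p` given any data off the buffer.  Then `X` has conditional probability `≥ p` given `Y` and `G`. -/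
theorem wl_sealed {t p : ℝ} (ht0 : 0 < t) (ht2 : t < 1) {F V Buf : Finset (ℤ × ℤ)} {b a : Bool} (hV : V ⊆ F)
    (hfkg : ∀ K : MdlPin, K.Ok → MdlFkgAt t F b a K) (hScr : WlScreen t F V b)
    {G X : RswCfg → Prop} (hGext : MdlExt Buf G) (hGin : RskInside V (mdlInd G)) (hGbl : WlBlind (mdlInd G))
    (hXinc : MdlIncP a X) (hXin : RskInside V (mdlInd X)) (hXbl : WlBlind (mdlInd X))
    (hS1 : ∀ L : RswCfg → Prop, MdlExt Buf L → p * rswP t F b L ≤ rswP t F b (fun ω => L ω ∧ X ω))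
    {Y : RswCfg → ℝ} (hY0 : ∀ ω, 0 ≤ Y ω) (hYout : RskOutside V Y) (hYbl : WlBlind Y)
    (hYseal : ∀ ω, Y ω ≠ 0 → WlFront F V a ω) :
    p * rswSum t F b (fun ω => Y ω * mdlInd G ω) ≤ rswSum t F b (fun ω => Y ω * (mdlInd G ω * mdlInd X ω)) := by
  classical
  have hs1 : ∀ ω, rswWt t F b ω ≠ 0 → Y ω ≠ 0 → WlSealSO F V (wlBetaF F b a) ω ∧ WlOneD F V ω :=
    fun ω hw h => wl_front_seal hV hw (hYseal ω h)
  have hs2 : ∀ ω, rswWt t F b ω ≠ 0 → mdlInd (WlFront F V a) ω ≠ 0 → WlSealSO F V (wlBetaF F b a) ω ∧ WlOneD F V ω :=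
    fun ω hw h => wl_front_seal hV hw (by by_contra hc; exact h (mdl_ind_neg hc))
  have hGXbl : WlBlind (fun ω => mdlInd G ω * mdlInd X ω) := fun S D D' O => by
    show mdlInd G ⟨S, D, O⟩ * mdlInd X ⟨S, D, O⟩ = mdlInd G ⟨S, D', O⟩ * mdlInd X ⟨S, D', O⟩
    rw [hGbl S D D' O, hXbl S D D' O]
  have scr1 := hScr (wlBetaF F b a) (fun ω => mdlInd G ω * mdlInd X ω) Y (mdlInd (WlFront F V a)) (rsk_inside_mul hGin hXin) hGXbl
    hYout hYbl (wl_front_outside F V a) (wl_front_blind F V a) hs1 hs2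
  have scr2 := hScr (wlBetaF F b a) (mdlInd G) Y (mdlInd (WlFront F V a)) hGin hGbl
    hYout hYbl (wl_front_outside F V a) (wl_front_blind F V a) hs1 hs2
  have hR : 0 ≤ rswSum t F b (fun ω => Y ω * (mdlInd G ω * mdlInd X ω)) :=
    mdlx_sum_nonneg ht0.le ht2.le F b fun ω => mul_nonneg (hY0 ω) (mul_nonneg (mdl_ind_nonneg _ _) (mdl_ind_nonneg _ _))
  have h2 : 0 ≤ rswSum t F b (mdlInd (WlFront F V a)) := mdlx_sum_nonneg ht0.le ht2.le F b fun ω => mdl_ind_nonneg _ _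
  rcases h2.eq_or_lt with h0 | hpos
  · rw [wl_sum_zero_of ht0.le ht2.le h0.symm (Y := fun ω => Y ω * mdlInd G ω) (fun ω hn => by
      have : Y ω = 0 := by
        by_contra hc
        exact hn (hYseal ω hc)
      rw [this, zero_mul]), mul_zero]
    exact hR
  · refine le_of_mul_le_mul_right ?_ hpos
    have hYs : 0 ≤ rswSum t F b Y := mdlx_sum_nonneg ht0.le ht2.le F b hY0
    calc p * rswSum t F b (fun ω => Y ω * mdlInd G ω) * rswSum t F b (mdlInd (WlFront F V a))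
        = p * (rswSum t F b (fun ω => Y ω * mdlInd G ω) * rswSum t F b (mdlInd (WlFront F V a))) := by ring
      _ = p * (rswSum t F b (fun ω => mdlInd (WlFront F V a) ω * mdlInd G ω) * rswSum t F b Y) := by rw [scr2]
      _ = (p * rswSum t F b (fun ω => mdlInd (WlFront F V a) ω * mdlInd G ω)) * rswSum t F b Y := by ring
      _ ≤ rswSum t F b (fun ω => mdlInd (WlFront F V a) ω * (mdlInd G ω * mdlInd X ω)) * rswSum t F b Y :=
          mul_le_mul_of_nonneg_right (wl_inc_step ht0 ht2 hfkg hGext hXinc (wl_front_inc F V a) hS1) hYs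
      _ = _ := scr1.symm

theorem wl_sep_inc (Λ Ch : Finset (ℤ × ℤ)) (a : Bool) (A T : Finset (ℤ × ℤ)) : MdlIncP a (fun ω => WlSep Λ Ch a ω A T) := by
  intro ω ω' hle h f hf g hg hp
  refine h f hf g hg (Relation.ReflTransGen.mono ?_ _ _ hp)
  rintro u v ⟨hu, hv, e, he, hi, hn⟩
  exact ⟨hu, hv, e, he, hi, fun hgood => hn (hle.2.1 e hgood)⟩

theorem wl_sep_inside (Λ Ch : Finset (ℤ × ℤ)) (a : Bool) (A T : Finset (ℤ × ℤ)) :
    RskInside Ch (mdlInd fun ω => WlSep Λ Ch a ω A T) := by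
  intro ω
  refine congrFun (mdl_ind_congr (A := fun ω => WlSep Λ Ch a (rskIn Ch ω) A T) fun ω => ?_) ω
  have hs : ∀ u v, WlStep Λ Ch a (rskIn Ch ω) u v ↔ WlStep Λ Ch a ω u v := by
    intro u v
    unfold WlStep
    refine and_congr_right fun _ => and_congr_right fun _ => exists_congr fun e => and_congr_right fun _ =>
      and_congr_right fun hi => not_congr (mdl61c_good_in hi a ω)
  unfold WlSep
  have hs' : WlStep Λ Ch a (rskIn Ch ω) = WlStep Λ Ch a ω := funext fun u => funext fun v => propext (hs u v)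
  simp only [hs']

theorem wl_sep_blind (Λ Ch : Finset (ℤ × ℤ)) (a : Bool) (A T : Finset (ℤ × ℤ)) : WlBlind (mdlInd fun ω => WlSep Λ Ch a ω A T) :=
  fun _ _ _ _ => rfl

theorem wl_sep_of_sep {Λ : Finset (ℤ × ℤ)} (Ch : Finset (ℤ × ℤ)) {a : Bool} {ω : RswCfg} {A T : Finset (ℤ × ℤ)} (h : RswSep Λ a ω A T) :
    WlSep Λ Ch a ω A T := by
  intro f hf g hg hp
  refine h f hf g hg (Relation.ReflTransGen.mono ?_ _ _ hp)
  rintro u v ⟨hu, hv, e, he, -, hn⟩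
  exact ⟨hu, hv, e, he, hn⟩

/-- the sealed step for a separation: the conditional bound for the true separation (S1) gives the separation in the configuration FILLED off `V` given the history -/
theorem wl_sealed_sep {t p : ℝ} (ht0 : 0 < t) (ht2 : t < 1) {F V Buf : Finset (ℤ × ℤ)} {b a : Bool} (hV : V ⊆ F)
    (hfkg : ∀ K : MdlPin, K.Ok → MdlFkgAt t F b a K) (hScr : WlScreen t F V b)
    {G : RswCfg → Prop} (hGext : MdlExt Buf G) (hGin : RskInside V (mdlInd G)) (hGbl : WlBlind (mdlInd G)) (A T : Finset (ℤ × ℤ))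
    (hS1 : ∀ L : RswCfg → Prop, MdlExt Buf L → p * rswP t F b L ≤ rswP t F b (fun ω => L ω ∧ RswSep F a ω A T))
    {Y : RswCfg → ℝ} (hY0 : ∀ ω, 0 ≤ Y ω) (hYout : RskOutside V Y) (hYbl : WlBlind Y)
    (hYseal : ∀ ω, Y ω ≠ 0 → WlFront F V a ω) :
    p * rswSum t F b (fun ω => Y ω * mdlInd G ω) ≤
      rswSum t F b (fun ω => Y ω * (mdlInd G ω * mdlInd (fun ω => WlSep F V a ω A T) ω)) := by
  refine wl_sealed ht0 ht2 hV hfkg hScr hGext hGin hGbl (wl_sep_inc F V a A T) (wl_sep_inside F V a A T) (wl_sep_blind F V a A T)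
    (fun L hL => (hS1 L hL).trans ?_) hY0 hYout hYbl hYseal
  rw [mdl_P_eq, mdl_P_eq]
  unfold rswE
  refine div_le_div_of_nonneg_right (mdlx_sum_mono ht0.le ht2.le F b fun ω => ?_) (rsk_sum_one_pos ht0 ht2.le F b).le
  by_cases h : L ω ∧ RswSep F a ω A T
  · rw [mdl_ind_pos h, mdl_ind_pos (E := fun ω => L ω ∧ WlSep F V a ω A T) ⟨h.1, wl_sep_of_sep V h.2⟩]
  · rw [mdl_ind_neg h]
    exact mdl_ind_nonneg _ _

theorem wl_defs3_eqns_cite : True := by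
  have := @WlFront.eq_1
  have := @wlBetaF.eq_1
  trivial

end Claimed.Agent.R292
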