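import Claimed.Agent.R292.Rsw.CmpPin291
import Claimed.Agent.R292.Model.Circ1
import Claimed.Agent.R292.Model.Wall191

/-!
# Row 292 (S0540), Model/Wb201 : COMPARISON OF TWO PRESCRIPTIONS (HOLLEY WITH PINS)      (owner helper201; prefix `wb201_`)      no sorry

AT paper, prop:comparison, SECOND sentence: "increasing additional vertex and compatible edge prescriptions increases the residual law".
(S0) `exit_mdl_cmp` is the FIRST sentence only (association under one prescription); step (1) of the blueprint of (WB) `mdl41c_wb` (Model/Count41) needs the second one.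

* `wb201_AT_holley`   generic multigraph: two families of forced edges on the SAME set of edges, endpoints determined on the supports of the vertex factors
* `wb201_pin_plus`    two prescriptions `K₁ ≤ K₂` of the flat problem `(F, b)`, observables increasing for `Cmi291Le`
* **`wb201_pin_holley`**  the same for `MdlInc a`, either colour
* **`wb201_inB`** = the part of the assembly of (WB) inside `B` (statement of 191, verbatim)
* **`wb201_holley`** = record (W1) `WlHolley t F b` of `Model/Wall191`;  **`wb201_gc`** = record (W3) `WlGC t B Ch a` for rectangles (exactness road: `D = D_a + D_!a`, ring of the layer, label trick with `mdl41c_mono_wall`)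
-/

set_option autoImplicit false
set_option linter.unusedSectionVars false
set_option linter.unusedVariables false
set_option linter.unusedSimpArgs false

namespace Claimed.Agent.R292

open Finset
open Claims Claims.C0468
open Claimed.Agent.R291

section Gen

variable {V ι : Type*} [Fintype V] [DecidableEq V] [Fintype ι] [DecidableEq ι]

/-- the weight reads the couplings only through the available couplings -/
theorem wb201_W_congr (p q : ι → V) (G : (V → Bool) → ℝ) {a a' b b' : ι → ℝ} (s : V → Bool)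
    (h : G s ≠ 0 → cmp291Up p q a s = cmp291Up p q a' s ∧ cmp291Um p q b s = cmp291Um p q b' s)
    (y : Finset ι × (Finset ι)ᵒᵈ) : cmp291W p q G a b s y = cmp291W p q G a' b' s y := by
  unfold cmp291W
  by_cases hG : G s = 0
  · rw [hG, zero_mul, zero_mul]
  · rw [(h hG).1, (h hG).2]

/-- lower plus couplings -/
noncomputable def wb201A1 (r : ℝ) (P₁ P₀ : Finset ι) (x y : ι → Bool) (i : ι) : ℝ :=
  if i ∈ P₁ ∧ x i = true ∧ y i = true then 1 else if i ∈ P₁ ∪ P₀ then 0 else (1 + r)⁻¹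

/-- lower minus couplings -/
noncomputable def wb201B1 (r : ℝ) (P₁ P₀ : Finset ι) (x y : ι → Bool) (i : ι) : ℝ :=
  if i ∈ P₀ ∧ x i = false ∧ y i = false then 0 else if i ∈ P₁ ∪ P₀ then 1 else (1 + r)⁻¹

/-- upper plus couplings -/
noncomputable def wb201A2 (r : ℝ) (P₁ P₀ : Finset ι) (x y : ι → Bool) (i : ι) : ℝ :=
  if i ∈ P₀ ∧ x i = true ∧ y i = true then 0 else if i ∈ P₁ ∪ P₀ then 1 else (1 + r)⁻¹

/-- upper minus couplings -/
noncomputable def wb201B2 (r : ℝ) (P₁ P₀ : Finset ι) (x y : ι → Bool) (i : ι) : ℝ :=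
  if i ∈ P₁ ∧ x i = false ∧ y i = false then 1 else if i ∈ P₁ ∪ P₀ then 0 else (1 + r)⁻¹

theorem wb201_up1 (p q : ι → V) (r : ℝ) (P₁ P₀ : Finset ι) (hd : ∀ i ∈ P₁, i ∉ P₀) (x y : ι → Bool) (s : V → Bool)
    (hs : ∀ i ∈ P₁ ∪ P₀, s (p i) = x i ∧ s (q i) = y i) :
    cmp291Up p q (cmq291A r P₁ P₀) s = cmp291Up p q (wb201A1 r P₁ P₀ x y) s := by
  funext i
  unfold cmp291Up cmq291A wb201A1
  by_cases h1 : i ∈ P₁
  · have := hs i (Finset.mem_union_left _ h1)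
    by_cases hh : s (p i) = true ∧ s (q i) = true
    · have hx : x i = true := this.1 ▸ hh.1
      have hy : y i = true := this.2 ▸ hh.2
      simp [hh, h1, hx, hy]
    · simp [hh]
  · by_cases h0 : i ∈ P₀
    · simp [h1, h0]
    · simp [h1, h0]

theorem wb201_um1 (p q : ι → V) (r : ℝ) (P₁ P₀ : Finset ι) (hd : ∀ i ∈ P₁, i ∉ P₀) (x y : ι → Bool) (s : V → Bool)
    (hs : ∀ i ∈ P₁ ∪ P₀, s (p i) = x i ∧ s (q i) = y i) :
    cmp291Um p q (cmq291A r P₁ P₀) s = cmp291Um p q (wb201B1 r P₁ P₀ x y) s := by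
  funext i
  unfold cmp291Um cmq291A wb201B1
  by_cases h1 : i ∈ P₁
  · have h0 := hd i h1
    simp [h1, h0]
  · by_cases h0 : i ∈ P₀
    · have := hs i (Finset.mem_union_right _ h0)
      by_cases hh : s (p i) = false ∧ s (q i) = false
      · have hx : x i = false := this.1 ▸ hh.1
        have hy : y i = false := this.2 ▸ hh.2
        simp [hh, h1, h0, hx, hy]
      · simp [hh]
    · simp [h1, h0]

theorem wb201_up2 (p q : ι → V) (r : ℝ) (P₁ P₀ : Finset ι) (hd : ∀ i ∈ P₁, i ∉ P₀) (x y : ι → Bool) (s : V → Bool)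
    (hs : ∀ i ∈ P₁ ∪ P₀, s (p i) = x i ∧ s (q i) = y i) :
    cmp291Up p q (cmq291A r P₁ P₀) s = cmp291Up p q (wb201A2 r P₁ P₀ x y) s := by
  funext i
  unfold cmp291Up cmq291A wb201A2
  by_cases h1 : i ∈ P₁
  · have h0 := hd i h1
    simp [h1, h0]
  · by_cases h0 : i ∈ P₀
    · have := hs i (Finset.mem_union_right _ h0)
      by_cases hh : s (p i) = true ∧ s (q i) = true
      · have hx : x i = true := this.1 ▸ hh.1
        have hy : y i = true := this.2 ▸ hh.2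
        simp [hh, h1, h0, hx, hy]
      · simp [hh]
    · simp [h1, h0]

theorem wb201_um2 (p q : ι → V) (r : ℝ) (P₁ P₀ : Finset ι) (hd : ∀ i ∈ P₁, i ∉ P₀) (x y : ι → Bool) (s : V → Bool)
    (hs : ∀ i ∈ P₁ ∪ P₀, s (p i) = x i ∧ s (q i) = y i) :
    cmp291Um p q (cmq291A r P₁ P₀) s = cmp291Um p q (wb201B2 r P₁ P₀ x y) s := by
  funext i
  unfold cmp291Um cmq291A wb201B2
  by_cases h1 : i ∈ P₁
  · have := hs i (Finset.mem_union_left _ h1)
    by_cases hh : s (p i) = false ∧ s (q i) = false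
    · have hx : x i = false := this.1 ▸ hh.1
      have hy : y i = false := this.2 ▸ hh.2
      simp [hh, h1, hx, hy]
    · simp [hh]
  · by_cases h0 : i ∈ P₀
    · simp [h1, h0]
    · simp [h1, h0]

/-- Holley condition of the two vertex factors -/
theorem wb201_G_holley (p q : ι → V) {r : ℝ} (hr : 0 ≤ r) (P₁ P₀ P₁' P₀' : Finset ι) (hE : P₁ ∪ P₀ = P₁' ∪ P₀')
    (m m' : ι → Bool) {Φ Φ' : (V → Bool) → ℝ} (h0 : ∀ s, 0 ≤ Φ s) (h0' : ∀ s, 0 ≤ Φ' s)
    (hΦ : ∀ s s', Φ s * Φ' s' ≤ Φ (s ⊓ s') * Φ' (s ⊔ s'))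
    (x y x' y' : ι → Bool)
    (hs : ∀ s, Φ s ≠ 0 → ∀ i ∈ P₁ ∪ P₀, s (p i) = x i ∧ s (q i) = y i)
    (hs' : ∀ s, Φ' s ≠ 0 → ∀ i ∈ P₁' ∪ P₀', s (p i) = x' i ∧ s (q i) = y' i) (s s' : V → Bool) :
    cmq291G p q r P₁ P₀ m Φ s * cmq291G p q r P₁' P₀' m' Φ' s'
      ≤ cmq291G p q r P₁ P₀ m Φ (s ⊓ s') * cmq291G p q r P₁' P₀' m' Φ' (s ⊔ s') := by
  have hH0 := cmq291_H_nonneg hr P₁ P₀ m
  have hH0' := cmq291_H_nonneg hr P₁' P₀' m'
  by_cases hz : Φ s * Φ' s' = 0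
  · have : cmq291G p q r P₁ P₀ m Φ s * cmq291G p q r P₁' P₀' m' Φ' s' = 0 := by
      unfold cmq291G
      calc _ = (Φ s * Φ' s') * ((∏ i, cmq291H r P₁ P₀ m i (s (p i)) (s (q i)))
            * ∏ i, cmq291H r P₁' P₀' m' i (s' (p i)) (s' (q i))) := by ring
        _ = 0 := by rw [hz, zero_mul]
    rw [this]
    exact mul_nonneg (cmq291_G_nonneg p q hr P₁ P₀ m h0 _) (cmq291_G_nonneg p q hr P₁' P₀' m' h0' _)
  have hpos : 0 < Φ s * Φ' s' := lt_of_le_of_ne (mul_nonneg (h0 s) (h0' s')) (Ne.symm hz)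
  have hpos2 : 0 < Φ (s ⊓ s') * Φ' (s ⊔ s') := lt_of_lt_of_le hpos (hΦ s s')
  have n1 : Φ s ≠ 0 := fun h => hz (by rw [h, zero_mul])
  have n2 : Φ' s' ≠ 0 := fun h => hz (by rw [h, mul_zero])
  have n3 : Φ (s ⊓ s') ≠ 0 := fun h => hpos2.ne' (by rw [h, zero_mul])
  have n4 : Φ' (s ⊔ s') ≠ 0 := fun h => hpos2.ne' (by rw [h, mul_zero])
  have key : (∏ i, cmq291H r P₁ P₀ m i (s (p i)) (s (q i)) * cmq291H r P₁' P₀' m' i (s' (p i)) (s' (q i)))
      ≤ ∏ i, cmq291H r P₁ P₀ m i ((s ⊓ s') (p i)) ((s ⊓ s') (q i))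
          * cmq291H r P₁' P₀' m' i ((s ⊔ s') (p i)) ((s ⊔ s') (q i)) := by
    refine Finset.prod_le_prod (fun i _ => mul_nonneg (hH0 _ _ _) (hH0' _ _ _)) fun i _ => ?_
    by_cases hi : i ∈ P₁ ∪ P₀
    · have hi' : i ∈ P₁' ∪ P₀' := hE ▸ hi
      rw [(hs s n1 i hi).1, (hs s n1 i hi).2, (hs _ n3 i hi).1, (hs _ n3 i hi).2,
        (hs' s' n2 i hi').1, (hs' s' n2 i hi').2, (hs' _ n4 i hi').1, (hs' _ n4 i hi').2]
    · have hi' : i ∉ P₁' ∪ P₀' := hE ▸ hi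
      have a1 : i ∉ P₁ := fun h => hi (Finset.mem_union_left _ h)
      have a0 : i ∉ P₀ := fun h => hi (Finset.mem_union_right _ h)
      have b1 : i ∉ P₁' := fun h => hi' (Finset.mem_union_left _ h)
      have b0 : i ∉ P₀' := fun h => hi' (Finset.mem_union_right _ h)
      unfold cmq291H
      rw [if_neg a1, if_neg a0, if_neg b1, if_neg b0]
      exact cmp291_H_super (by nlinarith) _ _ _ _
  rw [Finset.prod_mul_distrib, Finset.prod_mul_distrib] at key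
  unfold cmq291G
  calc Φ s * (∏ i, cmq291H r P₁ P₀ m i (s (p i)) (s (q i)))
        * (Φ' s' * ∏ i, cmq291H r P₁' P₀' m' i (s' (p i)) (s' (q i)))
      = (Φ s * Φ' s') * ((∏ i, cmq291H r P₁ P₀ m i (s (p i)) (s (q i)))
          * ∏ i, cmq291H r P₁' P₀' m' i (s' (p i)) (s' (q i))) := by ring
    _ ≤ (Φ (s ⊓ s') * Φ' (s ⊔ s')) * ((∏ i, cmq291H r P₁ P₀ m i ((s ⊓ s') (p i)) ((s ⊓ s') (q i)))
          * ∏ i, cmq291H r P₁' P₀' m' i ((s ⊔ s') (p i)) ((s ⊔ s') (q i))) :=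
        mul_le_mul (hΦ s s') key
          (mul_nonneg (Finset.prod_nonneg fun i _ => hH0 _ _ _) (Finset.prod_nonneg fun i _ => hH0' _ _ _))
          hpos2.le
    _ = _ := by ring

/-- **Proposition 3.2 (comparison) with forced edges**: the same set of forced edges, endpoints determined on the supports; every forced open plus edge of the
lower problem is forced open in the upper one, every forced open minus edge of the upper problem is forced open in the lower one. -/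
theorem wb201_AT_holley (p q : ι → V) {r : ℝ} (hr : 0 ≤ r) (P₁ P₀ P₁' P₀' : Finset ι) (hd : ∀ i ∈ P₁, i ∉ P₀)
    (hd' : ∀ i ∈ P₁', i ∉ P₀') (hE : P₁ ∪ P₀ = P₁' ∪ P₀')
    (m m' : ι → Bool) {Φ Φ' : (V → Bool) → ℝ} (h0 : ∀ s, 0 ≤ Φ s) (h0' : ∀ s, 0 ≤ Φ' s)
    (hΦ : ∀ s s', Φ s * Φ' s' ≤ Φ (s ⊓ s') * Φ' (s ⊔ s'))
    (hm : ∀ s, Φ s ≠ 0 → ∀ i ∈ P₀, (s (p i) = s (q i) ↔ m i = true))
    (hm' : ∀ s, Φ' s ≠ 0 → ∀ i ∈ P₀', (s (p i) = s (q i) ↔ m' i = true))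
    (x y x' y' : ι → Bool)
    (hs : ∀ s, Φ s ≠ 0 → ∀ i ∈ P₁ ∪ P₀, s (p i) = x i ∧ s (q i) = y i)
    (hs' : ∀ s, Φ' s ≠ 0 → ∀ i ∈ P₁' ∪ P₀', s (p i) = x' i ∧ s (q i) = y' i)
    (hup : ∀ i ∈ P₁, x i = true → y i = true → i ∈ P₁')
    (hdn : ∀ i ∈ P₁', x' i = false → y' i = false → i ∈ P₁)
    {f : (V → Bool) → Finset ι → ℝ} (hf : cmp291Inc p q f) :
    (∑ s, ∑ W, Φ s * cmp291AT p q r s W * (cmq291Pi P₁ P₀ W * f s W))
        * (∑ s, ∑ W, Φ' s * cmp291AT p q r s W * (cmq291Pi P₁' P₀' W * 1))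
      ≤ (∑ s, ∑ W, Φ s * cmp291AT p q r s W * (cmq291Pi P₁ P₀ W * 1))
        * ∑ s, ∑ W, Φ' s * cmp291AT p q r s W * (cmq291Pi P₁' P₀' W * f s W) := by
  have hinv := cmp291_inv_mem hr
  have key := cmp291_holley p q (cmq291_G_nonneg p q hr P₁ P₀ m h0) (cmq291_G_nonneg p q hr P₁' P₀' m' h0')
    (wb201_G_holley p q hr P₁ P₀ P₁' P₀' hE m m' h0 h0' hΦ x y x' y' hs hs')
    (a₁ := wb201A1 r P₁ P₀ x y) (a₂ := wb201A2 r P₁' P₀' x' y')
    (b₁ := wb201B1 r P₁ P₀ x y) (b₂ := wb201B2 r P₁' P₀' x' y')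
    (fun i => by unfold wb201A1; split_ifs <;> [exact zero_le_one; exact le_rfl; exact hinv.1])
    (fun i => by
      unfold wb201A1 wb201A2
      by_cases hi : i ∈ P₁ ∪ P₀
      · have hi' : i ∈ P₁' ∪ P₀' := hE ▸ hi
        by_cases c : i ∈ P₁ ∧ x i = true ∧ y i = true
        · have := hd' i (hup i c.1 c.2.1 c.2.2)
          rw [if_pos c, if_neg (fun h => this h.1), if_pos hi']
        · rw [if_neg c, if_pos hi]
          split_ifs <;> norm_num
      · have hi' : i ∉ P₁' ∪ P₀' := hE ▸ hi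
        rw [if_neg (fun h => hi (Finset.mem_union_left _ h.1)), if_neg hi,
          if_neg (fun h => hi' (Finset.mem_union_right _ h.1)), if_neg hi'])
    (fun i => by unfold wb201A2; split_ifs <;> [exact zero_le_one; exact le_rfl; exact hinv.2])
    (fun i => by unfold wb201B2; split_ifs <;> [exact zero_le_one; exact le_rfl; exact hinv.1])
    (fun i => by
      unfold wb201B1 wb201B2
      by_cases hi : i ∈ P₁ ∪ P₀
      · have hi' : i ∈ P₁' ∪ P₀' := hE ▸ hi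
        by_cases c : i ∈ P₁' ∧ x' i = false ∧ y' i = false
        · have := hd i (hdn i c.1 c.2.1 c.2.2)
          rw [if_pos c, if_neg (fun h => this h.1), if_pos hi]
        · rw [if_neg c, if_pos hi']
          split_ifs <;> norm_num
      · have hi' : i ∉ P₁' ∪ P₀' := hE ▸ hi
        rw [if_neg (fun h => hi' (Finset.mem_union_left _ h.1)), if_neg hi',
          if_neg (fun h => hi (Finset.mem_union_right _ h.1)), if_neg hi])
    (fun i => by unfold wb201B1; split_ifs <;> [exact zero_le_one; exact le_rfl; exact hinv.2])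
    (cmp291_Ext_mono p q hf)
  have c1 : ∀ s y', cmp291W p q (cmq291G p q r P₁ P₀ m Φ) (wb201A1 r P₁ P₀ x y) (wb201B1 r P₁ P₀ x y) s y'
      = cmp291W p q (cmq291G p q r P₁ P₀ m Φ) (cmq291A r P₁ P₀) (cmq291A r P₁ P₀) s y' := by
    intro s y'
    refine (wb201_W_congr p q _ s (fun hG => ?_) y').symm
    have hΦs : Φ s ≠ 0 := fun h => hG (by unfold cmq291G; rw [h, zero_mul])
    exact ⟨wb201_up1 p q r P₁ P₀ hd x y s (hs s hΦs), wb201_um1 p q r P₁ P₀ hd x y s (hs s hΦs)⟩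
  have c2 : ∀ s y'', cmp291W p q (cmq291G p q r P₁' P₀' m' Φ') (wb201A2 r P₁' P₀' x' y') (wb201B2 r P₁' P₀' x' y') s y''
      = cmp291W p q (cmq291G p q r P₁' P₀' m' Φ') (cmq291A r P₁' P₀') (cmq291A r P₁' P₀') s y'' := by
    intro s y''
    refine (wb201_W_congr p q _ s (fun hG => ?_) y'').symm
    have hΦs : Φ' s ≠ 0 := fun h => hG (by unfold cmq291G; rw [h, zero_mul])
    exact ⟨wb201_up2 p q r P₁' P₀' hd' x' y' s (hs' s hΦs), wb201_um2 p q r P₁' P₀' hd' x' y' s (hs' s hΦs)⟩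
  simp only [c1, c2] at key
  have e1 := cmq291_sum2 p q hr P₁ P₀ hd m Φ hm f
  have e2 := cmq291_sum2 p q hr P₁' P₀' hd' m' Φ' hm' f
  have e3 := cmq291_sum2 p q hr P₁ P₀ hd m Φ hm (fun _ _ => 1)
  have e4 := cmq291_sum2 p q hr P₁' P₀' hd' m' Φ' hm' (fun _ _ => 1)
  have e' : ∀ s y, cmp291Ext p q (fun _ _ => (1 : ℝ)) s y = 1 := fun _ _ => rfl
  simp only [e', mul_one] at e3 e4
  rw [e1, e2, e3, e4] at key
  have hc : (0 : ℝ) < (Fintype.card (V → Bool) : ℝ) := by exact_mod_cast Fintype.card_pos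
  refine le_of_mul_le_mul_left ?_ (mul_pos hc hc)
  simp only [mul_one]
  nlinarith [key]

end Gen

section Inst

theorem wb201_Psi_holley {K₁ K₂ : MdlPin} (hSp : K₁.Sp ⊆ K₂.Sp) (hSm : K₂.Sm ⊆ K₁.Sm) (S S' : Finset (ℤ × ℤ)) :
    cmq291Psi K₁ S * cmq291Psi K₂ S' ≤ cmq291Psi K₁ (S ∩ S') * cmq291Psi K₂ (S ∪ S') := by
  classical
  by_cases h : K₁.Sp ⊆ S ∧ ∀ v ∈ K₁.Sm, v ∉ S
  · by_cases h' : K₂.Sp ⊆ S' ∧ ∀ v ∈ K₂.Sm, v ∉ S'
    · have h1 : K₁.Sp ⊆ S ∩ S' ∧ ∀ v ∈ K₁.Sm, v ∉ S ∩ S' :=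
        ⟨Finset.subset_inter h.1 (hSp.trans h'.1), fun v hv hm => h.2 v hv (Finset.mem_inter.1 hm).1⟩
      have h2 : K₂.Sp ⊆ S ∪ S' ∧ ∀ v ∈ K₂.Sm, v ∉ S ∪ S' :=
        ⟨h'.1.trans Finset.subset_union_right, fun v hv hm => by
          rcases Finset.mem_union.1 hm with a | a
          · exact h.2 v (hSm hv) a
          · exact h'.2 v hv a⟩
      unfold cmq291Psi
      rw [if_pos h, if_pos h', if_pos h1, if_pos h2]
    · have : cmq291Psi K₂ S' = 0 := by unfold cmq291Psi; rw [if_neg h']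
      rw [this, mul_zero]
      exact mul_nonneg (cmq291_Psi_nonneg _ _) (cmq291_Psi_nonneg _ _)
  · have : cmq291Psi K₁ S = 0 := by unfold cmq291Psi; rw [if_neg h]
    rw [this, zero_mul]
    exact mul_nonneg (cmq291_Psi_nonneg _ _) (cmq291_Psi_nonneg _ _)

/-- on the support of the vertex factor the pinned vertices have their pinned spins -/
theorem wb201_supp {F : Finset (ℤ × ℤ)} {b : Bool} {K : MdlPin} {s : Option ↥(cmi291Inn F) → Bool}
    (hs : cmi291Phi F b (cmq291Psi K) s ≠ 0) {v : ℤ × ℤ} (hv : v ∈ K.Sp ∪ K.Sm) : (v ∈ cmi291S F s ↔ v ∈ K.Sp) := by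
  classical
  have hΨ : cmq291Psi K (cmi291S F s) ≠ 0 := fun h => hs (by unfold cmi291Phi; rw [h, mul_zero])
  have hh : K.Sp ⊆ cmi291S F s ∧ ∀ v ∈ K.Sm, v ∉ cmi291S F s := by
    by_contra hc
    exact hΨ (by unfold cmq291Psi; rw [if_neg hc])
  constructor
  · intro hvS
    rcases Finset.mem_union.1 hv with a | a
    · exact a
    · exact (hh.2 v a hvS).elim
  · intro a
    exact hh.1 a

theorem wb201_supp_edge {F : Finset (ℤ × ℤ)} {b : Bool} {K : MdlPin} (hK : K.Ok) {s : Option ↥(cmi291Inn F) → Bool}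
    (hs : cmi291Phi F b (cmq291Psi K) s ≠ 0) {i : ↥(rswInt F)} (hi : i ∈ cmq291P1 F K ∪ cmq291P0 F K) :
    s (cmi291P F i) = decide (i.1.1 ∈ K.Sp) ∧ s (cmi291Q F i) = decide (rswEnd i.1 ∈ K.Sp) := by
  classical
  have hi' : i.1 ∈ K.Oo ∪ K.Oc := by
    rcases Finset.mem_union.1 hi with h | h
    · exact Finset.mem_union_left _ (Finset.mem_subtype.1 h)
    · exact Finset.mem_union_right _ (Finset.mem_subtype.1 h)
  have hok := hK i.1 hi'
  have c1 : i.1.1 ∈ cornersOf F := rsz_face_corner (rsz_mem_int.1 i.2).1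
  have c2 : rswEnd i.1 ∈ cornersOf F := rsz_end_corner (rsz_mem_int.1 i.2).1
  have e1 := wb201_supp hs hok.1
  have e2 := wb201_supp hs hok.2
  rw [cmi291_mem_S] at e1 e2
  constructor
  · unfold cmi291P
    by_cases h : i.1.1 ∈ K.Sp
    · rw [decide_eq_true h]; exact (e1.2 h).2
    · rw [decide_eq_false h]
      by_contra hc
      exact h (e1.1 ⟨c1, Bool.eq_true_of_not_eq_false hc⟩)
  · unfold cmi291Q
    by_cases h : rswEnd i.1 ∈ K.Sp
    · rw [decide_eq_true h]; exact (e2.2 h).2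
    · rw [decide_eq_false h]
      by_contra hc
      exact h (e2.1 ⟨c2, Bool.eq_true_of_not_eq_false hc⟩)

/-- **comparison of two prescriptions**, observables increasing for `Cmi291Le` (colour plus); the boundary colour may be raised too -/
theorem wb201_pin_plus {t : ℝ} (h0 : 0 < t) (h1 : t ≤ 1) {F : Finset (ℤ × ℤ)} (hF : Cmi291Dual F) {b₁ b₂ : Bool} (hb : b₁ ≤ b₂)
    (K₁ K₂ : MdlPin) (hK₁ : K₁.Ok) (hK₂ : K₂.Ok) (hE : K₁.Oo ∪ K₁.Oc = K₂.Oo ∪ K₂.Oc)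
    (hSp : K₁.Sp ⊆ K₂.Sp) (hSm : K₂.Sm ⊆ K₁.Sm)
    (hup : ∀ e ∈ K₁.Oo, e.1 ∈ K₁.Sp → rswEnd e ∈ K₁.Sp → e ∈ K₂.Oo)
    (hdn : ∀ e ∈ K₂.Oo, e.1 ∉ K₂.Sp → rswEnd e ∉ K₂.Sp → e ∈ K₁.Oo)
    {X : RswCfg → ℝ} (hX : Cmi291Inc X) :
    mdlSumK t F b₁ K₁ X * mdlSumK t F b₂ K₂ (fun _ => 1)
      ≤ mdlSumK t F b₁ K₁ (fun _ => 1) * mdlSumK t F b₂ K₂ X := by
  classical
  have a1 := cmq291_sumK h0.ne' hF b₁ K₁ X hX.noD
  have a2 := cmq291_sumK h0.ne' hF b₂ K₂ (fun _ => 1) (fun _ _ _ => rfl)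
  have a3 := cmq291_sumK h0.ne' hF b₁ K₁ (fun _ => 1) (fun _ _ _ => rfl)
  have a4 := cmq291_sumK h0.ne' hF b₂ K₂ X hX.noD
  have hKc := cmi291_K_pos h0 F
  have hc : (0 : ℝ) < (2 : ℝ) ^ Fintype.card (Option ↥(cmi291Inn F)) := by positivity
  refine le_of_mul_le_mul_left ?_ (mul_pos hc hc)
  have goal_form : ∀ A B C D : ℝ,
      ((2 : ℝ) ^ Fintype.card (Option ↥(cmi291Inn F)) * A) * ((2 : ℝ) ^ Fintype.card (Option ↥(cmi291Inn F)) * B)
        ≤ ((2 : ℝ) ^ Fintype.card (Option ↥(cmi291Inn F)) * C)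
          * ((2 : ℝ) ^ Fintype.card (Option ↥(cmi291Inn F)) * D) →
      (2 : ℝ) ^ Fintype.card (Option ↥(cmi291Inn F)) * (2 : ℝ) ^ Fintype.card (Option ↥(cmi291Inn F)) * (A * B)
        ≤ (2 : ℝ) ^ Fintype.card (Option ↥(cmi291Inn F)) * (2 : ℝ) ^ Fintype.card (Option ↥(cmi291Inn F))
          * (C * D) := by
    intro A B C D h
    nlinarith [h]
  refine goal_form _ _ _ _ ?_
  rw [a1, a2, a3, a4]
  by_cases hO₁ : K₁.Oo ⊆ rswInt F ∧ ∀ e ∈ K₁.Oo, e ∉ K₁.Oc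
  swap
  · simp only [cmq291_PiO_zero hO₁, zero_mul, mul_zero, Finset.sum_const_zero, le_refl]
  by_cases hO₂ : K₂.Oo ⊆ rswInt F ∧ ∀ e ∈ K₂.Oo, e ∉ K₂.Oc
  swap
  · simp only [cmq291_PiO_zero hO₂, zero_mul, mul_zero, Finset.sum_const_zero, le_refl]
  simp only [cmq291_PiO_eq hO₁.1, cmq291_PiO_eq hO₂.1]
  have hmK : ∀ (b : Bool) (K : MdlPin), K.Ok → ∀ s, cmi291Phi F b (cmq291Psi K) s ≠ 0 → ∀ i ∈ cmq291P0 F K,
      (s (cmi291P F i) = s (cmi291Q F i) ↔ decide (i.1.1 ∈ K.Sp ↔ rswEnd i.1 ∈ K.Sp) = true) := by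
    intro b K hK s hs i hi
    have hok := hK i.1 (Finset.mem_union_right _ (Finset.mem_subtype.1 hi))
    rw [← cmi291_mono_iff, wb201_supp hs hok.1, wb201_supp hs hok.2, decide_eq_true_iff]
  have key := wb201_AT_holley (cmi291P F) (cmi291Q F) (cmi291_r_nonneg h0 h1)
    (cmq291P1 F K₁) (cmq291P0 F K₁) (cmq291P1 F K₂) (cmq291P0 F K₂)
    (fun i hi hi' => hO₁.2 i.1 (Finset.mem_subtype.1 hi) (Finset.mem_subtype.1 hi'))
    (fun i hi hi' => hO₂.2 i.1 (Finset.mem_subtype.1 hi) (Finset.mem_subtype.1 hi'))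
    (by
      ext i
      have := Finset.ext_iff.1 hE i.1
      simp only [Finset.mem_union] at this
      simp only [Finset.mem_union, cmq291P1, cmq291P0, Finset.mem_subtype]
      exact this)
    (fun i => decide (i.1.1 ∈ K₁.Sp ↔ rswEnd i.1 ∈ K₁.Sp)) (fun i => decide (i.1.1 ∈ K₂.Sp ↔ rswEnd i.1 ∈ K₂.Sp))
    (cmi291_Phi_nonneg (F := F) b₁ (cmq291_Psi_nonneg K₁)) (cmi291_Phi_nonneg (F := F) b₂ (cmq291_Psi_nonneg K₂))
    (cmi291_Phi_holley hb (cmq291_Psi_nonneg K₁) (cmq291_Psi_nonneg K₂) (wb201_Psi_holley hSp hSm))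
    (hmK b₁ K₁ hK₁) (hmK b₂ K₂ hK₂)
    (fun i => decide (i.1.1 ∈ K₁.Sp)) (fun i => decide (rswEnd i.1 ∈ K₁.Sp))
    (fun i => decide (i.1.1 ∈ K₂.Sp)) (fun i => decide (rswEnd i.1 ∈ K₂.Sp))
    (fun s hs i hi => wb201_supp_edge hK₁ hs hi) (fun s hs i hi => wb201_supp_edge hK₂ hs hi)
    (fun i hi hx hy => Finset.mem_subtype.2 (hup i.1 (Finset.mem_subtype.1 hi) (of_decide_eq_true hx) (of_decide_eq_true hy)))
    (fun i hi hx hy => Finset.mem_subtype.2 (hdn i.1 (Finset.mem_subtype.1 hi) (of_decide_eq_false hx) (of_decide_eq_false hy)))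
    (cmi291_inc_gen (F := F) hX)
  have := mul_le_mul_of_nonneg_left key (mul_pos hKc hKc).le
  nlinarith [this]

/-- the vertices pinned in the colour `a` -/
def wb201Col (a : Bool) (K : MdlPin) : Finset (ℤ × ℤ) := if a = true then K.Sp else K.Sm

/-- `K₁ ≤ K₂` in the order (3.4) of colour `a`: the same prescribed edges; more vertices of colour `a`, fewer of colour `!a`; the good edges of colour `a` of `K₁` are open
in `K₂`, the good edges of colour `!a` of `K₂` are open in `K₁` -/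
structure Wb201Le (a : Bool) (K₁ K₂ : MdlPin) : Prop where
  edges : K₁.Oo ∪ K₁.Oc = K₂.Oo ∪ K₂.Oc
  up : wb201Col a K₁ ⊆ wb201Col a K₂
  dn : wb201Col (!a) K₂ ⊆ wb201Col (!a) K₁
  gup : ∀ e ∈ K₁.Oo, e.1 ∈ wb201Col a K₁ → rswEnd e ∈ wb201Col a K₁ → e ∈ K₂.Oo
  gdn : ∀ e ∈ K₂.Oo, e.1 ∈ wb201Col (!a) K₂ → rswEnd e ∈ wb201Col (!a) K₂ → e ∈ K₁.Oo

/-- **HOLLEY WITH PINS** (prop:comparison, second sentence), unnormalised; the boundary colour may be raised too -/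
theorem wb201_pin_holley_dual {t : ℝ} (h0 : 0 < t) (h1 : t ≤ 1) {F : Finset (ℤ × ℤ)} (hF : Cmi291Dual F) (a : Bool) {b₁ b₂ : Bool}
    (hb : b₁ = a → b₂ = a) {K₁ K₂ : MdlPin} (hK₁ : K₁.Ok) (hK₂ : K₂.Ok) (hle : Wb201Le a K₁ K₂)
    {X : RswCfg → ℝ} (hX : MdlInc a X) :
    mdlSumK t F b₁ K₁ X * mdlSumK t F b₂ K₂ (fun _ => 1)
      ≤ mdlSumK t F b₁ K₁ (fun _ => 1) * mdlSumK t F b₂ K₂ X := by
  have hmem : ∀ (K : MdlPin), K.Ok → ∀ e ∈ K.Oo, (e.1 ∉ K.Sp → e.1 ∈ K.Sm) ∧ (rswEnd e ∉ K.Sp → rswEnd e ∈ K.Sm) := by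
    intro K hK e he
    have := hK e (Finset.mem_union_left _ he)
    exact ⟨fun h => (Finset.mem_union.1 this.1).resolve_left h, fun h => (Finset.mem_union.1 this.2).resolve_left h⟩
  obtain ⟨e1, e2, e3, e4, e5⟩ := hle
  cases a with
  | true =>
    simp only [wb201Col, if_true, Bool.not_true, Bool.false_eq_true, if_false] at e2 e3 e4 e5
    exact wb201_pin_plus h0 h1 hF (by cases b₁ <;> cases b₂ <;> simp_all) K₁ K₂ hK₁ hK₂ e1 e2 e3 e4
      (fun e he h h' => e5 e he ((hmem K₂ hK₂ e he).1 h) ((hmem K₂ hK₂ e he).2 h'))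
      (fun ω ω' h => hX ω ω' (cmq291_le_mdl_true h))
  | false =>
    simp only [wb201Col, if_true, Bool.not_false, Bool.false_eq_true, if_false] at e2 e3 e4 e5
    have key := wb201_pin_plus h0 h1 hF (b₁ := b₂) (b₂ := b₁) (by cases b₁ <;> cases b₂ <;> simp_all) K₂ K₁ hK₂ hK₁ e1.symm e3 e2 e5
      (fun e he h h' => e4 e he ((hmem K₁ hK₁ e he).1 h) ((hmem K₁ hK₁ e he).2 h'))
      (X := fun ω => - X ω) (fun ω ω' h => neg_le_neg (hX ω' ω (cmq291_le_mdl_false h)))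
    rw [cmq291_sumK_neg, cmq291_sumK_neg] at key
    nlinarith [key]

/-- **HOLLEY WITH PINS**, Jordan domains, one boundary colour -/
theorem wb201_pin_holley (t : ℝ) (ht1 : 1 / 2 ≤ t) (ht2 : t < 1) (F : Finset (ℤ × ℤ)) (hF : RswJordan F) (b a : Bool)
    (K₁ K₂ : MdlPin) (hK₁ : K₁.Ok) (hK₂ : K₂.Ok) (hle : Wb201Le a K₁ K₂) (X : RswCfg → ℝ) (hX : MdlInc a X) :
    mdlSumK t F b K₁ X * mdlSumK t F b K₂ (fun _ => 1) ≤ mdlSumK t F b K₁ (fun _ => 1) * mdlSumK t F b K₂ X :=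
  wb201_pin_holley_dual (by linarith) ht2.le (cmi291_dual_of_jordan hF) a (fun h => h) hK₁ hK₂ hle hX

end Inst

/-! ## the record (W1) of `Model/Wall191` -/

theorem wb201_le_of_wl {a : Bool} {K₁ K₂ : MdlPin} (h₂ : K₂.Coh) (h : WlPinLe a K₁ K₂) : Wb201Le a K₁ K₂ := by
  obtain ⟨hV, hE, hup, hg1, hg2⟩ := h
  refine ⟨hE, hup, ?_, hg1, hg2⟩
  intro v hv
  have hd := h₂.2.1
  cases a with
  | true =>
    simp only [wb201Col, MdlPin.col, if_true, Bool.not_true, Bool.false_eq_true, if_false] at hv hup ⊢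
    have : v ∈ K₁.Sp ∪ K₁.Sm := hV ▸ Finset.mem_union_right _ hv
    rcases Finset.mem_union.1 this with h | h
    · exact absurd hv (Finset.disjoint_left.1 hd (hup h))
    · exact h
  | false =>
    simp only [wb201Col, MdlPin.col, if_true, Bool.not_false, Bool.false_eq_true, if_false] at hv hup ⊢
    have : v ∈ K₁.Sp ∪ K₁.Sm := hV ▸ Finset.mem_union_left _ hv
    rcases Finset.mem_union.1 this with h | h
    · exact h
    · exact absurd (hup h) (Finset.disjoint_left.1 hd hv)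

/-- **(W1)** of ORDER MODEL-5 -/
theorem wb201_holley {t : ℝ} (ht1 : 1 / 2 ≤ t) (ht2 : t < 1) {F : Finset (ℤ × ℤ)} (hF : RswJordan F) (b : Bool) :
    WlHolley t F b :=
  fun a K₁ K₂ h₁ h₂ hle X hX => wb201_pin_holley t ht1 ht2 F hF b a K₁ K₂ h₁.1 h₂.1 (wb201_le_of_wl h₂ hle) X hX

section W3

open Relation

/-! ## (W3) one face spin at the closed edges of the seal -/

/-- a predicate which agrees across the edges between faces of `P` is constant along the chains of `P` -/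
theorem wb201_const_join {P : Finset (ℤ × ℤ)} {Q : ℤ × ℤ → Prop}
    (h : ∀ e : (ℤ × ℤ) × Bool, e.1 ∈ P → rswCo e ∈ P → (Q e.1 ↔ Q (rswCo e))) {f g : ℤ × ℤ} (hj : Mdl41cJoin P f g) :
    Q f ↔ Q g := by
  unfold Mdl41cJoin at hj
  induction hj with
  | refl => exact Iff.rfl
  | @tail b c _ hbc ih =>
    refine ih.trans ?_
    obtain ⟨hb, hc, e, he⟩ := hbc
    rcases he with ⟨r1, r2⟩ | ⟨r1, r2⟩
    · rw [r1, r2]; exact h e (r1 ▸ hb) (r2 ▸ hc)
    · rw [r1, r2]; exact (h e (r1 ▸ hc) (r2 ▸ hb)).symm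

/-- the part of a disagreement set carried by the vertices with a property which is constant along its edges is even -/
theorem wb201_even_part (B D : Finset (ℤ × ℤ)) (c : ℤ × ℤ → Prop) [DecidablePred c]
    (hO : ∀ e ∈ mdl41DisSet B D, (c e.1 ↔ c (rswEnd e))) :
    Mdl41Even B ((mdl41DisSet B D).filter (fun e => c e.1)) := by
  classical
  rw [mdl41_even_iff]
  intro v hv
  have h0 := (mdl41_even_iff B (mdl41DisSet B D)).1 (mdl41_even_disSet B D) v hv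
  by_cases hvS : c v
  · have : ((mdl41DisSet B D).filter (fun e => c e.1)).filter (fun e => e.1 = v ∨ rswEnd e = v)
        = (mdl41DisSet B D).filter (fun e => e.1 = v ∨ rswEnd e = v) := by
      ext e
      simp only [Finset.mem_filter]
      constructor
      · rintro ⟨⟨h1, -⟩, h3⟩; exact ⟨h1, h3⟩
      · rintro ⟨h1, h3⟩
        refine ⟨⟨h1, ?_⟩, h3⟩
        rcases h3 with h3 | h3
        · rw [h3]; exact hvS
        · rw [hO e h1, h3]; exact hvS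
    rw [this]
    convert h0 using 2
  · have : ((mdl41DisSet B D).filter (fun e => c e.1)).filter (fun e => e.1 = v ∨ rswEnd e = v) = ∅ := by
      ext e
      simp only [Finset.mem_filter, Finset.notMem_empty, iff_false]
      rintro ⟨⟨h1, h2⟩, h3⟩
      rcases h3 with h3 | h3
      · exact hvS (h3 ▸ h2)
      · exact hvS (h3 ▸ (hO e h1).1 h2)
    rw [this, Finset.card_empty]
    exact Even.zero

/-- what a nonzero weight says -/
theorem wb201_wt_ne {t : ℝ} {B : Finset (ℤ × ℤ)} {c : Bool} {ω : RswCfg} (h : rswWt t B c ω ≠ 0) :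
    RswBc B c ω ∧ ∀ e ∈ rswInt B, (e ∈ ω.O → (e.1 ∈ ω.S ↔ rswEnd e ∈ ω.S)) ∧ (e ∉ ω.O → (e.1 ∈ ω.D ↔ rswCo e ∈ ω.D)) := by
  classical
  unfold rswWt at h
  by_cases hbc : RswBc B c ω
  · rw [if_pos hbc] at h
    refine ⟨hbc, fun e he => ?_⟩
    have hf : rswFac t ω e ≠ 0 := fun h0 => h (Finset.prod_eq_zero he h0)
    unfold rswFac at hf
    constructor
    · intro hO
      rw [if_pos hO] at hf
      by_contra hc
      rw [if_neg hc] at hf
      exact hf rfl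
    · intro hO
      rw [if_neg hO] at hf
      by_contra hc
      rw [if_neg hc] at hf
      exact hf rfl
  · rw [if_neg hbc] at h
    exact absurd rfl h

/-- in a rectangle the face `e.1` of an interior edge with an end on the polygon lies in the boundary layer -/
theorem wb201_rect_layer {x0 x1 y0 y1 : ℤ} {e : (ℤ × ℤ) × Bool} (he : e ∈ rswInt (Finset.Ico x0 x1 ×ˢ Finset.Ico y0 y1))
    (hp : OnPolygon (Finset.Ico x0 x1 ×ˢ Finset.Ico y0 y1) e.1 ∨ OnPolygon (Finset.Ico x0 x1 ×ˢ Finset.Ico y0 y1) (rswEnd e)) :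
    e.1.1 = x0 ∨ e.1.1 = x1 - 1 ∨ e.1.2 = y0 ∨ e.1.2 = y1 - 1 := by
  obtain ⟨⟨x, y⟩, c⟩ := e
  rw [mdl41_mem_int] at he
  cases c <;> simp only [OnPolygon, mdl41c_mem_rect, rswCo, rswEnd, if_true, if_false, Bool.false_eq_true] at he hp ⊢ <;> omega

/-- a polygon vertex of a rectangle carries at most one interior edge -/
theorem wb201_rect_deg {x0 x1 y0 y1 : ℤ} {e e' : (ℤ × ℤ) × Bool} (he : e ∈ rswInt (Finset.Ico x0 x1 ×ˢ Finset.Ico y0 y1))
    (he' : e' ∈ rswInt (Finset.Ico x0 x1 ×ˢ Finset.Ico y0 y1)) {u : ℤ × ℤ}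
    (hu : OnPolygon (Finset.Ico x0 x1 ×ˢ Finset.Ico y0 y1) u) (h : e.1 = u ∨ rswEnd e = u) (h' : e'.1 = u ∨ rswEnd e' = u) :
    e = e' := by
  obtain ⟨⟨x, y⟩, c⟩ := e
  obtain ⟨⟨x', y'⟩, c'⟩ := e'
  obtain ⟨p, q⟩ := u
  rw [mdl41_mem_int] at he he'
  cases c <;> cases c' <;>
    simp only [OnPolygon, mdl41c_mem_rect, rswCo, rswEnd, if_true, if_false, Bool.false_eq_true, Prod.mk.injEq, and_true,
      and_false, reduceCtorEq] at he he' hu h h' ⊢ <;> omega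

/-- no interior edge of a rectangle with sides `≥ 2` has both ends on the polygon -/
theorem wb201_rect_thin {x0 x1 y0 y1 : ℤ} (hx : x0 + 2 ≤ x1) (hy : y0 + 2 ≤ y1) {e : (ℤ × ℤ) × Bool}
    (he : e ∈ rswInt (Finset.Ico x0 x1 ×ˢ Finset.Ico y0 y1)) :
    ¬ (OnPolygon (Finset.Ico x0 x1 ×ˢ Finset.Ico y0 y1) e.1 ∧ OnPolygon (Finset.Ico x0 x1 ×ˢ Finset.Ico y0 y1) (rswEnd e)) := by
  obtain ⟨⟨x, y⟩, c⟩ := e
  rw [mdl41_mem_int] at he
  cases c <;> simp only [OnPolygon, mdl41c_mem_rect, rswCo, rswEnd, if_true, if_false, Bool.false_eq_true] at he ⊢ <;> omega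

/-- a predicate which agrees across the interior edges hanging at the polygon of a rectangle is constant on the boundary layer -/
theorem wb201_layer_const {x0 x1 y0 y1 : ℤ} (hx : x0 + 1 ≤ x1) (hy : y0 + 1 ≤ y1) {Q : ℤ × ℤ → Prop}
    (h : ∀ e ∈ rswInt (Finset.Ico x0 x1 ×ˢ Finset.Ico y0 y1),
      (OnPolygon (Finset.Ico x0 x1 ×ˢ Finset.Ico y0 y1) e.1 ∨ OnPolygon (Finset.Ico x0 x1 ×ˢ Finset.Ico y0 y1) (rswEnd e)) →
      (Q e.1 ↔ Q (rswCo e))) {f : ℤ × ℤ} (hf : f ∈ Finset.Ico x0 x1 ×ˢ Finset.Ico y0 y1)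
    (hl : f.1 = x0 ∨ f.1 = x1 - 1 ∨ f.2 = y0 ∨ f.2 = y1 - 1) : Q f ↔ Q (x0, y0) := by
  have key : ∀ a b c d : ℤ, x0 ≤ a → b ≤ x1 → y0 ≤ c → d ≤ y1 →
      ((c = y0 ∧ d = y0 + 1) ∨ (c = y1 - 1 ∧ d = y1) ∨ (a = x0 ∧ b = x0 + 1) ∨ (a = x1 - 1 ∧ b = x1)) →
      ∀ f g, f ∈ Finset.Ico a b ×ˢ Finset.Ico c d → g ∈ Finset.Ico a b ×ˢ Finset.Ico c d → (Q f ↔ Q g) := by
    intro a b c d h1 h2 h3 h4 hcase f g hf hg
    refine wb201_const_join (P := Finset.Ico a b ×ˢ Finset.Ico c d) (fun e e1 e2 => ?_) (mdl41c_rect_conn hf hg)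
    have he : e ∈ rswInt (Finset.Ico x0 x1 ×ˢ Finset.Ico y0 y1) := by
      rw [mdl41_mem_int]
      rw [mdl41c_mem_rect] at e1 e2 ⊢
      rw [mdl41c_mem_rect]
      omega
    refine h e he ?_
    obtain ⟨⟨x, y⟩, k⟩ := e
    cases k <;> simp only [OnPolygon, mdl41c_mem_rect, rswCo, rswEnd, if_true, if_false, Bool.false_eq_true] at e1 e2 ⊢ <;> omega
  obtain ⟨x, y⟩ := f
  rw [mdl41c_mem_rect] at hf
  simp only at hf hl
  have bot := key x0 x1 y0 (y0 + 1) le_rfl le_rfl le_rfl (by omega) (Or.inl ⟨rfl, rfl⟩)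
  have top := key x0 x1 (y1 - 1) y1 le_rfl le_rfl (by omega) le_rfl (Or.inr (Or.inl ⟨rfl, rfl⟩))
  have lft := key x0 (x0 + 1) y0 y1 le_rfl (by omega) le_rfl le_rfl (Or.inr (Or.inr (Or.inl ⟨rfl, rfl⟩)))
  have rgt := key (x1 - 1) x1 y0 y1 (by omega) le_rfl le_rfl le_rfl (Or.inr (Or.inr (Or.inr ⟨rfl, rfl⟩)))
  rcases hl with hl | hl | hl | hl
  · exact lft _ _ (mdl41c_mem_rect.2 (by simp only; omega)) (mdl41c_mem_rect.2 (by simp only; omega))
  · exact (rgt (x, y) (x1 - 1, y0) (mdl41c_mem_rect.2 (by simp only; omega)) (mdl41c_mem_rect.2 (by simp only; omega))).trans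
      (bot _ _ (mdl41c_mem_rect.2 (by simp only; omega)) (mdl41c_mem_rect.2 (by simp only; omega)))
  · exact bot _ _ (mdl41c_mem_rect.2 (by simp only; omega)) (mdl41c_mem_rect.2 (by simp only; omega))
  · exact (top (x, y) (x0, y1 - 1) (mdl41c_mem_rect.2 (by simp only; omega)) (mdl41c_mem_rect.2 (by simp only; omega))).trans
      (lft _ _ (mdl41c_mem_rect.2 (by simp only; omega)) (mdl41c_mem_rect.2 (by simp only; omega)))

/-- a predicate which agrees across the four edges at an inner vertex is constant on its star -/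
theorem wb201_star_const {B : Finset (ℤ × ℤ)} {u : ℤ × ℤ} (hu : ¬ OnPolygon B u) {Q : ℤ × ℤ → Prop}
    (h : ∀ e ∈ rswInt B, (e.1 = u ∨ rswEnd e = u) → (Q e.1 ↔ Q (rswCo e))) {e : (ℤ × ℤ) × Bool}
    (he : e.1 = u ∨ rswEnd e = u) : Q e.1 ↔ Q u := by
  unfold OnPolygon at hu
  rw [not_not] at hu
  obtain ⟨h11, h01, h10, h00⟩ := hu
  have E1 := h (u, false) (mdl41_mem_int.2 ⟨h11, by simpa [rswCo] using h10⟩) (Or.inl rfl)
  have E2 := h (u, true) (mdl41_mem_int.2 ⟨h11, by simpa [rswCo] using h01⟩) (Or.inl rfl)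
  simp only [rswCo, if_true, if_false, Bool.false_eq_true] at E1 E2
  rcases he with he | he
  · rw [he]
  · obtain ⟨⟨x, y⟩, c⟩ := e
    obtain ⟨p, q⟩ := u
    cases c
    · simp only [rswEnd, if_false, Bool.false_eq_true, Prod.mk.injEq] at he
      obtain ⟨r1, r2⟩ := he
      have : x = p - 1 := by omega
      subst this; subst r2
      exact E2.symm
    · simp only [rswEnd, if_true, Prod.mk.injEq] at he
      obtain ⟨r1, r2⟩ := he
      have : y = q - 1 := by omega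
      subst this; subst r1
      exact E1.symm

/-- the ends of an edge between a face of `Ch` and a face off `Ch` lie on the polygon of `Ch` -/
theorem wb201_wall_vertex {Ch : Finset (ℤ × ℤ)} {e : (ℤ × ℤ) × Bool} (hd : Mdl41Dis Ch e) {u : ℤ × ℤ}
    (hat : e.1 = u ∨ rswEnd e = u) : u ∈ cornersOf Ch ∧ u ∉ rskCore Ch := by
  obtain ⟨⟨x, y⟩, k⟩ := e
  rw [rsk_mem_corners, rsk_mem_core]
  unfold Mdl41Dis at hd
  cases k <;> rcases hat with rfl | rfl <;>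
    simp only [rswCo, rswEnd, if_true, if_false, Bool.false_eq_true, add_sub_cancel_right] at hd ⊢ <;> tauto

theorem wb201_prop1 {p q r s : Prop} (h1 : ¬ (p ↔ q)) (h2 : ¬ (r ↔ s)) : ((p ↔ r) ↔ (q ↔ s)) := by tauto

theorem wb201_prop2 {p q r s : Prop} (h1 : ¬ ¬ (p ↔ q)) (h2 : ¬ ¬ (r ↔ s)) : ((p ↔ r) ↔ (q ↔ s)) := by tauto

theorem wb201_prop3 {p q p1 q1 K : Prop} (l1 : (p ↔ p1) ↔ K) (l2 : (q ↔ q1) ↔ K) (l3 : p1 ↔ q1) : p ↔ q := by tauto

theorem wb201_prop4 {p q : Prop} (h : (p ∧ ¬ q) ∨ (¬ p ∧ q)) : ¬ (p ↔ q) := by tauto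

/-- **(W3) ONE FACE SPIN**, rectangles (exactness road: no planar duality, no count of the ends of the wall) -/
theorem wb201_gc {t : ℝ} {x0 x1 y0 y1 : ℤ} (hx : x0 + 2 ≤ x1) (hy : y0 + 2 ≤ y1) {Ch : Finset (ℤ × ℤ)}
    (hCh : Ch ⊆ Finset.Ico x0 x1 ×ˢ Finset.Ico y0 y1) (hc : ∀ f ∈ Ch, ∀ g ∈ Ch, Mdl41cJoin Ch f g)
    (hxx : ∀ f ∈ (Finset.Ico x0 x1 ×ˢ Finset.Ico y0 y1) \ Ch, ∀ g ∈ (Finset.Ico x0 x1 ×ˢ Finset.Ico y0 y1) \ Ch,
      Mdl41cJoin ((Finset.Ico x0 x1 ×ˢ Finset.Ico y0 y1) \ Ch) f g) (a : Bool) :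
    WlGC t (Finset.Ico x0 x1 ×ˢ Finset.Ico y0 y1) Ch a := by
  classical
  set B := Finset.Ico x0 x1 ×ˢ Finset.Ico y0 y1 with hB
  intro ω hw h1 h2
  obtain ⟨hbc, hfac⟩ := wb201_wt_ne hw
  let c : ℤ × ℤ → Prop := fun v => ¬ (v ∈ ω.S ↔ a = true)
  have hopen : ∀ e ∈ mdl41DisSet B ω.D, e ∈ ω.O ∧ (e.1 ∈ ω.S ↔ rswEnd e ∈ ω.S) := by
    intro e he
    obtain ⟨hi, hd⟩ := mdl41_mem_disSet.1 he
    have : e ∈ ω.O := by
      by_contra hO
      exact hd ((hfac e hi).2 hO)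
    exact ⟨this, (hfac e hi).1 this⟩
  have hev := wb201_even_part B ω.D c (fun e he => by simp only [c]; rw [(hopen e he).2])
  obtain ⟨D₁, -, hD₁⟩ := mdl41_exists_D (mdl41c_rect_ext x0 x1 y0 y1) hev
  have hpol : ∀ v ∈ cornersOf B, OnPolygon B v → c v := by
    intro v hv hp
    have := hbc v hv hp
    simp only [c]
    cases a <;> simp_all
  let Qa : ℤ × ℤ → Prop := fun f => (f ∈ ω.D ↔ f ∈ D₁)
  have hQa : ∀ e ∈ rswInt B, (OnPolygon B e.1 ∨ OnPolygon B (rswEnd e)) → (Qa e.1 ↔ Qa (rswCo e)) := by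
    intro e he hp
    have hD := hD₁ e he
    by_cases hd : Mdl41Dis ω.D e
    · have hmem : e ∈ mdl41DisSet B ω.D := mdl41_mem_disSet.2 ⟨he, hd⟩
      have hce : c e.1 := by
        rcases hp with hp | hp
        · exact hpol _ (rsk_int_fst he) hp
        · have := hpol _ (rsk_int_end he) hp
          simp only [c] at this ⊢
          rw [(hopen e hmem).2]
          exact this
      have h3 : Mdl41Dis D₁ e := hD.1 (Finset.mem_filter.2 ⟨hmem, hce⟩)
      exact wb201_prop1 hd h3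
    · have h3 : ¬ Mdl41Dis D₁ e := fun h => hd (mdl41_mem_disSet.1 (Finset.mem_filter.1 (hD.2 h)).1).2
      exact wb201_prop2 hd h3
  have hstar : ∀ u, ¬ OnPolygon B u → ¬ c u → ∀ e : (ℤ × ℤ) × Bool, (e.1 = u ∨ rswEnd e = u) → (e.1 ∈ D₁ ↔ u ∈ D₁) := by
    intro u hu hcu e he
    refine wb201_star_const (Q := fun f => f ∈ D₁) hu (fun e' he' hat => ?_) he
    have h3 : ¬ Mdl41Dis D₁ e' := by
      intro hdis
      have hm := Finset.mem_filter.1 ((hD₁ e' he').2 hdis)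
      have c1 : c e'.1 := hm.2
      have c2 : c (rswEnd e') := by
        simp only [c] at c1 ⊢
        rw [← (hopen e' hm.1).2]
        exact c1
      rcases hat with r | r
      · exact hcu (r ▸ c1)
      · exact hcu (r ▸ c2)
    unfold Mdl41Dis at h3
    exact not_not.1 h3
  set Γ := mdl41DisSet B Ch with hΓdef
  have hwv : ∀ e ∈ Γ, ∀ u, (e.1 = u ∨ rswEnd e = u) → ¬ OnPolygon B u → ¬ c u := by
    intro e he u hat hu
    obtain ⟨k1, k2⟩ := wb201_wall_vertex (mdl41_mem_disSet.1 he).2 hat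
    exact not_not.2 (h1 u k1 k2 hu)
  set S' := (cornersOf B).filter (fun v => ∃ e ∈ Γ, (e.1 = v ∨ rswEnd e = v) ∧ e.1 ∈ D₁) with hS'
  have hlab : ∀ e ∈ Γ, ∀ u, (e.1 = u ∨ rswEnd e = u) → (u ∈ S' ↔ e.1 ∈ D₁) := by
    intro e he u hat
    have heB := (mdl41_mem_disSet.1 he).1
    have hucor : u ∈ cornersOf B := by
      rcases hat with r | r
      · exact r ▸ rsk_int_fst heB
      · exact r ▸ rsk_int_end heB
    constructor
    · intro hu
      obtain ⟨e₁, he₁, hat₁, hl₁⟩ := (Finset.mem_filter.1 hu).2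
      by_cases hp : OnPolygon B u
      · have := wb201_rect_deg heB (mdl41_mem_disSet.1 he₁).1 hp hat hat₁
        rw [this]
        exact hl₁
      · have hcu := hwv e he u hat hp
        exact (hstar u hp hcu e hat).2 ((hstar u hp hcu e₁ hat₁).1 hl₁)
    · intro hl
      exact Finset.mem_filter.2 ⟨hucor, e, he, hat, hl⟩
  have hmono := mdl41c_mono_wall (ω := ⟨S', ∅, Γ⟩) (mdl41c_rect_ext x0 x1 y0 y1) hCh hc hxx
    (fun e he => ⟨he, by
      show e.1 ∈ S' ↔ rswEnd e ∈ S'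
      rw [hlab e he _ (Or.inl rfl), hlab e he _ (Or.inr rfl)]⟩)
  have hall : ∀ e ∈ Γ, ∀ e' ∈ Γ, (e.1 ∈ D₁ ↔ e'.1 ∈ D₁) := by
    intro e he e' he'
    rw [← hlab e he _ (Or.inl rfl), ← hlab e' he' _ (Or.inl rfl)]
    rcases hmono with hm | hm
    · have r1 : e.1 ∈ S' ↔ true = true := (hm e he).2.1
      have r2 : e'.1 ∈ S' ↔ true = true := (hm e' he').2.1
      rw [r1, r2]
    · have r1 : e.1 ∈ S' ↔ false = true := (hm e he).2.1
      have r2 : e'.1 ∈ S' ↔ false = true := (hm e' he').2.1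
      rw [r1, r2]
  intro e he e' he' hb hb' hO hO'
  have mk : ∀ e ∈ rswInt B, RskBd Ch e → e ∉ ω.O → e ∈ Γ ∧ (Qa e.1 ↔ Qa (x0, y0)) := by
    intro e he hb hO
    have hΓ : e ∈ Γ := mdl41_mem_disSet.2 ⟨he, wb201_prop4 hb⟩
    have hpe : OnPolygon B e.1 ∨ OnPolygon B (rswEnd e) := by
      by_contra hcon
      rw [not_or] at hcon
      exact hO (h2 e hΓ hcon.1 hcon.2)
    exact ⟨hΓ, wb201_layer_const (by omega) (by omega) hQa (mdl41_mem_int.1 he).1 (wb201_rect_layer he hpe)⟩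
  obtain ⟨g1, l1⟩ := mk e he hb hO
  obtain ⟨g2, l2⟩ := mk e' he' hb' hO'
  have l3 := hall e g1 e' g2
  exact wb201_prop3 l1 l2 l3

end W3

section InB

open Relation

/-- **THE PART OF (WB) INSIDE `B`** (ORDER MODEL-5 of 191, VERBATIM): in the flat problem `(B, !a)`, under the lowered data, the blocking event has conditional probability `≥ p`
(W2 screening against the filled event, W3 twice, (S0) in `B`, positivity of the filled event, W5). -/
theorem wb201_inB {t p : ℝ} (ht0 : 0 < t) (ht2 : t < 1) {F B Ch : Finset (ℤ × ℤ)} (hin : ∀ v ∈ cornersOf B, ¬ OnPolygon F v) (hCh : Ch ⊆ B)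
    (hthin : ∀ e ∈ rswInt B, ¬ (OnPolygon B e.1 ∧ OnPolygon B (rswEnd e))) (a : Bool) (ω₀ : RswCfg)
    (hfkg : MdlFkgAt t B (!a) a mdlPin0) (hScr : WlScreen t B Ch (!a)) (hGC : WlGC t B Ch a)
    {J : Finset (ℤ × ℤ)} {ρ : ℕ} (hp : p ≤ rswP t B (!a) (WlBlk0 J ρ a)) (hp0 : 0 ≤ p) :
    p * rswSum t B (!a) (wlYin F B Ch a ω₀) ≤ rswSum t B (!a) (fun ω => wlYin F B Ch a ω₀ ω * mdlInd (WlBlk J ρ Ch a) ω) := by
  classical
  set X := mdlInd (WlBlk J ρ Ch a) with hX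
  set Y := wlYin F B Ch a ω₀ with hYdef
  set Y₂ := mdlInd (WlFillEv B Ch a) with hY₂
  have hYo : RskOutside Ch Y := by
    rw [hYdef]
    unfold wlYin
    exact wl_pin_outside (fun v hv => (Finset.mem_sdiff.1 hv).2) (fun e he => (Finset.mem_sdiff.1 he).2) _
  have hYb : WlBlind Y := by
    rw [hYdef]
    unfold wlYin
    exact wl_pin_blind _ _ _
  have hY0 : ∀ ω, 0 ≤ Y ω := fun ω => by
    rw [hYdef]
    unfold wlYin
    exact mdl_ind_nonneg _ _
  have hscr := hScr (wlBeta B a) X Y Y₂ (wl_blk_inside J ρ Ch a) (wl_blk_blind J ρ Ch a)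
    hYo hYb (wl_fill_outside B Ch a) (wl_fill_blind B Ch a)
    (fun ω hw hne => by
      have hs := wl_low_seal hin hCh hthin a ω₀ hne
      exact ⟨hs, hGC ω hw (wl_seal_gc hCh hs).1 (wl_seal_gc hCh hs).2⟩)
    (fun ω hw hne => by
      have hs := wl_fill_seal hCh hthin a hw hne
      exact ⟨hs, hGC ω hw (wl_seal_gc hCh hs).1 (wl_seal_gc hCh hs).2⟩)
  have hfkg' := hfkg Y₂ X (mdl_inc_ind (wl_fill_inc B Ch a)) (mdl_inc_ind (wl_blk_inc J ρ Ch a))
  simp only [mdlx_sumK_pin0] at hfkg'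
  have hZ := rsk_sum_one_pos ht0 ht2.le B (!a)
  have hpos : 0 < rswSum t B (!a) Y₂ := wl_fill_pos ht0 ht2 B Ch (!a) a
  have h5 : p * rswSum t B (!a) (fun _ => 1) ≤ rswSum t B (!a) X := by
    have h6 : p * rswSum t B (!a) (fun _ => 1) ≤ rswSum t B (!a) (mdlInd (WlBlk0 J ρ a)) := by
      rw [mdl_P_eq] at hp
      unfold rswE at hp
      rwa [le_div_iff₀ hZ] at hp
    refine le_trans h6 (mdlx_sum_mono ht0.le ht2.le B (!a) fun ω => ?_)
    by_cases h : WlBlk0 J ρ a ω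
    · rw [mdl_ind_pos h, hX, mdl_ind_pos (wl_blk0_le Ch h)]
    · rw [mdl_ind_neg h]
      exact mdl_ind_nonneg _ _
  have hYs : 0 ≤ rswSum t B (!a) Y := mdlx_sum_nonneg ht0.le ht2.le B (!a) hY0
  have h7 : p * rswSum t B (!a) Y₂ ≤ rswSum t B (!a) (fun ω => Y₂ ω * X ω) := by
    have h8 : rswSum t B (!a) (fun _ => 1) * (p * rswSum t B (!a) Y₂)
        ≤ rswSum t B (!a) (fun _ => 1) * rswSum t B (!a) (fun ω => Y₂ ω * X ω) := by
      calc rswSum t B (!a) (fun _ => 1) * (p * rswSum t B (!a) Y₂)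
          = rswSum t B (!a) Y₂ * (p * rswSum t B (!a) (fun _ => 1)) := by ring
        _ ≤ rswSum t B (!a) Y₂ * rswSum t B (!a) X := mul_le_mul_of_nonneg_left h5 hpos.le
        _ ≤ _ := hfkg'
    exact le_of_mul_le_mul_left h8 hZ
  have h9 : rswSum t B (!a) Y₂ * (p * rswSum t B (!a) Y) ≤ rswSum t B (!a) Y₂ * rswSum t B (!a) (fun ω => Y ω * X ω) := by
    calc rswSum t B (!a) Y₂ * (p * rswSum t B (!a) Y) = (p * rswSum t B (!a) Y₂) * rswSum t B (!a) Y := by ring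
      _ ≤ rswSum t B (!a) (fun ω => Y₂ ω * X ω) * rswSum t B (!a) Y := mul_le_mul_of_nonneg_right h7 hYs
      _ = rswSum t B (!a) (fun ω => Y ω * X ω) * rswSum t B (!a) Y₂ := hscr.symm
      _ = _ := by ring
  exact le_of_mul_le_mul_left h9 hpos

end InB

/-- the equation lemmas of the definitions of this file are generated HERE, once (RULES.md, rule 6) -/
theorem wb201_eqns_cite : True := by
  have := @wb201A1.eq_1.{0}
  have := @wb201B1.eq_1.{0}
  have := @wb201A2.eq_1.{0}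
  have := @wb201B2.eq_1.{0}
  have := @wb201Col.eq_1
  trivial

end Claimed.Agent.R292
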