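import Claimed.Agent.R292.Model.Circ1
import Claimed.Agent.R292.Model.Count41
import Claimed.Agent.R292.Model.Wall191
import Claimed.Agent.R292.Model.BoxPin101
import Claimed.Agent.R292.Model.Wb201

/-!
# Row 292 (S0540), unit MODEL, (S2) wall blocking (WB), steps (4) + (5) of the blueprint of `Model/Count41`      (helper101; prefix `wbc101_`, `Wbc101`, `wbc101`)

TEX 03-spatial l.917-985, last part: the chain of circuits in the central strip.

* `Wbc101Blk P a Cs r R ω` : around every centre `x ∈ Cs` the good edges of colour `a` separate, INSIDE `P`, the faces of `Λ_r(x)` from the faces off `Λ_R(x)`.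
  It is increasing in the colour `a` (`wbc101_blk_inc`), it is read inside `P` (`wbc101_blk_inside`), it passes to subsets of `P` (`wbc101_blk_mono`: no fill is needed in the
  deterministic part: blocking in `F` gives blocking in the chamber).
* (5) `wbc101_nox_of` / `wbc101_nox` : blocking inside the chamber kills every chain of `N` of `Ch ∩ R` from the inner row to the outer row.
* (4) `wbc101_chain` : under ANY prescriptions `K` (Ok, positively associated) which do not touch the open rectangle `B`, blocking in `F` has conditional probability `≥ p(k, t)`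
  (`mdl1_atom` of helper1 = base lemma of 191 + FKG; `hcirc` = the conclusion of `mdl1t_circuit`).
* `wbc101_chain'` : the same with `hcirc` discharged by `mdl1t_circuit` (closure: `exit_rsw_circuit`).
* sec 5 **`wbc101_wlchain`** : the record (W5) + (W6) `WlChain` of `Model/Wall191` (order MODEL-5 of 191) VERBATIM, lateral width `n - 1`, from `hcirc`; no sorry in the closure; `wbc101_wlchain_half` (width `n / 2` of Count41 v5), `wbc101_wlchain_w` (all `w` with `n ≤ 2 w + 1`).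
* sec 6 **`wbc101_screen`** : the record (W2) `WlScreen` of `Model/Wall191` VERBATIM (exact screening: `rsk_seal_cross` + global flip `rsk_flip_sum` of `Rsw/Cut91`), all `t`, no sorry.
* sec 8-9 shell facts and **THE TOP `wbc101_wb : Mdl41cWB t`**, `wbc101_trans : Mdl41cTrans t k` (= (S2) `exit_mdl_trans`), from `hcirc` alone.
* sec 7 **`wbc101_ends_h`, `wbc101_ends_v`** : (E) the two ends of the wall (for (W3) `WlGC` of 41): at most two edges of the wall touch the polygon of the rectangle (`mdl41c_meet` in the rectangle with one extra row / column).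
-/

set_option autoImplicit false

namespace Claimed.Agent.R292

open Claims Claims.C0468

/-! ## 1. the blocking event -/

/-- around every centre of `Cs` the good edges of colour `a` separate `Λ_r(x)` from the complement of `Λ_R(x)` inside `P` -/
def Wbc101Blk (P : Finset (ℤ × ℤ)) (a : Bool) (Cs : Finset (ℤ × ℤ)) (r R : ℕ) (ω : RswCfg) : Prop :=
  ∀ x ∈ Cs, RswSep P a ω (rswBox x r ∩ P) (P \ rswBox x R)

theorem wbc101_blk_inc (P : Finset (ℤ × ℤ)) (a : Bool) (Cs : Finset (ℤ × ℤ)) (r R : ℕ) : MdlIncP a (Wbc101Blk P a Cs r R) :=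
  fun _ _ hle h x hx => mdl1_sep_mono hle.2.1 (h x hx)

theorem wbc101_blk_mono {P P' : Finset (ℤ × ℤ)} (hP : P ⊆ P') {a : Bool} {Cs : Finset (ℤ × ℤ)} {r R : ℕ} {ω : RswCfg}
    (h : Wbc101Blk P' a Cs r R ω) : Wbc101Blk P a Cs r R ω := by
  intro x hx f hf g hg hp
  refine h x hx f (Finset.mem_inter.2 ⟨(Finset.mem_inter.1 hf).1, hP (Finset.mem_inter.1 hf).2⟩) g
    (Finset.mem_sdiff.2 ⟨hP (Finset.mem_sdiff.1 hg).1, (Finset.mem_sdiff.1 hg).2⟩) (Relation.ReflTransGen.mono ?_ f g hp)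
  rintro u v ⟨h1, h2, e, h3, h4⟩
  exact ⟨hP h1, hP h2, e, h3, h4⟩

theorem wbc101_blk_inside (P : Finset (ℤ × ℤ)) (a : Bool) (Cs : Finset (ℤ × ℤ)) (r R : ℕ) :
    RskInside P (mdlInd (Wbc101Blk P a Cs r R)) := by
  intro ω
  have : RswStep P a (rskIn P ω) = RswStep P a ω := by
    funext f g
    exact propext mdl1_step_in
  unfold mdlInd Wbc101Blk RswSep
  rw [this]

/-- the separations in `F` of helper1 give the blocking in `F` -/
theorem wbc101_blk_of_sep {F : Finset (ℤ × ℤ)} {a : Bool} {Cs : Finset (ℤ × ℤ)} {r R : ℕ} {ω : RswCfg}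
    (h : ∀ x ∈ Cs, RswSep F a ω (rswBox x r) (F \ rswBox x R)) : Wbc101Blk F a Cs r R ω :=
  fun x hx f hf g hg => h x hx f (Finset.mem_inter.1 hf).1 g hg

/-! ## 2. (5) deterministic -/

theorem wbc101_conn_mem {P : Finset (ℤ × ℤ)} {ω : RswCfg} {f g : ℤ × ℤ} (h : MdlNConn P ω f g) (hf : f ∈ P) : g ∈ P := by
  unfold MdlNConn at h
  cases h with
  | refl => exact hf
  | tail _ h2 => exact h2.2.1

/-- a chain of `N` from below the level `m` to above it has a face on the level `m` -/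
theorem wbc101_level {P : Finset (ℤ × ℤ)} {ω : RswCfg} (z : ℤ × ℤ) (d : Fin 4) (m : ℤ) {f g : ℤ × ℤ}
    (h : MdlNConn P ω f g) (hf : cnt101Phi z d f ≤ m) (hg : m ≤ cnt101Phi z d g) :
    ∃ u, cnt101Phi z d u = m ∧ MdlNConn P ω f u ∧ MdlNConn P ω u g := by
  unfold MdlNConn at h ⊢
  induction h using Relation.ReflTransGen.head_induction_on with
  | refl => exact ⟨g, le_antisymm hf hg, Relation.ReflTransGen.refl, Relation.ReflTransGen.refl⟩
  | @head f f' hff' hrest ih =>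
    by_cases hm : cnt101Phi z d f = m
    · exact ⟨f, hm, Relation.ReflTransGen.refl, Relation.ReflTransGen.head hff' hrest⟩
    · have := cnt101_phi_step z d hff'
      obtain ⟨u, h1, h2, h3⟩ := ih (by omega)
      exact ⟨u, h1, Relation.ReflTransGen.head hff' h2, h3⟩

/-- **(5)**, abstract form -/
theorem wbc101_nox_of {Ch Rr Bot Top : Finset (ℤ × ℤ)} {a : Bool} {Cs : Finset (ℤ × ℤ)} {r R : ℕ} {ω : RswCfg}
    (z : ℤ × ℤ) (d : Fin 4) (m : ℤ) (hBot : ∀ f ∈ Bot, cnt101Phi z d f ≤ m) (hTop : ∀ g ∈ Top, m ≤ cnt101Phi z d g)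
    (hcov : ∀ u ∈ Rr, cnt101Phi z d u = m → ∃ x ∈ Cs, u ∈ rswBox x r)
    (hfar : ∀ x ∈ Cs, ∀ g ∈ Top, g ∉ rswBox x R)
    (h : Wbc101Blk Ch a Cs r R ω) : Mdl41cNoX (Ch ∩ Rr) Bot Top ω := by
  intro f hf g hg hfP hc
  obtain ⟨u, hu, h1, h2⟩ := wbc101_level z d m hc (hBot f hf) (hTop g hg)
  have huP := wbc101_conn_mem h1 hfP
  have hgP := wbc101_conn_mem h2 huP
  obtain ⟨x, hx, hux⟩ := hcov u (Finset.mem_inter.1 huP).2 hu
  refine h x hx u (Finset.mem_inter.2 ⟨hux, (Finset.mem_inter.1 huP).1⟩) g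
    (Finset.mem_sdiff.2 ⟨(Finset.mem_inter.1 hgP).1, hfar x hx g hg⟩) ?_
  refine Relation.ReflTransGen.mono ?_ u g h2
  rintro p q ⟨h1, h2, e, h3, h4⟩
  exact ⟨(Finset.mem_inter.1 h1).1, (Finset.mem_inter.1 h2).1, e, h3, fun h5 => h4 h5.1⟩

/-! ## 3. the rectangles of 41 in the radial coordinate -/

theorem wbc101_seed_phi (z : ℤ × ℤ) (r0 r1 : ℕ) (d : Fin 4) (i : ℕ) : cnt101Phi z d (mdl41cSeed z r0 r1 d i) = r0 := by
  rcases mdl41c_fin4 d with rfl | rfl | rfl | rfl <;>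
    simp [mdl41cSeed, mdl41cFr, mdl41c_frame_apply, cnt101Phi] <;> omega

theorem wbc101_top_phi (z : ℤ × ℤ) {r0 r1 : ℕ} (hr : r0 < r1) (d : Fin 4) {g : ℤ × ℤ} (hg : g ∈ mdl41cTop z r0 r1 d) :
    cnt101Phi z d g = (r1 : ℤ) - 1 := by
  unfold mdl41cTop at hg
  rw [Finset.mem_map_equiv, mdl41c_mem_rect] at hg
  have hc : ((r1 - r0 : ℕ) : ℤ) = (r1 : ℤ) - r0 := Nat.cast_sub hr.le
  rw [hc] at hg
  rcases mdl41c_fin4 d with rfl | rfl | rfl | rfl
  · simp [mdl41cFr, mdl41c_frame_symm_apply] at hg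
    simp [cnt101Phi]
    omega
  · simp [mdl41cFr, mdl41c_frame_symm_apply] at hg
    simp [cnt101Phi]
    omega
  · simp [mdl41cFr, mdl41c_frame_symm_apply] at hg
    simp [cnt101Phi]
    omega
  · simp [mdl41cFr, mdl41c_frame_symm_apply] at hg
    simp [cnt101Phi]
    omega

theorem wbc101_mem_B (z : ℤ × ℤ) {r0 r1 : ℕ} (hr : r0 < r1) (w : ℕ) (d : Fin 4) {f : ℤ × ℤ} :
    f ∈ mdl41cB z r0 r1 w d ↔ f ∈ rswBox z (r1 + w) ∧ (r0 : ℤ) ≤ cnt101Phi z d f ∧ cnt101Phi z d f < r1 := by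
  unfold mdl41cB
  rw [Finset.mem_map_equiv, mdl41c_mem_rect, mdl1_mem_box]
  have hc : ((r1 - r0 : ℕ) : ℤ) = (r1 : ℤ) - r0 := Nat.cast_sub hr.le
  rw [hc]
  rcases mdl41c_fin4 d with rfl | rfl | rfl | rfl
  · simp [mdl41cFr, mdl41c_frame_symm_apply, cnt101Phi]
    omega
  · simp [mdl41cFr, mdl41c_frame_symm_apply, cnt101Phi]
    omega
  · simp [mdl41cFr, mdl41c_frame_symm_apply, cnt101Phi]
    omega
  · simp [mdl41cFr, mdl41c_frame_symm_apply, cnt101Phi]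
    omega

/-- the radial coordinate is `1`-Lipschitz in the sup distance -/
theorem wbc101_phi_box (z : ℤ × ℤ) (d : Fin 4) {x f : ℤ × ℤ} {r : ℕ} (hf : f ∈ rswBox x r) :
    cnt101Phi z d x - r ≤ cnt101Phi z d f ∧ cnt101Phi z d f ≤ cnt101Phi z d x + r := by
  rw [mdl1_mem_box] at hf
  rcases mdl41c_fin4 d with rfl | rfl | rfl | rfl <;> simp [cnt101Phi] <;> omega

/-- the enlarged small box around a face of the level `m` stays in the open rectangle `B` -/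
theorem wbc101_core {z u x : ℤ × ℤ} {r0 r1 w r R : ℕ} (hr : r0 < r1) (d : Fin 4) {m : ℤ} (hu : u ∈ rswBox z r1)
    (hum : cnt101Phi z d u = m) (hux : u ∈ rswBox x r) (h1 : (r0 : ℤ) + r + R + 1 ≤ m) (h2 : m + r + R + 1 < r1)
    (h3 : r + R + 1 ≤ w) : ∀ v ∈ cornersOf (rswBox x R), ¬ OnPolygon (mdl41cB z r0 r1 w d) v := by
  intro v hv
  rw [rsk_mem_corners] at hv
  unfold OnPolygon
  rw [not_not]
  simp only [wbc101_mem_B z hr, mdl1_mem_box] at hu hux hv ⊢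
  rcases mdl41c_fin4 d with rfl | rfl | rfl | rfl <;> simp [cnt101Phi] at hum ⊢ <;> omega

theorem wbc101_sub {z u x : ℤ × ℤ} {r0 r1 w r R : ℕ} (hr : r0 < r1) (d : Fin 4) {m : ℤ} (hu : u ∈ rswBox z r1)
    (hum : cnt101Phi z d u = m) (hux : u ∈ rswBox x r) (h1 : (r0 : ℤ) + r + R + 1 ≤ m) (h2 : m + r + R + 1 < r1)
    (h3 : r + R + 1 ≤ w) : rswBox x R ⊆ mdl41cB z r0 r1 w d := by
  intro f hf
  simp only [wbc101_mem_B z hr, mdl1_mem_box] at hu hux hf ⊢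
  rcases mdl41c_fin4 d with rfl | rfl | rfl | rfl <;> simp [cnt101Phi] at hum ⊢ <;> omega

/-! ## 4. (4) + (5): the chain of boxes on the level `m = kn + 4R` -/

/-- **(4) + (5) of (WB)**: one family of centres `Cs` and two radii for each rectangle; blocking inside ANY chamber kills the crossings of `N`; blocking in `F` has conditional
probability `≥ p` under any positively associated prescriptions which do not touch the open rectangle `B` (any lateral width `w ≥ (n - 1) / 2`). -/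
theorem wbc101_chain (t : ℝ) (ht1 : 1 / 2 ≤ t) (ht2 : t < 1)
    (hcirc : ∃ (κ n0 : ℕ) (p : ℝ), 2 ≤ κ ∧ 0 < p ∧ ∀ n : ℕ, n0 ≤ n → ∀ (x : ℤ × ℤ) (a : Bool),
      p ≤ rswP t (rswBox x (κ * n)) (!a)
        (fun ω => RswSep (rswBox x (κ * n)) a ω (rswBox x n) (rswLayer (rswBox x (κ * n))))) (k : ℕ) :
    ∃ p : ℝ, 0 < p ∧ ∃ n0 : ℕ, ∀ n : ℕ, n0 ≤ n → ∀ (z : ℤ × ℤ) (d : Fin 4), ∃ (Cs : Finset (ℤ × ℤ)) (r R : ℕ),
      (∀ (Ch : Finset (ℤ × ℤ)) (a : Bool) (ω : RswCfg), Wbc101Blk Ch a Cs r R ω →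
        Mdl41cNoX (Ch ∩ mdl41cR z (k * n) ((k + 1) * n) d)
          ((Finset.range (2 * ((k + 1) * n))).image (mdl41cSeed z (k * n) ((k + 1) * n) d))
          (mdl41cTop z (k * n) ((k + 1) * n) d) ω) ∧
      ∀ (w : ℕ), n ≤ 2 * w + 1 → ∀ (F : Finset (ℤ × ℤ)) (b a : Bool) (K : MdlPin), K.Ok → MdlFkgAt t F b a K →
        mdl41cB z (k * n) ((k + 1) * n) w d ⊆ F →
        (∀ v ∈ K.Sp ∪ K.Sm, OnPolygon (mdl41cB z (k * n) ((k + 1) * n) w d) v) →
        p * mdlSumK t F b K (fun _ => 1) ≤ mdlSumK t F b K (mdlInd (Wbc101Blk F a Cs r R)) := by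
  classical
  have ht0 : 0 < t := by linarith
  obtain ⟨κ, n0', p0, hκ, hp0, hc⟩ := hcirc
  have hp1 : 0 < min p0 1 := lt_min hp0 one_pos
  refine ⟨(min p0 1) ^ ((2 * (8 * κ * (k + 2))) ^ 2), pow_pos hp1 _, 8 * κ * (n0' + 1), ?_⟩
  intro n hn z d
  set r : ℕ := n / (8 * κ) with hr
  set R : ℕ := κ * r with hR
  have h8κ : 0 < 8 * κ := by omega
  have hr1 : n0' + 1 ≤ r := (Nat.le_div_iff_mul_le h8κ).2 (by rw [mul_comm]; exact hn)
  have h8R : 8 * R ≤ n := by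
    have := Nat.mul_div_le n (8 * κ)
    calc 8 * R = 8 * κ * (n / (8 * κ)) := by rw [hR, hr]; ring
      _ ≤ n := this
  have hrR : r ≤ R := Nat.le_mul_of_pos_left r (by omega)
  have hnlt : n < 8 * κ * (r + 1) := Nat.lt_mul_div_succ n h8κ
  have e1 : (k + 1) * n = k * n + n := by ring
  have hr01 : k * n < (k + 1) * n := by omega
  set r0 : ℕ := k * n with hr0
  set r1 : ℕ := (k + 1) * n with hr1'
  set m : ℤ := (r0 : ℤ) + 4 * R with hm
  set Mid : Finset (ℤ × ℤ) := (rswBox z r1).filter fun u => cnt101Phi z d u = m with hMid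
  set Cs : Finset (ℤ × ℤ) := Mid.image (mdl1Cen z r) with hCs
  have hb1 : (r0 : ℤ) + r + R + 1 ≤ m := by omega
  have hb2 : m + r + R + 1 < r1 := by omega
  have hcard : Cs.card ≤ (2 * (8 * κ * (k + 2))) ^ 2 := by
    refine mdl1_card_cen z (by omega) (H := r1) ?_ Mid (Finset.filter_subset _ _)
    have h2 : n ≤ 16 * κ * r := by
      have : 8 * κ * (r + 1) ≤ 16 * κ * r := by
        have : 8 * κ * 1 ≤ 8 * κ * r := Nat.mul_le_mul_left _ (by omega)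
        calc 8 * κ * (r + 1) = 8 * κ * r + 8 * κ * 1 := by ring
          _ ≤ 8 * κ * r + 8 * κ * r := by omega
          _ = 16 * κ * r := by ring
      omega
    calc r1 ≤ (k + 2) * n := Nat.mul_le_mul_right _ (by omega)
      _ ≤ (k + 2) * (16 * κ * r) := Nat.mul_le_mul_left _ h2
      _ = 2 * r * (8 * κ * (k + 2)) := by ring
  have hCsu : ∀ x ∈ Cs, ∃ u, u ∈ rswBox z r1 ∧ cnt101Phi z d u = m ∧ u ∈ rswBox x r := by
    intro x hx
    obtain ⟨u, hu, rfl⟩ := Finset.mem_image.1 hx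
    exact ⟨u, (Finset.mem_filter.1 hu).1, (Finset.mem_filter.1 hu).2, mdl1_mem_cen z (by omega) u⟩
  refine ⟨Cs, r, R, ?_, ?_⟩
  · intro Ch a ω hblk
    refine wbc101_nox_of z d m ?_ ?_ ?_ ?_ hblk
    · intro f hf
      obtain ⟨i, _, rfl⟩ := Finset.mem_image.1 hf
      rw [wbc101_seed_phi]
      omega
    · intro g hg
      rw [wbc101_top_phi z hr01 d hg]
      omega
    · intro u hu hum
      rw [mdl41c_R_eq z hr01 d] at hu
      exact ⟨mdl1Cen z r u, Finset.mem_image_of_mem _ (Finset.mem_filter.2 ⟨cnt101_rect_sub z r0 r1 d hu, hum⟩),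
        mdl1_mem_cen z (by omega) u⟩
    · intro x hx g hg hgx
      obtain ⟨u, _, hum, hux⟩ := hCsu x hx
      have h1 := wbc101_top_phi z hr01 d hg
      have h2 := (wbc101_phi_box z d hgx).2
      have h3 := (wbc101_phi_box z d hux).1
      omega
  · intro w hw F b a K hK hfkg hBF hKB
    have hb3 : r + R + 1 ≤ w := by omega
    have hZ : 0 ≤ mdlSumK t F b K (fun _ => 1) := mdl1_sumK_nonneg ht0.le ht2.le F b K (fun _ => zero_le_one)
    have h1 := mdl1_atom ht0 ht2 hBF b a hK hfkg hKB Cs hrR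
      (fun x hx => by
        obtain ⟨u, hu, hum, hux⟩ := hCsu x hx
        exact (wbc101_sub hr01 d hu hum hux hb1 hb2 hb3).trans hBF)
      (fun x hx => by
        obtain ⟨u, hu, hum, hux⟩ := hCsu x hx
        exact wbc101_core hr01 d hu hum hux hb1 hb2 hb3)
      hp1.le (fun x _ => le_trans (min_le_left _ _) (hc r (by omega) x a))
      (Q := Wbc101Blk F a Cs r R) (fun ω hall => wbc101_blk_of_sep hall)
    refine le_trans (mul_le_mul_of_nonneg_right ?_ hZ) h1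
    exact pow_le_pow_of_le_one hp1.le (min_le_right _ _) hcard

/-- the same, `hcirc` discharged by `mdl1t_circuit` (closure: `exit_rsw_circuit`) -/
theorem wbc101_chain' (t : ℝ) (ht1 : 1 / 2 ≤ t) (ht2 : t < 1) (k : ℕ) :
    ∃ p : ℝ, 0 < p ∧ ∃ n0 : ℕ, ∀ n : ℕ, n0 ≤ n → ∀ (z : ℤ × ℤ) (d : Fin 4), ∃ (Cs : Finset (ℤ × ℤ)) (r R : ℕ),
      (∀ (Ch : Finset (ℤ × ℤ)) (a : Bool) (ω : RswCfg), Wbc101Blk Ch a Cs r R ω →
        Mdl41cNoX (Ch ∩ mdl41cR z (k * n) ((k + 1) * n) d)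
          ((Finset.range (2 * ((k + 1) * n))).image (mdl41cSeed z (k * n) ((k + 1) * n) d))
          (mdl41cTop z (k * n) ((k + 1) * n) d) ω) ∧
      ∀ (w : ℕ), n ≤ 2 * w + 1 → ∀ (F : Finset (ℤ × ℤ)) (b a : Bool) (K : MdlPin), K.Ok → MdlFkgAt t F b a K →
        mdl41cB z (k * n) ((k + 1) * n) w d ⊆ F →
        (∀ v ∈ K.Sp ∪ K.Sm, OnPolygon (mdl41cB z (k * n) ((k + 1) * n) w d) v) →
        p * mdlSumK t F b K (fun _ => 1) ≤ mdlSumK t F b K (mdlInd (Wbc101Blk F a Cs r R)) :=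
  wbc101_chain t ht1 ht2 (mdl1t_circuit t ht1 ht2) k

/-! ## 5. the record `WlChain` of `Model/Wall191` -/

/-- a chain of `N` of a part of the chamber which starts in `Λ` stays in `Λ` or reaches the layer of `Λ`, by steps of `WlStep` -/
theorem wbc101_reach {Λ Ch P : Finset (ℤ × ℤ)} (hP : P ⊆ Ch) (a : Bool) {ω : RswCfg} {f x : ℤ × ℤ} (hf : f ∈ Λ)
    (h : MdlNConn P ω f x) :
    (x ∈ Λ ∧ Relation.ReflTransGen (WlStep Λ Ch a ω) f x) ∨
      ∃ y ∈ rswLayer Λ, Relation.ReflTransGen (WlStep Λ Ch a ω) f y := by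
  unfold MdlNConn at h
  induction h with
  | refl => exact Or.inl ⟨hf, Relation.ReflTransGen.refl⟩
  | @tail y x _ hyx ih =>
    rcases ih with ⟨hy, hp⟩ | h
    · obtain ⟨hyP, hxP, e, he, hO⟩ := hyx
      by_cases hx : x ∈ Λ
      · refine Or.inl ⟨hx, hp.tail ⟨hy, hx, e, he, ?_, fun hg => hO hg.1⟩⟩
        rw [rsk_mem_int]
        rcases he with ⟨h1, h2⟩ | ⟨h1, h2⟩
        · exact ⟨h1 ▸ hP hyP, h2 ▸ hP hxP⟩
        · exact ⟨h1 ▸ hP hxP, h2 ▸ hP hyP⟩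
      · exact Or.inr ⟨y, cg101_layer_of_step hy hx he, hp⟩
    · exact Or.inr h

/-- **(W6)**, abstract form -/
theorem wbc101_nox_wl {Ch Rr Bot Top : Finset (ℤ × ℤ)} {a : Bool} {J : Finset (ℤ × ℤ)} {ρ : ℕ} {ω : RswCfg}
    (z : ℤ × ℤ) (d : Fin 4) (m : ℤ) (hBot : ∀ f ∈ Bot, cnt101Phi z d f ≤ m) (hTop : ∀ g ∈ Top, m ≤ cnt101Phi z d g)
    (hcov : ∀ u ∈ Rr, cnt101Phi z d u = m → ∃ x ∈ J, u ∈ rswBox x ρ)
    (hfar : ∀ x ∈ J, ∀ g ∈ Top, g ∉ rswBox x (2 * ρ))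
    (h : WlBlk J ρ Ch a ω) : Mdl41cNoX (Ch ∩ Rr) Bot Top ω := by
  intro f hf g hg hfP hc
  obtain ⟨u, hu, h1, h2⟩ := wbc101_level z d m hc (hBot f hf) (hTop g hg)
  have huP := wbc101_conn_mem h1 hfP
  obtain ⟨x, hx, hux⟩ := hcov u (Finset.mem_inter.1 huP).2 hu
  rcases wbc101_reach (Λ := rswBox x (2 * ρ)) (Finset.inter_subset_left) a (mdl1_box_mono x (by omega) hux) h2 with
    ⟨hgΛ, _⟩ | ⟨y, hy, hp⟩
  · exact hfar x hx g hg hgΛ
  · exact h x hx u hux y hy hp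

/-- the rectangles of 41 are Jordan domains -/
theorem wbc101_jordan_B (z : ℤ × ℤ) {r0 r1 : ℕ} (hr : r0 < r1) (w : ℕ) (d : Fin 4) : RswJordan (mdl41cB z r0 r1 w d) := by
  have h1 : (r0 : ℤ) < r1 := by exact_mod_cast hr
  have h0 : (0 : ℤ) ≤ r0 := Int.natCast_nonneg _
  have hw : (0 : ℤ) ≤ w := Int.natCast_nonneg _
  rcases mdl41c_fin4 d with rfl | rfl | rfl | rfl
  · have e : mdl41cB z r0 r1 w 0 = Finset.Ico (z.1 + r0) (z.1 + r1) ×ˢ Finset.Ico (z.2 - (r1 + w)) (z.2 + (r1 + w)) := by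
      ext f
      rw [wbc101_mem_B z hr, mdl1_mem_box, mdl41c_mem_rect]
      simp [cnt101Phi]
      omega
    rw [e]
    exact bp101_jordan_rect _ _ _ _ (by linarith) (by linarith)
  · have e : mdl41cB z r0 r1 w 1 = Finset.Ico (z.1 - r1) (z.1 - r0) ×ˢ Finset.Ico (z.2 - (r1 + w)) (z.2 + (r1 + w)) := by
      ext f
      rw [wbc101_mem_B z hr, mdl1_mem_box, mdl41c_mem_rect]
      simp [cnt101Phi]
      omega
    rw [e]
    exact bp101_jordan_rect _ _ _ _ (by linarith) (by linarith)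
  · have e : mdl41cB z r0 r1 w 2 = Finset.Ico (z.1 - (r1 + w)) (z.1 + (r1 + w)) ×ˢ Finset.Ico (z.2 + r0) (z.2 + r1) := by
      ext f
      rw [wbc101_mem_B z hr, mdl1_mem_box, mdl41c_mem_rect]
      simp [cnt101Phi]
      omega
    rw [e]
    exact bp101_jordan_rect _ _ _ _ (by linarith) (by linarith)
  · have e : mdl41cB z r0 r1 w 3 = Finset.Ico (z.1 - (r1 + w)) (z.1 + (r1 + w)) ×ˢ Finset.Ico (z.2 - r1) (z.2 - r0) := by
      ext f
      rw [wbc101_mem_B z hr, mdl1_mem_box, mdl41c_mem_rect]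
      simp [cnt101Phi]
      omega
    rw [e]
    exact bp101_jordan_rect _ _ _ _ (by linarith) (by linarith)

/-- **(W5)**, abstract form: FKG over the boxes in a flat Jordan problem -/
theorem wbc101_w5 {t : ℝ} (ht1 : 1 / 2 ≤ t) (ht2 : t < 1) {B : Finset (ℤ × ℤ)} (hB : RswJordan B) (c a : Bool)
    (J : Finset (ℤ × ℤ)) (ρ : ℕ) {c1 : ℝ} (hc1 : 0 ≤ c1)
    (h : ∀ x ∈ J, c1 ≤ rswP t B c
      (fun ω => RswSep (rswBox x (2 * ρ)) a ω (rswBox x ρ) (rswLayer (rswBox x (2 * ρ))))) :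
    c1 ^ J.card ≤ rswP t B c (WlBlk0 J ρ a) := by
  have ht0 : 0 < t := by linarith
  have hZ := rsk_sum_one_pos ht0 ht2.le B c
  have hfkg : MdlFkgAt t B c a mdlPin0 := fun X Y hX hY =>
    cmp291_exit_cmp t ht1 ht2 B hB c a mdlPin0 mdlx_pin0_ok X Y hX hY
  have key := mdl_fkg_prod ht0.le ht2.le hfkg J
    (fun x ω => RswSep (rswBox x (2 * ρ)) a ω (rswBox x ρ) (rswLayer (rswBox x (2 * ρ))))
    (fun x _ ω ω' hle hs => mdl1_sep_mono hle.2.1 hs) hc1 (fun x hx => by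
      rw [mdlx_sumK_pin0, mdlx_sumK_pin0]
      have := h x hx
      rw [mdl_P_eq] at this
      unfold rswE at this
      exact (le_div_iff₀ hZ).1 this)
  rw [mdlx_sumK_pin0, mdlx_sumK_pin0] at key
  rw [mdl_P_eq]
  unfold rswE
  exact (le_div_iff₀ hZ).2 key

/-- **(W5) + (W6): THE RECORD `WlChain` OF `Model/Wall191`**, every lateral width `w ≥ (n - 1) / 2` -/
theorem wbc101_wlchain_w (t : ℝ) (ht1 : 1 / 2 ≤ t) (ht2 : t < 1)
    (hcirc : ∃ (κ n0 : ℕ) (p : ℝ), 2 ≤ κ ∧ 0 < p ∧ ∀ n : ℕ, n0 ≤ n → ∀ (x : ℤ × ℤ) (a : Bool),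
      p ≤ rswP t (rswBox x (κ * n)) (!a)
        (fun ω => RswSep (rswBox x (κ * n)) a ω (rswBox x n) (rswLayer (rswBox x (κ * n))))) :
    ∀ k : ℕ, ∃ p : ℝ, 0 < p ∧ ∃ n0 : ℕ, ∀ n : ℕ, n0 ≤ n → ∀ (z : ℤ × ℤ) (d : Fin 4) (w : ℕ), n ≤ 2 * w + 1 →
      WlChain t p (mdl41cR z (k * n) ((k + 1) * n) d) (mdl41cB z (k * n) ((k + 1) * n) w d)
        ((Finset.range (2 * ((k + 1) * n))).image (mdl41cSeed z (k * n) ((k + 1) * n) d))
        (mdl41cTop z (k * n) ((k + 1) * n) d) := by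
  classical
  intro k
  have ht0 : 0 < t := by linarith
  obtain ⟨c1, hc1, ρ0, hbox⟩ := mdl1_circ_box t ht1 ht2 hcirc
  have hp1 : 0 < min c1 1 := lt_min hc1 one_pos
  refine ⟨(min c1 1) ^ ((2 * (8 * (k + 1))) ^ 2), pow_pos hp1 _, 8 * (ρ0 + 2), ?_⟩
  intro n hn z d w hw
  set ρ : ℕ := n / 8 with hρ
  have hρ1 : ρ0 + 2 ≤ ρ := by omega
  have h8 : 8 * ρ ≤ n := by omega
  have hnlt : n < 8 * (ρ + 1) := by omega
  have e1 : (k + 1) * n = k * n + n := by ring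
  have hr01 : k * n < (k + 1) * n := by omega
  set r0 : ℕ := k * n with hr0
  set r1 : ℕ := (k + 1) * n with hr1'
  set m : ℤ := (r0 : ℤ) + 4 * ρ with hm
  set Mid : Finset (ℤ × ℤ) := (rswBox z r1).filter fun u => cnt101Phi z d u = m with hMid
  set J : Finset (ℤ × ℤ) := Mid.image (mdl1Cen z ρ) with hJ
  have hb1 : (r0 : ℤ) + ρ + (2 * ρ : ℕ) + 1 ≤ m := by push_cast; omega
  have hb2 : m + ρ + (2 * ρ : ℕ) + 1 < r1 := by push_cast; omega
  have hb3 : ρ + 2 * ρ + 1 ≤ w := by omega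
  have hcard : J.card ≤ (2 * (8 * (k + 1))) ^ 2 := by
    refine mdl1_card_cen z (by omega) (H := r1) ?_ Mid (Finset.filter_subset _ _)
    calc r1 ≤ (k + 1) * (16 * ρ) := Nat.mul_le_mul_left _ (by omega)
      _ = 2 * ρ * (8 * (k + 1)) := by ring
  have hJu : ∀ x ∈ J, ∃ u, u ∈ rswBox z r1 ∧ cnt101Phi z d u = m ∧ u ∈ rswBox x ρ := by
    intro x hx
    obtain ⟨u, hu, rfl⟩ := Finset.mem_image.1 hx
    exact ⟨u, (Finset.mem_filter.1 hu).1, (Finset.mem_filter.1 hu).2, mdl1_mem_cen z (by omega) u⟩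
  have hsub : ∀ x ∈ J, rswBox x (2 * ρ) ⊆ mdl41cB z r0 r1 w d := by
    intro x hx
    obtain ⟨u, hu, hum, hux⟩ := hJu x hx
    exact wbc101_sub hr01 d hu hum hux hb1 hb2 hb3
  have hJor := wbc101_jordan_B z hr01 w d
  refine ⟨J, ρ, hsub, ?_, ?_⟩
  · intro c a
    have h1 := wbc101_w5 ht1 ht2 hJor c a J ρ hp1.le (fun x hx => le_trans (min_le_left _ _)
      (hbox ρ (by omega) _ x c a (fun K hK X Y hX hY => cmp291_exit_cmp t ht1 ht2 _ hJor c a K hK X Y hX hY) (hsub x hx)))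
    exact le_trans (pow_le_pow_of_le_one hp1.le (min_le_right _ _) hcard) h1
  · intro Ch a ω _ hblk
    refine wbc101_nox_wl z d m ?_ ?_ ?_ ?_ hblk
    · intro f hf
      obtain ⟨i, _, rfl⟩ := Finset.mem_image.1 hf
      rw [wbc101_seed_phi]
      omega
    · intro g hg
      rw [wbc101_top_phi z hr01 d hg]
      omega
    · intro u hu hum
      rw [mdl41c_R_eq z hr01 d] at hu
      exact ⟨mdl1Cen z ρ u, Finset.mem_image_of_mem _ (Finset.mem_filter.2 ⟨cnt101_rect_sub z r0 r1 d hu, hum⟩),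
        mdl1_mem_cen z (by omega) u⟩
    · intro x hx g hg hgx
      obtain ⟨u, _, hum, hux⟩ := hJu x hx
      have h1 := wbc101_top_phi z hr01 d hg
      have h2 := (wbc101_phi_box z d hgx).2
      have h3 := (wbc101_phi_box z d hux).1
      push_cast at h2
      omega

/-- **`WlChain` VERBATIM as in order MODEL-5 of 191**, lateral width `n - 1` -/
theorem wbc101_wlchain (t : ℝ) (ht1 : 1 / 2 ≤ t) (ht2 : t < 1)
    (hcirc : ∃ (κ n0 : ℕ) (p : ℝ), 2 ≤ κ ∧ 0 < p ∧ ∀ n : ℕ, n0 ≤ n → ∀ (x : ℤ × ℤ) (a : Bool),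
      p ≤ rswP t (rswBox x (κ * n)) (!a)
        (fun ω => RswSep (rswBox x (κ * n)) a ω (rswBox x n) (rswLayer (rswBox x (κ * n))))) :
    ∀ k : ℕ, ∃ p : ℝ, 0 < p ∧ ∃ n0 : ℕ, ∀ n : ℕ, n0 ≤ n → ∀ (z : ℤ × ℤ) (d : Fin 4),
      WlChain t p (mdl41cR z (k * n) ((k + 1) * n) d) (mdl41cB z (k * n) ((k + 1) * n) (n - 1) d)
        ((Finset.range (2 * ((k + 1) * n))).image (mdl41cSeed z (k * n) ((k + 1) * n) d))
        (mdl41cTop z (k * n) ((k + 1) * n) d) := by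
  intro k
  obtain ⟨p, hp, n0, h⟩ := wbc101_wlchain_w t ht1 ht2 hcirc k
  exact ⟨p, hp, max n0 1, fun n hn z d => h n (le_trans (le_max_left _ _) hn) z d (n - 1)
    (by have := le_trans (le_max_right n0 1) hn; omega)⟩

/-- **`WlChain`, lateral width `n / 2`** (the width of `Mdl41cWB` in `Model/Count41` v5) -/
theorem wbc101_wlchain_half (t : ℝ) (ht1 : 1 / 2 ≤ t) (ht2 : t < 1)
    (hcirc : ∃ (κ n0 : ℕ) (p : ℝ), 2 ≤ κ ∧ 0 < p ∧ ∀ n : ℕ, n0 ≤ n → ∀ (x : ℤ × ℤ) (a : Bool),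
      p ≤ rswP t (rswBox x (κ * n)) (!a)
        (fun ω => RswSep (rswBox x (κ * n)) a ω (rswBox x n) (rswLayer (rswBox x (κ * n))))) :
    ∀ k : ℕ, ∃ p : ℝ, 0 < p ∧ ∃ n0 : ℕ, ∀ n : ℕ, n0 ≤ n → ∀ (z : ℤ × ℤ) (d : Fin 4),
      WlChain t p (mdl41cR z (k * n) ((k + 1) * n) d) (mdl41cB z (k * n) ((k + 1) * n) (n / 2) d)
        ((Finset.range (2 * ((k + 1) * n))).image (mdl41cSeed z (k * n) ((k + 1) * n) d))
        (mdl41cTop z (k * n) ((k + 1) * n) d) := by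
  intro k
  obtain ⟨p, hp, n0, h⟩ := wbc101_wlchain_w t ht1 ht2 hcirc k
  exact ⟨p, hp, n0, fun n hn z d => h n hn z d (n / 2) (by omega)⟩

/-! ## 6. (W2) SCREENING: the record `WlScreen` of `Model/Wall191` (seals and flips of `Rsw/Cut91`) -/

theorem wbc101_sum_congr_wt (t : ℝ) (F : Finset (ℤ × ℤ)) (b : Bool) {Z Z' : RswCfg → ℝ}
    (h : ∀ ω, rswWt t F b ω * Z ω = rswWt t F b ω * Z' ω) : rswSum t F b Z = rswSum t F b Z' := by
  unfold rswSum
  exact Finset.sum_congr rfl fun S _ => Finset.sum_congr rfl fun D _ => Finset.sum_congr rfl fun O _ => h _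

theorem wbc101_sum_add (t : ℝ) (F : Finset (ℤ × ℤ)) (b : Bool) (X Y : RswCfg → ℝ) :
    rswSum t F b (fun ω => X ω + Y ω) = rswSum t F b X + rswSum t F b Y := by
  simp only [mdl_sum_idx, mul_add, Finset.sum_add_distrib]

/-- on the support of the weight the face spin is the same on the two sides of a closed edge -/
theorem wbc101_fac_closed {t : ℝ} {F : Finset (ℤ × ℤ)} {b : Bool} {ω : RswCfg} (hw : rswWt t F b ω ≠ 0)
    {e : (ℤ × ℤ) × Bool} (he : e ∈ rswInt F) (hO : e ∉ ω.O) : (e.1 ∈ ω.D ↔ rswCo e ∈ ω.D) := by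
  classical
  unfold rswWt at hw
  split_ifs at hw with hb
  · have h1 := (Finset.prod_ne_zero_iff.1 hw) e he
    unfold rswFac at h1
    rw [if_neg hO] at h1
    by_contra hne
    rw [if_neg hne] at h1
    exact h1 rfl
  · exact absurd rfl hw

/-- the face spins at the closed edges of the seal are those of `Δ` -/
def Wbc101DD (B Ch : Finset (ℤ × ℤ)) (β : RswCfg) (Δ : Finset (ℤ × ℤ)) (ω : RswCfg) : Prop :=
  ∀ e ∈ rswInt B, RskBd Ch e → e ∉ β.O → (e.1 ∈ ω.D ↔ e.1 ∈ Δ) ∧ (rswCo e ∈ ω.D ↔ rswCo e ∈ Δ)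

theorem wbc101_seal_iff (B Ch : Finset (ℤ × ℤ)) (β : RswCfg) (Δ : Finset (ℤ × ℤ)) (ω : RswCfg) :
    RskSeal B Ch ⟨β.S, Δ, β.O⟩ ω ↔ WlSealSO B Ch β ω ∧ Wbc101DD B Ch β Δ ω := by
  unfold RskSeal RskSealA RskSealB WlSealSO Wbc101DD
  constructor
  · rintro ⟨hA, hB1, hB2⟩
    refine ⟨⟨hB1, fun e he hb => (hB2 e he hb).1⟩, fun e he hb hO => ⟨?_, ?_⟩⟩
    · by_cases h : e.1 ∈ Ch
      · exact (hA e he hb hO).1 h
      · exact ((hB2 e he hb).2 hO).1 h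
    · by_cases h : rswCo e ∈ Ch
      · exact (hA e he hb hO).2 h
      · exact ((hB2 e he hb).2 hO).2 h
  · rintro ⟨⟨h1, h2⟩, h3⟩
    exact ⟨fun e he hb hO => ⟨fun _ => (h3 e he hb hO).1, fun _ => (h3 e he hb hO).2⟩, h1,
      fun e he hb => ⟨h2 e he hb, fun hO => ⟨fun _ => (h3 e he hb hO).1, fun _ => (h3 e he hb hO).2⟩⟩⟩

/-- the global flip exchanges the all plus seal and the all minus seal -/
theorem wbc101_seal_flip (B Ch : Finset (ℤ × ℤ)) (β ω : RswCfg) :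
    RskSeal B Ch ⟨β.S, ∅, β.O⟩ (rskFlip B ω) ↔ RskSeal B Ch ⟨β.S, B, β.O⟩ ω := by
  rw [wbc101_seal_iff, wbc101_seal_iff]
  refine and_congr Iff.rfl ?_
  unfold Wbc101DD
  refine forall_congr' fun e => imp_congr_right fun he => imp_congr_right fun _ => imp_congr_right fun _ => ?_
  have h1 := (rsk_mem_int.1 he).1
  have h2 := (rsk_mem_int.1 he).2
  simp only [rskFlip, Finset.mem_symmDiff, h1, h2, Finset.notMem_empty, iff_false, iff_true, not_true_eq_false,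
    and_false, true_and, false_or, not_not]

theorem wbc101_blind_flip {X : RswCfg → ℝ} (hX : WlBlind X) (C : Finset (ℤ × ℤ)) (ω : RswCfg) : X (rskFlip C ω) = X ω :=
  hX ω.S _ ω.D ω.O

open Classical in
/-- a blind observable carried by one `(s,W)` seal with one face spin is, up to the factor `2` or `1`, carried by the all plus seal -/
theorem wbc101_screen_key (t : ℝ) (B Ch : Finset (ℤ × ℤ)) (c : Bool) (β : RswCfg) {X Y : RswCfg → ℝ} (hX : WlBlind X)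
    (hY : WlBlind Y) (hsup : ∀ ω, rswWt t B c ω ≠ 0 → Y ω ≠ 0 → WlSealSO B Ch β ω ∧ WlOneD B Ch ω) :
    rswSum t B c (fun ω => Y ω * X ω) = (if ∃ e ∈ rswInt B, RskBd Ch e ∧ e ∉ β.O then (2 : ℝ) else 1) *
      rswSum t B c (fun ω => rskSealInd B Ch ⟨β.S, B, β.O⟩ ω * X ω * Y ω) := by
  by_cases hex : ∃ e ∈ rswInt B, RskBd Ch e ∧ e ∉ β.O
  · rw [if_pos hex]
    obtain ⟨e₀, he₀, hb₀, hO₀⟩ := hex
    have hflip : rswSum t B c (fun ω => rskSealInd B Ch ⟨β.S, ∅, β.O⟩ ω * X ω * Y ω) =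
        rswSum t B c (fun ω => rskSealInd B Ch ⟨β.S, B, β.O⟩ ω * X ω * Y ω) := by
      rw [rsk_flip_sum t B c (fun _ _ => B) (fun _ _ => Finset.Subset.refl _)
        (fun _ _ e he _ => ⟨fun _ => (rsk_mem_int.1 he).2, fun _ => (rsk_mem_int.1 he).1⟩)
        (fun ω => rskSealInd B Ch ⟨β.S, ∅, β.O⟩ ω * X ω * Y ω)]
      refine congrArg _ (funext fun ω => ?_)
      simp only [wbc101_blind_flip hX, wbc101_blind_flip hY]
      congr 2
      unfold rskSealInd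
      by_cases h : RskSeal B Ch ⟨β.S, B, β.O⟩ ω
      · rw [if_pos h, if_pos ((wbc101_seal_flip B Ch β ω).2 h)]
      · rw [if_neg h, if_neg (fun h' => h ((wbc101_seal_flip B Ch β ω).1 h'))]
    have hsplit : rswSum t B c (fun ω => Y ω * X ω) =
        rswSum t B c (fun ω => rskSealInd B Ch ⟨β.S, B, β.O⟩ ω * X ω * Y ω +
          rskSealInd B Ch ⟨β.S, ∅, β.O⟩ ω * X ω * Y ω) := by
      refine wbc101_sum_congr_wt t B c fun ω => ?_
      by_cases hw : rswWt t B c ω = 0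
      · rw [hw, zero_mul, zero_mul]
      by_cases hy : Y ω = 0
      · rw [hy]; ring
      obtain ⟨hs, h1⟩ := hsup ω hw hy
      have hcl : ∀ e ∈ rswInt B, RskBd Ch e → e ∉ β.O → e ∉ ω.O := fun e he hb hO h => hO ((hs.2 e he hb).1 h)
      have hall : ∀ e ∈ rswInt B, RskBd Ch e → e ∉ β.O →
          (e.1 ∈ ω.D ↔ e₀.1 ∈ ω.D) ∧ (rswCo e ∈ ω.D ↔ e₀.1 ∈ ω.D) := by
        intro e he hb hO
        have h2 := h1 e he e₀ he₀ hb hb₀ (hcl e he hb hO) (hcl e₀ he₀ hb₀ hO₀)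
        exact ⟨h2, (wbc101_fac_closed hw he (hcl e he hb hO)).symm.trans h2⟩
      congr 1
      unfold rskSealInd
      by_cases hD : e₀.1 ∈ ω.D
      · have hp : RskSeal B Ch ⟨β.S, B, β.O⟩ ω := (wbc101_seal_iff B Ch β B ω).2 ⟨hs, fun e he hb hO =>
          ⟨iff_of_true ((hall e he hb hO).1.2 hD) (rsk_mem_int.1 he).1,
            iff_of_true ((hall e he hb hO).2.2 hD) (rsk_mem_int.1 he).2⟩⟩
        have hm : ¬ RskSeal B Ch ⟨β.S, ∅, β.O⟩ ω := fun h =>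
          absurd ((((wbc101_seal_iff B Ch β ∅ ω).1 h).2 e₀ he₀ hb₀ hO₀).1.1 hD) (Finset.notMem_empty _)
        rw [if_pos hp, if_neg hm]
        ring
      · have hp : ¬ RskSeal B Ch ⟨β.S, B, β.O⟩ ω := fun h =>
          hD ((((wbc101_seal_iff B Ch β B ω).1 h).2 e₀ he₀ hb₀ hO₀).1.2 (rsk_mem_int.1 he₀).1)
        have hm : RskSeal B Ch ⟨β.S, ∅, β.O⟩ ω := (wbc101_seal_iff B Ch β ∅ ω).2 ⟨hs, fun e he hb hO =>
          ⟨iff_of_false (fun h => hD ((hall e he hb hO).1.1 h)) (Finset.notMem_empty _),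
            iff_of_false (fun h => hD ((hall e he hb hO).2.1 h)) (Finset.notMem_empty _)⟩⟩
        rw [if_neg hp, if_pos hm]
        ring
    rw [hsplit, wbc101_sum_add, hflip]
    ring
  · rw [if_neg hex, one_mul]
    refine wbc101_sum_congr_wt t B c fun ω => ?_
    by_cases hw : rswWt t B c ω = 0
    · rw [hw, zero_mul, zero_mul]
    by_cases hy : Y ω = 0
    · rw [hy]; ring
    have hs := (hsup ω hw hy).1
    have hp : RskSeal B Ch ⟨β.S, B, β.O⟩ ω :=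
      (wbc101_seal_iff B Ch β B ω).2 ⟨hs, fun e he hb hO => absurd ⟨e, he, hb, hO⟩ hex⟩
    unfold rskSealInd
    rw [if_pos hp]
    ring

/-- **(W2): THE RECORD `WlScreen` OF `Model/Wall191`, VERBATIM** (all `t`, no topology) -/
theorem wbc101_screen (t : ℝ) {B Ch : Finset (ℤ × ℤ)} (hCh : Ch ⊆ B) (c : Bool) : WlScreen t B Ch c := by
  classical
  intro β X Y₁ Y₂ hXi hXb hY₁o hY₁b hY₂o hY₂b hs₁ hs₂
  have hone : WlBlind (fun _ : RswCfg => (1 : ℝ)) := fun _ _ _ _ => rfl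
  have a1 := wbc101_screen_key t B Ch c β hXb hY₁b hs₁
  have a2 := wbc101_screen_key t B Ch c β hXb hY₂b hs₂
  have b1 := wbc101_screen_key t B Ch c β hone hY₁b hs₁
  have b2 := wbc101_screen_key t B Ch c β hone hY₂b hs₂
  simp only [mul_one] at b1 b2
  have key := rsk_seal_cross t hCh c ⟨β.S, B, β.O⟩ hXi (rsk_inside_const Ch 1) hY₁o hY₂o
  simp only [mul_one] at key
  have e1 : rswSum t B c Y₁ = rswSum t B c (fun ω => Y₁ ω) := rfl
  have e2 : rswSum t B c Y₂ = rswSum t B c (fun ω => Y₂ ω) := rfl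
  rw [a1, a2, e1, e2, b1, b2]
  generalize (if ∃ e ∈ rswInt B, RskBd Ch e ∧ e ∉ β.O then (2 : ℝ) else 1) = c'
  calc _ = c' * c' * (rswSum t B c (fun ω => rskSealInd B Ch ⟨β.S, B, β.O⟩ ω * X ω * Y₁ ω) *
        rswSum t B c (fun ω => rskSealInd B Ch ⟨β.S, B, β.O⟩ ω * Y₂ ω)) := by ring
    _ = c' * c' * (rswSum t B c (fun ω => rskSealInd B Ch ⟨β.S, B, β.O⟩ ω * X ω * Y₂ ω) *
        rswSum t B c (fun ω => rskSealInd B Ch ⟨β.S, B, β.O⟩ ω * Y₁ ω)) := by rw [key]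
    _ = _ := by ring

/-! ## 7. (E) THE TWO ENDS OF THE WALL (for (W3) `WlGC`; planar input = `mdl41c_meet` = `cnt101_meet`) -/

theorem wbc101_join_union {P₁ P₂ : Finset (ℤ × ℤ)} (h1 : ∀ f ∈ P₁, ∀ g ∈ P₁, Mdl41cJoin P₁ f g)
    (h2 : ∀ f ∈ P₂, ∀ g ∈ P₂, Mdl41cJoin P₂ f g) {a b : ℤ × ℤ} (ha : a ∈ P₁) (hb : b ∈ P₂) (hab : Mdl41cAdj a b) :
    ∀ f ∈ P₁ ∪ P₂, ∀ g ∈ P₁ ∪ P₂, Mdl41cJoin (P₁ ∪ P₂) f g := by
  have l1 : ∀ f ∈ P₁, ∀ g ∈ P₁, Mdl41cJoin (P₁ ∪ P₂) f g := fun f hf g hg =>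
    mdl41c_join_mono Finset.subset_union_left (h1 f hf g hg)
  have l2 : ∀ f ∈ P₂, ∀ g ∈ P₂, Mdl41cJoin (P₁ ∪ P₂) f g := fun f hf g hg =>
    mdl41c_join_mono Finset.subset_union_right (h2 f hf g hg)
  have l12 : Mdl41cJoin (P₁ ∪ P₂) a b :=
    mdl41c_join_step (Finset.mem_union_left _ ha) (Finset.mem_union_right _ hb) hab
  intro f hf g hg
  rcases Finset.mem_union.1 hf with hf | hf <;> rcases Finset.mem_union.1 hg with hg | hg
  · exact l1 f hf g hg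
  · exact mdl41c_join_trans (l1 f hf a ha) (mdl41c_join_trans l12 (l2 b hb g hg))
  · exact mdl41c_join_trans (l2 f hf b hb) (mdl41c_join_trans (mdl41c_join_symm l12) (l1 a ha g hg))
  · exact l2 f hf g hg

/-- a joined set which touches the bottom and the top of a rectangle meets a joined set which touches its left and its right side -/
theorem wbc101_meet_sets {X0 X1 Y0 Y1 : ℤ} {P P' : Finset (ℤ × ℤ)} (hP : P ⊆ Finset.Ico X0 X1 ×ˢ Finset.Ico Y0 Y1)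
    (hP' : P' ⊆ Finset.Ico X0 X1 ×ˢ Finset.Ico Y0 Y1) (hj : ∀ f ∈ P, ∀ g ∈ P, Mdl41cJoin P f g)
    (hj' : ∀ f ∈ P', ∀ g ∈ P', Mdl41cJoin P' f g) {f g f' g' : ℤ × ℤ} (hf : f ∈ P) (hf0 : f.2 = Y0) (hg : g ∈ P)
    (hg1 : g.2 = Y1 - 1) (hf' : f' ∈ P') (hf0' : f'.1 = X0) (hg' : g' ∈ P') (hg1' : g'.1 = X1 - 1) : ¬ Disjoint P P' :=
  mdl41c_meet X0 X1 Y0 Y1 P P' hP hP' f g f' g' hf hf0 hg1 (hj f hf g hg) hf' hf0' hg1' (hj' f' hf' g' hg')

/-- bottom row: `U` before `V` is impossible when `U` reaches the top row and `V` the left column -/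
theorem wbc101_row_bot {x0 x1 y0 y1 : ℤ} {U V : Finset (ℤ × ℤ)} (hU : U ⊆ Finset.Ico x0 x1 ×ˢ Finset.Ico y0 y1)
    (hV : V ⊆ Finset.Ico x0 x1 ×ˢ Finset.Ico y0 y1) (hUV : Disjoint U V) (hjU : ∀ f ∈ U, ∀ g ∈ U, Mdl41cJoin U f g)
    (hjV : ∀ f ∈ V, ∀ g ∈ V, Mdl41cJoin V f g) {x x' u v : ℤ} (hx : (x, y0) ∈ U) (hx' : (x', y0) ∈ V) (hlt : x < x')
    (hu : (u, y1 - 1) ∈ U) (hv : (x0, v) ∈ V) : False := by
  have hUm : ∀ q ∈ U, x0 ≤ q.1 ∧ q.1 < x1 ∧ y0 ≤ q.2 ∧ q.2 < y1 := fun q hq => mdl41c_mem_rect.1 (hU hq)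
  have hVm : ∀ q ∈ V, x0 ≤ q.1 ∧ q.1 < x1 ∧ y0 ≤ q.2 ∧ q.2 < y1 := fun q hq => mdl41c_mem_rect.1 (hV hq)
  have a1 := hUm _ hx
  have a2 := hVm _ hx'
  simp only at a1 a2
  refine wbc101_meet_sets (X0 := x0) (X1 := x1) (Y0 := y0 - 1) (Y1 := y1)
    (P := U ∪ Finset.Ico x (x + 1) ×ˢ Finset.Ico (y0 - 1) y0) (P' := V ∪ Finset.Ico x' x1 ×ˢ Finset.Ico (y0 - 1) y0) ?_ ?_
    (wbc101_join_union hjU (fun f hf g hg => mdl41c_rect_conn hf hg) hx (b := (x, y0 - 1)) ?_ ?_)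
    (wbc101_join_union hjV (fun f hf g hg => mdl41c_rect_conn hf hg) hx' (b := (x', y0 - 1)) ?_ ?_)
    (f := (x, y0 - 1)) ?_ rfl (g := (u, y1 - 1)) (Finset.mem_union_left _ hu) rfl
    (f' := (x0, v)) (Finset.mem_union_left _ hv) rfl (g' := (x1 - 1, y0 - 1)) ?_ rfl ?_
  · intro q hq
    rw [mdl41c_mem_rect]
    rcases Finset.mem_union.1 hq with h | h
    · have := hUm q h; omega
    · rw [mdl41c_mem_rect] at h; omega
  · intro q hq
    rw [mdl41c_mem_rect]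
    rcases Finset.mem_union.1 hq with h | h
    · have := hVm q h; omega
    · rw [mdl41c_mem_rect] at h; omega
  · rw [mdl41c_mem_rect]; simp only; omega
  · rw [mdl41c_adj_iff]; simp
  · rw [mdl41c_mem_rect]; simp only; omega
  · rw [mdl41c_adj_iff]; simp
  · refine Finset.mem_union_right _ ?_
    rw [mdl41c_mem_rect]; simp only; omega
  · refine Finset.mem_union_right _ ?_
    rw [mdl41c_mem_rect]; simp only; omega
  · rw [Finset.disjoint_left]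
    intro q hq hq'
    rcases Finset.mem_union.1 hq with h | h <;> rcases Finset.mem_union.1 hq' with h' | h'
    · exact Finset.disjoint_left.1 hUV h h'
    · have := hUm q h; rw [mdl41c_mem_rect] at h'; omega
    · have := hVm q h'; rw [mdl41c_mem_rect] at h; omega
    · rw [mdl41c_mem_rect] at h h'; omega

/-- top row: `U` before `V` is impossible when `U` reaches the bottom row and `V` the left column -/
theorem wbc101_row_top {x0 x1 y0 y1 : ℤ} {U V : Finset (ℤ × ℤ)} (hU : U ⊆ Finset.Ico x0 x1 ×ˢ Finset.Ico y0 y1)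
    (hV : V ⊆ Finset.Ico x0 x1 ×ˢ Finset.Ico y0 y1) (hUV : Disjoint U V) (hjU : ∀ f ∈ U, ∀ g ∈ U, Mdl41cJoin U f g)
    (hjV : ∀ f ∈ V, ∀ g ∈ V, Mdl41cJoin V f g) {x x' u v : ℤ} (hx : (x, y1 - 1) ∈ U) (hx' : (x', y1 - 1) ∈ V) (hlt : x < x')
    (hu : (u, y0) ∈ U) (hv : (x0, v) ∈ V) : False := by
  have hUm : ∀ q ∈ U, x0 ≤ q.1 ∧ q.1 < x1 ∧ y0 ≤ q.2 ∧ q.2 < y1 := fun q hq => mdl41c_mem_rect.1 (hU hq)
  have hVm : ∀ q ∈ V, x0 ≤ q.1 ∧ q.1 < x1 ∧ y0 ≤ q.2 ∧ q.2 < y1 := fun q hq => mdl41c_mem_rect.1 (hV hq)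
  have a1 := hUm _ hx
  have a2 := hVm _ hx'
  simp only at a1 a2
  refine wbc101_meet_sets (X0 := x0) (X1 := x1) (Y0 := y0) (Y1 := y1 + 1)
    (P := U ∪ Finset.Ico x (x + 1) ×ˢ Finset.Ico y1 (y1 + 1)) (P' := V ∪ Finset.Ico x' x1 ×ˢ Finset.Ico y1 (y1 + 1)) ?_ ?_
    (wbc101_join_union hjU (fun f hf g hg => mdl41c_rect_conn hf hg) hx (b := (x, y1)) ?_ ?_)
    (wbc101_join_union hjV (fun f hf g hg => mdl41c_rect_conn hf hg) hx' (b := (x', y1)) ?_ ?_)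
    (f := (u, y0)) (Finset.mem_union_left _ hu) rfl (g := (x, y1)) ?_ (by simp)
    (f' := (x0, v)) (Finset.mem_union_left _ hv) rfl (g' := (x1 - 1, y1)) ?_ rfl ?_
  · intro q hq
    rw [mdl41c_mem_rect]
    rcases Finset.mem_union.1 hq with h | h
    · have := hUm q h; omega
    · rw [mdl41c_mem_rect] at h; omega
  · intro q hq
    rw [mdl41c_mem_rect]
    rcases Finset.mem_union.1 hq with h | h
    · have := hVm q h; omega
    · rw [mdl41c_mem_rect] at h; omega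
  · rw [mdl41c_mem_rect]; simp only; omega
  · rw [mdl41c_adj_iff]; simp
  · rw [mdl41c_mem_rect]; simp only; omega
  · rw [mdl41c_adj_iff]; simp
  · refine Finset.mem_union_right _ ?_
    rw [mdl41c_mem_rect]; simp only; omega
  · refine Finset.mem_union_right _ ?_
    rw [mdl41c_mem_rect]; simp only; omega
  · rw [Finset.disjoint_left]
    intro q hq hq'
    rcases Finset.mem_union.1 hq with h | h <;> rcases Finset.mem_union.1 hq' with h' | h'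
    · exact Finset.disjoint_left.1 hUV h h'
    · have := hUm q h; rw [mdl41c_mem_rect] at h'; omega
    · have := hVm q h'; rw [mdl41c_mem_rect] at h; omega
    · rw [mdl41c_mem_rect] at h h'; omega

/-- left column: `U` below `V` is impossible when `U` reaches the right column and `V` the bottom row -/
theorem wbc101_col_left {x0 x1 y0 y1 : ℤ} {U V : Finset (ℤ × ℤ)} (hU : U ⊆ Finset.Ico x0 x1 ×ˢ Finset.Ico y0 y1)
    (hV : V ⊆ Finset.Ico x0 x1 ×ˢ Finset.Ico y0 y1) (hUV : Disjoint U V) (hjU : ∀ f ∈ U, ∀ g ∈ U, Mdl41cJoin U f g)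
    (hjV : ∀ f ∈ V, ∀ g ∈ V, Mdl41cJoin V f g) {y y' u v : ℤ} (hy : (x0, y) ∈ U) (hy' : (x0, y') ∈ V) (hlt : y < y')
    (hu : (x1 - 1, u) ∈ U) (hv : (v, y0) ∈ V) : False := by
  have hUm : ∀ q ∈ U, x0 ≤ q.1 ∧ q.1 < x1 ∧ y0 ≤ q.2 ∧ q.2 < y1 := fun q hq => mdl41c_mem_rect.1 (hU hq)
  have hVm : ∀ q ∈ V, x0 ≤ q.1 ∧ q.1 < x1 ∧ y0 ≤ q.2 ∧ q.2 < y1 := fun q hq => mdl41c_mem_rect.1 (hV hq)
  have a1 := hUm _ hy
  have a2 := hVm _ hy'
  simp only at a1 a2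
  refine wbc101_meet_sets (X0 := x0 - 1) (X1 := x1) (Y0 := y0) (Y1 := y1)
    (P := V ∪ Finset.Ico (x0 - 1) x0 ×ˢ Finset.Ico y' y1) (P' := U ∪ Finset.Ico (x0 - 1) x0 ×ˢ Finset.Ico y (y + 1)) ?_ ?_
    (wbc101_join_union hjV (fun f hf g hg => mdl41c_rect_conn hf hg) hy' (b := (x0 - 1, y')) ?_ ?_)
    (wbc101_join_union hjU (fun f hf g hg => mdl41c_rect_conn hf hg) hy (b := (x0 - 1, y)) ?_ ?_)
    (f := (v, y0)) (Finset.mem_union_left _ hv) rfl (g := (x0 - 1, y1 - 1)) ?_ rfl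
    (f' := (x0 - 1, y)) ?_ rfl (g' := (x1 - 1, u)) (Finset.mem_union_left _ hu) rfl ?_
  · intro q hq
    rw [mdl41c_mem_rect]
    rcases Finset.mem_union.1 hq with h | h
    · have := hVm q h; omega
    · rw [mdl41c_mem_rect] at h; omega
  · intro q hq
    rw [mdl41c_mem_rect]
    rcases Finset.mem_union.1 hq with h | h
    · have := hUm q h; omega
    · rw [mdl41c_mem_rect] at h; omega
  · rw [mdl41c_mem_rect]; simp only; omega
  · rw [mdl41c_adj_iff]; simp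
  · rw [mdl41c_mem_rect]; simp only; omega
  · rw [mdl41c_adj_iff]; simp
  · refine Finset.mem_union_right _ ?_
    rw [mdl41c_mem_rect]; simp only; omega
  · refine Finset.mem_union_right _ ?_
    rw [mdl41c_mem_rect]; simp only; omega
  · rw [Finset.disjoint_left]
    intro q hq hq'
    rcases Finset.mem_union.1 hq with h | h <;> rcases Finset.mem_union.1 hq' with h' | h'
    · exact Finset.disjoint_left.1 hUV h' h
    · have := hVm q h; rw [mdl41c_mem_rect] at h'; omega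
    · have := hUm q h'; rw [mdl41c_mem_rect] at h; omega
    · rw [mdl41c_mem_rect] at h h'; omega

/-- right column: `U` below `V` is impossible when `U` reaches the left column and `V` the bottom row -/
theorem wbc101_col_right {x0 x1 y0 y1 : ℤ} {U V : Finset (ℤ × ℤ)} (hU : U ⊆ Finset.Ico x0 x1 ×ˢ Finset.Ico y0 y1)
    (hV : V ⊆ Finset.Ico x0 x1 ×ˢ Finset.Ico y0 y1) (hUV : Disjoint U V) (hjU : ∀ f ∈ U, ∀ g ∈ U, Mdl41cJoin U f g)
    (hjV : ∀ f ∈ V, ∀ g ∈ V, Mdl41cJoin V f g) {y y' u v : ℤ} (hy : (x1 - 1, y) ∈ U) (hy' : (x1 - 1, y') ∈ V) (hlt : y < y')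
    (hu : (x0, u) ∈ U) (hv : (v, y0) ∈ V) : False := by
  have hUm : ∀ q ∈ U, x0 ≤ q.1 ∧ q.1 < x1 ∧ y0 ≤ q.2 ∧ q.2 < y1 := fun q hq => mdl41c_mem_rect.1 (hU hq)
  have hVm : ∀ q ∈ V, x0 ≤ q.1 ∧ q.1 < x1 ∧ y0 ≤ q.2 ∧ q.2 < y1 := fun q hq => mdl41c_mem_rect.1 (hV hq)
  have a1 := hUm _ hy
  have a2 := hVm _ hy'
  simp only at a1 a2
  refine wbc101_meet_sets (X0 := x0) (X1 := x1 + 1) (Y0 := y0) (Y1 := y1)
    (P := V ∪ Finset.Ico x1 (x1 + 1) ×ˢ Finset.Ico y' y1) (P' := U ∪ Finset.Ico x1 (x1 + 1) ×ˢ Finset.Ico y (y + 1)) ?_ ?_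
    (wbc101_join_union hjV (fun f hf g hg => mdl41c_rect_conn hf hg) hy' (b := (x1, y')) ?_ ?_)
    (wbc101_join_union hjU (fun f hf g hg => mdl41c_rect_conn hf hg) hy (b := (x1, y)) ?_ ?_)
    (f := (v, y0)) (Finset.mem_union_left _ hv) rfl (g := (x1, y1 - 1)) ?_ rfl
    (f' := (x0, u)) (Finset.mem_union_left _ hu) rfl (g' := (x1, y)) ?_ (by simp) ?_
  · intro q hq
    rw [mdl41c_mem_rect]
    rcases Finset.mem_union.1 hq with h | h
    · have := hVm q h; omega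
    · rw [mdl41c_mem_rect] at h; omega
  · intro q hq
    rw [mdl41c_mem_rect]
    rcases Finset.mem_union.1 hq with h | h
    · have := hUm q h; omega
    · rw [mdl41c_mem_rect] at h; omega
  · rw [mdl41c_mem_rect]; simp only; omega
  · rw [mdl41c_adj_iff]; simp
  · rw [mdl41c_mem_rect]; simp only; omega
  · rw [mdl41c_adj_iff]; simp
  · refine Finset.mem_union_right _ ?_
    rw [mdl41c_mem_rect]; simp only; omega
  · refine Finset.mem_union_right _ ?_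
    rw [mdl41c_mem_rect]; simp only; omega
  · rw [Finset.disjoint_left]
    intro q hq hq'
    rcases Finset.mem_union.1 hq with h | h <;> rcases Finset.mem_union.1 hq' with h' | h'
    · exact Finset.disjoint_left.1 hUV h' h
    · have := hVm q h; rw [mdl41c_mem_rect] at h'; omega
    · have := hUm q h'; rw [mdl41c_mem_rect] at h; omega
    · rw [mdl41c_mem_rect] at h h'; omega

/-- a row along which `Ch` is monotone carries at most one vertical edge of the wall -/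
theorem wbc101_change_row {B Ch : Finset (ℤ × ℤ)} {yy : ℤ}
    (hmono : ∀ x x', x < x' → (x, yy) ∈ Ch → (x', yy) ∈ B → (x', yy) ∈ Ch) {x x' : ℤ}
    (h : ((x, yy), true) ∈ mdl41DisSet B Ch) (h' : ((x', yy), true) ∈ mdl41DisSet B Ch) : x = x' := by
  have key : ∀ x, ((x, yy), true) ∈ mdl41DisSet B Ch → (x, yy) ∈ Ch ∧ (x - 1, yy) ∉ Ch ∧ (x - 1, yy) ∈ B := by
    intro x hx
    obtain ⟨h1, h2⟩ := mdl41_mem_disSet.1 hx
    have h3 := rsk_mem_int.1 h1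
    unfold Mdl41Dis at h2
    simp only [rswCo, if_true] at h2 h3
    by_cases hc : (x - 1, yy) ∈ Ch
    · exact absurd (iff_of_true (hmono (x - 1) x (by omega) hc h3.1) hc) h2
    · refine ⟨?_, hc, h3.2⟩
      by_contra hn
      exact h2 (iff_of_false hn hc)
  obtain ⟨a1, a2, a3⟩ := key x h
  obtain ⟨b1, b2, b3⟩ := key x' h'
  rcases lt_trichotomy x x' with hlt | heq | hgt
  · exfalso
    rcases (show x = x' - 1 ∨ x < x' - 1 by omega) with h1 | h1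
    · exact b2 (h1 ▸ a1)
    · exact b2 (hmono x (x' - 1) h1 a1 b3)
  · exact heq
  · exfalso
    rcases (show x' = x - 1 ∨ x' < x - 1 by omega) with h1 | h1
    · exact a2 (h1 ▸ b1)
    · exact a2 (hmono x' (x - 1) h1 b1 a3)

/-- a column along which `Ch` is monotone carries at most one horizontal edge of the wall -/
theorem wbc101_change_col {B Ch : Finset (ℤ × ℤ)} {xx : ℤ}
    (hmono : ∀ y y', y < y' → (xx, y) ∈ Ch → (xx, y') ∈ B → (xx, y') ∈ Ch) {y y' : ℤ}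
    (h : ((xx, y), false) ∈ mdl41DisSet B Ch) (h' : ((xx, y'), false) ∈ mdl41DisSet B Ch) : y = y' := by
  have key : ∀ y, ((xx, y), false) ∈ mdl41DisSet B Ch → (xx, y) ∈ Ch ∧ (xx, y - 1) ∉ Ch ∧ (xx, y - 1) ∈ B := by
    intro y hy
    obtain ⟨h1, h2⟩ := mdl41_mem_disSet.1 hy
    have h3 := rsk_mem_int.1 h1
    unfold Mdl41Dis at h2
    simp only [rswCo, Bool.false_eq_true, if_false] at h2 h3
    by_cases hc : (xx, y - 1) ∈ Ch
    · exact absurd (iff_of_true (hmono (y - 1) y (by omega) hc h3.1) hc) h2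
    · refine ⟨?_, hc, h3.2⟩
      by_contra hn
      exact h2 (iff_of_false hn hc)
  obtain ⟨a1, a2, a3⟩ := key y h
  obtain ⟨b1, b2, b3⟩ := key y' h'
  rcases lt_trichotomy y y' with hlt | heq | hgt
  · exfalso
    rcases (show y = y' - 1 ∨ y < y' - 1 by omega) with h1 | h1
    · exact b2 (h1 ▸ a1)
    · exact b2 (hmono y (y' - 1) h1 a1 b3)
  · exact heq
  · exfalso
    rcases (show y' = y - 1 ∨ y' < y - 1 by omega) with h1 | h1
    · exact a2 (h1 ▸ b1)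
    · exact a2 (hmono y' (y - 1) h1 b1 a3)

/-- **(E) TWO ENDS, lateral extensions on the left and on the right**: at most two edges of the wall touch the polygon of the rectangle: one in the bottom row, one in the top row -/
theorem wbc101_ends_h {x0 x1 y0 y1 : ℤ} (hy : y0 + 2 ≤ y1) {Ch : Finset (ℤ × ℤ)} (hCh : Ch ⊆ (Finset.Ico x0 x1 ×ˢ Finset.Ico y0 y1))
    (hc : ∀ f ∈ Ch, ∀ g ∈ Ch, Mdl41cJoin Ch f g)
    (hx : ∀ f ∈ (Finset.Ico x0 x1 ×ˢ Finset.Ico y0 y1) \ Ch, ∀ g ∈ (Finset.Ico x0 x1 ×ˢ Finset.Ico y0 y1) \ Ch, Mdl41cJoin ((Finset.Ico x0 x1 ×ˢ Finset.Ico y0 y1) \ Ch) f g)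
    (hL : ∀ y, y0 ≤ y → y < y1 → (x0, y) ∈ (Finset.Ico x0 x1 ×ˢ Finset.Ico y0 y1) \ Ch) (hR : ∀ y, y0 ≤ y → y < y1 → (x1 - 1, y) ∈ Ch) :
    ∃ xb xt : ℤ, ∀ e ∈ mdl41DisSet (Finset.Ico x0 x1 ×ˢ Finset.Ico y0 y1) Ch, (OnPolygon (Finset.Ico x0 x1 ×ˢ Finset.Ico y0 y1) e.1 ∨ OnPolygon (Finset.Ico x0 x1 ×ˢ Finset.Ico y0 y1) (rswEnd e)) →
      e = ((xb, y0), true) ∨ e = ((xt, y1 - 1), true) := by
  classical
  have hV : (Finset.Ico x0 x1 ×ˢ Finset.Ico y0 y1) \ Ch ⊆ (Finset.Ico x0 x1 ×ˢ Finset.Ico y0 y1) := Finset.sdiff_subset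
  have hUV : Disjoint Ch ((Finset.Ico x0 x1 ×ˢ Finset.Ico y0 y1) \ Ch) := Finset.disjoint_sdiff
  have mb : ∀ x x', x < x' → (x, y0) ∈ Ch → (x', y0) ∈ (Finset.Ico x0 x1 ×ˢ Finset.Ico y0 y1) → (x', y0) ∈ Ch := by
    intro x x' hlt h1 h2
    by_contra hn
    exact wbc101_row_bot hCh hV hUV hc hx h1 (Finset.mem_sdiff.2 ⟨h2, hn⟩) hlt (hR (y1 - 1) (by omega) (by omega))
      (hL y0 (by omega) (by omega))
  have mt : ∀ x x', x < x' → (x, y1 - 1) ∈ Ch → (x', y1 - 1) ∈ (Finset.Ico x0 x1 ×ˢ Finset.Ico y0 y1) → (x', y1 - 1) ∈ Ch := by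
    intro x x' hlt h1 h2
    by_contra hn
    exact wbc101_row_top hCh hV hUV hc hx h1 (Finset.mem_sdiff.2 ⟨h2, hn⟩) hlt (hR y0 (by omega) (by omega))
      (hL y0 (by omega) (by omega))
  obtain ⟨xb, hxb⟩ : ∃ xb, ∀ x, ((x, y0), true) ∈ mdl41DisSet (Finset.Ico x0 x1 ×ˢ Finset.Ico y0 y1) Ch → x = xb := by
    by_cases h : ∃ x, ((x, y0), true) ∈ mdl41DisSet (Finset.Ico x0 x1 ×ˢ Finset.Ico y0 y1) Ch
    · obtain ⟨xb, hb⟩ := h
      exact ⟨xb, fun x hx' => wbc101_change_row mb hx' hb⟩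
    · exact ⟨0, fun x hx' => absurd ⟨x, hx'⟩ h⟩
  obtain ⟨xt, hxt⟩ : ∃ xt, ∀ x, ((x, y1 - 1), true) ∈ mdl41DisSet (Finset.Ico x0 x1 ×ˢ Finset.Ico y0 y1) Ch → x = xt := by
    by_cases h : ∃ x, ((x, y1 - 1), true) ∈ mdl41DisSet (Finset.Ico x0 x1 ×ˢ Finset.Ico y0 y1) Ch
    · obtain ⟨xt, hb⟩ := h
      exact ⟨xt, fun x hx' => wbc101_change_row mt hx' hb⟩
    · exact ⟨0, fun x hx' => absurd ⟨x, hx'⟩ h⟩
  refine ⟨xb, xt, ?_⟩
  rintro ⟨⟨x, y⟩, s⟩ he hpol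
  obtain ⟨h1, h2⟩ := mdl41_mem_disSet.1 he
  have h3 := rsk_mem_int.1 h1
  cases s
  · exfalso
    unfold Mdl41Dis at h2
    simp only [rswCo, Bool.false_eq_true, if_false] at h2 h3
    have h4 := mdl41c_mem_rect.1 h3.1
    have h5 := mdl41c_mem_rect.1 h3.2
    simp only at h4 h5
    have hxx : x = x0 ∨ x = x1 - 1 := by
      unfold OnPolygon at hpol
      simp only [mdl41c_mem_rect, rswEnd, Bool.false_eq_true, if_false] at hpol
      omega
    rcases hxx with rfl | rfl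
    · exact h2 (iff_of_false (Finset.mem_sdiff.1 (hL y (by omega) (by omega))).2
        (Finset.mem_sdiff.1 (hL (y - 1) (by omega) (by omega))).2)
    · exact h2 (iff_of_true (hR y (by omega) (by omega)) (hR (y - 1) (by omega) (by omega)))
  · simp only [rswCo, if_true] at h3
    have h4 := mdl41c_mem_rect.1 h3.1
    have h5 := mdl41c_mem_rect.1 h3.2
    simp only at h4 h5
    have hyy : y = y0 ∨ y = y1 - 1 := by
      unfold OnPolygon at hpol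
      simp only [mdl41c_mem_rect, rswEnd, if_true] at hpol
      omega
    rcases hyy with rfl | rfl
    · left
      rw [hxb x he]
    · right
      rw [hxt x he]

/-- **(E) TWO ENDS, lateral extensions at the bottom and at the top**: at most two edges of the wall touch the polygon of the rectangle: one in the left column, one in the right column -/
theorem wbc101_ends_v {x0 x1 y0 y1 : ℤ} (hxx : x0 + 2 ≤ x1) {Ch : Finset (ℤ × ℤ)} (hCh : Ch ⊆ (Finset.Ico x0 x1 ×ˢ Finset.Ico y0 y1))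
    (hc : ∀ f ∈ Ch, ∀ g ∈ Ch, Mdl41cJoin Ch f g)
    (hx : ∀ f ∈ (Finset.Ico x0 x1 ×ˢ Finset.Ico y0 y1) \ Ch, ∀ g ∈ (Finset.Ico x0 x1 ×ˢ Finset.Ico y0 y1) \ Ch, Mdl41cJoin ((Finset.Ico x0 x1 ×ˢ Finset.Ico y0 y1) \ Ch) f g)
    (hL : ∀ x, x0 ≤ x → x < x1 → (x, y0) ∈ (Finset.Ico x0 x1 ×ˢ Finset.Ico y0 y1) \ Ch) (hR : ∀ x, x0 ≤ x → x < x1 → (x, y1 - 1) ∈ Ch) :
    ∃ yl yr : ℤ, ∀ e ∈ mdl41DisSet (Finset.Ico x0 x1 ×ˢ Finset.Ico y0 y1) Ch, (OnPolygon (Finset.Ico x0 x1 ×ˢ Finset.Ico y0 y1) e.1 ∨ OnPolygon (Finset.Ico x0 x1 ×ˢ Finset.Ico y0 y1) (rswEnd e)) →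
      e = ((x0, yl), false) ∨ e = ((x1 - 1, yr), false) := by
  classical
  have hV : (Finset.Ico x0 x1 ×ˢ Finset.Ico y0 y1) \ Ch ⊆ (Finset.Ico x0 x1 ×ˢ Finset.Ico y0 y1) := Finset.sdiff_subset
  have hUV : Disjoint Ch ((Finset.Ico x0 x1 ×ˢ Finset.Ico y0 y1) \ Ch) := Finset.disjoint_sdiff
  have ml : ∀ y y', y < y' → (x0, y) ∈ Ch → (x0, y') ∈ (Finset.Ico x0 x1 ×ˢ Finset.Ico y0 y1) → (x0, y') ∈ Ch := by
    intro y y' hlt h1 h2
    by_contra hn
    exact wbc101_col_left hCh hV hUV hc hx h1 (Finset.mem_sdiff.2 ⟨h2, hn⟩) hlt (hR (x1 - 1) (by omega) (by omega))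
      (hL x0 (by omega) (by omega))
  have mr : ∀ y y', y < y' → (x1 - 1, y) ∈ Ch → (x1 - 1, y') ∈ (Finset.Ico x0 x1 ×ˢ Finset.Ico y0 y1) → (x1 - 1, y') ∈ Ch := by
    intro y y' hlt h1 h2
    by_contra hn
    exact wbc101_col_right hCh hV hUV hc hx h1 (Finset.mem_sdiff.2 ⟨h2, hn⟩) hlt (hR x0 (by omega) (by omega))
      (hL x0 (by omega) (by omega))
  obtain ⟨yl, hyl⟩ : ∃ yl, ∀ y, ((x0, y), false) ∈ mdl41DisSet (Finset.Ico x0 x1 ×ˢ Finset.Ico y0 y1) Ch → y = yl := by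
    by_cases h : ∃ y, ((x0, y), false) ∈ mdl41DisSet (Finset.Ico x0 x1 ×ˢ Finset.Ico y0 y1) Ch
    · obtain ⟨yl, hb⟩ := h
      exact ⟨yl, fun y hy' => wbc101_change_col ml hy' hb⟩
    · exact ⟨0, fun y hy' => absurd ⟨y, hy'⟩ h⟩
  obtain ⟨yr, hyr⟩ : ∃ yr, ∀ y, ((x1 - 1, y), false) ∈ mdl41DisSet (Finset.Ico x0 x1 ×ˢ Finset.Ico y0 y1) Ch → y = yr := by
    by_cases h : ∃ y, ((x1 - 1, y), false) ∈ mdl41DisSet (Finset.Ico x0 x1 ×ˢ Finset.Ico y0 y1) Ch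
    · obtain ⟨yr, hb⟩ := h
      exact ⟨yr, fun y hy' => wbc101_change_col mr hy' hb⟩
    · exact ⟨0, fun y hy' => absurd ⟨y, hy'⟩ h⟩
  refine ⟨yl, yr, ?_⟩
  rintro ⟨⟨x, y⟩, s⟩ he hpol
  obtain ⟨h1, h2⟩ := mdl41_mem_disSet.1 he
  have h3 := rsk_mem_int.1 h1
  cases s
  · simp only [rswCo, Bool.false_eq_true, if_false] at h3
    have h4 := mdl41c_mem_rect.1 h3.1
    have h5 := mdl41c_mem_rect.1 h3.2
    simp only at h4 h5
    have hx' : x = x0 ∨ x = x1 - 1 := by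
      unfold OnPolygon at hpol
      simp only [mdl41c_mem_rect, rswEnd, Bool.false_eq_true, if_false] at hpol
      omega
    rcases hx' with rfl | rfl
    · left
      rw [hyl y he]
    · right
      rw [hyr y he]
  · exfalso
    unfold Mdl41Dis at h2
    simp only [rswCo, if_true] at h2 h3
    have h4 := mdl41c_mem_rect.1 h3.1
    have h5 := mdl41c_mem_rect.1 h3.2
    simp only at h4 h5
    have hyy : y = y0 ∨ y = y1 - 1 := by
      unfold OnPolygon at hpol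
      simp only [mdl41c_mem_rect, rswEnd, if_true] at hpol
      omega
    rcases hyy with rfl | rfl
    · exact h2 (iff_of_false (Finset.mem_sdiff.1 (hL x (by omega) (by omega))).2
        (Finset.mem_sdiff.1 (hL (x - 1) (by omega) (by omega))).2)
    · exact h2 (iff_of_true (hR x (by omega) (by omega)) (hR (x - 1) (by omega) (by omega)))

/-! ## 8. the facts on the rectangles of the shells which the assembly of (WB) needs -/

/-- a set of faces inside `Λ_m(z)` is strictly inside every domain which contains `Λ_{m+1}(z)` -/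
theorem wbc101_in_of_box {z : ℤ × ℤ} {m M : ℕ} (h : m + 1 ≤ M) {B F : Finset (ℤ × ℤ)} (hB : B ⊆ rswBox z m)
    (hF : rswBox z M ⊆ F) : ∀ v ∈ cornersOf B, ¬ OnPolygon F v := by
  intro v hv
  rw [rsk_mem_corners] at hv
  unfold OnPolygon
  rw [not_not]
  have key : ∀ f : ℤ × ℤ, f ∈ B → (z.1 - m ≤ f.1 ∧ f.1 < z.1 + m) ∧ (z.2 - m ≤ f.2 ∧ f.2 < z.2 + m) :=
    fun f hf => mdl1_mem_box.1 (hB hf)
  have hM : (m : ℤ) + 1 ≤ M := by exact_mod_cast h
  have hv' : (z.1 - m ≤ v.1 ∧ v.1 - 1 < z.1 + m) ∧ (z.2 - m ≤ v.2 ∧ v.2 - 1 < z.2 + m) := by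
    rcases hv with h1 | h1 | h1 | h1
    · have := key _ h1; omega
    · have := key _ h1; simp only at this; omega
    · have := key _ h1; simp only at this; omega
    · have := key _ h1; simp only at this; omega
  refine ⟨hF ?_, hF ?_, hF ?_, hF ?_⟩ <;> rw [mdl1_mem_box] <;> (try simp only) <;> omega

/-- (a) the closed rectangle `B` (lateral width `n / 2`) is strictly inside `F` -/
theorem wbc101_shell_in (z : ℤ × ℤ) (k : ℕ) {n : ℕ} (hn : 2 ≤ n) (d : Fin 4) {F : Finset (ℤ × ℤ)}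
    (hF : rswBox z ((k + 2) * n) ⊆ F) :
    ∀ v ∈ cornersOf (mdl41cB z (k * n) ((k + 1) * n) (n / 2) d), ¬ OnPolygon F v := by
  have e1 : (k + 1) * n = k * n + n := by ring
  have e2 : (k + 2) * n = k * n + 2 * n := by ring
  exact wbc101_in_of_box (m := (k + 1) * n + n / 2) (by omega) (mdl41c_B_sub z (by omega) (n / 2) d) hF

/-- (b) no interior edge of `B` has both ends on the polygon of `B` -/
theorem wbc101_shell_thin (z : ℤ × ℤ) {r0 r1 w : ℕ} (hr : r0 + 2 ≤ r1) (hw : 1 ≤ w) (d : Fin 4) :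
    ∀ e ∈ rswInt (mdl41cB z r0 r1 w d),
      ¬ (OnPolygon (mdl41cB z r0 r1 w d) e.1 ∧ OnPolygon (mdl41cB z r0 r1 w d) (rswEnd e)) := by
  obtain ⟨x0, x1, y0, y1, hB, hx, hy, _⟩ := mdl41c_B_rect z hr hw d
  rw [hB]
  exact fun e he => wb201_rect_thin hx hy he

/-- (c) (S0) in the rectangle `B` -/
theorem wbc101_shell_fkg {t : ℝ} (ht1 : 1 / 2 ≤ t) (ht2 : t < 1) (z : ℤ × ℤ) {r0 r1 : ℕ} (hr : r0 < r1) (w : ℕ) (d : Fin 4)
    (c a : Bool) (K : MdlPin) (hK : K.Ok) : MdlFkgAt t (mdl41cB z r0 r1 w d) c a K :=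
  fun X Y hX hY => cmp291_exit_cmp t ht1 ht2 _ (wbc101_jordan_B z hr w d) c a K hK X Y hX hY

/-- (e) data off `Bf \ (B \ Ch)` are data off the chamber -/
theorem wbc101_ext_ch {Bf B Ch : Finset (ℤ × ℤ)} (hB : B ⊆ Bf) (hCh : Ch ⊆ B) {H : RswCfg → Prop}
    (h : MdlExt (Bf \ (B \ Ch)) H) : MdlExt Ch H :=
  mdl41c_ext_mono (fun _ hf => Finset.mem_sdiff.2 ⟨hB (hCh hf), fun h' => (Finset.mem_sdiff.1 h').2 hf⟩) h

/-! ## 9. THE TOP: the record `Mdl41cWB t` of `Model/Count41` from `wl_wbat` (191) and the part inside `B` (201) -/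

/-- **(WB) = `Mdl41cWB t`** from `wl_wbat` of `Model/Wall191` and the statement of `wb201_inB` (hypothesis `hIn`) -/
theorem wbc101_wb_of (t : ℝ) (ht1 : 1 / 2 ≤ t) (ht2 : t < 1)
    (hcirc : ∃ (κ n0 : ℕ) (p : ℝ), 2 ≤ κ ∧ 0 < p ∧ ∀ n : ℕ, n0 ≤ n → ∀ (x : ℤ × ℤ) (a : Bool),
      p ≤ rswP t (rswBox x (κ * n)) (!a)
        (fun ω => RswSep (rswBox x (κ * n)) a ω (rswBox x n) (rswLayer (rswBox x (κ * n)))))
    (hIn : ∀ (p : ℝ) (F B Ch : Finset (ℤ × ℤ)), (∀ v ∈ cornersOf B, ¬ OnPolygon F v) → Ch ⊆ B →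
      (∀ e ∈ rswInt B, ¬ (OnPolygon B e.1 ∧ OnPolygon B (rswEnd e))) → ∀ (a : Bool) (ω₀ : RswCfg),
      MdlFkgAt t B (!a) a mdlPin0 → WlScreen t B Ch (!a) → WlGC t B Ch a → ∀ (J : Finset (ℤ × ℤ)) (ρ : ℕ),
      p ≤ rswP t B (!a) (WlBlk0 J ρ a) → 0 ≤ p →
      p * rswSum t B (!a) (wlYin F B Ch a ω₀) ≤
        rswSum t B (!a) (fun ω => wlYin F B Ch a ω₀ ω * mdlInd (WlBlk J ρ Ch a) ω)) : Mdl41cWB t := by
  have ht0 : 0 < t := by linarith
  intro k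
  obtain ⟨p, hp, n0, h⟩ := wbc101_wlchain_half t ht1 ht2 hcirc k
  refine ⟨p, hp, max n0 2, fun n hn F z b d hF hsub => ?_⟩
  have hn0 : n0 ≤ n := le_trans (le_max_left _ _) hn
  have hn2 : 2 ≤ n := le_trans (le_max_right _ _) hn
  have e1 : (k + 1) * n = k * n + n := by ring
  have e2 : (k + 2) * n = k * n + 2 * n := by ring
  have hr : k * n + 2 ≤ (k + 1) * n := by omega
  have hw : 1 ≤ n / 2 := by omega
  have hin := wbc101_shell_in z k hn2 d hsub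
  have hBBf : mdl41cB z (k * n) ((k + 1) * n) (n / 2) d ⊆ rswBox z ((k + 2) * n) :=
    (mdl41c_B_sub z (by omega) (n / 2) d).trans (mdl1_box_mono z (by omega))
  refine wl_wbat ht0 ht2 hp.le hin hBBf (wb201_holley ht1 ht2 hF b) ?_ (h n hn0 z d)
  intro Ch a ω₀ J ρ hCh hc hx hpJ
  refine hIn p F _ Ch hin hCh (wbc101_shell_thin z hr hw d) a ω₀
    (wbc101_shell_fkg ht1 ht2 z (by omega) _ d (!a) a mdlPin0 mdlx_pin0_ok) (wbc101_screen t hCh (!a)) ?_ J ρ hpJ hp.le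
  obtain ⟨x0, x1, y0, y1, hB, hx', hy', _⟩ := mdl41c_B_rect z hr hw d
  rw [hB] at hCh hx ⊢
  exact wb201_gc hx' hy' hCh hc hx a

/-- **(WB) WALL BLOCKING = the record `Mdl41cWB t` of `Model/Count41`**, from the circuit input `hcirc` alone:
(W1) `wb201_holley`, (W2) `wbc101_screen`, (W3) `wb201_gc`, (W5) + (W6) `wbc101_wlchain_half`, inside `B` `wb201_inB`, in `F` `wl_wbat` -/
theorem wbc101_wb (t : ℝ) (ht1 : 1 / 2 ≤ t) (ht2 : t < 1)
    (hcirc : ∃ (κ n0 : ℕ) (p : ℝ), 2 ≤ κ ∧ 0 < p ∧ ∀ n : ℕ, n0 ≤ n → ∀ (x : ℤ × ℤ) (a : Bool),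
      p ≤ rswP t (rswBox x (κ * n)) (!a)
        (fun ω => RswSep (rswBox x (κ * n)) a ω (rswBox x n) (rswLayer (rswBox x (κ * n))))) : Mdl41cWB t :=
  wbc101_wb_of t ht1 ht2 hcirc fun _ _ _ _ hin hCh hthin a ω₀ hfkg hScr hGC _ _ hp hp0 =>
    wb201_inB (by linarith) ht2 hin hCh hthin a ω₀ hfkg hScr hGC hp hp0

/-- **(S2) `Mdl41cTrans t k`** (= the statement of `exit_mdl_trans`) from the circuit input alone -/
theorem wbc101_trans (t : ℝ) (ht1 : 1 / 2 ≤ t) (ht2 : t < 1)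
    (hcirc : ∃ (κ n0 : ℕ) (p : ℝ), 2 ≤ κ ∧ 0 < p ∧ ∀ n : ℕ, n0 ≤ n → ∀ (x : ℤ × ℤ) (a : Bool),
      p ≤ rswP t (rswBox x (κ * n)) (!a)
        (fun ω => RswSep (rswBox x (κ * n)) a ω (rswBox x n) (rswLayer (rswBox x (κ * n))))) (k : ℕ) : Mdl41cTrans t k :=
  mdl41c_trans_of_wb mdl41c_meet t ht1 ht2 (wbc101_wb t ht1 ht2 hcirc) k

/-- the equation lemmas of the definitions of this file are generated HERE (RULES.md, rule 6) -/
theorem wbc101_defs_eqns_cite : True := by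
  have := @Wbc101Blk.eq_1
  have := @Wbc101DD.eq_1
  trivial

end Claimed.Agent.R292
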