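/-
Row 292 (S0540), unit MODEL: the planar input eq. (3.5) of the AT paper, `2^{k(N)} = C 2^{k(W) + |W|}`, as linear algebra over `ZMod 2`
(helper141, prefix `mdl141e_`; asked for by helper291).

Two multigraphs on ONE edge index `ι`: primal `s t : ι → V`, dual `s' t' : ι → V'`.  Coboundaries `(δ ρ) i = ρ (s i) + ρ (t i)`, `(δ' d) i = d (s' i) + d (t' i)`.
HYPOTHESES (planar exactness `range δ' = (range δ)^⊥`):
  `hperp` : `∑ i, (δ' d) i * (δ ρ) i = 0` for all `d ρ`;
  `hex`   : every `y` with `∑ i, y i * (δ ρ) i = 0` for all `ρ` (an even subgraph) is a `δ' d`.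
CONCLUSION, for every `W : Finset ι`  (`iszN S s t ω = #{σ : V → S constant along ω} = 2^{k(ω)}` of `R291/Tool/IsingZ`):
  `iszN s t W * 2^|W| * iszN s' t' univ = 2^|V| * iszN s' t' (univ \ W)`      (`mdl141e_duality`, spins `ZMod 2`; `mdl141e_duality_bool`, spins `Bool`).
No hypothesis is used for the half `iszN s t W * 2^|W| = 2^|V| * #{y supported in W, y ⊥ range δ}` (`mdl141e_half`).
-/
import Claimed.Agent.R291.Tool.IsingZ

set_option autoImplicit false
set_option linter.unusedSectionVars false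
set_option linter.unusedVariables false

namespace Claimed.Agent.R292

open Finset Claimed.Agent.R291

/-- the non-trivial character of `ZMod 2`. -/
def mdl141e_chi (a : ZMod 2) : ℤ := if a = 0 then 1 else -1

theorem mdl141e_chi_zero : mdl141e_chi 0 = 1 := rfl

theorem mdl141e_chi_add (a b : ZMod 2) : mdl141e_chi (a + b) = mdl141e_chi a * mdl141e_chi b := by
  revert a b; decide

theorem mdl141e_chi_sum {ι : Type*} (S : Finset ι) (f : ι → ZMod 2) :
    mdl141e_chi (∑ i ∈ S, f i) = ∏ i ∈ S, mdl141e_chi (f i) := by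
  classical
  induction S using Finset.induction_on with
  | empty => simp [mdl141e_chi_zero]
  | insert a S ha ih => rw [Finset.sum_insert ha, Finset.prod_insert ha, mdl141e_chi_add, ih]

theorem mdl141e_chi_of_ne {a : ZMod 2} (h : a ≠ 0) : mdl141e_chi a = -1 := by
  unfold mdl141e_chi; rw [if_neg h]

theorem mdl141e_sum_chi_mul (x : ZMod 2) :
    ∑ j : ZMod 2, mdl141e_chi (j * x) = if x = 0 then 2 else 0 := by
  revert x; decide

section Dual

variable {V V' ι : Type*} [Fintype V] [DecidableEq V] [Fintype V'] [DecidableEq V'] [Fintype ι] [DecidableEq ι]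

/-- the coboundary. -/
def mdl141e_d (s t : ι → V) (ρ : V → ZMod 2) (i : ι) : ZMod 2 := ρ (s i) + ρ (t i)

theorem mdl141e_d_add (s t : ι → V) (ρ ρ₀ : V → ZMod 2) (i : ι) :
    mdl141e_d s t (ρ + ρ₀) i = mdl141e_d s t ρ i + mdl141e_d s t ρ₀ i := by
  simp only [mdl141e_d, Pi.add_apply]; ring

theorem mdl141e_d_eq_zero (s t : ι → V) (ρ : V → ZMod 2) (i : ι) :
    mdl141e_d s t ρ i = 0 ↔ ρ (s i) = ρ (t i) := by
  unfold mdl141e_d
  generalize ρ (s i) = a; generalize ρ (t i) = b
  revert a b; decide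

/-- the pairing of an edge vector with a coboundary. -/
def mdl141e_pair (s t : ι → V) (y : ι → ZMod 2) (ρ : V → ZMod 2) : ZMod 2 := ∑ i, y i * mdl141e_d s t ρ i

theorem mdl141e_pair_add (s t : ι → V) (y : ι → ZMod 2) (ρ ρ₀ : V → ZMod 2) :
    mdl141e_pair s t y (ρ + ρ₀) = mdl141e_pair s t y ρ + mdl141e_pair s t y ρ₀ := by
  unfold mdl141e_pair
  rw [← Finset.sum_add_distrib]
  exact Finset.sum_congr rfl fun i _ => by rw [mdl141e_d_add]; ring

/-- character sum over the vertex colourings. -/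
theorem mdl141e_charsum (s t : ι → V) (y : ι → ZMod 2) :
    ∑ ρ : V → ZMod 2, mdl141e_chi (mdl141e_pair s t y ρ) =
      if ∀ ρ, mdl141e_pair s t y ρ = 0 then 2 ^ Fintype.card V else 0 := by
  by_cases h : ∀ ρ, mdl141e_pair s t y ρ = 0
  · rw [if_pos h]
    simp only [h, mdl141e_chi_zero, Finset.sum_const, Finset.card_univ, Fintype.card_fun, ZMod.card,
      nsmul_eq_mul, mul_one]
    norm_cast
  · rw [if_neg h]
    obtain ⟨ρ₀, h0⟩ := not_forall.1 h
    have e := Equiv.sum_comp (Equiv.addRight ρ₀) (fun ρ => mdl141e_chi (mdl141e_pair s t y ρ))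
    simp only [Equiv.coe_addRight, mdl141e_pair_add, mdl141e_chi_add, mdl141e_chi_of_ne h0] at e
    rw [← Finset.sum_mul] at e
    linarith

/-- the edge vectors supported in `W`. -/
def mdl141e_Y (W : Finset ι) : Finset (ι → ZMod 2) :=
  Fintype.piFinset fun i => if i ∈ W then (univ : Finset (ZMod 2)) else {0}

theorem mdl141e_mem_Y (W : Finset ι) (y : ι → ZMod 2) : y ∈ mdl141e_Y W ↔ ∀ i, i ∉ W → y i = 0 := by
  unfold mdl141e_Y
  rw [Fintype.mem_piFinset]
  refine forall_congr' fun i => ?_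
  by_cases hi : i ∈ W <;> simp [hi]

/-- character sum over the edge vectors supported in `W`. -/
theorem mdl141e_supp_sum (W : Finset ι) (x : ι → ZMod 2) :
    ∑ y ∈ mdl141e_Y W, mdl141e_chi (∑ i, y i * x i) = if ∀ i ∈ W, x i = 0 then 2 ^ W.card else 0 := by
  simp only [mdl141e_chi_sum]
  unfold mdl141e_Y
  rw [← Finset.prod_univ_sum (fun i => if i ∈ W then (univ : Finset (ZMod 2)) else {0})
    (fun i j => mdl141e_chi (j * x i))]
  have h1 : ∀ i, ∑ j ∈ (if i ∈ W then (univ : Finset (ZMod 2)) else {0}), mdl141e_chi (j * x i) =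
      if i ∈ W then (if x i = 0 then 2 else 0) else 1 := by
    intro i
    by_cases hi : i ∈ W
    · rw [if_pos hi, if_pos hi, mdl141e_sum_chi_mul]
    · rw [if_neg hi, if_neg hi, Finset.sum_singleton, zero_mul, mdl141e_chi_zero]
  simp only [h1]
  rw [Finset.prod_ite_mem, Finset.univ_inter]
  by_cases h : ∀ i ∈ W, x i = 0
  · rw [if_pos h, Finset.prod_congr rfl fun i hi => if_pos (h i hi), Finset.prod_const]
  · rw [if_neg h]
    obtain ⟨i, hi⟩ := not_forall.1 h
    obtain ⟨hiW, hx⟩ := Classical.not_imp.1 hi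
    exact Finset.prod_eq_zero hiW (if_neg hx)

/-- **the half which needs no hypothesis**. -/
theorem mdl141e_half (s t : ι → V) (W : Finset ι) :
    iszN (ZMod 2) s t W * 2 ^ W.card =
      2 ^ Fintype.card V * ((mdl141e_Y W).filter fun y => ∀ ρ, mdl141e_pair s t y ρ = 0).card := by
  have h1 : ∑ ρ : V → ZMod 2, ∑ y ∈ mdl141e_Y W, mdl141e_chi (mdl141e_pair s t y ρ) =
      (iszN (ZMod 2) s t W : ℤ) * 2 ^ W.card := by
    unfold mdl141e_pair
    simp only [mdl141e_supp_sum, mdl141e_d_eq_zero]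
    rw [← Finset.sum_filter, Finset.sum_const, nsmul_eq_mul]
    rfl
  have h2 : ∑ ρ : V → ZMod 2, ∑ y ∈ mdl141e_Y W, mdl141e_chi (mdl141e_pair s t y ρ) =
      2 ^ Fintype.card V * (((mdl141e_Y W).filter fun y => ∀ ρ, mdl141e_pair s t y ρ = 0).card : ℤ) := by
    rw [Finset.sum_comm]
    simp only [mdl141e_charsum]
    rw [← Finset.sum_filter, Finset.sum_const, nsmul_eq_mul, mul_comm]
  have h3 := h1.symm.trans h2
  exact_mod_cast h3

/-- fibres of the coboundary. -/
theorem mdl141e_fiber (s t : ι → V) (d₀ : V → ZMod 2) :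
    (univ.filter fun d : V → ZMod 2 => ∀ i, mdl141e_d s t d i = mdl141e_d s t d₀ i).card =
      iszN (ZMod 2) s t univ := by
  unfold iszN
  refine Finset.card_bij (fun d _ => d + d₀) ?_ ?_ ?_
  · intro d hd
    simp only [mem_filter, mem_univ, true_and, forall_true_left] at hd ⊢
    intro i
    rw [← mdl141e_d_eq_zero, mdl141e_d_add, hd i]
    generalize mdl141e_d s t d₀ i = a
    revert a; decide
  · intro a _ b _ hab
    exact add_right_cancel hab
  · intro σ hσ
    simp only [mem_filter, mem_univ, true_and, forall_true_left] at hσ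
    refine ⟨σ + d₀, ?_, ?_⟩
    · simp only [mem_filter, mem_univ, true_and]
      intro i
      rw [mdl141e_d_add, (mdl141e_d_eq_zero s t σ i).2 (hσ i), zero_add]
    · funext v
      simp only [Pi.add_apply]
      generalize σ v = a; generalize d₀ v = b
      revert a b; decide

/-- **eq. (3.5)**: planar duality of the cluster counts. -/
theorem mdl141e_duality (s t : ι → V) (s' t' : ι → V')
    (hperp : ∀ (d : V' → ZMod 2) (ρ : V → ZMod 2), ∑ i, mdl141e_d s' t' d i * mdl141e_d s t ρ i = 0)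
    (hex : ∀ y : ι → ZMod 2, (∀ ρ : V → ZMod 2, ∑ i, y i * mdl141e_d s t ρ i = 0) →
      ∃ d : V' → ZMod 2, ∀ i, y i = mdl141e_d s' t' d i)
    (W : Finset ι) :
    iszN (ZMod 2) s t W * 2 ^ W.card * iszN (ZMod 2) s' t' univ =
      2 ^ Fintype.card V * iszN (ZMod 2) s' t' (univ \ W) := by
  rw [mdl141e_half, mul_assoc]
  congr 1
  set T := (mdl141e_Y W).filter fun y => ∀ ρ, mdl141e_pair s t y ρ = 0 with hT
  have hmaps : ((univ.filter fun σ : V' → ZMod 2 => ∀ i ∈ univ \ W, σ (s' i) = σ (t' i) : Finset _) :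
      Set (V' → ZMod 2)).MapsTo (fun d => mdl141e_d s' t' d) T := by
    intro d hd
    simp only [coe_filter, mem_univ, true_and, Set.mem_ofPred_eq, mem_sdiff] at hd
    rw [hT, mem_coe, mem_filter, mdl141e_mem_Y]
    exact ⟨fun i hi => (mdl141e_d_eq_zero s' t' d i).2 (hd i hi), fun ρ => hperp d ρ⟩
  unfold iszN at *
  rw [Finset.card_eq_sum_card_fiberwise hmaps]
  have hfib : ∀ y ∈ T, ((univ.filter fun σ : V' → ZMod 2 => ∀ i ∈ univ \ W, σ (s' i) = σ (t' i)).filter
      fun d => mdl141e_d s' t' d = y).card =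
      (univ.filter fun σ : V' → ZMod 2 => ∀ i ∈ univ, σ (s' i) = σ (t' i)).card := by
    intro y hy
    rw [hT, mem_filter, mdl141e_mem_Y] at hy
    obtain ⟨d₀, hd₀⟩ := hex y hy.2
    have := mdl141e_fiber s' t' d₀
    unfold iszN at this
    rw [← this]
    congr 1
    ext d
    simp only [mem_filter, mem_univ, true_and, mem_sdiff]
    constructor
    · rintro ⟨_, h2⟩ i
      rw [h2, hd₀ i]
    · intro h
      have hy' : mdl141e_d s' t' d = y := funext fun i => (h i).trans (hd₀ i).symm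
      refine ⟨fun i hi => ?_, hy'⟩
      rw [← mdl141e_d_eq_zero, hy']
      exact hy.1 i hi
  rw [Finset.sum_congr rfl hfib, Finset.sum_const, smul_eq_mul]

/-- eq. (3.5) with Boolean spins. -/
theorem mdl141e_duality_bool (s t : ι → V) (s' t' : ι → V')
    (hperp : ∀ (d : V' → ZMod 2) (ρ : V → ZMod 2), ∑ i, mdl141e_d s' t' d i * mdl141e_d s t ρ i = 0)
    (hex : ∀ y : ι → ZMod 2, (∀ ρ : V → ZMod 2, ∑ i, y i * mdl141e_d s t ρ i = 0) →
      ∃ d : V' → ZMod 2, ∀ i, y i = mdl141e_d s' t' d i)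
    (W : Finset ι) :
    iszN Bool s t W * 2 ^ W.card * iszN Bool s' t' univ =
      2 ^ Fintype.card V * iszN Bool s' t' (univ \ W) := by
  have e : Bool ≃ ZMod 2 := Fintype.equivOfCardEq (by rw [Fintype.card_bool, ZMod.card])
  rw [isz_N_congr e, isz_N_congr e, isz_N_congr e]
  exact mdl141e_duality s t s' t' hperp hex W

end Dual

theorem mdl141e_eqns_cite : True := by
  have := @mdl141e_chi.eq_1
  have := @mdl141e_d.eq_1.{0,0}
  have := @mdl141e_pair.eq_1.{0,0}
  have := @mdl141e_Y.eq_1.{0}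
  trivial

end Claimed.Agent.R292
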