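/-
# Row 292 (S0540), unit MODEL: ABSOLUTE-VALUE FKG for six-vertex heights at `c = 1/t ≥ 1`   (helper51, prefix `mdl51_`)

Paper: Sec. 3, Prop. "Comparison with pins and wires" (the `|h|` half of the comparison tools; literature: Duminil-Copin,
Karrila, Manolescu, Oulamara, *Delocalization of the height function of the six-vertex model*, Sec. 2: FKG for `|h|`).

ABSTRACT CORNER GRAPH (`Mdl51`).  Sites `V`, each EVEN or ODD.  A height `k : V → ℤ` is admissible (`Mdl51.Adm`) if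
* `k x` is odd exactly at the odd sites,
* `|k u - k v| = 1` along every nearest-neighbour edge `i : ιE` (`u = eu i` even, `v = ev i` odd),
* `0 ≤ k (xs i) * k (xt i)` for every SIGN WIRE `i : ιX` (`xt i` odd; this is how plus-pins / nonnegative boundary values are
  encoded: wire the pinned sites to one reference odd site; no wire = free signs, e.g. zero boundary values).
Weight (`Mdl51.wt`): a factor `t` for every diagonal pair (`ιO`: two odd sites, `ιD`: two even sites) with unequal heights.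
For the corner lattice of `Def_0468` this is `t ^ atDisagreements` (weights `(1,1,c)`, `c = 1/t`, up to the constant `t^{#plaquettes}`).
Every diagonal pair has a common neighbour (`Mdl51.Ok`).

RESULTS, for `0 ≤ t ≤ 1`:
* `mdl51_wt_sg`      : `wt (σ·ζ) = pref ζ * ∏_edges (1 or a_i(ζ))`: given `|k| = ζ` the signs are an Ising model;
* `mdl51_sum_box`    : `∑_k G k = ∑_ζ ∑_σ z(ζ) G(σ·ζ)` (change of variables `k = σ·ζ`);
* `mdl51_lattice`    : **the law `absW` of `|k|` satisfies the FKG lattice condition**;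
* `mdl51_fkg_abs`    : positive association of increasing functions of `|k|` (unnormalised form);
* `mdl51_holley_abs` : comparison of two conditionings / boundary conditions for `|k|` (Holley form).
-/
import Claimed.Agent.R291.Tool.IsingZ

set_option autoImplicit false
set_option linter.unusedSectionVars false
set_option linter.unusedVariables false
set_option linter.unusedSimpArgs false

namespace Claimed.Agent.R292

open Finset
open Claimed.Agent.R291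

/-- abstract corner graph: parity, nearest-neighbour edges, odd and even diagonal pairs, sign wires. -/
structure Mdl51 (V ιE ιO ιD ιX : Type) where
  odd : V → Prop
  eu : ιE → V
  ev : ιE → V
  ox : ιO → V
  oy : ιO → V
  dx : ιD → V
  dy : ιD → V
  xs : ιX → V
  xt : ιX → V

variable {V ιE ιO ιD ιX : Type}

/-- well-formedness of the corner graph. -/
structure Mdl51.Ok (G : Mdl51 V ιE ιO ιD ιX) : Prop where
  eu_even : ∀ i, ¬ G.odd (G.eu i)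
  ev_odd : ∀ i, G.odd (G.ev i)
  ox_odd : ∀ i, G.odd (G.ox i)
  oy_odd : ∀ i, G.odd (G.oy i)
  dx_even : ∀ i, ¬ G.odd (G.dx i)
  dy_even : ∀ i, ¬ G.odd (G.dy i)
  xt_odd : ∀ i, G.odd (G.xt i)
  o_nbr : ∀ i, ∃ j j', G.ev j = G.ox i ∧ G.ev j' = G.oy i ∧ G.eu j = G.eu j'
  d_nbr : ∀ i, ∃ j j', G.eu j = G.dx i ∧ G.eu j' = G.dy i ∧ G.ev j = G.ev j'

/-- admissible integer heights. -/
def Mdl51.Adm (G : Mdl51 V ιE ιO ιD ιX) (k : V → ℤ) : Prop :=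
  (∀ x, Odd (k x) ↔ G.odd x) ∧ (∀ i, |k (G.eu i) - k (G.ev i)| = 1) ∧
    ∀ i, 0 ≤ k (G.xs i) * k (G.xt i)

/-- admissible absolute values. -/
def Mdl51.AdmN (G : Mdl51 V ιE ιO ιD ιX) {N : ℕ} (ζ : V → Fin (N + 1)) : Prop :=
  (∀ x, Odd (ζ x : ℕ) ↔ G.odd x) ∧ ∀ i, |((ζ (G.eu i) : ℕ) : ℤ) - ((ζ (G.ev i) : ℕ) : ℤ)| = 1

variable [Fintype V] [DecidableEq V] [Fintype ιE] [DecidableEq ιE] [Fintype ιO] [DecidableEq ιO]
  [Fintype ιD] [DecidableEq ιD] [Fintype ιX] [DecidableEq ιX]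

open Classical in
/-- the six-vertex weight of a height: `t` per diagonal pair with unequal heights. -/
noncomputable def Mdl51.wt (G : Mdl51 V ιE ιO ιD ιX) (t : ℝ) (k : V → ℤ) : ℝ :=
  if G.Adm k then
    (∏ i, (if k (G.ox i) = k (G.oy i) then 1 else t)) * ∏ i, (if k (G.dx i) = k (G.dy i) then 1 else t)
  else 0

open Classical in
/-- the sign-independent part of the weight of `|k| = ζ`. -/
noncomputable def Mdl51.pref (G : Mdl51 V ιE ιO ιD ιX) (t : ℝ) {N : ℕ} (ζ : V → Fin (N + 1)) : ℝ :=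
  if G.AdmN ζ then
    (∏ i, (if ζ (G.ox i) = ζ (G.oy i) then 1 else t)) * ∏ i, (if ζ (G.dx i) = ζ (G.dy i) then 1 else t)
  else 0

/-- the signed height `σ·ζ`. -/
def mdl51_sg {N : ℕ} (σ : V → Bool) (ζ : V → Fin (N + 1)) : V → ℤ :=
  fun x => if σ x then ((ζ x : ℕ) : ℤ) else -((ζ x : ℕ) : ℤ)

/-- first endpoints of the Ising edges. -/
def Mdl51.es (G : Mdl51 V ιE ιO ιD ιX) : ιE ⊕ ιO ⊕ ιX → V :=
  Sum.elim G.eu (Sum.elim G.ox G.xs)

/-- second endpoints of the Ising edges. -/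
def Mdl51.et (G : Mdl51 V ιE ιO ιD ιX) : ιE ⊕ ιO ⊕ ιX → V :=
  Sum.elim G.ev (Sum.elim G.oy G.xt)

/-- cost of unequal signs along an Ising edge, given `|k| = ζ`. -/
noncomputable def Mdl51.ea (G : Mdl51 V ιE ιO ιD ιX) (t : ℝ) {N : ℕ} (ζ : V → Fin (N + 1)) :
    ιE ⊕ ιO ⊕ ιX → ℝ :=
  Sum.elim (fun i => if (ζ (G.eu i) : ℕ) = 0 then 1 else 0)
    (Sum.elim (fun i => if (ζ (G.ox i) : ℕ) ≤ 1 ∧ (ζ (G.oy i) : ℕ) ≤ 1 then t else 0)
      (fun i => if (ζ (G.xs i) : ℕ) = 0 then 1 else 0))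

/-- compensation of the dummy signs at the zeros of `ζ`. -/
noncomputable def mdl51_z {N : ℕ} (ζ : V → Fin (N + 1)) : ℝ :=
  ∏ x, (if (ζ x : ℕ) = 0 then (1 / 2 : ℝ) else 1)

/-- **the (unnormalised) law of `|k|`.** -/
noncomputable def Mdl51.absW (G : Mdl51 V ιE ιO ιD ιX) (t : ℝ) {N : ℕ} (ζ : V → Fin (N + 1)) : ℝ :=
  mdl51_z ζ * (G.pref t ζ * iszZ Bool G.es G.et (G.ea t ζ))

/-! ## 1. arithmetic of one edge -/

theorem mdl51_sg_natAbs {N : ℕ} (σ : V → Bool) (ζ : V → Fin (N + 1)) (x : V) :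
    (mdl51_sg σ ζ x).natAbs = (ζ x : ℕ) := by
  unfold mdl51_sg
  split_ifs <;> simp

theorem mdl51_sg_odd {N : ℕ} (σ : V → Bool) (ζ : V → Fin (N + 1)) (x : V) :
    Odd (mdl51_sg σ ζ x) ↔ Odd (ζ x : ℕ) := by
  rw [← Int.natAbs_odd, mdl51_sg_natAbs]


theorem mdl51_edge (a b : ℕ) (ha : ¬ Odd a) (hb : Odd b) (p q : Bool) :
    |(if p then (a : ℤ) else -(a : ℤ)) - (if q then (b : ℤ) else -(b : ℤ))| = 1 ↔
      (|(a : ℤ) - (b : ℤ)| = 1 ∧ (p = q ∨ a = 0)) := by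
  rw [Nat.odd_iff] at ha hb
  rw [abs_eq (by norm_num : (0 : ℤ) ≤ 1), abs_eq (by norm_num : (0 : ℤ) ≤ 1)]
  cases p <;> cases q <;> simp <;> omega

theorem mdl51_wire (a b : ℕ) (hb : Odd b) (p q : Bool) :
    0 ≤ (if p then (a : ℤ) else -(a : ℤ)) * (if q then (b : ℤ) else -(b : ℤ)) ↔ (p = q ∨ a = 0) := by
  have hb1 : (1 : ℤ) ≤ b := by
    rw [Nat.odd_iff] at hb
    omega
  have ha0 : (0 : ℤ) ≤ a := Int.natCast_nonneg a
  have key : (a : ℤ) * b ≤ 0 ↔ a = 0 := by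
    constructor
    · intro h
      by_contra h0
      have : (1 : ℤ) ≤ a := by omega
      nlinarith
    · rintro rfl
      simp
  cases p <;> cases q <;> simp
  · positivity
  · rw [← key]
  · rw [← key]
  · positivity

theorem mdl51_opair (t : ℝ) (a b : ℕ) (ha : Odd a) (hb : Odd b) (p q : Bool)
    (h : |(if p then (a : ℤ) else -(a : ℤ)) - (if q then (b : ℤ) else -(b : ℤ))| ≤ 2) :
    (if (if p then (a : ℤ) else -(a : ℤ)) = (if q then (b : ℤ) else -(b : ℤ)) then (1 : ℝ) else t) =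
      (if a = b then 1 else t) * (if p = q then 1 else (if a ≤ 1 ∧ b ≤ 1 then t else 0)) := by
  rw [Nat.odd_iff] at ha hb
  rw [abs_le] at h
  cases p <;> cases q <;> simp at h ⊢
  · have h1 : a = 1 := by omega
    have h2 : b = 1 := by omega
    subst h1 h2
    simp
  · have h1 : a = 1 := by omega
    have h2 : b = 1 := by omega
    subst h1 h2
    simp

theorem mdl51_dpair (t : ℝ) (a b : ℕ) (ha : ¬ Odd a) (hb : ¬ Odd b) (p q : Bool)
    (h : |(if p then (a : ℤ) else -(a : ℤ)) - (if q then (b : ℤ) else -(b : ℤ))| ≤ 2) :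
    (if (if p then (a : ℤ) else -(a : ℤ)) = (if q then (b : ℤ) else -(b : ℤ)) then (1 : ℝ) else t) =
      (if a = b then 1 else t) := by
  rw [Nat.odd_iff] at ha hb
  rw [abs_le] at h
  have e : ((if p then (a : ℤ) else -(a : ℤ)) = (if q then (b : ℤ) else -(b : ℤ))) ↔ a = b := by
    cases p <;> cases q <;> simp at h ⊢ <;> omega
  simp only [e]


/-! ## 2. given `|k| = ζ`, the signs form an Ising model -/

theorem mdl51_adm_sg (G : Mdl51 V ιE ιO ιD ιX) (hG : G.Ok) {N : ℕ} (σ : V → Bool)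
    (ζ : V → Fin (N + 1)) :
    G.Adm (mdl51_sg σ ζ) ↔ (G.AdmN ζ ∧ (∀ i, σ (G.eu i) = σ (G.ev i) ∨ (ζ (G.eu i) : ℕ) = 0) ∧
      ∀ i, σ (G.xs i) = σ (G.xt i) ∨ (ζ (G.xs i) : ℕ) = 0) := by
  unfold Mdl51.Adm Mdl51.AdmN
  constructor
  · rintro ⟨h1, h2, h3⟩
    have hp : ∀ x, Odd (ζ x : ℕ) ↔ G.odd x := fun x => by rw [← h1 x, mdl51_sg_odd]
    have hE : ∀ i, |((ζ (G.eu i) : ℕ) : ℤ) - ((ζ (G.ev i) : ℕ) : ℤ)| = 1 ∧
        (σ (G.eu i) = σ (G.ev i) ∨ (ζ (G.eu i) : ℕ) = 0) := fun i =>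
      (mdl51_edge _ _ (fun h => hG.eu_even i ((hp _).1 h)) ((hp _).2 (hG.ev_odd i)) _ _).1 (h2 i)
    exact ⟨⟨hp, fun i => (hE i).1⟩, fun i => (hE i).2, fun i =>
      (mdl51_wire _ _ ((hp _).2 (hG.xt_odd i)) _ _).1 (h3 i)⟩
  · rintro ⟨⟨hp, h2⟩, h3, h4⟩
    refine ⟨fun x => by rw [mdl51_sg_odd, hp], fun i => ?_, fun i => ?_⟩
    · exact (mdl51_edge _ _ (fun h => hG.eu_even i ((hp _).1 h)) ((hp _).2 (hG.ev_odd i)) _ _).2
        ⟨h2 i, h3 i⟩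
    · exact (mdl51_wire _ _ ((hp _).2 (hG.xt_odd i)) _ _).2 (h4 i)

theorem mdl51_adm_o (G : Mdl51 V ιE ιO ιD ιX) (hG : G.Ok) {k : V → ℤ} (hk : G.Adm k) (i : ιO) :
    |k (G.ox i) - k (G.oy i)| ≤ 2 := by
  obtain ⟨j, j', h1, h2, h3⟩ := hG.o_nbr i
  have a1 := hk.2.1 j
  have a2 := hk.2.1 j'
  rw [h1] at a1
  rw [h2, ← h3] at a2
  rw [abs_eq (by norm_num : (0 : ℤ) ≤ 1)] at a1 a2
  rw [abs_le]
  omega

theorem mdl51_adm_d (G : Mdl51 V ιE ιO ιD ιX) (hG : G.Ok) {k : V → ℤ} (hk : G.Adm k) (i : ιD) :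
    |k (G.dx i) - k (G.dy i)| ≤ 2 := by
  obtain ⟨j, j', h1, h2, h3⟩ := hG.d_nbr i
  have a1 := hk.2.1 j
  have a2 := hk.2.1 j'
  rw [h1] at a1
  rw [h2, ← h3] at a2
  rw [abs_eq (by norm_num : (0 : ℤ) ≤ 1)] at a1 a2
  rw [abs_le]
  omega

/-- **the weight of `σ·ζ`**: a sign-independent prefactor times Ising edge factors. -/
theorem mdl51_wt_sg (G : Mdl51 V ιE ιO ιD ιX) (hG : G.Ok) (t : ℝ) {N : ℕ} (σ : V → Bool)
    (ζ : V → Fin (N + 1)) :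
    G.wt t (mdl51_sg σ ζ) =
      G.pref t ζ * ∏ i, (if σ (G.es i) = σ (G.et i) then 1 else G.ea t ζ i) := by
  classical
  by_cases hA : G.AdmN ζ
  · by_cases hC : (∀ i, σ (G.eu i) = σ (G.ev i) ∨ (ζ (G.eu i) : ℕ) = 0) ∧
        ∀ i, σ (G.xs i) = σ (G.xt i) ∨ (ζ (G.xs i) : ℕ) = 0
    · have hk : G.Adm (mdl51_sg σ ζ) := (mdl51_adm_sg G hG σ ζ).2 ⟨hA, hC⟩
      unfold Mdl51.wt Mdl51.pref
      rw [if_pos hk, if_pos hA, Fintype.prod_sum_type, Fintype.prod_sum_type]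
      have e1 : ∏ i : ιE, (if σ (G.es (Sum.inl i)) = σ (G.et (Sum.inl i)) then (1 : ℝ)
          else G.ea t ζ (Sum.inl i)) = 1 := by
        refine Finset.prod_eq_one fun i _ => ?_
        show (if σ (G.eu i) = σ (G.ev i) then (1 : ℝ) else if (ζ (G.eu i) : ℕ) = 0 then 1 else 0) = 1
        rcases hC.1 i with h | h
        · rw [if_pos h]
        · rw [if_pos h]; simp
      have e2 : ∏ i : ιX, (if σ (G.es (Sum.inr (Sum.inr i))) = σ (G.et (Sum.inr (Sum.inr i))) then (1 : ℝ)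
          else G.ea t ζ (Sum.inr (Sum.inr i))) = 1 := by
        refine Finset.prod_eq_one fun i _ => ?_
        show (if σ (G.xs i) = σ (G.xt i) then (1 : ℝ) else if (ζ (G.xs i) : ℕ) = 0 then 1 else 0) = 1
        rcases hC.2 i with h | h
        · rw [if_pos h]
        · rw [if_pos h]; simp
      rw [e1, e2, one_mul, mul_one]
      have e3 : ∏ i, (if mdl51_sg σ ζ (G.ox i) = mdl51_sg σ ζ (G.oy i) then (1 : ℝ) else t) =
          (∏ i, (if ζ (G.ox i) = ζ (G.oy i) then (1 : ℝ) else t)) *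
            ∏ i : ιO, (if σ (G.es (Sum.inr (Sum.inl i))) = σ (G.et (Sum.inr (Sum.inl i))) then (1 : ℝ)
              else G.ea t ζ (Sum.inr (Sum.inl i))) := by
        rw [← Finset.prod_mul_distrib]
        refine Finset.prod_congr rfl fun i _ => ?_
        show (if mdl51_sg σ ζ (G.ox i) = mdl51_sg σ ζ (G.oy i) then (1 : ℝ) else t) =
          (if ζ (G.ox i) = ζ (G.oy i) then (1 : ℝ) else t) * (if σ (G.ox i) = σ (G.oy i) then (1 : ℝ)
            else if (ζ (G.ox i) : ℕ) ≤ 1 ∧ (ζ (G.oy i) : ℕ) ≤ 1 then t else 0)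
        have := mdl51_opair t (ζ (G.ox i)) (ζ (G.oy i)) ((hA.1 _).2 (hG.ox_odd i))
          ((hA.1 _).2 (hG.oy_odd i)) (σ (G.ox i)) (σ (G.oy i)) (mdl51_adm_o G hG hk i)
        simp only [Fin.val_inj] at this
        exact this
      have e4 : ∏ i, (if mdl51_sg σ ζ (G.dx i) = mdl51_sg σ ζ (G.dy i) then (1 : ℝ) else t) =
          ∏ i, (if ζ (G.dx i) = ζ (G.dy i) then (1 : ℝ) else t) := by
        refine Finset.prod_congr rfl fun i _ => ?_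
        have := mdl51_dpair t (ζ (G.dx i)) (ζ (G.dy i)) (fun h => hG.dx_even i ((hA.1 _).1 h))
          (fun h => hG.dy_even i ((hA.1 _).1 h)) (σ (G.dx i)) (σ (G.dy i)) (mdl51_adm_d G hG hk i)
        simp only [Fin.val_inj] at this
        exact this
      rw [e3, e4]
      ring
    · have hk : ¬ G.Adm (mdl51_sg σ ζ) := fun h => hC ((mdl51_adm_sg G hG σ ζ).1 h).2
      have h0 : ∏ i, (if σ (G.es i) = σ (G.et i) then (1 : ℝ) else G.ea t ζ i) = 0 := by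
        rw [not_and_or] at hC
        rcases hC with h | h
        · push Not at h
          obtain ⟨i, h1, h2⟩ := h
          refine Finset.prod_eq_zero (Finset.mem_univ (Sum.inl i)) ?_
          show (if σ (G.eu i) = σ (G.ev i) then (1 : ℝ) else if (ζ (G.eu i) : ℕ) = 0 then 1 else 0) = 0
          rw [if_neg h1, if_neg h2]
        · push Not at h
          obtain ⟨i, h1, h2⟩ := h
          refine Finset.prod_eq_zero (Finset.mem_univ (Sum.inr (Sum.inr i))) ?_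
          show (if σ (G.xs i) = σ (G.xt i) then (1 : ℝ) else if (ζ (G.xs i) : ℕ) = 0 then 1 else 0) = 0
          rw [if_neg h1, if_neg h2]
      unfold Mdl51.wt
      rw [if_neg hk, h0, mul_zero]
  · have hk : ¬ G.Adm (mdl51_sg σ ζ) := fun h => hA ((mdl51_adm_sg G hG σ ζ).1 h).1
    unfold Mdl51.wt Mdl51.pref
    rw [if_neg hk, if_neg hA, zero_mul]

/-- summing the signs: the Ising partition function. -/
theorem mdl51_sum_sg (G : Mdl51 V ιE ιO ιD ιX) (hG : G.Ok) (t : ℝ) {N : ℕ} (ζ : V → Fin (N + 1)) :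
    ∑ σ : V → Bool, G.wt t (mdl51_sg σ ζ) = G.pref t ζ * iszZ Bool G.es G.et (G.ea t ζ) := by
  unfold iszZ
  rw [Finset.mul_sum]
  exact Finset.sum_congr rfl fun σ _ => mdl51_wt_sg G hG t σ ζ


/-! ## 3. the lattice condition -/

theorem mdl51_inf_val {N : ℕ} (ζ ζ' : V → Fin (N + 1)) (x : V) :
    (((ζ ⊓ ζ') x : Fin (N + 1)) : ℕ) = min (ζ x : ℕ) (ζ' x : ℕ) := Fin.coe_min _ _

theorem mdl51_sup_val {N : ℕ} (ζ ζ' : V → Fin (N + 1)) (x : V) :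
    (((ζ ⊔ ζ') x : Fin (N + 1)) : ℕ) = max (ζ x : ℕ) (ζ' x : ℕ) := Fin.coe_max _ _

theorem mdl51_z_pos {N : ℕ} (ζ : V → Fin (N + 1)) : 0 < mdl51_z ζ := by
  unfold mdl51_z
  refine Finset.prod_pos fun x _ => ?_
  split_ifs <;> norm_num

theorem mdl51_z_mul {N : ℕ} (ζ ζ' : V → Fin (N + 1)) :
    mdl51_z ζ * mdl51_z ζ' = mdl51_z (ζ ⊓ ζ') * mdl51_z (ζ ⊔ ζ') := by
  unfold mdl51_z
  rw [← Finset.prod_mul_distrib, ← Finset.prod_mul_distrib]
  refine Finset.prod_congr rfl fun x _ => ?_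
  rw [mdl51_inf_val, mdl51_sup_val]
  rcases le_total (ζ x : ℕ) (ζ' x : ℕ) with h | h
  · rw [min_eq_left h, max_eq_right h]
  · rw [min_eq_right h, max_eq_left h, mul_comm]

theorem mdl51_ea_nonneg (G : Mdl51 V ιE ιO ιD ιX) {t : ℝ} (ht0 : 0 ≤ t) {N : ℕ}
    (ζ : V → Fin (N + 1)) (i : ιE ⊕ ιO ⊕ ιX) : 0 ≤ G.ea t ζ i := by
  rcases i with i | i | i
  · show (0 : ℝ) ≤ if (ζ (G.eu i) : ℕ) = 0 then 1 else 0
    split_ifs <;> norm_num
  · show (0 : ℝ) ≤ if (ζ (G.ox i) : ℕ) ≤ 1 ∧ (ζ (G.oy i) : ℕ) ≤ 1 then t else 0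
    split_ifs
    · exact ht0
    · exact le_rfl
  · show (0 : ℝ) ≤ if (ζ (G.xs i) : ℕ) = 0 then 1 else 0
    split_ifs <;> norm_num

theorem mdl51_ea_le_one (G : Mdl51 V ιE ιO ιD ιX) {t : ℝ} (ht1 : t ≤ 1) {N : ℕ}
    (ζ : V → Fin (N + 1)) (i : ιE ⊕ ιO ⊕ ιX) : G.ea t ζ i ≤ 1 := by
  rcases i with i | i | i
  · show (if (ζ (G.eu i) : ℕ) = 0 then (1 : ℝ) else 0) ≤ 1
    split_ifs <;> norm_num
  · show (if (ζ (G.ox i) : ℕ) ≤ 1 ∧ (ζ (G.oy i) : ℕ) ≤ 1 then t else 0) ≤ 1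
    split_ifs
    · exact ht1
    · exact zero_le_one
  · show (if (ζ (G.xs i) : ℕ) = 0 then (1 : ℝ) else 0) ≤ 1
    split_ifs <;> norm_num

/-- the edge costs at `ζ ⊔ ζ'` are exactly the minima. -/
theorem mdl51_ea_sup (G : Mdl51 V ιE ιO ιD ιX) {t : ℝ} (ht0 : 0 ≤ t) {N : ℕ}
    (ζ ζ' : V → Fin (N + 1)) : G.ea t (ζ ⊔ ζ') = G.ea t ζ ⊓ G.ea t ζ' := by
  funext i
  rw [Pi.inf_apply]
  rcases i with i | i | i
  · show (if (((ζ ⊔ ζ') (G.eu i) : Fin (N + 1)) : ℕ) = 0 then (1 : ℝ) else 0) =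
      (if (ζ (G.eu i) : ℕ) = 0 then (1 : ℝ) else 0) ⊓ (if (ζ' (G.eu i) : ℕ) = 0 then (1 : ℝ) else 0)
    rw [mdl51_sup_val]
    by_cases h1 : (ζ (G.eu i) : ℕ) = 0 <;> by_cases h2 : (ζ' (G.eu i) : ℕ) = 0 <;>
      simp [h1, h2]
  · show (if (((ζ ⊔ ζ') (G.ox i) : Fin (N + 1)) : ℕ) ≤ 1 ∧ (((ζ ⊔ ζ') (G.oy i) : Fin (N + 1)) : ℕ) ≤ 1
        then t else 0) =
      (if (ζ (G.ox i) : ℕ) ≤ 1 ∧ (ζ (G.oy i) : ℕ) ≤ 1 then t else 0) ⊓
        (if (ζ' (G.ox i) : ℕ) ≤ 1 ∧ (ζ' (G.oy i) : ℕ) ≤ 1 then t else 0)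
    rw [mdl51_sup_val, mdl51_sup_val]
    by_cases h1 : (ζ (G.ox i) : ℕ) ≤ 1 ∧ (ζ (G.oy i) : ℕ) ≤ 1 <;>
      by_cases h2 : (ζ' (G.ox i) : ℕ) ≤ 1 ∧ (ζ' (G.oy i) : ℕ) ≤ 1
    · rw [if_pos h1, if_pos h2, if_pos ⟨max_le h1.1 h2.1, max_le h1.2 h2.2⟩, inf_idem]
    · rw [if_pos h1, if_neg h2, if_neg, inf_eq_right.2 ht0]
      exact fun h => h2 ⟨(le_max_right _ _).trans h.1, (le_max_right _ _).trans h.2⟩
    · rw [if_neg h1, if_pos h2, if_neg, inf_eq_left.2 ht0]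
      exact fun h => h1 ⟨(le_max_left _ _).trans h.1, (le_max_left _ _).trans h.2⟩
    · rw [if_neg h1, if_neg h2, if_neg, inf_idem]
      exact fun h => h1 ⟨(le_max_left _ _).trans h.1, (le_max_left _ _).trans h.2⟩
  · show (if (((ζ ⊔ ζ') (G.xs i) : Fin (N + 1)) : ℕ) = 0 then (1 : ℝ) else 0) =
      (if (ζ (G.xs i) : ℕ) = 0 then (1 : ℝ) else 0) ⊓ (if (ζ' (G.xs i) : ℕ) = 0 then (1 : ℝ) else 0)
    rw [mdl51_sup_val]
    by_cases h1 : (ζ (G.xs i) : ℕ) = 0 <;> by_cases h2 : (ζ' (G.xs i) : ℕ) = 0 <;>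
      simp [h1, h2]

/-- the edge costs are decreasing in `ζ`. -/
theorem mdl51_ea_anti (G : Mdl51 V ιE ιO ιD ιX) {t : ℝ} (ht0 : 0 ≤ t) {N : ℕ}
    {ζ ζ' : V → Fin (N + 1)} (h : ζ ≤ ζ') (i : ιE ⊕ ιO ⊕ ιX) : G.ea t ζ' i ≤ G.ea t ζ i := by
  have hv : ∀ x, (ζ x : ℕ) ≤ (ζ' x : ℕ) := fun x => h x
  rcases i with i | i | i
  · show (if (ζ' (G.eu i) : ℕ) = 0 then (1 : ℝ) else 0) ≤ if (ζ (G.eu i) : ℕ) = 0 then (1 : ℝ) else 0
    by_cases h1 : (ζ' (G.eu i) : ℕ) = 0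
    · have h2 : (ζ (G.eu i) : ℕ) = 0 := by have := hv (G.eu i); omega
      rw [if_pos h1, if_pos h2]
    · rw [if_neg h1]
      split_ifs <;> norm_num
  · show (if (ζ' (G.ox i) : ℕ) ≤ 1 ∧ (ζ' (G.oy i) : ℕ) ≤ 1 then t else 0) ≤
      if (ζ (G.ox i) : ℕ) ≤ 1 ∧ (ζ (G.oy i) : ℕ) ≤ 1 then t else 0
    by_cases h1 : (ζ' (G.ox i) : ℕ) ≤ 1 ∧ (ζ' (G.oy i) : ℕ) ≤ 1
    · rw [if_pos h1, if_pos ⟨(hv _).trans h1.1, (hv _).trans h1.2⟩]
    · rw [if_neg h1]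
      split_ifs
      · exact ht0
      · exact le_rfl
  · show (if (ζ' (G.xs i) : ℕ) = 0 then (1 : ℝ) else 0) ≤ if (ζ (G.xs i) : ℕ) = 0 then (1 : ℝ) else 0
    by_cases h1 : (ζ' (G.xs i) : ℕ) = 0
    · have h2 : (ζ (G.xs i) : ℕ) = 0 := by have := hv (G.xs i); omega
      rw [if_pos h1, if_pos h2]
    · rw [if_neg h1]
      split_ifs <;> norm_num

/-- log-supermodularity of the sign partition function as a function of `ζ`. -/
theorem mdl51_Z_lattice (G : Mdl51 V ιE ιO ιD ιX) {t : ℝ} (ht0 : 0 ≤ t) (ht1 : t ≤ 1) {N : ℕ}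
    (ζ ζ' : V → Fin (N + 1)) :
    iszZ Bool G.es G.et (G.ea t ζ) * iszZ Bool G.es G.et (G.ea t ζ') ≤
      iszZ Bool G.es G.et (G.ea t (ζ ⊓ ζ')) * iszZ Bool G.es G.et (G.ea t (ζ ⊔ ζ')) := by
  have h1 := isz_Z_super (S := Bool) (by simp) G.es G.et (mdl51_ea_nonneg G ht0 ζ)
    (mdl51_ea_le_one G ht1 ζ) (mdl51_ea_nonneg G ht0 ζ') (mdl51_ea_le_one G ht1 ζ')
  rw [← mdl51_ea_sup G ht0] at h1
  have h2 : iszZ Bool G.es G.et (G.ea t ζ ⊔ G.ea t ζ') ≤ iszZ Bool G.es G.et (G.ea t (ζ ⊓ ζ')) := by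
    refine isz_Z_mono G.es G.et (fun i => (mdl51_ea_nonneg G ht0 ζ i).trans le_sup_left) fun i => ?_
    exact sup_le (mdl51_ea_anti G ht0 inf_le_left i) (mdl51_ea_anti G ht0 inf_le_right i)
  calc _ ≤ iszZ Bool G.es G.et (G.ea t (ζ ⊔ ζ')) * iszZ Bool G.es G.et (G.ea t ζ ⊔ G.ea t ζ') := h1
    _ ≤ iszZ Bool G.es G.et (G.ea t (ζ ⊔ ζ')) * iszZ Bool G.es G.et (G.ea t (ζ ⊓ ζ')) :=
        mul_le_mul_of_nonneg_left h2 (isz_Z_nonneg _ _ (mdl51_ea_nonneg G ht0 _))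
    _ = _ := mul_comm _ _


theorem mdl51_pair_ineq {t : ℝ} (ht0 : 0 ≤ t) (ht1 : t ≤ 1) (a b a' b' : ℕ)
    (hp : a % 2 = b % 2 ∧ a' % 2 = a % 2 ∧ b' % 2 = a % 2) (h : a ≤ b + 2 ∧ b ≤ a + 2)
    (h' : a' ≤ b' + 2 ∧ b' ≤ a' + 2) :
    (if a = b then 1 else t) * (if a' = b' then 1 else t) ≤
      (if min a a' = min b b' then 1 else t) * (if max a a' = max b b' then 1 else t) := by
  have g : ∀ p : Prop, ∀ [Decidable p], t ≤ (if p then 1 else t) := fun p _ => by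
    split_ifs
    · exact ht1
    · exact le_rfl
  by_cases h1 : a = b <;> by_cases h2 : a' = b'
  · subst h1 h2
    simp
  · rw [if_pos h1, if_neg h2, one_mul]
    have h3 : min a a' = min b b' ∨ max a a' = max b b' := by omega
    rcases h3 with h3 | h3
    · rw [if_pos h3, one_mul]
      exact g _
    · rw [if_pos h3, mul_one]
      exact g _
  · rw [if_neg h1, if_pos h2, mul_one]
    have h3 : min a a' = min b b' ∨ max a a' = max b b' := by omega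
    rcases h3 with h3 | h3
    · rw [if_pos h3, one_mul]
      exact g _
    · rw [if_pos h3, mul_one]
      exact g _
  · rw [if_neg h1, if_neg h2]
    exact mul_le_mul (g _) (g _) ht0 (ht0.trans (g _))

theorem mdl51_admN_inf (G : Mdl51 V ιE ιO ιD ιX) (hG : G.Ok) {N : ℕ} {ζ ζ' : V → Fin (N + 1)}
    (hA : G.AdmN ζ) (hA' : G.AdmN ζ') : G.AdmN (ζ ⊓ ζ') := by
  refine ⟨fun x => ?_, fun i => ?_⟩
  · rw [mdl51_inf_val]
    rcases le_total (ζ x : ℕ) (ζ' x : ℕ) with h | h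
    · rw [min_eq_left h]; exact hA.1 x
    · rw [min_eq_right h]; exact hA'.1 x
  · rw [mdl51_inf_val, mdl51_inf_val]
    have a1 := hA.2 i
    have a2 := hA'.2 i
    have p1 : ¬ Odd (ζ (G.eu i) : ℕ) := fun h => hG.eu_even i ((hA.1 _).1 h)
    have p2 : ¬ Odd (ζ' (G.eu i) : ℕ) := fun h => hG.eu_even i ((hA'.1 _).1 h)
    have p3 : Odd (ζ (G.ev i) : ℕ) := (hA.1 _).2 (hG.ev_odd i)
    have p4 : Odd (ζ' (G.ev i) : ℕ) := (hA'.1 _).2 (hG.ev_odd i)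
    rw [Nat.odd_iff] at p1 p2 p3 p4
    rw [abs_eq (by norm_num : (0 : ℤ) ≤ 1)] at a1 a2 ⊢
    omega

theorem mdl51_admN_sup (G : Mdl51 V ιE ιO ιD ιX) (hG : G.Ok) {N : ℕ} {ζ ζ' : V → Fin (N + 1)}
    (hA : G.AdmN ζ) (hA' : G.AdmN ζ') : G.AdmN (ζ ⊔ ζ') := by
  refine ⟨fun x => ?_, fun i => ?_⟩
  · rw [mdl51_sup_val]
    rcases le_total (ζ x : ℕ) (ζ' x : ℕ) with h | h
    · rw [max_eq_right h]; exact hA'.1 x
    · rw [max_eq_left h]; exact hA.1 x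
  · rw [mdl51_sup_val, mdl51_sup_val]
    have a1 := hA.2 i
    have a2 := hA'.2 i
    have p1 : ¬ Odd (ζ (G.eu i) : ℕ) := fun h => hG.eu_even i ((hA.1 _).1 h)
    have p2 : ¬ Odd (ζ' (G.eu i) : ℕ) := fun h => hG.eu_even i ((hA'.1 _).1 h)
    have p3 : Odd (ζ (G.ev i) : ℕ) := (hA.1 _).2 (hG.ev_odd i)
    have p4 : Odd (ζ' (G.ev i) : ℕ) := (hA'.1 _).2 (hG.ev_odd i)
    rw [Nat.odd_iff] at p1 p2 p3 p4
    rw [abs_eq (by norm_num : (0 : ℤ) ≤ 1)] at a1 a2 ⊢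
    omega

theorem mdl51_admN_o (G : Mdl51 V ιE ιO ιD ιX) (hG : G.Ok) {N : ℕ} {ζ : V → Fin (N + 1)}
    (hA : G.AdmN ζ) (i : ιO) :
    (ζ (G.ox i) : ℕ) ≤ (ζ (G.oy i) : ℕ) + 2 ∧ (ζ (G.oy i) : ℕ) ≤ (ζ (G.ox i) : ℕ) + 2 := by
  obtain ⟨j, j', h1, h2, h3⟩ := hG.o_nbr i
  have a1 := hA.2 j
  have a2 := hA.2 j'
  rw [h1] at a1
  rw [h2, ← h3] at a2
  rw [abs_eq (by norm_num : (0 : ℤ) ≤ 1)] at a1 a2
  omega

theorem mdl51_admN_d (G : Mdl51 V ιE ιO ιD ιX) (hG : G.Ok) {N : ℕ} {ζ : V → Fin (N + 1)}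
    (hA : G.AdmN ζ) (i : ιD) :
    (ζ (G.dx i) : ℕ) ≤ (ζ (G.dy i) : ℕ) + 2 ∧ (ζ (G.dy i) : ℕ) ≤ (ζ (G.dx i) : ℕ) + 2 := by
  obtain ⟨j, j', h1, h2, h3⟩ := hG.d_nbr i
  have a1 := hA.2 j
  have a2 := hA.2 j'
  rw [h1] at a1
  rw [h2, ← h3] at a2
  rw [abs_eq (by norm_num : (0 : ℤ) ≤ 1)] at a1 a2
  omega

theorem mdl51_pref_nonneg (G : Mdl51 V ιE ιO ιD ιX) {t : ℝ} (ht0 : 0 ≤ t) {N : ℕ}
    (ζ : V → Fin (N + 1)) : 0 ≤ G.pref t ζ := by
  unfold Mdl51.pref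
  split_ifs
  · refine mul_nonneg (Finset.prod_nonneg fun i _ => ?_) (Finset.prod_nonneg fun i _ => ?_) <;>
      split_ifs <;> first | exact zero_le_one | exact ht0
  · exact le_rfl

/-- the lattice condition for the sign-independent prefactor (convexity of the diagonal interaction on `{0, ±2}`). -/
theorem mdl51_pref_lattice (G : Mdl51 V ιE ιO ιD ιX) (hG : G.Ok) {t : ℝ} (ht0 : 0 ≤ t) (ht1 : t ≤ 1)
    {N : ℕ} (ζ ζ' : V → Fin (N + 1)) :
    G.pref t ζ * G.pref t ζ' ≤ G.pref t (ζ ⊓ ζ') * G.pref t (ζ ⊔ ζ') := by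
  classical
  by_cases hA : G.AdmN ζ
  swap
  · have : G.pref t ζ = 0 := by unfold Mdl51.pref; rw [if_neg hA]
    rw [this, zero_mul]
    exact mul_nonneg (mdl51_pref_nonneg G ht0 _) (mdl51_pref_nonneg G ht0 _)
  by_cases hA' : G.AdmN ζ'
  swap
  · have : G.pref t ζ' = 0 := by unfold Mdl51.pref; rw [if_neg hA']
    rw [this, mul_zero]
    exact mul_nonneg (mdl51_pref_nonneg G ht0 _) (mdl51_pref_nonneg G ht0 _)
  unfold Mdl51.pref
  rw [if_pos hA, if_pos hA', if_pos (mdl51_admN_inf G hG hA hA'), if_pos (mdl51_admN_sup G hG hA hA')]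
  have f0 : ∀ p : Prop, ∀ [Decidable p], (0 : ℝ) ≤ (if p then 1 else t) := fun p _ => by
    split_ifs
    · exact zero_le_one
    · exact ht0
  have hO : (∏ i, (if ζ (G.ox i) = ζ (G.oy i) then (1 : ℝ) else t)) *
      (∏ i, (if ζ' (G.ox i) = ζ' (G.oy i) then (1 : ℝ) else t)) ≤
      (∏ i, (if (ζ ⊓ ζ') (G.ox i) = (ζ ⊓ ζ') (G.oy i) then (1 : ℝ) else t)) *
      (∏ i, (if (ζ ⊔ ζ') (G.ox i) = (ζ ⊔ ζ') (G.oy i) then (1 : ℝ) else t)) := by
    rw [← Finset.prod_mul_distrib, ← Finset.prod_mul_distrib]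
    refine Finset.prod_le_prod (fun i _ => mul_nonneg (f0 _) (f0 _)) fun i _ => ?_
    have p1 : Odd (ζ (G.ox i) : ℕ) := (hA.1 _).2 (hG.ox_odd i)
    have p2 : Odd (ζ (G.oy i) : ℕ) := (hA.1 _).2 (hG.oy_odd i)
    have p3 : Odd (ζ' (G.ox i) : ℕ) := (hA'.1 _).2 (hG.ox_odd i)
    have p4 : Odd (ζ' (G.oy i) : ℕ) := (hA'.1 _).2 (hG.oy_odd i)
    rw [Nat.odd_iff] at p1 p2 p3 p4
    have := mdl51_pair_ineq ht0 ht1 (ζ (G.ox i)) (ζ (G.oy i)) (ζ' (G.ox i)) (ζ' (G.oy i))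
      (by omega) (mdl51_admN_o G hG hA i) (mdl51_admN_o G hG hA' i)
    simp only [← mdl51_inf_val, ← mdl51_sup_val, Fin.val_inj] at this
    exact this
  have hD : (∏ i, (if ζ (G.dx i) = ζ (G.dy i) then (1 : ℝ) else t)) *
      (∏ i, (if ζ' (G.dx i) = ζ' (G.dy i) then (1 : ℝ) else t)) ≤
      (∏ i, (if (ζ ⊓ ζ') (G.dx i) = (ζ ⊓ ζ') (G.dy i) then (1 : ℝ) else t)) *
      (∏ i, (if (ζ ⊔ ζ') (G.dx i) = (ζ ⊔ ζ') (G.dy i) then (1 : ℝ) else t)) := by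
    rw [← Finset.prod_mul_distrib, ← Finset.prod_mul_distrib]
    refine Finset.prod_le_prod (fun i _ => mul_nonneg (f0 _) (f0 _)) fun i _ => ?_
    have p1 : ¬ Odd (ζ (G.dx i) : ℕ) := fun h => hG.dx_even i ((hA.1 _).1 h)
    have p2 : ¬ Odd (ζ (G.dy i) : ℕ) := fun h => hG.dy_even i ((hA.1 _).1 h)
    have p3 : ¬ Odd (ζ' (G.dx i) : ℕ) := fun h => hG.dx_even i ((hA'.1 _).1 h)
    have p4 : ¬ Odd (ζ' (G.dy i) : ℕ) := fun h => hG.dy_even i ((hA'.1 _).1 h)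
    rw [Nat.odd_iff] at p1 p2 p3 p4
    have := mdl51_pair_ineq ht0 ht1 (ζ (G.dx i)) (ζ (G.dy i)) (ζ' (G.dx i)) (ζ' (G.dy i))
      (by omega) (mdl51_admN_d G hG hA i) (mdl51_admN_d G hG hA' i)
    simp only [← mdl51_inf_val, ← mdl51_sup_val, Fin.val_inj] at this
    exact this
  have q0 : ∀ (ξ : V → Fin (N + 1)), 0 ≤ ∏ i, (if ξ (G.dx i) = ξ (G.dy i) then (1 : ℝ) else t) :=
    fun ξ => Finset.prod_nonneg fun i _ => f0 _
  have q1 : ∀ (ξ : V → Fin (N + 1)), 0 ≤ ∏ i, (if ξ (G.ox i) = ξ (G.oy i) then (1 : ℝ) else t) :=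
    fun ξ => Finset.prod_nonneg fun i _ => f0 _
  calc _ = ((∏ i, (if ζ (G.ox i) = ζ (G.oy i) then (1 : ℝ) else t)) *
      (∏ i, (if ζ' (G.ox i) = ζ' (G.oy i) then (1 : ℝ) else t))) *
      ((∏ i, (if ζ (G.dx i) = ζ (G.dy i) then (1 : ℝ) else t)) *
      (∏ i, (if ζ' (G.dx i) = ζ' (G.dy i) then (1 : ℝ) else t))) := by ring
    _ ≤ _ := mul_le_mul hO hD (mul_nonneg (q0 _) (q0 _)) (mul_nonneg (q1 _) (q1 _))
    _ = _ := by ring

theorem mdl51_absW_nonneg (G : Mdl51 V ιE ιO ιD ιX) {t : ℝ} (ht0 : 0 ≤ t) {N : ℕ}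
    (ζ : V → Fin (N + 1)) : 0 ≤ G.absW t ζ :=
  mul_nonneg (mdl51_z_pos ζ).le (mul_nonneg (mdl51_pref_nonneg G ht0 ζ)
    (isz_Z_nonneg _ _ (mdl51_ea_nonneg G ht0 ζ)))

/-- **ABSOLUTE-VALUE FKG LATTICE CONDITION** for `c = 1/t ≥ 1`. -/
theorem mdl51_lattice (G : Mdl51 V ιE ιO ιD ιX) (hG : G.Ok) {t : ℝ} (ht0 : 0 ≤ t) (ht1 : t ≤ 1)
    {N : ℕ} (ζ ζ' : V → Fin (N + 1)) :
    G.absW t ζ * G.absW t ζ' ≤ G.absW t (ζ ⊓ ζ') * G.absW t (ζ ⊔ ζ') := by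
  unfold Mdl51.absW
  have h1 := mdl51_z_mul ζ ζ'
  have h2 := mdl51_pref_lattice G hG ht0 ht1 ζ ζ'
  have h3 := mdl51_Z_lattice G ht0 ht1 ζ ζ'
  have h4 : (G.pref t ζ * G.pref t ζ') *
      (iszZ Bool G.es G.et (G.ea t ζ) * iszZ Bool G.es G.et (G.ea t ζ')) ≤
      (G.pref t (ζ ⊓ ζ') * G.pref t (ζ ⊔ ζ')) *
      (iszZ Bool G.es G.et (G.ea t (ζ ⊓ ζ')) * iszZ Bool G.es G.et (G.ea t (ζ ⊔ ζ'))) :=
    mul_le_mul h2 h3 (mul_nonneg (isz_Z_nonneg _ _ (mdl51_ea_nonneg G ht0 _))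
      (isz_Z_nonneg _ _ (mdl51_ea_nonneg G ht0 _)))
      (mul_nonneg (mdl51_pref_nonneg G ht0 _) (mdl51_pref_nonneg G ht0 _))
  calc _ = (mdl51_z ζ * mdl51_z ζ') * ((G.pref t ζ * G.pref t ζ') *
      (iszZ Bool G.es G.et (G.ea t ζ) * iszZ Bool G.es G.et (G.ea t ζ'))) := by ring
    _ ≤ (mdl51_z ζ * mdl51_z ζ') * ((G.pref t (ζ ⊓ ζ') * G.pref t (ζ ⊔ ζ')) *
      (iszZ Bool G.es G.et (G.ea t (ζ ⊓ ζ')) * iszZ Bool G.es G.et (G.ea t (ζ ⊔ ζ')))) :=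
        mul_le_mul_of_nonneg_left h4 (mul_nonneg (mdl51_z_pos _).le (mdl51_z_pos _).le)
    _ = _ := by rw [h1]; ring


/-! ## 4. change of variables `k = σ·ζ` -/

/-- the box `|k| ≤ N` of integer heights. -/
noncomputable def mdl51_box (V : Type) [Fintype V] [DecidableEq V] (N : ℕ) : Finset (V → ℤ) :=
  Fintype.piFinset fun _ => Finset.Icc (-(N : ℤ)) N

/-- `|k|`, truncated at `N`. -/
def mdl51_abs (N : ℕ) (k : V → ℤ) : V → Fin (N + 1) :=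
  fun x => ⟨min (k x).natAbs N, by omega⟩

theorem mdl51_abs_sg {N : ℕ} (σ : V → Bool) (ζ : V → Fin (N + 1)) :
    mdl51_abs N (mdl51_sg σ ζ) = ζ := by
  funext x
  apply Fin.ext
  show min (mdl51_sg σ ζ x).natAbs N = (ζ x : ℕ)
  rw [mdl51_sg_natAbs]
  have := (ζ x).isLt
  omega

theorem mdl51_site (N : ℕ) (j : ℤ) (hj : j ∈ Finset.Icc (-(N : ℤ)) N) :
    ∑ q ∈ (Finset.univ : Finset (Fin (N + 1) × Bool)).filter
        (fun q => (if q.2 then ((q.1 : ℕ) : ℤ) else -((q.1 : ℕ) : ℤ)) = j),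
      (if (q.1 : ℕ) = 0 then (1 / 2 : ℝ) else 1) = 1 := by
  rw [Finset.mem_Icc] at hj
  rw [Finset.sum_filter, Fintype.sum_prod_type]
  simp only [Fintype.sum_bool, if_true, Bool.false_eq_true, if_false]
  have hlt : j.natAbs < N + 1 := by omega
  rw [Finset.sum_eq_single (⟨j.natAbs, hlt⟩ : Fin (N + 1))]
  · show ((if ((j.natAbs : ℕ) : ℤ) = j then (if j.natAbs = 0 then (1 / 2 : ℝ) else 1) else 0) +
      (if -((j.natAbs : ℕ) : ℤ) = j then (if j.natAbs = 0 then (1 / 2 : ℝ) else 1) else 0)) = 1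
    rcases lt_trichotomy j 0 with h | h | h
    · rw [if_neg (by omega), if_pos (by omega), if_neg (by omega), zero_add]
    · subst h
      norm_num
    · rw [if_pos (by omega), if_neg (by omega), if_neg (by omega), add_zero]
  · intro a _ ha
    have h1 : (a : ℕ) ≠ j.natAbs := fun h => ha (Fin.ext h)
    have h2 : ¬ (((a : ℕ) : ℤ) = j) := by clear ha; omega
    have h3 : ¬ (-((a : ℕ) : ℤ) = j) := by clear ha; omega
    rw [if_neg h2, if_neg h3, add_zero]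
  · intro h
    exact absurd (Finset.mem_univ _) h

/-- **change of variables**: a sum over the box of heights is a sum over absolute values and signs. -/
theorem mdl51_sum_box (N : ℕ) (F : (V → ℤ) → ℝ) :
    ∑ k ∈ mdl51_box V N, F k =
      ∑ ζ : V → Fin (N + 1), ∑ σ : V → Bool, mdl51_z ζ * F (mdl51_sg σ ζ) := by
  classical
  set φ : Fin (N + 1) × Bool → ℤ := fun q => if q.2 then ((q.1 : ℕ) : ℤ) else -((q.1 : ℕ) : ℤ) with hφ
  set m : Fin (N + 1) × Bool → ℝ := fun q => if (q.1 : ℕ) = 0 then (1 / 2 : ℝ) else 1 with hm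
  have e1 : ∑ ζ : V → Fin (N + 1), ∑ σ : V → Bool, mdl51_z ζ * F (mdl51_sg σ ζ) =
      ∑ p : V → Fin (N + 1) × Bool, (∏ x, m (p x)) * F (fun x => φ (p x)) := by
    rw [← Fintype.sum_prod_type']
    exact (Fintype.sum_equiv (Equiv.arrowProdEquivProdArrow V (fun _ => Fin (N + 1)) (fun _ => Bool)) _ _
      (fun p => rfl)).symm
  rw [e1]
  have hmaps : ∀ p ∈ (Finset.univ : Finset (V → Fin (N + 1) × Bool)),
      (fun x => φ (p x)) ∈ mdl51_box V N := by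
    intro p _
    unfold mdl51_box
    rw [Fintype.mem_piFinset]
    intro x
    rw [Finset.mem_Icc]
    have := (p x).1.isLt
    simp only [hφ]
    split_ifs <;> omega
  rw [← Finset.sum_fiberwise_of_maps_to hmaps]
  refine Finset.sum_congr rfl fun k hk => ?_
  have hk' : ∀ x, k x ∈ Finset.Icc (-(N : ℤ)) N := by
    unfold mdl51_box at hk
    exact Fintype.mem_piFinset.1 hk
  have e2 : (Finset.univ : Finset (V → Fin (N + 1) × Bool)).filter (fun p => (fun x => φ (p x)) = k) =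
      Fintype.piFinset fun x => (Finset.univ : Finset (Fin (N + 1) × Bool)).filter (fun q => φ q = k x) := by
    ext p
    simp only [Finset.mem_filter, Finset.mem_univ, true_and, Fintype.mem_piFinset]
    exact funext_iff
  have e3 : ∑ p ∈ (Finset.univ : Finset (V → Fin (N + 1) × Bool)).filter
      (fun p => (fun x => φ (p x)) = k), (∏ x, m (p x)) * F (fun x => φ (p x)) =
      (∑ p ∈ (Finset.univ : Finset (V → Fin (N + 1) × Bool)).filter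
      (fun p => (fun x => φ (p x)) = k), ∏ x, m (p x)) * F k := by
    rw [Finset.sum_mul]
    refine Finset.sum_congr rfl fun p hp => ?_
    rw [(Finset.mem_filter.1 hp).2]
  rw [e3, e2, ← Finset.prod_univ_sum]
  have e4 : ∏ x, ∑ q ∈ (Finset.univ : Finset (Fin (N + 1) × Bool)).filter (fun q => φ q = k x), m q = 1 :=
    Finset.prod_eq_one fun x _ => mdl51_site N (k x) (hk' x)
  rw [e4, one_mul]

/-- the law of `|k|` is `absW`: for every observable `F` of `|k|`. -/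
theorem mdl51_sum_abs (G : Mdl51 V ιE ιO ιD ιX) (hG : G.Ok) (t : ℝ) (N : ℕ)
    (F : (V → Fin (N + 1)) → ℝ) :
    ∑ k ∈ mdl51_box V N, G.wt t k * F (mdl51_abs N k) = ∑ ζ, G.absW t ζ * F ζ := by
  rw [mdl51_sum_box]
  refine Finset.sum_congr rfl fun ζ _ => ?_
  simp only [mdl51_abs_sg]
  unfold Mdl51.absW
  rw [← mdl51_sum_sg G hG t ζ, Finset.mul_sum, Finset.sum_mul]
  refine Finset.sum_congr rfl fun σ _ => ?_
  ring

/-! ## 5. FKG and Holley for `|k|` -/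

/-- **positive association of `|k|`** (unnormalised): increasing functions of `|k|` are positively correlated. -/
theorem mdl51_fkg_abs (G : Mdl51 V ιE ιO ιD ιX) (hG : G.Ok) {t : ℝ} (ht0 : 0 ≤ t) (ht1 : t ≤ 1)
    (N : ℕ) {F H : (V → Fin (N + 1)) → ℝ} (hF : Monotone F) (hH : Monotone H) :
    (∑ k ∈ mdl51_box V N, G.wt t k * F (mdl51_abs N k)) *
        (∑ k ∈ mdl51_box V N, G.wt t k * H (mdl51_abs N k)) ≤
      (∑ k ∈ mdl51_box V N, G.wt t k) *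
        ∑ k ∈ mdl51_box V N, G.wt t k * (F (mdl51_abs N k) * H (mdl51_abs N k)) := by
  have h0 : ∑ k ∈ mdl51_box V N, G.wt t k = ∑ ζ : V → Fin (N + 1), G.absW t ζ := by
    have := mdl51_sum_abs G hG t N (fun _ => 1)
    simpa using this
  rw [mdl51_sum_abs G hG t N F, mdl51_sum_abs G hG t N H, h0,
    mdl51_sum_abs G hG t N (fun ζ => F ζ * H ζ)]
  exact isz_fkg (mdl51_absW_nonneg G ht0) hF hH (mdl51_lattice G hG ht0 ht1)

/-- **comparison of conditionings of `|k|`** (Holley form).  `I₁`, `I₂` are nonnegative densities in terms of `|k|` (indicators of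
boundary values, of events `|k| ≥ ξ` on a set, ...) with `I₁ a * I₂ b ≤ I₁ (a ⊓ b) * I₂ (a ⊔ b)`: then `|k|` under `I₂` dominates
`|k|` under `I₁`. -/
theorem mdl51_holley_abs (G : Mdl51 V ιE ιO ιD ιX) (hG : G.Ok) {t : ℝ} (ht0 : 0 ≤ t) (ht1 : t ≤ 1)
    (N : ℕ) {I₁ I₂ F : (V → Fin (N + 1)) → ℝ} (h1 : ∀ a, 0 ≤ I₁ a) (h2 : ∀ a, 0 ≤ I₂ a)
    (h12 : ∀ a b, I₁ a * I₂ b ≤ I₁ (a ⊓ b) * I₂ (a ⊔ b)) (hF : Monotone F) :
    (∑ k ∈ mdl51_box V N, G.wt t k * (I₁ (mdl51_abs N k) * F (mdl51_abs N k))) *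
        (∑ k ∈ mdl51_box V N, G.wt t k * I₂ (mdl51_abs N k)) ≤
      (∑ k ∈ mdl51_box V N, G.wt t k * I₁ (mdl51_abs N k)) *
        ∑ k ∈ mdl51_box V N, G.wt t k * (I₂ (mdl51_abs N k) * F (mdl51_abs N k)) := by
  rw [mdl51_sum_abs G hG t N (fun ζ => I₁ ζ * F ζ), mdl51_sum_abs G hG t N I₂,
    mdl51_sum_abs G hG t N I₁, mdl51_sum_abs G hG t N (fun ζ => I₂ ζ * F ζ)]
  have key := isz_holley (w₁ := fun ζ => G.absW t ζ * I₁ ζ) (w₂ := fun ζ => G.absW t ζ * I₂ ζ) (f := F)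
    (fun a => mul_nonneg (mdl51_absW_nonneg G ht0 a) (h1 a))
    (fun a => mul_nonneg (mdl51_absW_nonneg G ht0 a) (h2 a)) hF (fun a b => by
      calc G.absW t a * I₁ a * (G.absW t b * I₂ b) = (G.absW t a * G.absW t b) * (I₁ a * I₂ b) := by ring
        _ ≤ (G.absW t (a ⊓ b) * G.absW t (a ⊔ b)) * (I₁ (a ⊓ b) * I₂ (a ⊔ b)) :=
            mul_le_mul (mdl51_lattice G hG ht0 ht1 a b) (h12 a b) (mul_nonneg (h1 a) (h2 b))
              (mul_nonneg (mdl51_absW_nonneg G ht0 _) (mdl51_absW_nonneg G ht0 _))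
        _ = _ := by ring)
  simpa only [mul_assoc] using key


/-- **positive association of `|k|` under a conditioning** `I` that satisfies the lattice condition (indicator of prescribed values
of `|k|` on a set, e.g. zero boundary values; of `{|k| ≥ ξ}`, `{|k| ≤ ξ}`; products of such). -/
theorem mdl51_fkg_abs_cond (G : Mdl51 V ιE ιO ιD ιX) (hG : G.Ok) {t : ℝ} (ht0 : 0 ≤ t) (ht1 : t ≤ 1)
    (N : ℕ) {I F H : (V → Fin (N + 1)) → ℝ} (h1 : ∀ a, 0 ≤ I a)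
    (hI : ∀ a b, I a * I b ≤ I (a ⊓ b) * I (a ⊔ b)) (hF : Monotone F) (hH : Monotone H) :
    (∑ k ∈ mdl51_box V N, G.wt t k * (I (mdl51_abs N k) * F (mdl51_abs N k))) *
        (∑ k ∈ mdl51_box V N, G.wt t k * (I (mdl51_abs N k) * H (mdl51_abs N k))) ≤
      (∑ k ∈ mdl51_box V N, G.wt t k * I (mdl51_abs N k)) *
        ∑ k ∈ mdl51_box V N, G.wt t k * (I (mdl51_abs N k) * (F (mdl51_abs N k) * H (mdl51_abs N k))) := by
  rw [mdl51_sum_abs G hG t N (fun ζ => I ζ * F ζ), mdl51_sum_abs G hG t N (fun ζ => I ζ * H ζ),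
    mdl51_sum_abs G hG t N I, mdl51_sum_abs G hG t N (fun ζ => I ζ * (F ζ * H ζ))]
  have key := isz_fkg (μ := fun ζ => G.absW t ζ * I ζ) (f := F) (g := H)
    (fun a => mul_nonneg (mdl51_absW_nonneg G ht0 a) (h1 a)) hF hH (fun a b => by
      calc G.absW t a * I a * (G.absW t b * I b) = (G.absW t a * G.absW t b) * (I a * I b) := by ring
        _ ≤ (G.absW t (a ⊓ b) * G.absW t (a ⊔ b)) * (I (a ⊓ b) * I (a ⊔ b)) :=
            mul_le_mul (mdl51_lattice G hG ht0 ht1 a b) (hI a b) (mul_nonneg (h1 a) (h1 b))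
              (mul_nonneg (mdl51_absW_nonneg G ht0 _) (mdl51_absW_nonneg G ht0 _))
        _ = _ := by ring)
  simpa only [mul_assoc] using key

/-- indicators of prescribed values of `|k|` on a set satisfy the lattice condition. -/
theorem mdl51_pin_lattice {N : ℕ} (B : V → Prop) [DecidablePred B] (ξ : V → Fin (N + 1))
    (a b : V → Fin (N + 1)) :
    (if ∀ x, B x → a x = ξ x then (1 : ℝ) else 0) * (if ∀ x, B x → b x = ξ x then (1 : ℝ) else 0) ≤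
      (if ∀ x, B x → (a ⊓ b) x = ξ x then (1 : ℝ) else 0) *
        (if ∀ x, B x → (a ⊔ b) x = ξ x then (1 : ℝ) else 0) := by
  by_cases h1 : ∀ x, B x → a x = ξ x
  · by_cases h2 : ∀ x, B x → b x = ξ x
    · rw [if_pos h1, if_pos h2, if_pos, if_pos]
      · intro x hx
        rw [Pi.sup_apply, h1 x hx, h2 x hx, sup_idem]
      · intro x hx
        rw [Pi.inf_apply, h1 x hx, h2 x hx, inf_idem]
    · rw [if_neg h2, mul_zero]
      refine mul_nonneg ?_ ?_ <;> split_ifs <;> norm_num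
  · rw [if_neg h1, zero_mul]
    refine mul_nonneg ?_ ?_ <;> split_ifs <;> norm_num

/-- ordered prescribed values `ξ₁ ≤ ξ₂` of `|k|` on a set satisfy the Holley condition. -/
theorem mdl51_pin_holley {N : ℕ} (B : V → Prop) [DecidablePred B] {ξ₁ ξ₂ : V → Fin (N + 1)}
    (h : ∀ x, B x → ξ₁ x ≤ ξ₂ x) (a b : V → Fin (N + 1)) :
    (if ∀ x, B x → a x = ξ₁ x then (1 : ℝ) else 0) * (if ∀ x, B x → b x = ξ₂ x then (1 : ℝ) else 0) ≤
      (if ∀ x, B x → (a ⊓ b) x = ξ₁ x then (1 : ℝ) else 0) *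
        (if ∀ x, B x → (a ⊔ b) x = ξ₂ x then (1 : ℝ) else 0) := by
  by_cases h1 : ∀ x, B x → a x = ξ₁ x
  · by_cases h2 : ∀ x, B x → b x = ξ₂ x
    · rw [if_pos h1, if_pos h2, if_pos, if_pos]
      · intro x hx
        rw [Pi.sup_apply, h1 x hx, h2 x hx, sup_eq_right.2 (h x hx)]
      · intro x hx
        rw [Pi.inf_apply, h1 x hx, h2 x hx, inf_eq_left.2 (h x hx)]
    · rw [if_neg h2, mul_zero]
      refine mul_nonneg ?_ ?_ <;> split_ifs <;> norm_num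
  · rw [if_neg h1, zero_mul]
    refine mul_nonneg ?_ ?_ <;> split_ifs <;> norm_num

/-- the equation lemmas of the definitions of this file are generated HERE, once (RULES.md, rule 6). -/
theorem mdl51_eqns_cite : True := by
  have := @Mdl51.Adm.eq_1
  have := @Mdl51.AdmN.eq_1
  have := @Mdl51.wt.eq_1
  have := @Mdl51.pref.eq_1
  have := @mdl51_sg.eq_1
  have := @Mdl51.es.eq_1
  have := @Mdl51.et.eq_1
  have := @Mdl51.ea.eq_1
  have := @mdl51_z.eq_1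
  have := @Mdl51.absW.eq_1
  have := @mdl51_box.eq_1
  have := @mdl51_abs.eq_1
  have := @Mdl51.Adm.congr_simp
  have := @Mdl51.AdmN.congr_simp
  have := @Mdl51.wt.congr_simp
  have := @Mdl51.pref.congr_simp
  have := @mdl51_sg.congr_simp
  have := @Mdl51.es.congr_simp
  have := @Mdl51.et.congr_simp
  have := @Mdl51.ea.congr_simp
  have := @mdl51_z.congr_simp
  have := @Mdl51.absW.congr_simp
  have := @mdl51_box.congr_simp
  have := @mdl51_abs.congr_simp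
  trivial

end Claimed.Agent.R292
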