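import Claimed.Agent.R292.Rsw.Cut91

/-!
# Row 292 (S0540), Model/BoxConn99 : BOX CONNECTIVITY      (pen helper99; statement of helper261, msg 131623; prefix `bxc99`)      0 sorry
`bxc99_box z m (hsub : rswBox z m ⊆ F) (hx : x ∈ rswBox z m) (hy : y ∈ rswBox z m)` : two faces of a box inside `F` are joined by a chain of faces across interior edges of `F`
(= the hypothesis `hc` of `cm72_main` for marks in a box).   Walk along the bottom row, then along the column (`bxc99_row`, `bxc99_col`, `bxc99_corner`, `bxc99_symm`).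
-/

set_option autoImplicit false

namespace Claimed.Agent.R292

open Claims Claims.C0468

theorem bxc99_row {F : Finset (ℤ × ℤ)} (a b : ℤ) (k : ℕ) (h : ∀ i : ℕ, i ≤ k → (a + i, b) ∈ F) :
    Relation.ReflTransGen (fun u v => ∃ e ∈ rswInt F, (u = e.1 ∧ v = rswCo e) ∨ (v = e.1 ∧ u = rswCo e)) (a, b) (a + k, b) := by
  induction k with
  | zero => simpa using Relation.ReflTransGen.refl
  | succ k ih =>
    refine (ih fun i hi => h i (by omega)).tail ⟨((a + (k + 1 : ℕ), b), true), rsk_mem_int.2 ⟨h (k + 1) le_rfl, ?_⟩, Or.inr ⟨rfl, ?_⟩⟩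
    · have := h k (by omega)
      have e : rswCo ((a + (k + 1 : ℕ), b), true) = (a + k, b) := by
        unfold rswCo; simp only [if_true]; refine Prod.ext ?_ rfl; push_cast; ring
      rw [e]; exact this
    · unfold rswCo; simp only [if_true]; refine Prod.ext ?_ rfl; push_cast; ring

theorem bxc99_col {F : Finset (ℤ × ℤ)} (a b : ℤ) (k : ℕ) (h : ∀ i : ℕ, i ≤ k → (a, b + i) ∈ F) :
    Relation.ReflTransGen (fun u v => ∃ e ∈ rswInt F, (u = e.1 ∧ v = rswCo e) ∨ (v = e.1 ∧ u = rswCo e)) (a, b) (a, b + k) := by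
  induction k with
  | zero => simpa using Relation.ReflTransGen.refl
  | succ k ih =>
    refine (ih fun i hi => h i (by omega)).tail ⟨((a, b + (k + 1 : ℕ)), false), rsk_mem_int.2 ⟨h (k + 1) le_rfl, ?_⟩, Or.inr ⟨rfl, ?_⟩⟩
    · have := h k (by omega)
      have e : rswCo ((a, b + (k + 1 : ℕ)), false) = (a, b + k) := by
        unfold rswCo; simp only [Bool.false_eq_true, if_false]; refine Prod.ext rfl ?_; push_cast; ring
      rw [e]; exact this
    · unfold rswCo; simp only [Bool.false_eq_true, if_false]; refine Prod.ext rfl ?_; push_cast; ring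

theorem bxc99_symm {F : Finset (ℤ × ℤ)} {x y : ℤ × ℤ}
    (h : Relation.ReflTransGen (fun u v => ∃ e ∈ rswInt F, (u = e.1 ∧ v = rswCo e) ∨ (v = e.1 ∧ u = rswCo e)) x y) :
    Relation.ReflTransGen (fun u v => ∃ e ∈ rswInt F, (u = e.1 ∧ v = rswCo e) ∨ (v = e.1 ∧ u = rswCo e)) y x := by
  induction h with
  | refl => exact Relation.ReflTransGen.refl
  | tail _ hs ih =>
    obtain ⟨e, he, hor⟩ := hs
    exact Relation.ReflTransGen.head ⟨e, he, hor.symm⟩ ih

theorem bxc99_corner (z : ℤ × ℤ) (m : ℕ) {F : Finset (ℤ × ℤ)} (hsub : rswBox z m ⊆ F) {x : ℤ × ℤ} (hx : x ∈ rswBox z m) :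
    Relation.ReflTransGen (fun u v => ∃ e ∈ rswInt F, (u = e.1 ∧ v = rswCo e) ∨ (v = e.1 ∧ u = rswCo e)) (z.1 - m, z.2 - m) x := by
  have hx' : (z.1 - m ≤ x.1 ∧ x.1 < z.1 + m) ∧ (z.2 - m ≤ x.2 ∧ x.2 < z.2 + m) := by
    unfold rswBox at hx
    simpa only [Finset.mem_product, Finset.mem_Ico] using hx
  have hin : ∀ p q : ℤ, z.1 - m ≤ p → p < z.1 + m → z.2 - m ≤ q → q < z.2 + m → (p, q) ∈ F := by
    intro p q h1 h2 h3 h4
    refine hsub ?_
    unfold rswBox
    simp only [Finset.mem_product, Finset.mem_Ico]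
    exact ⟨⟨h1, h2⟩, h3, h4⟩
  obtain ⟨i, hi⟩ : ∃ i : ℕ, x.1 = z.1 - m + i := ⟨(x.1 - (z.1 - m)).toNat, by omega⟩
  obtain ⟨j, hj⟩ : ∃ j : ℕ, x.2 = z.2 - m + j := ⟨(x.2 - (z.2 - m)).toNat, by omega⟩
  have r1 := bxc99_row (F := F) (z.1 - m) (z.2 - m) i (fun i' hi' => hin _ _ (by omega) (by omega) (by omega) (by omega))
  have r2 := bxc99_col (F := F) (z.1 - m + i) (z.2 - m) j (fun j' hj' => hin _ _ (by omega) (by omega) (by omega) (by omega))
  have hxe : x = (z.1 - m + i, z.2 - m + j) := Prod.ext hi hj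
  rw [hxe]
  exact r1.trans r2

/-- **BOX CONNECTIVITY** (statement of 261, msg 131623) -/
theorem bxc99_box (z : ℤ × ℤ) (m : ℕ) {F : Finset (ℤ × ℤ)} (hsub : rswBox z m ⊆ F) {x y : ℤ × ℤ} (hx : x ∈ rswBox z m)
    (hy : y ∈ rswBox z m) :
    Relation.ReflTransGen (fun u v => ∃ e ∈ rswInt F, (u = e.1 ∧ v = rswCo e) ∨ (v = e.1 ∧ u = rswCo e)) x y :=
  (bxc99_symm (bxc99_corner z m hsub hx)).trans (bxc99_corner z m hsub hy)

end Claimed.Agent.R292
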