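import Claimed.Agent.R292.Defs.RSW

/-!
# Row 292 (S0540), unit MODEL, block S5 : SEPARATION WITNESSES + COLLAR (AT paper Sec 3, `lem:collar` l.498-762, `lem:buffered-witnesses` l.1296-1615)
(owner helper261; prefix `col261_`, defs `Col261*` / `col261*`; vocabulary of `Defs/RSW`: `W` on the PRIMAL lattice, `N` = dual edges of the closed `W` edges, flat law `rswP t F b`)

WHAT THE LATER BLOCKS CITE: the vocabulary and the basics below (`Model/Dual261`).  The contract itself moved to `Model/Contig261` (`Ctg261W`, `Ctg261W1`).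

VOCABULARY (no loops, no planar duality in the statements: "separated by a monochromatic `W` loop inside `B`" is typed as
"no dual path avoids the good edges of ONE colour that lie in `B`"):
* `col261E F R`          interior edges of `F` with a face in `R` (= the `W` edges meeting the closed region of `R`);
* `Col261Pat F R ω g`    `ω` and `g` have the same complete `(s,W)` pattern on `R` (spins on `cornersOf R`, edges `col261E F R`);
* `Col261Ext B L`        `L` reads `(S,O)` off the open buffer `B`, never `D` (convention of ORDER MODEL-2);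
* `Col261NStep`, `Col261Compat F ω Mp Mm`   no mark of `Mp` is `N`-connected to a mark of `Mm`;
* `Col261StepIn`, `Col261Wit F B ω Mp Mm`   every opposite pair is separated by the good edges of one colour inside `B`.
PROVED HERE (0 sorry): `col261_wit_compat` (a witness certifies compatibility), `col261_wit_mono` (in `B`), `col261_compat_symm`, `col261_wit_symm`,
`col261_pat_refl/symm/trans`, `col261_wit_congr` (the witness event is read off the complete pattern on `B`).

PLANAR FACTS USED BY THE TWO PROOFS (none is on main for `ℤ²` in this vocabulary; R289/R291 have them for their own lattices):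
 (P1) cut-cycle duality in a flat Jordan domain: two faces not `N`-connected are separated by a SIMPLE monochromatic open `W` loop, possibly using the outer perimeter (l.1345, 1588);
 (P2) uncrossing: for loops `C`, `D` of one colour, `(C ∪ D) ∩ closure (int C)` contains a simple cycle separating a pair inside `C` (l.1391-1409); opposite colours never meet;
 (P3) the frontier of a component of the complement of `W^-` consists of open `W^-` edges; one boundary walk per complementary component (l.1437-1446, 1470-1480);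
 (P4) a proper crosscut of a rectangle has exactly two sides; ordered disjoint crosscuts of a strip; topmost intersection heights are ordered (l.551-600);
 (P5) a circuit in an annulus meets every connected set crossing the annulus; extraction of an arc between two consecutive arms (l.610-630);
 (P6) a connected path that visits the inside of a circuit and avoids it stays in its disk (l.1570);
 (P7) Hausdorff compactness of closed subsets of a rectangle + lower semicontinuity of the distance (l.690-745; can be replaced by a finite-grid pigeonhole);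
 (P8) re-routing of exterior excursions in a complete annular shell (l.1583).
PROBABILISTIC INPUTS: `prop:circuits` (1)(2)(3) (S1, pens 1 + 101), `prop:comparison` (CMP, 291), exact cuts / completion (CUT, 91; `Model/Cuts261`).
-/

set_option autoImplicit false

namespace Claimed.Agent.R292

open Claims Claims.C0468

/-- the interior edges of `F` with at least one face in `R` -/
def col261E (F R : Finset (ℤ × ℤ)) : Finset ((ℤ × ℤ) × Bool) :=
  (rswInt F).filter fun e => e.1 ∈ R ∨ rswCo e ∈ R

/-- `ω` and `g` have the same complete `(s, W)` pattern on the region `R` -/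
def Col261Pat (F R : Finset (ℤ × ℤ)) (ω g : RswCfg) : Prop :=
  (∀ v ∈ cornersOf R, (v ∈ ω.S ↔ v ∈ g.S)) ∧ ∀ e ∈ col261E F R, (e ∈ ω.O ↔ e ∈ g.O)

/-- `L` is exterior data of the buffer `B`: it reads `S` off the interior vertices of `B`, `O` off the interior edges of `B`, never `D` -/
def Col261Ext (B : Finset (ℤ × ℤ)) (L : RswCfg → Prop) : Prop :=
  ∀ ω ω' : RswCfg, (∀ v, OnPolygon B v → (v ∈ ω.S ↔ v ∈ ω'.S)) → (∀ e, e ∉ rswInt B → (e ∈ ω.O ↔ e ∈ ω'.O)) → (L ω ↔ L ω')

/-- one step of the current `N`: the dual edge of a closed interior `W` edge -/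
def Col261NStep (F : Finset (ℤ × ℤ)) (ω : RswCfg) (f g : ℤ × ℤ) : Prop :=
  ∃ e ∈ rswInt F, ((f = e.1 ∧ g = rswCo e) ∨ (g = e.1 ∧ f = rswCo e)) ∧ e ∉ ω.O

/-- the sign assignment (`+` on `Mp`, `-` on `Mm`) is compatible: no two opposite marks are connected in the full `N` graph -/
def Col261Compat (F : Finset (ℤ × ℤ)) (ω : RswCfg) (Mp Mm : Finset (ℤ × ℤ)) : Prop :=
  ∀ f ∈ Mp, ∀ g ∈ Mm, ¬ Relation.ReflTransGen (Col261NStep F ω) f g

/-- one step of an underlying dual path in `F` which does not cross a good edge of colour `a` lying in `B` -/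
def Col261StepIn (F B : Finset (ℤ × ℤ)) (a : Bool) (ω : RswCfg) (f g : ℤ × ℤ) : Prop :=
  ∃ e ∈ rswInt F, ((f = e.1 ∧ g = rswCo e) ∨ (g = e.1 ∧ f = rswCo e)) ∧ ¬ (RswGood a ω e ∧ e ∈ col261E F B)

/-- every opposite pair of marks is separated by open monochromatic `W` edges of one colour inside `B` -/
def Col261Wit (F B : Finset (ℤ × ℤ)) (ω : RswCfg) (Mp Mm : Finset (ℤ × ℤ)) : Prop :=
  ∀ f ∈ Mp, ∀ g ∈ Mm, ∃ a : Bool, ¬ Relation.ReflTransGen (Col261StepIn F B a ω) f g

/-! ### the elementary facts -/

theorem col261_rtg_mono {α : Type*} {r s : α → α → Prop} (h : ∀ x y, r x y → s x y) {a b : α}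
    (hab : Relation.ReflTransGen r a b) : Relation.ReflTransGen s a b := by
  induction hab with
  | refl => exact Relation.ReflTransGen.refl
  | tail _ hbc ih => exact ih.tail (h _ _ hbc)

theorem col261_rtg_symm {α : Type*} {r : α → α → Prop} (h : ∀ x y, r x y → r y x) {a b : α}
    (hab : Relation.ReflTransGen r a b) : Relation.ReflTransGen r b a := by
  induction hab with
  | refl => exact Relation.ReflTransGen.refl
  | tail _ hbc ih => exact Relation.ReflTransGen.head (h _ _ hbc) ih

theorem col261_nstep_stepIn {F B : Finset (ℤ × ℤ)} {a : Bool} {ω : RswCfg} {f g : ℤ × ℤ} (h : Col261NStep F ω f g) :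
    Col261StepIn F B a ω f g := by
  obtain ⟨e, he, h1, h2⟩ := h
  exact ⟨e, he, h1, fun h3 => h2 h3.1.1⟩

/-- a witness certifies compatibility "without using the configuration beyond `B`" -/
theorem col261_wit_compat {F B : Finset (ℤ × ℤ)} {ω : RswCfg} {Mp Mm : Finset (ℤ × ℤ)} (h : Col261Wit F B ω Mp Mm) :
    Col261Compat F ω Mp Mm := by
  intro f hf g hg hfg
  obtain ⟨a, ha⟩ := h f hf g hg
  exact ha (col261_rtg_mono (fun _ _ h' => col261_nstep_stepIn h') hfg)

theorem col261_E_mono (F : Finset (ℤ × ℤ)) {B B' : Finset (ℤ × ℤ)} (hB : B ⊆ B') : col261E F B ⊆ col261E F B' := by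
  intro e he
  have he' := Finset.mem_filter.1 he
  exact Finset.mem_filter.2 ⟨he'.1, he'.2.imp (fun h => hB h) (fun h => hB h)⟩

theorem col261_wit_mono {F B B' : Finset (ℤ × ℤ)} (hB : B ⊆ B') {ω : RswCfg} {Mp Mm : Finset (ℤ × ℤ)}
    (h : Col261Wit F B ω Mp Mm) : Col261Wit F B' ω Mp Mm := by
  intro f hf g hg
  obtain ⟨a, ha⟩ := h f hf g hg
  refine ⟨a, fun hfg => ha (col261_rtg_mono ?_ hfg)⟩
  rintro x y ⟨e, he, h1, h2⟩
  exact ⟨e, he, h1, fun h3 => h2 ⟨h3.1, col261_E_mono F hB h3.2⟩⟩

theorem col261_nstep_symm {F : Finset (ℤ × ℤ)} {ω : RswCfg} {f g : ℤ × ℤ} (h : Col261NStep F ω f g) : Col261NStep F ω g f := by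
  obtain ⟨e, he, h1, h2⟩ := h
  exact ⟨e, he, h1.symm, h2⟩

theorem col261_stepIn_symm {F B : Finset (ℤ × ℤ)} {a : Bool} {ω : RswCfg} {f g : ℤ × ℤ} (h : Col261StepIn F B a ω f g) :
    Col261StepIn F B a ω g f := by
  obtain ⟨e, he, h1, h2⟩ := h
  exact ⟨e, he, h1.symm, h2⟩

theorem col261_compat_symm {F : Finset (ℤ × ℤ)} {ω : RswCfg} {Mp Mm : Finset (ℤ × ℤ)} (h : Col261Compat F ω Mp Mm) :
    Col261Compat F ω Mm Mp := by
  intro f hf g hg hfg
  exact h g hg f hf (col261_rtg_symm (fun _ _ h' => col261_nstep_symm h') hfg)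

theorem col261_wit_symm {F B : Finset (ℤ × ℤ)} {ω : RswCfg} {Mp Mm : Finset (ℤ × ℤ)} (h : Col261Wit F B ω Mp Mm) :
    Col261Wit F B ω Mm Mp := by
  intro f hf g hg
  obtain ⟨a, ha⟩ := h g hg f hf
  exact ⟨a, fun hfg => ha (col261_rtg_symm (fun _ _ h' => col261_stepIn_symm h') hfg)⟩

theorem col261_pat_refl (F R : Finset (ℤ × ℤ)) (ω : RswCfg) : Col261Pat F R ω ω := ⟨fun _ _ => Iff.rfl, fun _ _ => Iff.rfl⟩

theorem col261_pat_symm {F R : Finset (ℤ × ℤ)} {ω g : RswCfg} (h : Col261Pat F R ω g) : Col261Pat F R g ω :=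
  ⟨fun v hv => (h.1 v hv).symm, fun e he => (h.2 e he).symm⟩

theorem col261_pat_trans {F R : Finset (ℤ × ℤ)} {ω g g' : RswCfg} (h : Col261Pat F R ω g) (h' : Col261Pat F R g g') :
    Col261Pat F R ω g' :=
  ⟨fun v hv => (h.1 v hv).trans (h'.1 v hv), fun e he => (h.2 e he).trans (h'.2 e he)⟩

theorem col261_corner_of_face {R : Finset (ℤ × ℤ)} {f v : ℤ × ℤ} (hf : f ∈ R)
    (hv : v ∈ ({f, (f.1 + 1, f.2), (f.1, f.2 + 1), (f.1 + 1, f.2 + 1)} : Finset (ℤ × ℤ))) : v ∈ cornersOf R :=
  Finset.mem_biUnion.2 ⟨f, hf, hv⟩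

theorem col261_end_false (v : ℤ × ℤ) : rswEnd (v, false) = (v.1 + 1, v.2) := rfl
theorem col261_end_true (v : ℤ × ℤ) : rswEnd (v, true) = (v.1, v.2 + 1) := rfl
theorem col261_co_false (v : ℤ × ℤ) : rswCo (v, false) = (v.1, v.2 - 1) := rfl
theorem col261_co_true (v : ℤ × ℤ) : rswCo (v, true) = (v.1 - 1, v.2) := rfl

/-- both endpoints of an edge with a face in `R` are corners of `R` -/
theorem col261_ends_mem {F R : Finset (ℤ × ℤ)} {e : (ℤ × ℤ) × Bool} (he : e ∈ col261E F R) :
    e.1 ∈ cornersOf R ∧ rswEnd e ∈ cornersOf R := by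
  have he2 : e.1 ∈ R ∨ rswCo e ∈ R := (Finset.mem_filter.1 he).2
  obtain ⟨⟨x, y⟩, o⟩ := e
  cases o
  · rw [col261_end_false]
    rw [col261_co_false] at he2
    rcases he2 with h | h
    · exact ⟨col261_corner_of_face h (by simp), col261_corner_of_face h (by simp)⟩
    · exact ⟨col261_corner_of_face h (by simp), col261_corner_of_face h (by simp)⟩
  · rw [col261_end_true]
    rw [col261_co_true] at he2
    rcases he2 with h | h
    · exact ⟨col261_corner_of_face h (by simp), col261_corner_of_face h (by simp)⟩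
    · exact ⟨col261_corner_of_face h (by simp), col261_corner_of_face h (by simp)⟩

/-- the witness event is determined by the complete pattern on `B` -/
theorem col261_wit_congr {F B : Finset (ℤ × ℤ)} {ω ω' : RswCfg} (h : Col261Pat F B ω ω') {Mp Mm : Finset (ℤ × ℤ)}
    (hw : Col261Wit F B ω Mp Mm) : Col261Wit F B ω' Mp Mm := by
  intro f hf g hg
  obtain ⟨a, ha⟩ := hw f hf g hg
  refine ⟨a, fun hfg => ha (col261_rtg_mono ?_ hfg)⟩
  rintro x y ⟨e, he, h1, h2⟩
  refine ⟨e, he, h1, fun h3 => h2 ⟨?_, h3.2⟩⟩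
  obtain ⟨e1, e2⟩ := col261_ends_mem h3.2
  exact ⟨(h.2 e h3.2).1 h3.1.1, (h.1 _ e1).symm.trans h3.1.2.1, (h.1 _ e2).symm.trans h3.1.2.2⟩

/-! ### the contracts

The contract `lem:buffered-witnesses` is now typed in `Model/Contig261` (`Ctg261W`, ratio `k`, vocabulary of `Defs/MODEL`; contract `exit_mdl_witness` of `Exit/MODEL`),
and reduced there to its one-step statement `Ctg261W1` (`ctg261_witness_of_step`).  The first typing (boxes `2n / 3n / 4n`) which stood here is withdrawn. -/

end Claimed.Agent.R292
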