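import Mathlib
import Claimed.Agent.R292.Api
import Claimed.Agent.R292.Defs.MODEL

/-!
# Row 292 (S0540), unit MODEL : Lemma "Finite cuts and colors" (`lem:finite-cuts`, Sec. 3.1 of the AT paper)
(owner helper261; prefix `mdl261_`, defs `Mdl261*` / `mdl261*`; 0 sorry)

ABSTRACT PART (Mathlib only).  `Mdl261Sys A B E` : a finite system of mutually dual edge pairs `e : E`; the `W`-edge of `e` joins the
`s`-vertices `a0 e, a1 e : A`, the crossing `N`-edge joins the `d`-vertices `b0 e, b1 e : B`.  No planarity is used.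
* `fullW`, `edgeW`, `spinW` : weight of a pair with both currents / with `W` only (3.1) / spins only (2.3);
  `mdl261_full_sum` (sum over the other current), `mdl261_edge_sum`, `mdl261_joint_sum_W` (sum over `W` gives the spin weight);
* item 1 : `mdl261_joint_eq` (the `d`-dependence is the equality constraint on `N`-edges), `mdl261_joint_flip` (fair sign of a union of free clusters),
  `mdl261_sum_d` (given `(s,W)` the colours of the `N`-clusters are independent fair signs: sum over `ConnectedComponent → Bool`);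
* item 2 : `Mdl261Cut` (a cut), `mdl261_cut_weight` (swap identity), **`mdl261_cut_indep`** (conditional independence of the two sides given the open cut and
  `s` on its perimeter), `mdl261_cut_markov` (a history measurable on the revealed side does not change the law of the chamber),
  `Mdl261Cut.wt_eq` (product form), `Mdl261Cut.ofClusters` + `mdl261_ofClusters_open_iff` (item 4, algebraic part: a union of whole `N`-clusters is
  bounded by a cut which is then automatically open).  NOT here: the planar statements (the cut is ONE perimeter; odd / even holes).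

FROZEN PART (Def_0468 through `R292/Api`).
* (3.2) : `mdl261_jump_primal`, `mdl261_jump_dual`, `mdl261_flat_primal`, `mdl261_flat_dual` for every `IsATHeight`;
* `mdl261Pairs F`, `mdl261SysF F` : the interior pairs of the frozen model as a pair system (`s = τ`, `d = τ†`; `.swap` exchanges the lattices);
* **`mdl261_weight_eq`** : `1[IsAdmissibleSpins] t ^ atDisagreements = 1[τ = 1 on the polygon] * mdl261Spin (mdl261SysF F) t τ τ†`, hence
  `mdl261_weight_eq_sum_W`, `mdl261_weight_eq_sum_W'` : the frozen weight is the `W`-marginal of the joint weight (3.1), for either choice of the current.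

CONTRACT (M2) of `Exit/MODEL` (vocabulary of `Defs/MODEL`): **`mdl261_exit_dlr`** = the statement of `exit_mdl_dlr` verbatim (ARBITRARY boundary function `b`);
`mdl261_finite`, `mdl261_mem_cfg` (no `MdlHt b` needed), `mdl261_adm_trans`, `mdl261_adm_symm`, `mdl261_cfg_congr`.
-/

set_option autoImplicit false

namespace Claimed.Agent.R292

open Finset

/-- A system of mutually dual edge pairs. -/
structure Mdl261Sys (A B E : Type*) where
  a0 : E → A
  a1 : E → A
  b0 : E → B
  b1 : E → B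

/-- configurations `(s, W, d)` -/
abbrev Mdl261Cfg (A B E : Type*) := (A → Bool) × (E → Bool) × (B → Bool)

section Weights

variable {A B E : Type*} (S : Mdl261Sys A B E) (t : ℝ)

/-- weight of the pair `e` with both currents: `n` = state of the chosen current `N`, `n'` = state of the other current (table of Sec. 2.2
times the spin weight). -/
def mdl261FullW (s : A → Bool) (d : B → Bool) (e : E) (n n' : Bool) : ℝ :=
  if s (S.a0 e) = s (S.a1 e) then
    (if d (S.b0 e) = d (S.b1 e) then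
      (if n = true then (if n' = true then 0 else 1 - t) else (if n' = true then 1 - t else 2 * t - 1))
     else (if n = false ∧ n' = true then t else 0))
  else
    (if d (S.b0 e) = d (S.b1 e) then (if n = true ∧ n' = false then t else 0) else 0)

/-- the edge factor (3.1) of `(s, W, d)` -/
def mdl261EdgeW (s : A → Bool) (d : B → Bool) (e : E) (w : Bool) : ℝ :=
  if w = true then (if s (S.a0 e) = s (S.a1 e) then t else 0)
  else (if s (S.a0 e) = s (S.a1 e) then 1 - t else t) * (if d (S.b0 e) = d (S.b1 e) then 1 else 0)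

/-- the spin weight of a pair: `1`, `t`, `t`, `0` -/
def mdl261SpinW (s : A → Bool) (d : B → Bool) (e : E) : ℝ :=
  if s (S.a0 e) = s (S.a1 e) then (if d (S.b0 e) = d (S.b1 e) then 1 else t)
  else (if d (S.b0 e) = d (S.b1 e) then t else 0)

/-- summing out the other current: `W` open iff `N` closed -/
theorem mdl261_full_sum (s : A → Bool) (d : B → Bool) (e : E) (w : Bool) :
    mdl261FullW S t s d e (!w) true + mdl261FullW S t s d e (!w) false = mdl261EdgeW S t s d e w := by
  unfold mdl261FullW mdl261EdgeW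
  cases w <;> split_ifs <;> simp_all
  ring

theorem mdl261_edge_sum (s : A → Bool) (d : B → Bool) (e : E) :
    mdl261EdgeW S t s d e true + mdl261EdgeW S t s d e false = mdl261SpinW S t s d e := by
  unfold mdl261EdgeW mdl261SpinW
  split_ifs <;> simp_all

/-- `d` is constant along the open `N`-edges -/
def mdl261Compat (W : E → Bool) (d : B → Bool) : Prop := ∀ e, W e = false → d (S.b0 e) = d (S.b1 e)

/-- the graph of the open `N`-edges -/
def mdl261NGraph (W : E → Bool) : SimpleGraph B :=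
  SimpleGraph.fromRel fun b b' => ∃ e, W e = false ∧ S.b0 e = b ∧ S.b1 e = b'

theorem mdl261_compat_iff_adj (W : E → Bool) (d : B → Bool) :
    mdl261Compat S W d ↔ ∀ b b', (mdl261NGraph S W).Adj b b' → d b = d b' := by
  constructor
  · intro h b b' hadj
    rw [mdl261NGraph, SimpleGraph.fromRel_adj] at hadj
    rcases hadj.2 with ⟨e, he, rfl, rfl⟩ | ⟨e, he, rfl, rfl⟩
    · exact h e he
    · exact (h e he).symm
  · intro h e he
    by_cases hb : S.b0 e = S.b1 e
    · rw [hb]
    · refine h _ _ ?_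
      rw [mdl261NGraph, SimpleGraph.fromRel_adj]
      exact ⟨hb, Or.inl ⟨e, he, rfl, rfl⟩⟩

theorem mdl261_compat_iff_reachable (W : E → Bool) (d : B → Bool) :
    mdl261Compat S W d ↔ ∀ b b', (mdl261NGraph S W).Reachable b b' → d b = d b' := by
  rw [mdl261_compat_iff_adj]
  constructor
  · intro h b b' hr
    obtain ⟨p⟩ := hr
    induction p with
    | nil => rfl
    | cons hadj _ ih => exact (h _ _ hadj).trans ih
  · intro h b b' hadj
    exact h _ _ hadj.reachable

/-- colourings of the clusters = compatible `d` -/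
def mdl261ColorEquiv (W : E → Bool) :
    ((mdl261NGraph S W).ConnectedComponent → Bool) ≃ {d : B → Bool // mdl261Compat S W d} where
  toFun c := ⟨fun b => c ((mdl261NGraph S W).connectedComponentMk b), by
    rw [mdl261_compat_iff_reachable]
    intro b b' hr
    rw [SimpleGraph.ConnectedComponent.eq.2 hr]⟩
  invFun d := fun C => C.lift d.1 (fun _ _ p _ => (mdl261_compat_iff_reachable S W d.1).1 d.2 _ _ ⟨p⟩)
  left_inv c := by
    funext C
    induction C using SimpleGraph.ConnectedComponent.ind with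
    | _ b => rfl
  right_inv d := by
    ext b
    rfl

section
variable [Fintype E]

/-- joint weight of `(s, W, d)` -/
def mdl261Joint (s : A → Bool) (W : E → Bool) (d : B → Bool) : ℝ := ∏ e, mdl261EdgeW S t s d e (W e)

/-- weight of the spins -/
def mdl261Spin (s : A → Bool) (d : B → Bool) : ℝ := ∏ e, mdl261SpinW S t s d e

theorem mdl261_joint_sum_W [DecidableEq E] (s : A → Bool) (d : B → Bool) :
    ∑ W : E → Bool, mdl261Joint S t s W d = mdl261Spin S t s d := by
  unfold mdl261Joint mdl261Spin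
  have h := Finset.prod_univ_sum (fun _ : E => (Finset.univ : Finset Bool)) (fun e w => mdl261EdgeW S t s d e w)
  rw [Fintype.piFinset_univ] at h
  rw [← h]
  refine Finset.prod_congr rfl fun e _ => ?_
  rw [Fintype.sum_bool, mdl261_edge_sum]

/-! ### item 1 : the colours of the `N`-clusters -/

/-- the part of the weight that does not see `d` -/
def mdl261Base (s : A → Bool) (W : E → Bool) : ℝ :=
  ∏ e, if W e = true then (if s (S.a0 e) = s (S.a1 e) then t else 0)
    else (if s (S.a0 e) = s (S.a1 e) then 1 - t else t)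

open Classical in
theorem mdl261_joint_eq (s : A → Bool) (W : E → Bool) (d : B → Bool) :
    mdl261Joint S t s W d = mdl261Base S t s W * (if mdl261Compat S W d then 1 else 0) := by
  have h1 : (if mdl261Compat S W d then (1 : ℝ) else 0)
      = ∏ e, if (W e = false → d (S.b0 e) = d (S.b1 e)) then (1 : ℝ) else 0 := by
    rw [Finset.prod_ite_zero]
    by_cases h : mdl261Compat S W d
    · have h' : ∀ e ∈ (Finset.univ : Finset E), W e = false → d (S.b0 e) = d (S.b1 e) := fun e _ => h e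
      rw [if_pos h, if_pos h']
      simp
    · have h' : ¬ ∀ e ∈ (Finset.univ : Finset E), W e = false → d (S.b0 e) = d (S.b1 e) :=
        fun h2 => h fun e => h2 e (Finset.mem_univ e)
      rw [if_neg h, if_neg h']
  rw [h1]
  unfold mdl261Joint mdl261Base
  rw [← Finset.prod_mul_distrib]
  refine Finset.prod_congr rfl fun e _ => ?_
  unfold mdl261EdgeW
  cases hW : W e <;> simp

/-- flipping `d` on a union `T` of `N`-clusters does not change the weight -/
theorem mdl261_joint_flip (s : A → Bool) (W : E → Bool) (d : B → Bool) (T : B → Bool)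
    (hT : ∀ e, W e = false → T (S.b0 e) = T (S.b1 e)) :
    mdl261Joint S t s W (fun b => xor (d b) (T b)) = mdl261Joint S t s W d := by
  classical
  rw [mdl261_joint_eq, mdl261_joint_eq]
  have : mdl261Compat S W (fun b => xor (d b) (T b)) ↔ mdl261Compat S W d := by
    unfold mdl261Compat
    refine forall_congr' fun e => forall_congr' fun he => ?_
    show xor (d (S.b0 e)) (T (S.b0 e)) = xor (d (S.b1 e)) (T (S.b1 e)) ↔ _
    rw [hT e he]
    cases d (S.b0 e) <;> cases d (S.b1 e) <;> cases T (S.b1 e) <;> simp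
  simp only [this]

/-- **Item 1.**  Given `(s, W)`, the colours of the `N`-clusters are independent fair signs. -/
theorem mdl261_sum_d [Fintype B] [DecidableEq B] (s : A → Bool) (W : E → Bool)
    [Fintype (mdl261NGraph S W).ConnectedComponent] [DecidableEq (mdl261NGraph S W).ConnectedComponent] (f : (B → Bool) → ℝ) :
    ∑ d : B → Bool, mdl261Joint S t s W d * f d
      = mdl261Base S t s W * ∑ c : (mdl261NGraph S W).ConnectedComponent → Bool,
          f (fun b => c ((mdl261NGraph S W).connectedComponentMk b)) := by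
  classical
  simp only [mdl261_joint_eq]
  rw [Finset.mul_sum]
  have h1 : ∑ d : B → Bool, mdl261Base S t s W * (if mdl261Compat S W d then 1 else 0) * f d
      = ∑ d ∈ Finset.univ.filter (fun d : B → Bool => mdl261Compat S W d), mdl261Base S t s W * f d := by
    rw [Finset.sum_filter]
    refine Finset.sum_congr rfl fun d _ => ?_
    split_ifs <;> simp
  rw [h1, Finset.sum_subtype (Finset.univ.filter _) (p := mdl261Compat S W) (fun d => by simp)]
  exact ((mdl261ColorEquiv S W).sum_comp (fun d => mdl261Base S t s W * f d.1)).symm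

end

end Weights

/-! ### item 2 : cuts -/

section Cuts

variable {A B E : Type*}

/-- A cut of a pair system: the pairs with `cE e = true` form the cut, the other pairs lie left (`lE e = true`) or right; `cA` marks the
`s`-vertices of the perimeter (all `s`-vertices shared by the two sides); the `d`-vertices lie left or right. -/
structure Mdl261Cut (S : Mdl261Sys A B E) where
  lA : A → Bool
  lE : E → Bool
  lB : B → Bool
  cE : E → Bool
  cA : A → Bool
  left_a0 : ∀ e, cE e = false → lE e = true → lA (S.a0 e) = true ∨ cA (S.a0 e) = true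
  left_a1 : ∀ e, cE e = false → lE e = true → lA (S.a1 e) = true ∨ cA (S.a1 e) = true
  left_b0 : ∀ e, cE e = false → lE e = true → lB (S.b0 e) = true
  left_b1 : ∀ e, cE e = false → lE e = true → lB (S.b1 e) = true
  right_a0 : ∀ e, cE e = false → lE e = false → lA (S.a0 e) = false ∨ cA (S.a0 e) = true
  right_a1 : ∀ e, cE e = false → lE e = false → lA (S.a1 e) = false ∨ cA (S.a1 e) = true
  right_b0 : ∀ e, cE e = false → lE e = false → lB (S.b0 e) = false
  right_b1 : ∀ e, cE e = false → lE e = false → lB (S.b1 e) = false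
  cut_a0 : ∀ e, cE e = true → cA (S.a0 e) = true
  cut_a1 : ∀ e, cE e = true → cA (S.a1 e) = true

variable {S : Mdl261Sys A B E} (K : Mdl261Cut S)

/-- left part of `ω`, right part of `ω'` -/
def Mdl261Cut.mix (ω ω' : Mdl261Cfg A B E) : Mdl261Cfg A B E :=
  (fun a => if K.lA a = true then ω.1 a else ω'.1 a, fun e => if K.lE e = true then ω.2.1 e else ω'.2.1 e,
    fun b => if K.lB b = true then ω.2.2 b else ω'.2.2 b)

/-- the cut is open and `s = σ` on its perimeter -/
def Mdl261Cut.Ev (σ : A → Bool) (ω : Mdl261Cfg A B E) : Prop :=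
  (∀ e, K.cE e = true → ω.2.1 e = true) ∧ ∀ a, K.cA a = true → ω.1 a = σ a

theorem Mdl261Cut.mix_mix (ω ω' : Mdl261Cfg A B E) : K.mix (K.mix ω ω') (K.mix ω' ω) = ω := by
  unfold Mdl261Cut.mix
  refine Prod.ext ?_ (Prod.ext ?_ ?_)
  · funext a; by_cases h : K.lA a = true <;> simp [h]
  · funext e; by_cases h : K.lE e = true <;> simp [h]
  · funext b; by_cases h : K.lB b = true <;> simp [h]

theorem Mdl261Cut.mix_ev {σ : A → Bool} {ω ω' : Mdl261Cfg A B E} (h : K.Ev σ ω) (h' : K.Ev σ ω') :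
    K.Ev σ (K.mix ω ω') := by
  refine ⟨fun e he => ?_, fun a ha => ?_⟩
  · show (if K.lE e = true then ω.2.1 e else ω'.2.1 e) = true
    rw [h.1 e he, h'.1 e he, ite_self]
  · show (if K.lA a = true then ω.1 a else ω'.1 a) = σ a
    rw [h.2 a ha, h'.2 a ha, ite_self]

theorem Mdl261Cut.mix_s_left {σ : A → Bool} {ω ω' : Mdl261Cfg A B E} (h : K.Ev σ ω) (h' : K.Ev σ ω') {a : A}
    (ha : K.lA a = true ∨ K.cA a = true) : (K.mix ω ω').1 a = ω.1 a := by
  show (if K.lA a = true then ω.1 a else ω'.1 a) = ω.1 a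
  rcases ha with ha | ha
  · rw [if_pos ha]
  · rw [h.2 a ha, h'.2 a ha, ite_self]

theorem Mdl261Cut.mix_s_right {σ : A → Bool} {ω ω' : Mdl261Cfg A B E} (h : K.Ev σ ω) (h' : K.Ev σ ω') {a : A}
    (ha : K.lA a = false ∨ K.cA a = true) : (K.mix ω ω').1 a = ω'.1 a := by
  show (if K.lA a = true then ω.1 a else ω'.1 a) = ω'.1 a
  rcases ha with ha | ha
  · rw [if_neg (by simp [ha])]
  · rw [h.2 a ha, h'.2 a ha, ite_self]

/-- the edge factor of a configuration -/
def mdl261CfgW (S : Mdl261Sys A B E) (t : ℝ) (ω : Mdl261Cfg A B E) (e : E) : ℝ :=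
  mdl261EdgeW S t ω.1 ω.2.2 e (ω.2.1 e)

theorem mdl261_cfgW_congr (S : Mdl261Sys A B E) (t : ℝ) {ω η : Mdl261Cfg A B E} {e : E}
    (h0 : ω.1 (S.a0 e) = η.1 (S.a0 e)) (h1 : ω.1 (S.a1 e) = η.1 (S.a1 e)) (hW : ω.2.1 e = η.2.1 e)
    (h2 : ω.2.2 (S.b0 e) = η.2.2 (S.b0 e)) (h3 : ω.2.2 (S.b1 e) = η.2.2 (S.b1 e)) :
    mdl261CfgW S t ω e = mdl261CfgW S t η e := by
  unfold mdl261CfgW mdl261EdgeW
  rw [h0, h1, hW, h2, h3]

theorem mdl261_cfgW_open (S : Mdl261Sys A B E) (t : ℝ) {ω : Mdl261Cfg A B E} {e : E} (hW : ω.2.1 e = true) :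
    mdl261CfgW S t ω e = if ω.1 (S.a0 e) = ω.1 (S.a1 e) then t else 0 := by
  unfold mdl261CfgW mdl261EdgeW
  rw [if_pos hW]

/-- on a left pair the mixed configuration has the factor of `ω` -/
theorem Mdl261Cut.cfgW_mix_left (t : ℝ) {σ : A → Bool} {ω ω' : Mdl261Cfg A B E} (h : K.Ev σ ω) (h' : K.Ev σ ω') {e : E}
    (hc : K.cE e = false) (hl : K.lE e = true) : mdl261CfgW S t (K.mix ω ω') e = mdl261CfgW S t ω e := by
  refine mdl261_cfgW_congr S t (K.mix_s_left h h' (K.left_a0 e hc hl)) (K.mix_s_left h h' (K.left_a1 e hc hl)) ?_ ?_ ?_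
  · show (if K.lE e = true then ω.2.1 e else ω'.2.1 e) = _
    rw [if_pos hl]
  · show (if K.lB (S.b0 e) = true then ω.2.2 (S.b0 e) else ω'.2.2 (S.b0 e)) = _
    rw [if_pos (K.left_b0 e hc hl)]
  · show (if K.lB (S.b1 e) = true then ω.2.2 (S.b1 e) else ω'.2.2 (S.b1 e)) = _
    rw [if_pos (K.left_b1 e hc hl)]

/-- on a right pair the mixed configuration has the factor of `ω'` -/
theorem Mdl261Cut.cfgW_mix_right (t : ℝ) {σ : A → Bool} {ω ω' : Mdl261Cfg A B E} (h : K.Ev σ ω) (h' : K.Ev σ ω') {e : E}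
    (hc : K.cE e = false) (hl : K.lE e = false) : mdl261CfgW S t (K.mix ω ω') e = mdl261CfgW S t ω' e := by
  refine mdl261_cfgW_congr S t (K.mix_s_right h h' (K.right_a0 e hc hl)) (K.mix_s_right h h' (K.right_a1 e hc hl)) ?_ ?_ ?_
  · show (if K.lE e = true then ω.2.1 e else ω'.2.1 e) = _
    rw [if_neg (by simp [hl])]
  · show (if K.lB (S.b0 e) = true then ω.2.2 (S.b0 e) else ω'.2.2 (S.b0 e)) = _
    rw [if_neg (by simp [K.right_b0 e hc hl])]
  · show (if K.lB (S.b1 e) = true then ω.2.2 (S.b1 e) else ω'.2.2 (S.b1 e)) = _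
    rw [if_neg (by simp [K.right_b1 e hc hl])]

/-- on a pair of the cut the factor only depends on `σ`: no transverse interaction -/
theorem Mdl261Cut.cfgW_cut (t : ℝ) {σ : A → Bool} {ω : Mdl261Cfg A B E} (h : K.Ev σ ω) {e : E} (hc : K.cE e = true) :
    mdl261CfgW S t ω e = if σ (S.a0 e) = σ (S.a1 e) then t else 0 := by
  rw [mdl261_cfgW_open S t (h.1 e hc), h.2 _ (K.cut_a0 e hc), h.2 _ (K.cut_a1 e hc)]

variable [Fintype E]

/-- weight of a configuration -/
def mdl261Wt (S : Mdl261Sys A B E) (t : ℝ) (ω : Mdl261Cfg A B E) : ℝ := ∏ e, mdl261CfgW S t ω e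

theorem mdl261_wt_eq (S : Mdl261Sys A B E) (t : ℝ) (ω : Mdl261Cfg A B E) :
    mdl261Wt S t ω = mdl261Joint S t ω.1 ω.2.1 ω.2.2 := rfl

/-- **The weight splits along an open cut** (product form): left factors, right factors, `t` for every pair of the cut. -/
theorem Mdl261Cut.wt_eq (t : ℝ) {σ : A → Bool} {ω : Mdl261Cfg A B E} (h : K.Ev σ ω) :
    mdl261Wt S t ω =
      (∏ e, if K.cE e = true then (if σ (S.a0 e) = σ (S.a1 e) then t else 0) else 1) *
      (∏ e, if K.cE e = false ∧ K.lE e = true then mdl261CfgW S t ω e else 1) *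
      (∏ e, if K.cE e = false ∧ K.lE e = false then mdl261CfgW S t ω e else 1) := by
  unfold mdl261Wt
  rw [← Finset.prod_mul_distrib, ← Finset.prod_mul_distrib]
  refine Finset.prod_congr rfl fun e _ => ?_
  cases hc : K.cE e
  · cases hl : K.lE e <;> simp
  · simp [K.cfgW_cut t h hc]

/-- swap identity -/
theorem Mdl261Cut.wt_mix (t : ℝ) {σ : A → Bool} {ω ω' : Mdl261Cfg A B E} (h : K.Ev σ ω) (h' : K.Ev σ ω') :
    mdl261Wt S t (K.mix ω ω') * mdl261Wt S t (K.mix ω' ω) = mdl261Wt S t ω * mdl261Wt S t ω' := by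
  unfold mdl261Wt
  rw [← Finset.prod_mul_distrib, ← Finset.prod_mul_distrib]
  refine Finset.prod_congr rfl fun e _ => ?_
  cases hc : K.cE e
  · cases hl : K.lE e
    · rw [K.cfgW_mix_right t h h' hc hl, K.cfgW_mix_right t h' h hc hl, mul_comm]
    · rw [K.cfgW_mix_left t h h' hc hl, K.cfgW_mix_left t h' h hc hl]
  · rw [K.cfgW_cut t (K.mix_ev h h') hc, K.cfgW_cut t (K.mix_ev h' h) hc, K.cfgW_cut t h hc, K.cfgW_cut t h' hc]

open Classical in
/-- **Item 2 (conditional independence across an open monochromatic cut).**  Given that the cut is open and that `s = σ` on its perimeter,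
an observable `f` of the left side and an observable `g` of the right side are independent:
`Z(f g) Z(1) = Z(f) Z(g)` for the unnormalised sums over the event. -/
theorem mdl261_cut_indep [Fintype A] [Fintype B] (t : ℝ) (σ : A → Bool) (f g : Mdl261Cfg A B E → ℝ)
    (hf : ∀ ω ω', K.Ev σ ω → K.Ev σ ω' → f (K.mix ω ω') = f ω)
    (hg : ∀ ω ω', K.Ev σ ω → K.Ev σ ω' → g (K.mix ω' ω) = g ω) :
    (∑ ω ∈ Finset.univ.filter (K.Ev σ), mdl261Wt S t ω * (f ω * g ω)) * (∑ ω ∈ Finset.univ.filter (K.Ev σ), mdl261Wt S t ω)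
      = (∑ ω ∈ Finset.univ.filter (K.Ev σ), mdl261Wt S t ω * f ω) * (∑ ω ∈ Finset.univ.filter (K.Ev σ), mdl261Wt S t ω * g ω) := by
  rw [Finset.sum_mul_sum, Finset.sum_mul_sum, ← Finset.sum_product', ← Finset.sum_product']
  refine Finset.sum_nbij' (fun p => (K.mix p.1 p.2, K.mix p.2 p.1)) (fun p => (K.mix p.1 p.2, K.mix p.2 p.1)) ?_ ?_ ?_ ?_ ?_
  · intro p hp
    simp only [Finset.mem_product, Finset.mem_filter, Finset.mem_univ, true_and] at hp ⊢
    exact ⟨K.mix_ev hp.1 hp.2, K.mix_ev hp.2 hp.1⟩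
  · intro p hp
    simp only [Finset.mem_product, Finset.mem_filter, Finset.mem_univ, true_and] at hp ⊢
    exact ⟨K.mix_ev hp.1 hp.2, K.mix_ev hp.2 hp.1⟩
  · intro p _
    simp only [K.mix_mix]
  · intro p _
    simp only [K.mix_mix]
  · intro p hp
    simp only [Finset.mem_product, Finset.mem_filter, Finset.mem_univ, true_and] at hp
    have h1 := K.wt_mix t hp.1 hp.2
    rw [hf _ _ hp.1 hp.2, hg _ _ hp.1 hp.2]
    calc mdl261Wt S t p.1 * (f p.1 * g p.1) * mdl261Wt S t p.2
        = (mdl261Wt S t p.1 * mdl261Wt S t p.2) * (f p.1 * g p.1) := by ring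
      _ = (mdl261Wt S t (K.mix p.1 p.2) * mdl261Wt S t (K.mix p.2 p.1)) * (f p.1 * g p.1) := by rw [h1]
      _ = _ := by ring

open Classical in
/-- **Markov form of item 2 / item 4**: a history `h` that is measurable with respect to the left side (the revealed side) does not change the
conditional law of the right side (the unsearched chamber): `Z(h g) Z(1) = Z(h) Z(g)`. -/
theorem mdl261_cut_markov [Fintype A] [Fintype B] (t : ℝ) (σ : A → Bool) (H : Mdl261Cfg A B E → Prop) (g : Mdl261Cfg A B E → ℝ)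
    (hH : ∀ ω ω', K.Ev σ ω → K.Ev σ ω' → (H (K.mix ω ω') ↔ H ω))
    (hg : ∀ ω ω', K.Ev σ ω → K.Ev σ ω' → g (K.mix ω' ω) = g ω) :
    (∑ ω ∈ Finset.univ.filter (fun ω => K.Ev σ ω ∧ H ω), mdl261Wt S t ω * g ω) * (∑ ω ∈ Finset.univ.filter (K.Ev σ), mdl261Wt S t ω)
      = (∑ ω ∈ Finset.univ.filter (fun ω => K.Ev σ ω ∧ H ω), mdl261Wt S t ω) * (∑ ω ∈ Finset.univ.filter (K.Ev σ), mdl261Wt S t ω * g ω) := by
  have key := mdl261_cut_indep K t σ (fun ω => if H ω then 1 else 0) g
    (fun ω ω' h h' => by simp only [hH ω ω' h h']) hg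
  have e1 : ∀ F : Mdl261Cfg A B E → ℝ, ∑ ω ∈ Finset.univ.filter (fun ω => K.Ev σ ω ∧ H ω), F ω
      = ∑ ω ∈ Finset.univ.filter (K.Ev σ), (if H ω then F ω else 0) := by
    intro F
    rw [← Finset.sum_filter, Finset.filter_filter]
  rw [e1, e1]
  have e2 : ∀ ω, (if H ω then mdl261Wt S t ω * g ω else 0) = mdl261Wt S t ω * ((if H ω then 1 else 0) * g ω) := by
    intro ω; split_ifs <;> simp
  have e3 : ∀ ω, (if H ω then mdl261Wt S t ω else 0) = mdl261Wt S t ω * (if H ω then 1 else 0) := by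
    intro ω; split_ifs <;> simp
  simp only [e2, e3]
  exact key

end Cuts

/-! ### item 4, algebraic part : a union of whole `N`-clusters is bounded by an open cut -/

section Clusters

variable {A B E : Type*}

open Classical in
/-- The cut around a set `T` of `d`-vertices: the pairs whose `N`-edge leaves `T`. -/
noncomputable def Mdl261Cut.ofClusters (S : Mdl261Sys A B E) (T : B → Bool) : Mdl261Cut S where
  lA := fun a => decide (∃ e, T (S.b0 e) = true ∧ T (S.b1 e) = true ∧ (S.a0 e = a ∨ S.a1 e = a))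
  lE := fun e => T (S.b0 e)
  lB := T
  cE := fun e => decide (T (S.b0 e) ≠ T (S.b1 e))
  cA := fun a => decide ((∃ e, T (S.b0 e) ≠ T (S.b1 e) ∧ (S.a0 e = a ∨ S.a1 e = a)) ∨
    ((∃ e, T (S.b0 e) = true ∧ T (S.b1 e) = true ∧ (S.a0 e = a ∨ S.a1 e = a)) ∧
      ∃ e, T (S.b0 e) = false ∧ T (S.b1 e) = false ∧ (S.a0 e = a ∨ S.a1 e = a)))
  left_a0 := fun e hc hl => by
    have hc' : T (S.b0 e) = T (S.b1 e) := by simpa using hc
    exact Or.inl (decide_eq_true ⟨e, hl, hc' ▸ hl, Or.inl rfl⟩)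
  left_a1 := fun e hc hl => by
    have hc' : T (S.b0 e) = T (S.b1 e) := by simpa using hc
    exact Or.inl (decide_eq_true ⟨e, hl, hc' ▸ hl, Or.inr rfl⟩)
  left_b0 := fun e _ hl => hl
  left_b1 := fun e hc hl => by
    have hc' : T (S.b0 e) = T (S.b1 e) := by simpa using hc
    exact hc' ▸ hl
  right_a0 := fun e hc hl => by
    have hc' : T (S.b0 e) = T (S.b1 e) := by simpa using hc
    by_cases h : ∃ e', T (S.b0 e') = true ∧ T (S.b1 e') = true ∧ (S.a0 e' = S.a0 e ∨ S.a1 e' = S.a0 e)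
    · exact Or.inr (decide_eq_true (Or.inr ⟨h, e, hl, hc' ▸ hl, Or.inl rfl⟩))
    · exact Or.inl (decide_eq_false h)
  right_a1 := fun e hc hl => by
    have hc' : T (S.b0 e) = T (S.b1 e) := by simpa using hc
    by_cases h : ∃ e', T (S.b0 e') = true ∧ T (S.b1 e') = true ∧ (S.a0 e' = S.a1 e ∨ S.a1 e' = S.a1 e)
    · exact Or.inr (decide_eq_true (Or.inr ⟨h, e, hl, hc' ▸ hl, Or.inr rfl⟩))
    · exact Or.inl (decide_eq_false h)
  right_b0 := fun e _ hl => hl
  right_b1 := fun e hc hl => by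
    have hc' : T (S.b0 e) = T (S.b1 e) := by simpa using hc
    exact hc' ▸ hl
  cut_a0 := fun e hc => by
    have hc' : T (S.b0 e) ≠ T (S.b1 e) := by simpa using hc
    exact decide_eq_true (Or.inl ⟨e, hc', Or.inl rfl⟩)
  cut_a1 := fun e hc => by
    have hc' : T (S.b0 e) ≠ T (S.b1 e) := by simpa using hc
    exact decide_eq_true (Or.inl ⟨e, hc', Or.inr rfl⟩)

/-- the cut around `T` is open iff `T` is a union of whole `N`-clusters ("every edge from the explored region to an unsearched vertex is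
`N`-closed") -/
theorem mdl261_ofClusters_open_iff (S : Mdl261Sys A B E) (T : B → Bool) (W : E → Bool) :
    (∀ e, (Mdl261Cut.ofClusters S T).cE e = true → W e = true) ↔ ∀ e, W e = false → T (S.b0 e) = T (S.b1 e) := by
  refine forall_congr' fun e => ?_
  have : (Mdl261Cut.ofClusters S T).cE e = true ↔ T (S.b0 e) ≠ T (S.b1 e) := by
    simp [Mdl261Cut.ofClusters]
  rw [this]
  cases W e <;> simp

/-- `T` is a union of `N`-clusters iff it is closed under reachability in the graph of open `N`-edges -/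
theorem mdl261_union_clusters_iff (S : Mdl261Sys A B E) (T : B → Bool) (W : E → Bool) :
    (∀ e, W e = false → T (S.b0 e) = T (S.b1 e)) ↔ ∀ b b', (mdl261NGraph S W).Reachable b b' → T b = T b' :=
  mdl261_compat_iff_reachable S W T

end Clusters

/-! ### the frozen model of Def_0468 as a pair system; the height jumps (3.2) -/

section Frozen

open Claims Claims.C0468

variable {F : Finset (ℤ × ℤ)}

theorem mdl261_corner_mem {f v : ℤ × ℤ} (hf : f ∈ F)
    (hv : v ∈ ({f, (f.1 + 1, f.2), (f.1, f.2 + 1), (f.1 + 1, f.2 + 1)} : Finset (ℤ × ℤ))) : v ∈ cornersOf F := by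
  unfold cornersOf
  exact Finset.mem_biUnion.2 ⟨f, hf, hv⟩

theorem mdl261_face_subset_corners : F ⊆ cornersOf F := fun f hf => mdl261_corner_mem hf (by simp)

/-- (3.2), `s` = primal spin: `K(v') - K(v) = d(f) (s(v) - s(v'))` for two corners of a face, `K = 2 H`. -/
theorem mdl261_jump_primal {τ : cornersOf F → Bool} {τd : F → Bool} {Hv Hf : ℤ × ℤ → ℝ} (h : IsATHeight τ τd Hv Hf)
    {f v v' : ℤ × ℤ} (hf : f ∈ F)
    (hv : v ∈ ({f, (f.1 + 1, f.2), (f.1, f.2 + 1), (f.1 + 1, f.2 + 1)} : Finset (ℤ × ℤ)))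
    (hv' : v' ∈ ({f, (f.1 + 1, f.2), (f.1, f.2 + 1), (f.1 + 1, f.2 + 1)} : Finset (ℤ × ℤ))) :
    2 * Hv v' - 2 * Hv v = (atDual τd f : ℝ) * ((atSpin τ v : ℝ) - (atSpin τ v' : ℝ)) := by
  have h1 := h.2 f hf v hv
  have h2 := h.2 f hf v' hv'
  linarith

/-- (3.2), `s` = dual spin: `K(f') - K(f) = - d(v) (s(f) - s(f'))` for two faces at a corner. -/
theorem mdl261_jump_dual {τ : cornersOf F → Bool} {τd : F → Bool} {Hv Hf : ℤ × ℤ → ℝ} (h : IsATHeight τ τd Hv Hf)
    {f f' v : ℤ × ℤ} (hf : f ∈ F) (hf' : f' ∈ F)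
    (hv : v ∈ ({f, (f.1 + 1, f.2), (f.1, f.2 + 1), (f.1 + 1, f.2 + 1)} : Finset (ℤ × ℤ)))
    (hv' : v ∈ ({f', (f'.1 + 1, f'.2), (f'.1, f'.2 + 1), (f'.1 + 1, f'.2 + 1)} : Finset (ℤ × ℤ))) :
    2 * Hf f' - 2 * Hf f = -((atSpin τ v : ℝ) * ((atDual τd f : ℝ) - (atDual τd f' : ℝ))) := by
  have h1 := h.2 f hf v hv
  have h2 := h.2 f' hf' v hv'
  linarith

/-- the height is constant along an edge with equal primal spins (a monochromatic `W`-edge carries no height increment) -/
theorem mdl261_flat_primal {τ : cornersOf F → Bool} {τd : F → Bool} {Hv Hf : ℤ × ℤ → ℝ} (h : IsATHeight τ τd Hv Hf)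
    {f v v' : ℤ × ℤ} (hf : f ∈ F)
    (hv : v ∈ ({f, (f.1 + 1, f.2), (f.1, f.2 + 1), (f.1 + 1, f.2 + 1)} : Finset (ℤ × ℤ)))
    (hv' : v' ∈ ({f, (f.1 + 1, f.2), (f.1, f.2 + 1), (f.1 + 1, f.2 + 1)} : Finset (ℤ × ℤ)))
    (hs : atSpin τ v = atSpin τ v') : Hv v' = Hv v := by
  have := mdl261_jump_primal h hf hv hv'
  rw [hs, sub_self, mul_zero] at this
  linarith

theorem mdl261_flat_dual {τ : cornersOf F → Bool} {τd : F → Bool} {Hv Hf : ℤ × ℤ → ℝ} (h : IsATHeight τ τd Hv Hf)
    {f f' v : ℤ × ℤ} (hf : f ∈ F) (hf' : f' ∈ F)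
    (hv : v ∈ ({f, (f.1 + 1, f.2), (f.1, f.2 + 1), (f.1 + 1, f.2 + 1)} : Finset (ℤ × ℤ)))
    (hv' : v ∈ ({f', (f'.1 + 1, f'.2), (f'.1, f'.2 + 1), (f'.1 + 1, f'.2 + 1)} : Finset (ℤ × ℤ)))
    (hs : atDual τd f = atDual τd f') : Hf f' = Hf f := by
  have := mdl261_jump_dual h hf hf' hv hv'
  rw [hs, sub_self, mul_zero, neg_zero] at this
  linarith

theorem mdl261_spin_eq_iff (τ : cornersOf F → Bool) {v v' : ℤ × ℤ} (hv : v ∈ cornersOf F) (hv' : v' ∈ cornersOf F) :
    atSpin τ v = atSpin τ v' ↔ τ ⟨v, hv⟩ = τ ⟨v', hv'⟩ := by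
  unfold atSpin
  rw [dif_pos hv, dif_pos hv']
  cases τ ⟨v, hv⟩ <;> cases τ ⟨v', hv'⟩ <;> simp

theorem mdl261_dual_eq_iff (τd : F → Bool) {f f' : ℤ × ℤ} (hf : f ∈ F) (hf' : f' ∈ F) :
    atDual τd f = atDual τd f' ↔ τd ⟨f, hf⟩ = τd ⟨f', hf'⟩ := by
  unfold atDual
  rw [dif_pos hf, dif_pos hf']
  cases τd ⟨f, hf⟩ <;> cases τd ⟨f', hf'⟩ <;> simp

/-- the interior pairs: `(v, true)` = the horizontal primal edge `v — v + (1,0)` and the dual edge `v — v - (0,1)` across it;
`(v, false)` = the vertical primal edge `v — v + (0,1)` and the dual edge `v — v - (1,0)`. -/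
def mdl261Pairs (F : Finset (ℤ × ℤ)) : Finset ((ℤ × ℤ) × Bool) :=
  (F ×ˢ (Finset.univ : Finset Bool)).filter fun p =>
    (if p.2 = true then (p.1.1, p.1.2 - 1) else (p.1.1 - 1, p.1.2)) ∈ F

theorem mdl261_mem_pairs {p : (ℤ × ℤ) × Bool} :
    p ∈ mdl261Pairs F ↔ p.1 ∈ F ∧ (if p.2 = true then (p.1.1, p.1.2 - 1) else (p.1.1 - 1, p.1.2)) ∈ F := by
  simp [mdl261Pairs]

/-- the pair system of the frozen model, `s` = primal spin `τ`, `d` = dual spin `τ†` -/
def mdl261SysF (F : Finset (ℤ × ℤ)) : Mdl261Sys (cornersOf F) F (mdl261Pairs F) where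
  a0 p := ⟨p.1.1, mdl261_face_subset_corners (mdl261_mem_pairs.1 p.2).1⟩
  a1 p := ⟨if p.1.2 = true then (p.1.1.1 + 1, p.1.1.2) else (p.1.1.1, p.1.1.2 + 1),
    mdl261_corner_mem (mdl261_mem_pairs.1 p.2).1 (by split_ifs <;> simp)⟩
  b0 p := ⟨p.1.1, (mdl261_mem_pairs.1 p.2).1⟩
  b1 p := ⟨if p.1.2 = true then (p.1.1.1, p.1.1.2 - 1) else (p.1.1.1 - 1, p.1.1.2), (mdl261_mem_pairs.1 p.2).2⟩

/-- exchanging the two lattices -/
def Mdl261Sys.swap {A B E : Type*} (S : Mdl261Sys A B E) : Mdl261Sys B A E where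
  a0 := S.b0
  a1 := S.b1
  b0 := S.a0
  b1 := S.a1

theorem mdl261_spinW_swap {A B E : Type*} (S : Mdl261Sys A B E) (t : ℝ) (s : A → Bool) (d : B → Bool) (e : E) :
    mdl261SpinW S.swap t d s e = mdl261SpinW S t s d e := by
  unfold mdl261SpinW Mdl261Sys.swap
  split_ifs <;> rfl

theorem mdl261_spin_swap {A B E : Type*} [Fintype E] (S : Mdl261Sys A B E) (t : ℝ) (s : A → Bool) (d : B → Bool) :
    mdl261Spin S.swap t d s = mdl261Spin S t s d :=
  Finset.prod_congr rfl fun e _ => mdl261_spinW_swap S t s d e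

/-- the boundary condition of the frozen model -/
def mdl261BC (τ : cornersOf F → Bool) : Prop := ∀ v ∈ cornersOf F, OnPolygon F v → atSpin τ v = 1

theorem mdl261_bc_spin {τ : cornersOf F → Bool} (h : mdl261BC τ) {v : ℤ × ℤ} (hv : OnPolygon F v) : atSpin τ v = 1 := by
  by_cases hc : v ∈ cornersOf F
  · exact h v hc hv
  · unfold atSpin
    rw [dif_neg hc]

open Classical in
/-- local factor of the spin weight in the frozen variables -/
noncomputable def mdl261Loc (t : ℝ) (τ : cornersOf F → Bool) (τd : F → Bool) (v v' f' : ℤ × ℤ) : ℝ :=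
  if v ∈ F ∧ f' ∈ F then
    (if atSpin τ v = atSpin τ v' then (if atDual τd v = atDual τd f' then 1 else t)
      else (if atDual τd v = atDual τd f' then t else 0))
  else 1

open Classical in
/-- one direction at one corner: the two indicators of `atDisagreements` and the constraint of `IsAdmissibleSpins` give the local factor -/
theorem mdl261_loc_eq (t : ℝ) {τ : cornersOf F → Bool} (τd : F → Bool) {v v' f' : ℤ × ℤ}
    (hb : (v ∈ F ∨ f' ∈ F) → ¬ (v ∈ F ∧ f' ∈ F) → atSpin τ v = atSpin τ v') :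
    (if ((v ∈ F ∧ f' ∈ F) → (atSpin τ v - atSpin τ v') * (atDual τd v - atDual τd f') = 0) then
      t ^ ((if (v ∈ F ∨ f' ∈ F) ∧ atSpin τ v ≠ atSpin τ v' then 1 else 0) +
        (if (v ∈ F ∧ f' ∈ F) ∧ atDual τd v ≠ atDual τd f' then 1 else 0)) else 0)
      = mdl261Loc t τ τd v v' f' := by
  unfold mdl261Loc
  by_cases hI : v ∈ F ∧ f' ∈ F
  · have hor : v ∈ F ∨ f' ∈ F := Or.inl hI.1
    by_cases h1 : atSpin τ v = atSpin τ v' <;> by_cases h2 : atDual τd v = atDual τd f' <;>
      simp [hI, h1, h2, sub_eq_zero]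
  · by_cases hor : v ∈ F ∨ f' ∈ F
    · have := hb hor hI
      simp [hI, this]
    · simp [hI, hor]

theorem mdl261_bc_horizontal {τ : cornersOf F → Bool} (h : mdl261BC τ) {v : ℤ × ℤ}
    (hI : ¬ (v ∈ F ∧ (v.1, v.2 - 1) ∈ F)) : atSpin τ v = atSpin τ (v.1 + 1, v.2) := by
  have h1 : OnPolygon F v := fun hh => hI ⟨hh.1, hh.2.2.1⟩
  have h2 : OnPolygon F (v.1 + 1, v.2) := by
    intro hh
    have e1 : ((v.1 + 1, v.2) : ℤ × ℤ).1 - 1 = v.1 := by simp
    rw [e1] at hh
    exact hI ⟨hh.2.1, hh.2.2.2⟩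
  rw [mdl261_bc_spin h h1, mdl261_bc_spin h h2]

theorem mdl261_bc_vertical {τ : cornersOf F → Bool} (h : mdl261BC τ) {v : ℤ × ℤ}
    (hI : ¬ (v ∈ F ∧ (v.1 - 1, v.2) ∈ F)) : atSpin τ v = atSpin τ (v.1, v.2 + 1) := by
  have h1 : OnPolygon F v := fun hh => hI ⟨hh.1, hh.2.1⟩
  have h2 : OnPolygon F (v.1, v.2 + 1) := by
    intro hh
    have e1 : ((v.1, v.2 + 1) : ℤ × ℤ).2 - 1 = v.2 := by simp
    rw [e1] at hh
    exact hI ⟨hh.2.2.1, hh.2.2.2⟩
  rw [mdl261_bc_spin h h1, mdl261_bc_spin h h2]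

theorem mdl261_ite_and (P Q : Prop) [Decidable P] [Decidable Q] [Decidable (P ∧ Q)] (x y : ℝ) :
    (if P then x else 0) * (if Q then y else 0) = if P ∧ Q then x * y else 0 := by
  by_cases hP : P <;> by_cases hQ : Q <;> simp [hP, hQ]

open Classical in
/-- the frozen weight as a product of local factors over the corners -/
theorem mdl261_weight_loc (t : ℝ) {τ : cornersOf F → Bool} (hBC : mdl261BC τ) (τd : F → Bool) :
    (if IsAdmissibleSpins τ τd then t ^ atDisagreements τ τd else 0)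
      = ∏ v ∈ cornersOf F, mdl261Loc t τ τd v (v.1 + 1, v.2) (v.1, v.2 - 1) * mdl261Loc t τ τd v (v.1, v.2 + 1) (v.1 - 1, v.2) := by
  have h1 : ∀ v ∈ cornersOf F,
      mdl261Loc t τ τd v (v.1 + 1, v.2) (v.1, v.2 - 1) * mdl261Loc t τ τd v (v.1, v.2 + 1) (v.1 - 1, v.2)
      = if (((v ∈ F ∧ (v.1, v.2 - 1) ∈ F) →
            (atSpin τ v - atSpin τ (v.1 + 1, v.2)) * (atDual τd v - atDual τd (v.1, v.2 - 1)) = 0) ∧
          ((v ∈ F ∧ (v.1 - 1, v.2) ∈ F) →
            (atSpin τ v - atSpin τ (v.1, v.2 + 1)) * (atDual τd v - atDual τd (v.1 - 1, v.2)) = 0)) then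
          t ^ ((if (v ∈ F ∨ (v.1, v.2 - 1) ∈ F) ∧ atSpin τ v ≠ atSpin τ (v.1 + 1, v.2) then 1 else 0) +
            (if (v ∈ F ∨ (v.1 - 1, v.2) ∈ F) ∧ atSpin τ v ≠ atSpin τ (v.1, v.2 + 1) then 1 else 0) +
            (if (v ∈ F ∧ (v.1, v.2 - 1) ∈ F) ∧ atDual τd v ≠ atDual τd (v.1, v.2 - 1) then 1 else 0) +
            (if (v ∈ F ∧ (v.1 - 1, v.2) ∈ F) ∧ atDual τd v ≠ atDual τd (v.1 - 1, v.2) then 1 else 0)) else 0 := by
    intro v _
    rw [← mdl261_loc_eq t τd (fun _ hI => mdl261_bc_horizontal hBC hI),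
      ← mdl261_loc_eq t τd (fun _ hI => mdl261_bc_vertical hBC hI)]
    rw [mdl261_ite_and, ← pow_add]
    congr 2
    ring
  rw [Finset.prod_congr rfl h1, Finset.prod_ite_zero, Finset.prod_pow_eq_pow_sum]
  have h2 : IsAdmissibleSpins τ τd ↔ ∀ v ∈ cornersOf F,
      (((v ∈ F ∧ (v.1, v.2 - 1) ∈ F) →
            (atSpin τ v - atSpin τ (v.1 + 1, v.2)) * (atDual τd v - atDual τd (v.1, v.2 - 1)) = 0) ∧
          ((v ∈ F ∧ (v.1 - 1, v.2) ∈ F) →
            (atSpin τ v - atSpin τ (v.1, v.2 + 1)) * (atDual τd v - atDual τd (v.1 - 1, v.2)) = 0)) :=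
    ⟨fun h => h.2, fun h => ⟨hBC, h⟩⟩
  by_cases hA : IsAdmissibleSpins τ τd
  · rw [if_pos hA, if_pos (h2.1 hA)]
    rfl
  · rw [if_neg hA, if_neg (fun h => hA (h2.2 h))]

theorem mdl261_spinW_sysF (t : ℝ) (τ : cornersOf F → Bool) (τd : F → Bool) (p : mdl261Pairs F) :
    mdl261SpinW (mdl261SysF F) t τ τd p
      = mdl261Loc t τ τd p.1.1 (if p.1.2 = true then (p.1.1.1 + 1, p.1.1.2) else (p.1.1.1, p.1.1.2 + 1))
          (if p.1.2 = true then (p.1.1.1, p.1.1.2 - 1) else (p.1.1.1 - 1, p.1.1.2)) := by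
  classical
  have hp := mdl261_mem_pairs.1 p.2
  unfold mdl261Loc mdl261SpinW
  rw [if_pos hp]
  have e1 : atSpin τ p.1.1 = atSpin τ (if p.1.2 = true then (p.1.1.1 + 1, p.1.1.2) else (p.1.1.1, p.1.1.2 + 1)) ↔
      τ ((mdl261SysF F).a0 p) = τ ((mdl261SysF F).a1 p) :=
    mdl261_spin_eq_iff τ ((mdl261SysF F).a0 p).2 ((mdl261SysF F).a1 p).2
  have e2 : atDual τd p.1.1 = atDual τd (if p.1.2 = true then (p.1.1.1, p.1.1.2 - 1) else (p.1.1.1 - 1, p.1.1.2)) ↔
      τd ((mdl261SysF F).b0 p) = τd ((mdl261SysF F).b1 p) :=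
    mdl261_dual_eq_iff τd ((mdl261SysF F).b0 p).2 ((mdl261SysF F).b1 p).2
  by_cases h1 : τ ((mdl261SysF F).a0 p) = τ ((mdl261SysF F).a1 p)
  · by_cases h2 : τd ((mdl261SysF F).b0 p) = τd ((mdl261SysF F).b1 p)
    · rw [if_pos h1, if_pos h2, if_pos (e1.2 h1), if_pos (e2.2 h2)]
    · rw [if_pos h1, if_neg h2, if_pos (e1.2 h1), if_neg (fun h => h2 (e2.1 h))]
  · by_cases h2 : τd ((mdl261SysF F).b0 p) = τd ((mdl261SysF F).b1 p)
    · rw [if_neg h1, if_pos h2, if_neg (fun h => h1 (e1.1 h)), if_pos (e2.2 h2)]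
    · rw [if_neg h1, if_neg h2, if_neg (fun h => h1 (e1.1 h)), if_neg (fun h => h2 (e2.1 h))]

/-- the abstract spin weight of the frozen pair system as a product over the corners -/
theorem mdl261_spin_sysF (t : ℝ) (τ : cornersOf F → Bool) (τd : F → Bool) :
    mdl261Spin (mdl261SysF F) t τ τd
      = ∏ v ∈ cornersOf F, mdl261Loc t τ τd v (v.1 + 1, v.2) (v.1, v.2 - 1) * mdl261Loc t τ τd v (v.1, v.2 + 1) (v.1 - 1, v.2) := by
  classical
  unfold mdl261Spin
  simp only [mdl261_spinW_sysF]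
  rw [Finset.prod_coe_sort (mdl261Pairs F) (fun p : (ℤ × ℤ) × Bool =>
    mdl261Loc t τ τd p.1 (if p.2 = true then (p.1.1 + 1, p.1.2) else (p.1.1, p.1.2 + 1))
      (if p.2 = true then (p.1.1, p.1.2 - 1) else (p.1.1 - 1, p.1.2)))]
  unfold mdl261Pairs
  rw [Finset.prod_filter_of_ne, Finset.prod_product]
  · rw [← Finset.prod_subset (mdl261_face_subset_corners (F := F))]
    · refine Finset.prod_congr rfl fun v _ => ?_
      rw [Fintype.prod_bool]
      simp
    · intro v _ hv
      unfold mdl261Loc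
      rw [if_neg (fun h => hv h.1), if_neg (fun h => hv h.1), one_mul]
  · intro p _ hne
    by_contra hcon
    apply hne
    unfold mdl261Loc
    rw [if_neg (fun h => hcon h.2)]

open Classical in
/-- **The frozen weight is the spin weight of the pair system** (so that `mdl261_joint_sum_W`, items 1, 2 apply to the model of Def_0468). -/
theorem mdl261_weight_eq (t : ℝ) (τ : cornersOf F → Bool) (τd : F → Bool) :
    (if IsAdmissibleSpins τ τd then t ^ atDisagreements τ τd else 0)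
      = if mdl261BC τ then mdl261Spin (mdl261SysF F) t τ τd else 0 := by
  by_cases hBC : mdl261BC τ
  · rw [if_pos hBC, mdl261_weight_loc t hBC, mdl261_spin_sysF]
  · rw [if_neg hBC, if_neg (fun h => hBC h.1)]

open Classical in
/-- the frozen weight as a sum over the auxiliary percolation `W` on the primal lattice (`N` = dual current) -/
theorem mdl261_weight_eq_sum_W (t : ℝ) (τ : cornersOf F → Bool) (τd : F → Bool) :
    (if IsAdmissibleSpins τ τd then t ^ atDisagreements τ τd else 0)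
      = if mdl261BC τ then ∑ W : mdl261Pairs F → Bool, mdl261Joint (mdl261SysF F) t τ W τd else 0 := by
  rw [mdl261_weight_eq, mdl261_joint_sum_W]

open Classical in
/-- the same with the two lattices exchanged (`W` on the dual lattice, `N` = primal current) -/
theorem mdl261_weight_eq_sum_W' (t : ℝ) (τ : cornersOf F → Bool) (τd : F → Bool) :
    (if IsAdmissibleSpins τ τd then t ^ atDisagreements τ τd else 0)
      = if mdl261BC τ then ∑ W : mdl261Pairs F → Bool, mdl261Joint (mdl261SysF F).swap t τd W τ else 0 := by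
  rw [mdl261_weight_eq, mdl261_joint_sum_W, mdl261_spin_swap]

end Frozen

/-! ### contract (M2) `exit_mdl_dlr` : DLR in the vocabulary of `Defs/MODEL`, ARBITRARY boundary function -/

section DLR

theorem mdl261_dir_neg {d : MdlS} (hd : d ∈ mdlDirs) : -d ∈ mdlDirs := by
  simp only [mdlDirs, Finset.mem_insert, Finset.mem_singleton] at hd ⊢
  rcases hd with rfl | rfl | rfl | rfl <;> simp

theorem mdl261_dir_e1 : ((1, 0) : MdlS) ∈ mdlDirs := by simp [mdlDirs]

/-- a priori bound, no hypothesis on `b` -/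
theorem mdl261_bound (A : Finset MdlS) (b : MdlS → ℤ) : ∀ u : MdlS, ∃ M : ℤ, ∀ h, MdlAdm A b h → |h u| ≤ M := by
  classical
  obtain ⟨X, hX⟩ : ∃ X : ℤ, ∀ u ∈ A, u.1 ≤ X := by
    obtain ⟨X, hX⟩ := (A.image Prod.fst).bddAbove
    exact ⟨X, fun u hu => hX (Finset.mem_coe.2 (Finset.mem_image_of_mem _ hu))⟩
  have key : ∀ n : ℕ, ∀ u : MdlS, X + 1 - u.1 ≤ n → ∃ M : ℤ, ∀ h, MdlAdm A b h → |h u| ≤ M := by
    intro n
    induction n with
    | zero =>
      intro u hu
      have hA : u ∉ A := fun h' => by have := hX u h'; push_cast at hu; omega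
      exact ⟨|b u|, fun h hh => by rw [hh.1 u hA]⟩
    | succ n ih =>
      intro u hu
      by_cases hA : u ∈ A
      · obtain ⟨M, hM⟩ := ih (u + (1, 0)) (by simp only [Prod.fst_add]; push_cast at hu ⊢; omega)
        refine ⟨M + 1, fun h hh => ?_⟩
        have h1 := hM h hh
        have h2 := hh.2 u hA _ mdl261_dir_e1
        have h3 : |h u| ≤ |h (u + (1, 0))| + |h (u + (1, 0)) - h u| := by
          have := abs_sub_abs_le_abs_sub (h u) (h (u + (1, 0)))
          rw [abs_sub_comm] at this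
          linarith
        linarith
      · exact ⟨|b u|, fun h hh => by rw [hh.1 u hA]⟩
  exact fun u => key (X + 1 - u.1).toNat u (Int.self_le_toNat _)

theorem mdl261_finite (A : Finset MdlS) (b : MdlS → ℤ) : {h | MdlAdm A b h}.Finite := by
  classical
  choose n hn using mdl261_bound A b
  let T : Finset (MdlS → ℤ) := (A.pi fun x => Finset.Icc (-(n x)) (n x)).image
    (fun g => fun x => if hx : x ∈ A then g x hx else b x)
  refine T.finite_toSet.subset fun K hK => ?_
  refine Finset.mem_coe.2 (Finset.mem_image.2 ⟨fun x _ => K x, Finset.mem_pi.2 fun x _ => ?_, ?_⟩)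
  · have := hn x K hK
    rw [abs_le] at this
    exact Finset.mem_Icc.2 this
  · funext x
    by_cases hx : x ∈ A
    · simp [hx]
    · simp [hx, hK.1 x hx]

theorem mdl261_mem_cfg (A : Finset MdlS) (b : MdlS → ℤ) {h : MdlS → ℤ} : h ∈ mdlCfg A b ↔ MdlAdm A b h := by
  unfold mdlCfg
  rw [dif_pos (mdl261_finite A b)]
  exact (mdl261_finite A b).mem_toFinset

theorem mdl261_adm_trans {A' A : Finset MdlS} (hA : A' ⊆ A) {b h h' : MdlS → ℤ} (hh : MdlAdm A b h) (hh' : MdlAdm A' h h') :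
    MdlAdm A b h' := by
  refine ⟨fun u hu => ?_, fun u hu d hd => ?_⟩
  · rw [hh'.1 u (fun h1 => hu (hA h1)), hh.1 u hu]
  · by_cases h1 : u ∈ A'
    · exact hh'.2 u h1 d hd
    · by_cases h2 : u + d ∈ A'
      · have := hh'.2 (u + d) h2 (-d) (mdl261_dir_neg hd)
        rw [add_neg_cancel_right] at this
        rw [abs_sub_comm]
        exact this
      · rw [hh'.1 u h1, hh'.1 _ h2]
        exact hh.2 u hu d hd

theorem mdl261_adm_symm {A' A : Finset MdlS} (hA : A' ⊆ A) {b h h' : MdlS → ℤ} (hh : MdlAdm A b h)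
    (he : ∀ u, u ∉ A' → h' u = h u) : MdlAdm A' h' h :=
  ⟨fun u hu => (he u hu).symm, fun u hu d hd => hh.2 u (hA hu) d hd⟩

theorem mdl261_cfg_congr (A' : Finset MdlS) {h h' : MdlS → ℤ} (he : ∀ u, u ∉ A' → h' u = h u) :
    mdlCfg A' h' = mdlCfg A' h := by
  ext x
  rw [mdl261_mem_cfg, mdl261_mem_cfg]
  exact ⟨fun hx => ⟨fun u hu => by rw [hx.1 u hu, he u hu], hx.2⟩, fun hx => ⟨fun u hu => by rw [hx.1 u hu, he u hu], hx.2⟩⟩

theorem mdl261_wt_pos {c : ℝ} (hc : 0 < c) (Q : Finset MdlS) (h : MdlS → ℤ) : 0 < mdlWt c Q h := by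
  unfold mdlWt
  exact pow_pos hc _

/-- **(M2) DLR**, the statement of `exit_mdl_dlr`. -/
theorem mdl261_exit_dlr {c : ℝ} (hc : 0 < c) (Q : Finset MdlS) {A' A : Finset MdlS} (hA : A' ⊆ A) (b : MdlS → ℤ)
    (G : (MdlS → ℤ) → ℝ) : mdlEQ c Q A b G = mdlEQ c Q A b fun h => mdlEQ c Q A' h G := by
  unfold mdlEQ
  congr 1
  have hZ : ∀ h ∈ mdlCfg A b, 0 < mdlZQ c Q A' h := by
    intro h hh
    unfold mdlZQ
    refine Finset.sum_pos (fun x _ => mdl261_wt_pos hc Q x) ⟨h, ?_⟩
    rw [mdl261_mem_cfg]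
    exact mdl261_adm_symm hA ((mdl261_mem_cfg A b).1 hh) (fun _ _ => rfl)
  have h1 : ∀ h ∈ mdlCfg A b, mdlWt c Q h * ((∑ h' ∈ mdlCfg A' h, mdlWt c Q h' * G h') / mdlZQ c Q A' h)
      = ∑ h' ∈ mdlCfg A' h, mdlWt c Q h * (mdlWt c Q h' * G h') / mdlZQ c Q A' h := by
    intro h _
    rw [Finset.sum_div, Finset.mul_sum]
    refine Finset.sum_congr rfl fun h' _ => ?_
    ring
  rw [Finset.sum_congr rfl h1]
  rw [Finset.sum_comm' (t' := mdlCfg A b) (s' := fun h' => mdlCfg A' h')]
  · refine Finset.sum_congr rfl fun h' hh' => ?_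
    have h2 : ∀ h ∈ mdlCfg A' h', mdlWt c Q h * (mdlWt c Q h' * G h') / mdlZQ c Q A' h
        = mdlWt c Q h * ((mdlWt c Q h' * G h') / mdlZQ c Q A' h') := by
      intro h hh
      have e : mdlCfg A' h = mdlCfg A' h' := mdl261_cfg_congr A' ((mdl261_mem_cfg A' h').1 hh).1
      have e2 : mdlZQ c Q A' h = mdlZQ c Q A' h' := by unfold mdlZQ; rw [e]
      rw [e2]
      ring
    rw [Finset.sum_congr rfl h2, ← Finset.sum_mul]
    have h3 : ∑ h ∈ mdlCfg A' h', mdlWt c Q h = mdlZQ c Q A' h' := rfl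
    rw [h3]
    field_simp [(hZ h' hh').ne']
  · intro h h'
    rw [mdl261_mem_cfg, mdl261_mem_cfg, mdl261_mem_cfg, mdl261_mem_cfg]
    constructor
    · rintro ⟨a1, a2⟩
      exact ⟨mdl261_adm_symm hA a1 a2.1, mdl261_adm_trans hA a1 a2⟩
    · rintro ⟨a1, a2⟩
      exact ⟨mdl261_adm_trans hA a2 a1, mdl261_adm_symm hA a2 a1.1⟩

end DLR

end Claimed.Agent.R292
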