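import Claimed.Agent.R292.Rsw.DictHt11
import Claimed.Agent.R292.Model.DictM21
import Claimed.Agent.R292.Model.M3x201
import Claimed.Agent.R292.Defs.SPECI

/-!
# Row 292 (S0540), Model/DictRsw201 : DICTIONARY `Defs/RSW` <-> `Defs/MODEL`      (pen helper201, order MODEL-3 of 191; prefix `mdr201_`, `Mdr201`)

* `mdr201H F ω`            the height of `Defs/MODEL` of a configuration `(S, D, O)` (`mdl21mH` of `rswd11K`)
* **`mdr201_fz`**          `mdlFz t⁻¹ F G = rswE t F true (G ∘ mdr201H F)`      (every `G`, `Mdl21Ex F`; `mdr201_ex` : `RswJordan F → Mdl21Ex F`)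
* `mdr201_rswH`            `rswH F ω v = mdr201H F ω (mdlV v) / 2`;   `mdr201_S_iff`, `mdr201_D_iff` the spins are the signs of the height
* **`mdr201_E_SD`**        `rswE t F true X = mdlFz t⁻¹ F (X ∘ mdr201C F)` for `X` of `(S, D)` in `F`
* `mdr201X R G`            a LOCAL function of `(S, D)` which equals `G ∘ mdr201H F` for a local gradient observable `G` (`mdr201_X_loc`, `mdr201_X_eq`)
* **`mdr201_plane`**       statement of `exit_rsw_plane` ⟹ one limit of `mdlFz t⁻¹ F G` along ALL flat exhaustions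
* `mdr201_jordan_box`      `RswJordan (rswBox z n)`, `1 ≤ n`
* `mdr201_fz_shift`        `mdlFz c F (G ∘ shift by mdlV a) = mdlFz c (F - a) G`
* **`mdr201_asiHt`**       statement of `exit_rsw_plane` ⟹ `AsiHt t⁻¹` of `Defs/SPECI` (existence of the limit `mdlPln` + invariance under even translations)
* `mdr201Pl e`             the plaquette of an edge (bijection `rswInt F → mdlQ F`: `mdr201_Pl_inj`, `mdr201_Pl_image`); `mdr201_Sf_Df` flat diagonals = agreeing spins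
* **`mdr201_wt`**          `rswWt t F true ω = t ^ |rswInt F| * mdlWtW t⁻¹ true (mdlQ F) (plaquettes of ω.O) (mdr201H F ω)`
* **`mdr201_sum`, `mdr201_E`**   the JOINT law of `(S, D, O)` = sum over the pairs `(h, W)` with the edge weight `mdlWtW` (every observable `X`; `mdr201CW F h W`)
-/

set_option autoImplicit false

namespace Claimed.Agent.R292

open Claims Claims.C0468 Filter Topology

/-! ## 1. the frozen law of `Defs/MODEL` is the `(S, D)` marginal of the flat PLUS law of `Defs/RSW` -/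

/-- the height of `Defs/MODEL` of a configuration -/
noncomputable def mdr201H (F : Finset (ℤ × ℤ)) (ω : RswCfg) : MdlS → ℤ := mdl21mH F (rswd11K F ω)

/-- `RswJordan F` gives the combinatorial hypothesis of the dictionaries -/
theorem mdr201_ex {F : Finset (ℤ × ℤ)} (h : RswJordan F) : Mdl21Ex F := by
  obtain ⟨γ, hc, -, hr⟩ := h
  have hp : IsPreconnected (frontier (faceRegionSq 1 F)) := by
    rw [← hr]
    exact isPreconnected_range hc
  exact mdl21_ex_of_ext fun S h1 h2 h3 => at92h_ext_conn one_pos F hp S h1 h2 h3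

/-- **THE DICTIONARY**: every observable of the height -/
theorem mdr201_fz {F : Finset (ℤ × ℤ)} (hex : Mdl21Ex F) {t : ℝ} (ht : t ≠ 0) (G : (MdlS → ℤ) → ℝ) :
    mdlFz t⁻¹ F G = rswE t F true fun ω => G (mdr201H F ω) := by
  have h := rswd11_E_ht ht hex (fun K => G (mdl21mH F K))
  unfold mdr201H
  rw [h]
  unfold mdlFz mdlEQ mdlZQ mdlWt
  rw [mdl21m_sum hex, mdl21m_sum hex]
  simp only [mdl21m_N]

theorem mdr201_H_V (F : Finset (ℤ × ℤ)) (ω : RswCfg) (v : ℤ × ℤ) : mdr201H F ω (mdlV v) = (rswd11K F ω).1 v :=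
  mdl21m_H_V F _ v

theorem mdr201_H_F {F : Finset (ℤ × ℤ)} (ω : RswCfg) {f : ℤ × ℤ} (hf : f ∈ F) : mdr201H F ω (mdlF f) = (rswd11K F ω).2 f :=
  mdl21m_H_F _ hf

/-- `rswH = h ∘ mdlV / 2` -/
theorem mdr201_rswH {F : Finset (ℤ × ℤ)} (hex : Mdl21Ex F) {ω : RswCfg} (ha : IsAdmissibleSpins (rswTau F ω) (rswTauD F ω))
    {v : ℤ × ℤ} (hv : v ∈ cornersOf F) : rswH F ω v = (mdr201H F ω (mdlV v) : ℝ) / 2 := by
  rw [mdr201_H_V, rswd11_H_K hex ha hv]

/-- the primal spin is the sign of the height -/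
theorem mdr201_S_iff {F : Finset (ℤ × ℤ)} (hex : Mdl21Ex F) {ω : RswCfg} (ha : IsAdmissibleSpins (rswTau F ω) (rswTauD F ω))
    {v : ℤ × ℤ} (hv : v ∈ cornersOf F) : mdl21Sg (mdr201H F ω (mdlV v)) = if v ∈ ω.S then 1 else -1 := by
  rw [mdr201_H_V, ← rswd11_spin ω hv]
  exact ((mdl21_K_spec ha (hex _ _ ha)).2.2.1 v).symm

/-- the transverse spin is the sign of the height -/
theorem mdr201_D_iff {F : Finset (ℤ × ℤ)} (hex : Mdl21Ex F) {ω : RswCfg} (ha : IsAdmissibleSpins (rswTau F ω) (rswTauD F ω))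
    {f : ℤ × ℤ} (hf : f ∈ F) : mdl21Sg (mdr201H F ω (mdlF f)) = if f ∈ ω.D then 1 else -1 := by
  rw [mdr201_H_F ω hf, ← rswd11_dual ω hf]
  exact ((mdl21_K_spec ha (hex _ _ ha)).2.2.2 f).symm

/-- the corner increment of the height is the product of the two spins -/
theorem mdr201_step {F : Finset (ℤ × ℤ)} (hex : Mdl21Ex F) {ω : RswCfg} (ha : IsAdmissibleSpins (rswTau F ω) (rswTauD F ω))
    {f v : ℤ × ℤ} (hf : f ∈ F) (hv : v ∈ mdl21Cor f) :
    mdr201H F ω (mdlF f) - mdr201H F ω (mdlV v) = (if v ∈ ω.S then 1 else -1) * (if f ∈ ω.D then 1 else -1) := by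
  rw [← mdr201_S_iff hex ha (mdl21_cor_sub hf hv), ← mdr201_D_iff hex ha hf, mdr201_H_V, mdr201_H_F ω hf]
  have hK := rswd11_K_ht hex ha
  exact (mdl21_sg_mul (hK.even v) (hK.step f hf v hv)).symm

open Classical in
/-- the configuration `(S, D, ∅)` of a height -/
noncomputable def mdr201C (F : Finset (ℤ × ℤ)) (h : MdlS → ℤ) : RswCfg :=
  ⟨(cornersOf F).filter fun v => mdl21Sg (h (mdlV v)) = 1, F.filter fun f => mdl21Sg (h (mdlF f)) = 1, ∅⟩

/-- **observables of `(S, D)`**: `rswE t F true X = mdlFz t⁻¹ F (X ∘ mdr201C F)` -/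
theorem mdr201_E_SD {F : Finset (ℤ × ℤ)} (hex : Mdl21Ex F) {t : ℝ} (ht : t ≠ 0) (X : RswCfg → ℝ)
    (hX : ∀ ω ω' : RswCfg, (∀ v ∈ cornersOf F, (v ∈ ω.S ↔ v ∈ ω'.S)) → (∀ f ∈ F, (f ∈ ω.D ↔ f ∈ ω'.D)) → X ω = X ω') :
    rswE t F true X = mdlFz t⁻¹ F fun h => X (mdr201C F h) := by
  classical
  rw [mdr201_fz hex ht]
  refine rswd11_E_congr t fun ω ha => hX _ _ (fun v hv => ?_) fun f hf => ?_
  · have e := mdr201_S_iff hex ha hv
    simp only [mdr201C, Finset.mem_filter]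
    rw [e]
    by_cases h : v ∈ ω.S <;> simp [h, hv]
  · have e := mdr201_D_iff hex ha hf
    simp only [mdr201C, Finset.mem_filter]
    rw [e]
    by_cases h : f ∈ ω.D <;> simp [h, hf]

/-! ## 2. a local gradient observable of the height is a local function of `(S, D)` -/

/-- a function on the box which does not change along the edges of the box is constant -/
theorem mdr201_const_box (R : ℕ) (D : MdlS → ℤ)
    (hD : ∀ u ∈ mdlBox R, ∀ d ∈ mdlDirs, u + d ∈ mdlBox R → D (u + d) = D u) : ∀ u ∈ mdlBox R, D u = D (0, 0) := by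
  have mem : ∀ x y : ℤ, ((x, y) : MdlS) ∈ mdlBox R ↔ (-(R : ℤ) ≤ x ∧ x ≤ R) ∧ (-(R : ℤ) ≤ y ∧ y ≤ R) := by
    intro x y
    simp [mdlBox, Finset.mem_product, Finset.mem_Icc]
  have hx : ∀ k : ℕ, k ≤ R → D ((k : ℤ), 0) = D (0, 0) ∧ D (-(k : ℤ), 0) = D (0, 0) := by
    intro k
    induction k with
    | zero => intro _; simp
    | succ k ih =>
      intro hk
      obtain ⟨i1, i2⟩ := ih (by omega)
      constructor
      · have := hD ((k : ℤ), 0) ((mem _ _).2 (by omega)) (1, 0) (by simp [mdlDirs]) ((mem _ _).2 (by simp; omega))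
        simp only [Prod.mk_add_mk, add_zero] at this
        push_cast
        rw [this, i1]
      · have := hD (-(k : ℤ), 0) ((mem _ _).2 (by omega)) (-1, 0) (by simp [mdlDirs]) ((mem _ _).2 (by simp; omega))
        simp only [Prod.mk_add_mk, add_zero] at this
        have e : -((k + 1 : ℕ) : ℤ) = -(k : ℤ) + -1 := by push_cast; ring
        rw [e, this, i2]
  have hy : ∀ x : ℤ, -(R : ℤ) ≤ x → x ≤ R → ∀ k : ℕ, k ≤ R → D (x, (k : ℤ)) = D (x, 0) ∧ D (x, -(k : ℤ)) = D (x, 0) := by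
    intro x x1 x2 k
    induction k with
    | zero => intro _; simp
    | succ k ih =>
      intro hk
      obtain ⟨i1, i2⟩ := ih (by omega)
      constructor
      · have := hD (x, (k : ℤ)) ((mem _ _).2 (by omega)) (0, 1) (by simp [mdlDirs]) ((mem _ _).2 (by simp; omega))
        simp only [Prod.mk_add_mk, add_zero] at this
        push_cast
        rw [this, i1]
      · have := hD (x, -(k : ℤ)) ((mem _ _).2 (by omega)) (0, -1) (by simp [mdlDirs]) ((mem _ _).2 (by simp; omega))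
        simp only [Prod.mk_add_mk, add_zero] at this
        have e : -((k + 1 : ℕ) : ℤ) = -(k : ℤ) + -1 := by push_cast; ring
        rw [e, this, i2]
  rintro ⟨x, y⟩ hu
  obtain ⟨⟨x1, x2⟩, y1, y2⟩ := (mem x y).1 hu
  have a : D (x, y) = D (x, 0) := by
    obtain ⟨k, rfl | rfl⟩ := Int.eq_nat_or_neg y
    · exact (hy x x1 x2 k (by omega)).1
    · exact (hy x x1 x2 k (by omega)).2
  have b : D (x, 0) = D (0, 0) := by
    obtain ⟨k, rfl | rfl⟩ := Int.eq_nat_or_neg x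
    · exact (hx k (by omega)).1
    · exact (hx k (by omega)).2
  rw [a, b]

/-- `h` has the increments prescribed by the spins of `ω` on the edges of the box `mdlBox R` -/
def Mdr201Cp (R : ℕ) (ω : RswCfg) (h : MdlS → ℤ) : Prop :=
  ∀ f v : ℤ × ℤ, v ∈ mdl21Cor f → mdlF f ∈ mdlBox R → mdlV v ∈ mdlBox R →
    h (mdlF f) - h (mdlV v) = (if v ∈ ω.S then 1 else -1) * (if f ∈ ω.D then 1 else -1)

/-- every edge joins a corner and a face -/
theorem mdr201_edge (u : MdlS) {d : MdlS} (hd : d ∈ mdlDirs) :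
    ∃ f v : ℤ × ℤ, v ∈ mdl21Cor f ∧ ((u = mdlV v ∧ u + d = mdlF f) ∨ (u = mdlF f ∧ u + d = mdlV v)) := by
  simp only [mdlDirs, Finset.mem_insert, Finset.mem_singleton] at hd
  rcases mdl21m_site u with ⟨v, rfl⟩ | ⟨f, rfl⟩
  · obtain ⟨a1, a2, a3, a4⟩ := mdl21m_V_add v
    rcases hd with rfl | rfl | rfl | rfl
    · exact ⟨v, v, by simp [mdl21Cor], Or.inl ⟨rfl, a1⟩⟩
    · exact ⟨(v.1 - 1, v.2 - 1), v, by simp [mdl21Cor], Or.inl ⟨rfl, a2⟩⟩
    · exact ⟨(v.1 - 1, v.2), v, by simp [mdl21Cor], Or.inl ⟨rfl, a3⟩⟩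
    · exact ⟨(v.1, v.2 - 1), v, by simp [mdl21Cor], Or.inl ⟨rfl, a4⟩⟩
  · obtain ⟨a1, a2, a3, a4⟩ := mdl21m_F_add f
    rcases hd with rfl | rfl | rfl | rfl
    · exact ⟨f, _, by simp [mdl21Cor], Or.inr ⟨rfl, a1⟩⟩
    · exact ⟨f, _, by simp [mdl21Cor], Or.inr ⟨rfl, a2⟩⟩
    · exact ⟨f, _, by simp [mdl21Cor], Or.inr ⟨rfl, a3⟩⟩
    · exact ⟨f, _, by simp [mdl21Cor], Or.inr ⟨rfl, a4⟩⟩

/-- two heights with the same increments on the box differ by a constant there -/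
theorem mdr201_cp_unique {R : ℕ} {ω : RswCfg} {h h' : MdlS → ℤ} (a : Mdr201Cp R ω h) (a' : Mdr201Cp R ω h') :
    ∀ u ∈ mdlBox R, h u = h' u + (h (0, 0) - h' (0, 0)) := by
  have key := mdr201_const_box R (fun u => h u - h' u) (by
    intro u hu d hd hud
    obtain ⟨f, v, hv, ⟨e1, e2⟩ | ⟨e1, e2⟩⟩ := mdr201_edge u hd
    · have b := a f v hv (e2 ▸ hud) (e1 ▸ hu)
      have b' := a' f v hv (e2 ▸ hud) (e1 ▸ hu)
      rw [e2, e1]
      omega
    · have b := a f v hv (e1 ▸ hu) (e2 ▸ hud)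
      have b' := a' f v hv (e1 ▸ hu) (e2 ▸ hud)
      rw [e2, e1]
      omega)
  intro u hu
  have := key u hu
  omega

/-- ... so that a local gradient observable does not see the difference -/
theorem mdr201_cp_G {R : ℕ} {S : Finset MdlS} (hS : S ⊆ mdlBox R) {G : (MdlS → ℤ) → ℝ} (hl : MdlLoc S G) (hg : MdlGrad G)
    {ω : RswCfg} {h h' : MdlS → ℤ} (a : Mdr201Cp R ω h) (a' : Mdr201Cp R ω h') : G h = G h' := by
  rw [← hg h' (h (0, 0) - h' (0, 0))]
  exact hl _ _ fun u hu => mdr201_cp_unique a a' u (hS hu)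

open Classical in
/-- value of `G` on any height which satisfies `P` -/
noncomputable def mdr201Pick (G : (MdlS → ℤ) → ℝ) (P : (MdlS → ℤ) → Prop) : ℝ :=
  if hx : ∃ h, P h then G (Classical.choose hx) else 0

/-- THE LOCAL FUNCTION of `(S, D)` -/
noncomputable def mdr201X (R : ℕ) (G : (MdlS → ℤ) → ℝ) (ω : RswCfg) : ℝ := mdr201Pick G (Mdr201Cp R ω)

/-- its window -/
noncomputable def mdr201Win (R : ℕ) : Finset (ℤ × ℤ) := open Classical in (mdlBox R).image mdl21mU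

theorem mdr201_X_loc (R : ℕ) (G : (MdlS → ℤ) → ℝ) : RswLoc (mdr201Win R) ∅ (mdr201X R G) := by
  classical
  intro ω ω' hS hD _
  have e : Mdr201Cp R ω = Mdr201Cp R ω' := by
    funext h
    refine propext (forall_congr' fun f => forall_congr' fun v => forall_congr' fun _ => forall_congr' fun hf =>
      forall_congr' fun hv => ?_)
    have wv : v ∈ mdr201Win R := Finset.mem_image.2 ⟨_, hv, mdl21m_U_V v⟩
    have wf : f ∈ mdr201Win R := Finset.mem_image.2 ⟨_, hf, mdl21m_U_F f⟩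
    have e1 : v ∈ ω.S ↔ v ∈ ω'.S := by
      have := Finset.ext_iff.1 hS v
      simpa [Finset.mem_inter, wv] using this
    have e2 : f ∈ ω.D ↔ f ∈ ω'.D := by
      have := Finset.ext_iff.1 hD f
      simpa [Finset.mem_inter, wf] using this
    simp only [e1, e2]
  unfold mdr201X
  rw [e]

/-- the window is inside the box of faces of radius `R + 2` -/
theorem mdr201_win_sub (R : ℕ) : mdr201Win R ⊆ rswBox 0 (R + 2) := by
  classical
  intro f hf
  obtain ⟨u, hu, rfl⟩ := Finset.mem_image.1 hf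
  simp only [mdlBox, Finset.mem_product, Finset.mem_Icc] at hu
  simp only [rswBox, mdl21mU, Finset.mem_product, Finset.mem_Ico, Prod.fst_zero, Prod.snd_zero]
  push_cast
  omega

theorem mdr201_cp_H {F : Finset (ℤ × ℤ)} (hex : Mdl21Ex F) {R : ℕ} (hF : rswBox 0 (R + 2) ⊆ F) {ω : RswCfg}
    (ha : IsAdmissibleSpins (rswTau F ω) (rswTauD F ω)) : Mdr201Cp R ω (mdr201H F ω) := by
  classical
  intro f v hv hf _
  exact mdr201_step hex ha (hF (mdr201_win_sub R (Finset.mem_image.2 ⟨_, hf, mdl21m_U_F f⟩))) hv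

/-- on the admissible configurations the local function is `G` of the height -/
theorem mdr201_X_eq {F : Finset (ℤ × ℤ)} (hex : Mdl21Ex F) {R : ℕ} (hF : rswBox 0 (R + 2) ⊆ F)
    {S : Finset MdlS} (hS : S ⊆ mdlBox R) {G : (MdlS → ℤ) → ℝ} (hl : MdlLoc S G) (hg : MdlGrad G) {ω : RswCfg}
    (ha : IsAdmissibleSpins (rswTau F ω) (rswTauD F ω)) : mdr201X R G ω = G (mdr201H F ω) := by
  have hx : ∃ h, Mdr201Cp R ω h := ⟨_, mdr201_cp_H hex hF ha⟩
  unfold mdr201X mdr201Pick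
  rw [dif_pos hx]
  exact mdr201_cp_G hS hl hg (Classical.choose_spec hx) (mdr201_cp_H hex hF ha)

/-- **a local gradient observable under the frozen law = a local function of the spins under the flat law** -/
theorem mdr201_fz_X {F : Finset (ℤ × ℤ)} (hex : Mdl21Ex F) {t : ℝ} (ht : t ≠ 0) {R : ℕ} (hF : rswBox 0 (R + 2) ⊆ F)
    {S : Finset MdlS} (hS : S ⊆ mdlBox R) {G : (MdlS → ℤ) → ℝ} (hl : MdlLoc S G) (hg : MdlGrad G) :
    mdlFz t⁻¹ F G = rswE t F true (mdr201X R G) := by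
  rw [mdr201_fz hex ht]
  exact rswd11_E_congr t fun ω ha => (mdr201_X_eq hex hF hS hl hg ha).symm

/-- every finite set is in a box -/
theorem mdr201_exists_box (S : Finset MdlS) : ∃ R : ℕ, S ⊆ mdlBox R := by
  classical
  refine ⟨S.sup fun u => u.1.natAbs + u.2.natAbs, fun u hu => ?_⟩
  have h := Finset.le_sup (f := fun u : MdlS => u.1.natAbs + u.2.natAbs) hu
  simp only [mdlBox, Finset.mem_product, Finset.mem_Icc]
  omega

/-- the statement of `exit_rsw_plane` at the parameter `t` -/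
def Mdr201Plane (t : ℝ) : Prop :=
  ∀ (R : Finset (ℤ × ℤ)) (R' : Finset ((ℤ × ℤ) × Bool)) (X : RswCfg → ℝ), RswLoc R R' X →
    ∃ ℓ : ℝ, ∀ ε : ℝ, 0 < ε → ∃ n0 : ℕ, ∀ (F : Finset (ℤ × ℤ)) (b : Bool),
      RswJordan F → rswBox 0 n0 ⊆ F → |rswE t F b X - ℓ| < ε

theorem mdr201_box_mono {z : ℤ × ℤ} {n m : ℕ} (h : n ≤ m) : rswBox z n ⊆ rswBox z m := by
  intro f hf
  simp only [rswBox, Finset.mem_product, Finset.mem_Ico] at hf ⊢
  omega

/-- **ONE PLANE LIMIT of the frozen laws along all flat exhaustions**, local gradient observables -/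
theorem mdr201_plane {t : ℝ} (ht : t ≠ 0) (hpl : Mdr201Plane t) {S : Finset MdlS} {G : (MdlS → ℤ) → ℝ}
    (hl : MdlLoc S G) (hg : MdlGrad G) :
    ∃ ℓ : ℝ, ∀ ε : ℝ, 0 < ε → ∃ n0 : ℕ, ∀ F : Finset (ℤ × ℤ), RswJordan F → rswBox 0 n0 ⊆ F → |mdlFz t⁻¹ F G - ℓ| < ε := by
  obtain ⟨R, hS⟩ := mdr201_exists_box S
  obtain ⟨ℓ, hℓ⟩ := hpl _ _ _ (mdr201_X_loc R G)
  refine ⟨ℓ, fun ε hε => ?_⟩
  obtain ⟨n0, hn⟩ := hℓ ε hε
  refine ⟨max n0 (R + 2), fun F hJ hF => ?_⟩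
  rw [mdr201_fz_X (mdr201_ex hJ) ht ((mdr201_box_mono (le_max_right _ _)).trans hF) hS hl hg]
  exact hn F true hJ ((mdr201_box_mono (le_max_left _ _)).trans hF)

/-! ## 3. the straight boxes are Jordan domains -/

theorem mdr201_slab (a : ℤ) {n : ℕ} (hn : 1 ≤ n) {x : ℝ} (h1 : (a : ℝ) - n ≤ x) (h2 : x ≤ a + n) :
    ∃ k : ℤ, a - n ≤ k ∧ k < a + n ∧ (k : ℝ) ≤ x ∧ x ≤ k + 1 := by
  have f1 : a - n ≤ ⌊x⌋ := Int.le_floor.2 (by push_cast; exact h1)
  have f2 := Int.floor_le x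
  have f3 := Int.lt_floor_add_one x
  by_cases h : ⌊x⌋ < a + n
  · exact ⟨⌊x⌋, f1, h, f2, f3.le⟩
  · refine ⟨a + n - 1, by omega, by omega, ?_, by push_cast; linarith⟩
    have : ((a + n : ℤ) : ℝ) ≤ (⌊x⌋ : ℝ) := by exact_mod_cast not_lt.1 h
    push_cast at this ⊢
    linarith

theorem mdr201_box_union (z : ℤ × ℤ) {n : ℕ} (hn : 1 ≤ n) :
    (⋃ f ∈ rswBox z n, Set.Icc ((1 : ℝ) * f.1) (1 * (f.1 + 1)) ×ˢ Set.Icc ((1 : ℝ) * f.2) (1 * (f.2 + 1))) =
      Set.Icc ((z.1 : ℝ) - n) (z.1 + n) ×ˢ Set.Icc ((z.2 : ℝ) - n) (z.2 + n) := by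
  ext ⟨x, y⟩
  simp only [Set.mem_iUnion, Set.mem_prod, Set.mem_Icc, exists_prop, one_mul, rswBox, Finset.mem_product, Finset.mem_Ico]
  constructor
  · rintro ⟨f, ⟨⟨a1, a2⟩, a3, a4⟩, ⟨b1, b2⟩, b3, b4⟩
    have c1 : ((z.1 - n : ℤ) : ℝ) ≤ f.1 := by exact_mod_cast a1
    have c2 : ((f.1 + 1 : ℤ) : ℝ) ≤ ((z.1 + n : ℤ) : ℝ) := by exact_mod_cast a2
    have c3 : ((z.2 - n : ℤ) : ℝ) ≤ f.2 := by exact_mod_cast a3
    have c4 : ((f.2 + 1 : ℤ) : ℝ) ≤ ((z.2 + n : ℤ) : ℝ) := by exact_mod_cast a4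
    push_cast at c1 c2 c3 c4
    refine ⟨⟨?_, ?_⟩, ?_, ?_⟩ <;> linarith
  · rintro ⟨⟨b1, b2⟩, b3, b4⟩
    obtain ⟨k, k1, k2, k3, k4⟩ := mdr201_slab z.1 hn b1 b2
    obtain ⟨l, l1, l2, l3, l4⟩ := mdr201_slab z.2 hn b3 b4
    exact ⟨(k, l), ⟨⟨k1, k2⟩, l1, l2⟩, ⟨k3, k4⟩, l3, l4⟩

/-- **the straight boxes are Jordan domains** -/
theorem mdr201_jordan_box (z : ℤ × ℤ) {n : ℕ} (hn : 1 ≤ n) : RswJordan (rswBox z n) := by
  set T : Set (ℝ × ℝ) := Set.Icc ((z.1 : ℝ) - n) (z.1 + n) ×ˢ Set.Icc ((z.2 : ℝ) - n) (z.2 + n) with hT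
  have hreg : faceRegionSq 1 (rswBox z n) = interior T := by
    unfold faceRegionSq
    rw [mdr201_box_union z hn]
  have hn' : (1 : ℝ) ≤ n := by exact_mod_cast hn
  have hTc : Convex ℝ T := (convex_Icc _ _).prod (convex_Icc _ _)
  have hTk : IsCompact T := isCompact_Icc.prod isCompact_Icc
  have hctr : ((z.1 : ℝ), (z.2 : ℝ)) ∈ interior T := by
    rw [hT, interior_prod_eq, interior_Icc, interior_Icc]
    refine ⟨⟨?_, ?_⟩, ?_, ?_⟩ <;> simp only <;> linarith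
  let φ : ℂ ≃L[ℝ] ℝ × ℝ := Complex.equivRealProdCLM
  set U : Set ℂ := φ ⁻¹' interior T with hU
  have hUc : Convex ℝ U := hTc.interior.linear_preimage φ.toLinearEquiv.toLinearMap
  have hUo : IsOpen U := isOpen_interior.preimage φ.continuous
  have hUne : (interior U).Nonempty := by
    rw [hUo.interior_eq]
    exact ⟨φ.symm ((z.1 : ℝ), (z.2 : ℝ)), by rw [hU, Set.mem_preimage, φ.apply_symm_apply]; exact hctr⟩
  have hUb : Bornology.IsVonNBounded ℝ U := by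
    rw [NormedSpace.isVonNBounded_iff]
    refine (hTk.image φ.symm.continuous).isBounded.subset ?_
    intro w hw
    exact ⟨φ w, interior_subset hw, φ.symm_apply_apply w⟩
  obtain ⟨e, -, -, he⟩ := exists_homeomorph_image_eq (convex_closedBall (0 : ℂ) 1)
    (by rw [interior_closedBall _ one_ne_zero]; exact ⟨0, by simp⟩)
    (by rw [NormedSpace.isVonNBounded_iff]; exact Metric.isBounded_closedBall) hUc hUne hUb
  rw [frontier_closedBall _ one_ne_zero] at he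
  refine ⟨fun c => φ (e (c : ℂ)), ?_, ?_, ?_⟩
  · exact φ.continuous.comp (e.continuous.comp continuous_subtype_val)
  · intro a b hab
    exact Circle.coe_injective (e.injective (φ.injective hab))
  · rw [hreg]
    have h1 : Set.range (fun c : Circle => φ (e (c : ℂ))) = φ '' (e '' Metric.sphere (0 : ℂ) 1) := by
      ext w
      constructor
      · rintro ⟨c, rfl⟩
        exact ⟨_, ⟨_, c.2, rfl⟩, rfl⟩
      · rintro ⟨_, ⟨c, hc, rfl⟩, rfl⟩
        exact ⟨⟨c, hc⟩, rfl⟩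
    rw [h1, he]
    have h2 := φ.toHomeomorph.image_frontier U
    have h3 : φ.toHomeomorph '' U = interior T := Set.image_preimage_eq _ φ.surjective
    rw [h3] at h2
    exact h2

/-! ## 4. translations -/

/-- the shifted height -/
def mdr201Sh (w : MdlS) (h : MdlS → ℤ) : MdlS → ℤ := fun u => h (u + w)

/-- the shifted set -/
def mdr201Tr (w : ℤ × ℤ) (A : Finset (ℤ × ℤ)) : Finset (ℤ × ℤ) := A.image fun u => u - w

theorem mdr201_mem_tr {w u : ℤ × ℤ} {A : Finset (ℤ × ℤ)} : u ∈ mdr201Tr w A ↔ u + w ∈ A := by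
  unfold mdr201Tr
  rw [Finset.mem_image]
  constructor
  · rintro ⟨x, hx, rfl⟩
    simpa using hx
  · intro h
    exact ⟨u + w, h, by simp⟩

theorem mdr201_sh_sh (w : MdlS) (h : MdlS → ℤ) : mdr201Sh w (mdr201Sh (-w) h) = h := by
  funext u
  simp [mdr201Sh]

theorem mdr201_sh_sh' (w : MdlS) (h : MdlS → ℤ) : mdr201Sh (-w) (mdr201Sh w h) = h := by
  funext u
  simp [mdr201Sh]

theorem mdr201_adm_shift (w : MdlS) (A : Finset MdlS) (b h : MdlS → ℤ) :
    MdlAdm (mdr201Tr w A) (mdr201Sh w b) (mdr201Sh w h) ↔ MdlAdm A b h := by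
  unfold MdlAdm mdr201Sh
  constructor
  · rintro ⟨h1, h2⟩
    refine ⟨fun u hu => ?_, fun u hu d hd => ?_⟩
    · have := h1 (u - w) (by rw [mdr201_mem_tr]; simpa using hu)
      simpa using this
    · have := h2 (u - w) (by rw [mdr201_mem_tr]; simpa using hu) d hd
      have e : u - w + d + w = u + d := by abel
      rw [e] at this
      simpa using this
  · rintro ⟨h1, h2⟩
    refine ⟨fun u hu => h1 _ (by rwa [mdr201_mem_tr] at hu), fun u hu d hd => ?_⟩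
    have := h2 (u + w) (mdr201_mem_tr.1 hu) d hd
    have e : u + d + w = u + w + d := by abel
    rw [e]
    exact this

theorem mdr201_N_shift (w : MdlS) (Q : Finset MdlS) (h : MdlS → ℤ) : mdlN (mdr201Tr w Q) (mdr201Sh w h) = mdlN Q h := by
  classical
  rw [mdl201_N_eq, mdl201_N_eq]
  unfold mdr201Tr
  rw [Finset.sum_image (fun x _ y _ e => by simpa using e)]
  refine Finset.sum_congr rfl fun p _ => ?_
  unfold mdr201Sh
  have e0 : p - w + w = p := by abel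
  have e1 : p - w + (1, 1) + w = p + (1, 1) := by abel
  have e2 : p - w + (1, 0) + w = p + (1, 0) := by abel
  have e3 : p - w + (0, 1) + w = p + (0, 1) := by abel
  rw [e0, e1, e2, e3]

theorem mdr201_sum_shift (w : MdlS) (A : Finset MdlS) (b : MdlS → ℤ) (g : (MdlS → ℤ) → ℝ) :
    ∑ h ∈ mdlCfg A b, g (mdr201Sh w h) = ∑ h ∈ mdlCfg (mdr201Tr w A) (mdr201Sh w b), g h := by
  refine Finset.sum_nbij' (mdr201Sh w) (mdr201Sh (-w)) ?_ ?_ ?_ ?_ ?_
  · intro h hh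
    rw [mdl201_mem_cfg_any] at hh ⊢
    exact (mdr201_adm_shift w A b h).2 hh
  · intro h hh
    rw [mdl201_mem_cfg_any] at hh ⊢
    rw [← mdr201_adm_shift w, mdr201_sh_sh]
    exact hh
  · intro h _
    exact mdr201_sh_sh' w h
  · intro h _
    exact mdr201_sh_sh w h
  · intro h _
    rfl

/-- translation covariance of the finite volume laws -/
theorem mdr201_EQ_shift (c : ℝ) (w : MdlS) (Q A : Finset MdlS) (b : MdlS → ℤ) (G : (MdlS → ℤ) → ℝ) :
    mdlEQ c Q A b (fun h => G (mdr201Sh w h)) = mdlEQ c (mdr201Tr w Q) (mdr201Tr w A) (mdr201Sh w b) G := by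
  unfold mdlEQ mdlZQ mdlWt
  rw [← mdr201_sum_shift w A b (fun h => c ^ mdlN (mdr201Tr w Q) h * G h),
    ← mdr201_sum_shift w A b (fun h => c ^ mdlN (mdr201Tr w Q) h)]
  simp only [mdr201_N_shift]

theorem mdr201_V_add (v a : ℤ × ℤ) : mdlV v + mdlV a = mdlV (v + a) := by
  unfold mdlV
  refine Prod.ext ?_ ?_ <;> simp <;> ring

theorem mdr201_F_add (f a : ℤ × ℤ) : mdlF f + mdlV a = mdlF (f + a) := by
  unfold mdlV mdlF
  refine Prod.ext ?_ ?_ <;> simp <;> ring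

theorem mdr201_ref_shift (a : ℤ × ℤ) : mdr201Sh (mdlV a) mdlRef = mdlRef := by
  funext u
  unfold mdr201Sh mdlRef mdlV
  simp only [Prod.fst_add, Prod.snd_add]
  omega

theorem mdr201_corners_tr (a : ℤ × ℤ) (F : Finset (ℤ × ℤ)) (v : ℤ × ℤ) :
    v ∈ cornersOf (mdr201Tr a F) ↔ v + a ∈ cornersOf F := by
  rw [mdl21_mem_corners, mdl21_mem_corners]
  constructor
  · rintro ⟨f, hf, hv⟩
    refine ⟨f + a, mdr201_mem_tr.1 hf, ?_⟩
    rw [mdl21_mem_cor] at hv ⊢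
    rcases hv with rfl | rfl | rfl | rfl
    · left; rfl
    · right; left; refine Prod.ext ?_ ?_ <;> simp <;> ring
    · right; right; left; refine Prod.ext ?_ ?_ <;> simp <;> ring
    · right; right; right; refine Prod.ext ?_ ?_ <;> simp <;> ring
  · rintro ⟨f, hf, hv⟩
    refine ⟨f - a, mdr201_mem_tr.2 (by simpa using hf), ?_⟩
    rw [mdl21_mem_cor] at hv ⊢
    have e : v = v + a - a := by abel
    rcases hv with h | h | h | h <;> rw [e, h]
    · left; rfl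
    · right; left; refine Prod.ext ?_ ?_ <;> simp <;> ring
    · right; right; left; refine Prod.ext ?_ ?_ <;> simp <;> ring
    · right; right; right; refine Prod.ext ?_ ?_ <;> simp <;> ring

theorem mdr201_poly_tr (a : ℤ × ℤ) (F : Finset (ℤ × ℤ)) (v : ℤ × ℤ) :
    OnPolygon (mdr201Tr a F) v ↔ OnPolygon F (v + a) := by
  unfold OnPolygon
  simp only [mdr201_mem_tr]
  have e1 : ((v.1 - 1, v.2) : ℤ × ℤ) + a = ((v + a).1 - 1, (v + a).2) := by
    refine Prod.ext ?_ ?_ <;> simp <;> ring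
  have e2 : ((v.1, v.2 - 1) : ℤ × ℤ) + a = ((v + a).1, (v + a).2 - 1) := by
    refine Prod.ext ?_ ?_ <;> simp <;> ring
  have e3 : ((v.1 - 1, v.2 - 1) : ℤ × ℤ) + a = ((v + a).1 - 1, (v + a).2 - 1) := by
    refine Prod.ext ?_ ?_ <;> simp <;> ring
  rw [e1, e2, e3]

theorem mdr201_dom_tr (a : ℤ × ℤ) (F : Finset (ℤ × ℤ)) : mdr201Tr (mdlV a) (mdlDom F) = mdlDom (mdr201Tr a F) := by
  ext u
  rw [mdr201_mem_tr]
  rcases mdl21m_site u with ⟨v, rfl⟩ | ⟨f, rfl⟩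
  · rw [mdr201_V_add, mdl21m_V_mem_dom, mdl21m_V_mem_dom, mdr201_corners_tr, mdr201_poly_tr]
  · rw [mdr201_F_add, mdl21m_F_mem_dom, mdl21m_F_mem_dom, mdr201_mem_tr]

theorem mdr201_F_mem_Q (F : Finset (ℤ × ℤ)) (f : ℤ × ℤ) : mdlF f ∈ mdlQ F ↔ f ∈ F ∧ (f.1, f.2 + 1) ∈ F := by
  unfold mdlQ
  simp only [Finset.mem_union, Finset.mem_image, Finset.mem_filter]
  constructor
  · rintro (⟨g, hg, e⟩ | ⟨g, -, e⟩)
    · rw [mdl21m_F_inj e] at hg
      exact hg
    · exact absurd e (mdl21m_V_ne_F g f)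
  · intro h
    exact Or.inl ⟨f, h, rfl⟩

theorem mdr201_V_mem_Q (F : Finset (ℤ × ℤ)) (v : ℤ × ℤ) : mdlV v ∈ mdlQ F ↔ v ∈ F ∧ (v.1 - 1, v.2) ∈ F := by
  unfold mdlQ
  simp only [Finset.mem_union, Finset.mem_image, Finset.mem_filter]
  constructor
  · rintro (⟨g, -, e⟩ | ⟨g, hg, e⟩)
    · exact absurd e.symm (mdl21m_V_ne_F v g)
    · rw [mdl21m_V_inj e] at hg
      exact hg
  · intro h
    exact Or.inr ⟨v, h, rfl⟩

theorem mdr201_Q_tr (a : ℤ × ℤ) (F : Finset (ℤ × ℤ)) : mdr201Tr (mdlV a) (mdlQ F) = mdlQ (mdr201Tr a F) := by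
  ext u
  rw [mdr201_mem_tr]
  rcases mdl21m_site u with ⟨v, rfl⟩ | ⟨f, rfl⟩
  · rw [mdr201_V_add, mdr201_V_mem_Q, mdr201_V_mem_Q, mdr201_mem_tr, mdr201_mem_tr]
    have e1 : ((v.1 - 1, v.2) : ℤ × ℤ) + a = ((v + a).1 - 1, (v + a).2) := by
      refine Prod.ext ?_ ?_ <;> simp <;> ring
    rw [e1]
  · rw [mdr201_F_add, mdr201_F_mem_Q, mdr201_F_mem_Q, mdr201_mem_tr, mdr201_mem_tr]
    have e1 : ((f.1, f.2 + 1) : ℤ × ℤ) + a = ((f + a).1, (f + a).2 + 1) := by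
      refine Prod.ext ?_ ?_ <;> simp <;> ring
    rw [e1]

/-- **translation covariance of the frozen law** -/
theorem mdr201_fz_shift (c : ℝ) (a : ℤ × ℤ) (F : Finset (ℤ × ℤ)) (G : (MdlS → ℤ) → ℝ) :
    mdlFz c F (fun h => G (fun u => h (u + mdlV a))) = mdlFz c (mdr201Tr a F) G := by
  unfold mdlFz
  rw [← mdr201_dom_tr, ← mdr201_Q_tr]
  have h := mdr201_EQ_shift c (mdlV a) (mdlQ F) (mdlDom F) mdlRef G
  rw [mdr201_ref_shift] at h
  exact h

theorem mdr201_box_tr (a z : ℤ × ℤ) (n : ℕ) : mdr201Tr a (rswBox z n) = rswBox (z - a) n := by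
  ext f
  rw [mdr201_mem_tr]
  simp only [rswBox, Finset.mem_product, Finset.mem_Ico, Prod.fst_add, Prod.snd_add, Prod.fst_sub, Prod.snd_sub]
  omega

/-! ## 5. the plane functional `mdlPln` -/

theorem mdr201_box_sub (a : ℤ × ℤ) {n0 n : ℕ} (h : n0 + a.1.natAbs + a.2.natAbs ≤ n) : rswBox 0 n0 ⊆ rswBox a n := by
  intro f hf
  simp only [rswBox, Finset.mem_product, Finset.mem_Ico, Prod.fst_zero, Prod.snd_zero] at hf ⊢
  omega

/-- the frozen laws of the boxes centred at ANY point converge to one limit -/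
theorem mdr201_tendsto {t : ℝ} (ht : t ≠ 0) (hpl : Mdr201Plane t) {S : Finset MdlS} {G : (MdlS → ℤ) → ℝ}
    (hl : MdlLoc S G) (hg : MdlGrad G) :
    ∃ ℓ : ℝ, ∀ a : ℤ × ℤ, Tendsto (fun n : ℕ => mdlFz t⁻¹ (rswBox a n) G) atTop (𝓝 ℓ) := by
  obtain ⟨ℓ, hℓ⟩ := mdr201_plane ht hpl hl hg
  refine ⟨ℓ, fun a => Metric.tendsto_atTop.2 fun ε hε => ?_⟩
  obtain ⟨n0, hn⟩ := hℓ ε hε
  refine ⟨n0 + a.1.natAbs + a.2.natAbs + 1, fun n hn' => ?_⟩
  rw [Real.dist_eq]
  exact hn _ (mdr201_jordan_box a (by omega)) (mdr201_box_sub a (by omega))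

/-- **the limit which defines `mdlPln` exists**, and it is the limit along the boxes centred at any point -/
theorem mdr201_pln_tendsto {t : ℝ} (ht : t ≠ 0) (hpl : Mdr201Plane t) {S : Finset MdlS} {G : (MdlS → ℤ) → ℝ}
    (hl : MdlLoc S G) (hg : MdlGrad G) (a : ℤ × ℤ) :
    Tendsto (fun n : ℕ => mdlFz t⁻¹ (rswBox a n) G) atTop (𝓝 (mdlPln t⁻¹ G)) := by
  obtain ⟨ℓ, hℓ⟩ := mdr201_tendsto ht hpl hl hg
  have e : mdlPln t⁻¹ G = ℓ := (hℓ 0).limUnder_eq
  rw [e]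
  exact hℓ a

/-- **... and along ALL flat exhaustions** -/
theorem mdr201_pln_plane {t : ℝ} (ht : t ≠ 0) (hpl : Mdr201Plane t) {S : Finset MdlS} {G : (MdlS → ℤ) → ℝ}
    (hl : MdlLoc S G) (hg : MdlGrad G) {ε : ℝ} (hε : 0 < ε) :
    ∃ n0 : ℕ, ∀ F : Finset (ℤ × ℤ), RswJordan F → rswBox 0 n0 ⊆ F → |mdlFz t⁻¹ F G - mdlPln t⁻¹ G| < ε := by
  obtain ⟨ℓ, hℓ⟩ := mdr201_plane ht hpl hl hg
  have h0 : Tendsto (fun n : ℕ => mdlFz t⁻¹ (rswBox 0 n) G) atTop (𝓝 ℓ) := by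
    refine Metric.tendsto_atTop.2 fun ε hε => ?_
    obtain ⟨n0, hn⟩ := hℓ ε hε
    refine ⟨n0 + 1, fun n hn' => ?_⟩
    rw [Real.dist_eq]
    exact hn _ (mdr201_jordan_box 0 (by omega)) (mdr201_box_mono (by omega))
  have e : mdlPln t⁻¹ G = ℓ := h0.limUnder_eq
  rw [e]
  exact hℓ ε hε

/-- invariance of the plane functional under the parity preserving translations -/
theorem mdr201_pln_trans {t : ℝ} (ht : t ≠ 0) (hpl : Mdr201Plane t) {S : Finset MdlS} {G : (MdlS → ℤ) → ℝ}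
    (hl : MdlLoc S G) (hg : MdlGrad G) {w : MdlS} (hw : (w.1 + w.2) % 2 = 0) :
    mdlPln t⁻¹ (fun h => G (fun u => h (u + w))) = mdlPln t⁻¹ G := by
  have h := mdr201_pln_tendsto ht hpl hl hg (0 - mdl21mU w)
  have e : (fun n : ℕ => mdlFz t⁻¹ (rswBox (0 - mdl21mU w) n) G) =
      fun n : ℕ => mdlFz t⁻¹ (rswBox 0 n) (fun h => G (fun u => h (u + w))) := by
    funext n
    rw [← mdr201_box_tr, ← mdr201_fz_shift, mdl21m_V_U hw]
  rw [e] at h
  exact h.limUnder_eq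

/-- **`AsiHt t⁻¹` of `Defs/SPECI` from the statement of `exit_rsw_plane`** -/
theorem mdr201_asiHt {t : ℝ} (ht : t ≠ 0) (hpl : Mdr201Plane t) : AsiHt t⁻¹ :=
  ⟨fun _ _ hl hg => mdr201_pln_tendsto ht hpl hl hg 0, fun _ _ _ hw hl hg => mdr201_pln_trans ht hpl hl hg hw⟩

/-! ## 6. the joint law of `(S, D, O)` is the edge representation `mdlWtW` of `Defs/MODEL` -/

/-- the plaquette of an edge -/
def mdr201Pl (e : (ℤ × ℤ) × Bool) : MdlS := if e.2 then mdlV e.1 else mdlF (rswCo e)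

theorem mdr201_Pl_true (v : ℤ × ℤ) : mdr201Pl (v, true) = mdlV v := rfl

theorem mdr201_Pl_false (v : ℤ × ℤ) : mdr201Pl (v, false) = mdlF (v.1, v.2 - 1) := rfl

theorem mdr201_Pl_inj : Function.Injective mdr201Pl := by
  rintro ⟨v, _ | _⟩ ⟨v', _ | _⟩ h
  · rw [mdr201_Pl_false, mdr201_Pl_false] at h
    have := mdl21m_F_inj h
    simp only [Prod.mk.injEq] at this
    have e : v = v' := Prod.ext this.1 (by omega)
    rw [e]
  · rw [mdr201_Pl_false, mdr201_Pl_true] at h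
    exact absurd h.symm (mdl21m_V_ne_F _ _)
  · rw [mdr201_Pl_false, mdr201_Pl_true] at h
    exact absurd h (mdl21m_V_ne_F _ _)
  · rw [mdr201_Pl_true, mdr201_Pl_true] at h
    rw [mdl21m_V_inj h]

theorem mdr201_Pl_mem (F : Finset (ℤ × ℤ)) (e : (ℤ × ℤ) × Bool) : mdr201Pl e ∈ mdlQ F ↔ e ∈ rswInt F := by
  obtain ⟨v, _ | _⟩ := e
  · rw [mdr201_Pl_false, mdr201_F_mem_Q, rswd11_mem_int]
    simp only [rswCo, sub_add_cancel, Bool.false_eq_true, if_false]
    exact and_comm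
  · rw [mdr201_Pl_true, mdr201_V_mem_Q, rswd11_mem_int]
    simp only [rswCo, if_true]

theorem mdr201_Pl_image (F : Finset (ℤ × ℤ)) : (rswInt F).image mdr201Pl = mdlQ F := by
  ext p
  rw [Finset.mem_image]
  constructor
  · rintro ⟨e, he, rfl⟩
    exact (mdr201_Pl_mem F e).2 he
  · intro hp
    rcases mdl21m_site p with ⟨v, rfl⟩ | ⟨f, rfl⟩
    · exact ⟨(v, true), (mdr201_Pl_mem F _).1 hp, rfl⟩
    · refine ⟨((f.1, f.2 + 1), false), (mdr201_Pl_mem F _).1 ?_, ?_⟩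
      · rw [mdr201_Pl_false]; simpa using hp
      · rw [mdr201_Pl_false]; simp

theorem mdr201_Sf_even (h : MdlS → ℤ) {p : MdlS} (hp : (p.1 + p.2) % 2 = 0) : MdlSf true h p ↔ MdlD1 h p := by
  unfold MdlSf; simp [hp]

theorem mdr201_Sf_odd (h : MdlS → ℤ) {p : MdlS} (hp : ¬ (p.1 + p.2) % 2 = 0) : MdlSf true h p ↔ MdlD2 h p := by
  unfold MdlSf; simp [hp]

theorem mdr201_Df_even (h : MdlS → ℤ) {p : MdlS} (hp : (p.1 + p.2) % 2 = 0) : MdlDf true h p ↔ MdlD2 h p := by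
  unfold MdlDf MdlSf; simp [hp]

theorem mdr201_Df_odd (h : MdlS → ℤ) {p : MdlS} (hp : ¬ (p.1 + p.2) % 2 = 0) : MdlDf true h p ↔ MdlD1 h p := by
  unfold MdlDf MdlSf; simp [hp]

theorem mdr201_sign_iff (P Q : Prop) [Decidable P] [Decidable Q] :
    ((if P then (1 : ℤ) else -1) = if Q then 1 else -1) ↔ (P ↔ Q) := by
  by_cases hP : P <;> by_cases hQ : Q <;> simp [hP, hQ]

/-- the `s`-diagonal of the plaquette of an interior edge is flat iff the two primal spins agree; the same for the transverse diagonal -/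
theorem mdr201_Sf_Df {F : Finset (ℤ × ℤ)} (hex : Mdl21Ex F) {ω : RswCfg} (ha : IsAdmissibleSpins (rswTau F ω) (rswTauD F ω))
    {e : (ℤ × ℤ) × Bool} (he : e ∈ rswInt F) :
    (MdlSf true (mdr201H F ω) (mdr201Pl e) ↔ (e.1 ∈ ω.S ↔ rswEnd e ∈ ω.S)) ∧
      (MdlDf true (mdr201H F ω) (mdr201Pl e) ↔ (e.1 ∈ ω.D ↔ rswCo e ∈ ω.D)) := by
  classical
  have hK := rswd11_K_ht hex ha
  obtain ⟨h1, h2⟩ := (rswd11_mem_int e).1 he
  have c1 := rswd11_face_corner h1
  have c2 := rswd11_end_corner (e := e) h1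
  have s1 := mdr201_S_iff hex ha c1
  have s2 := mdr201_S_iff hex ha c2
  have d1 := mdr201_D_iff hex ha h1
  have d2 := mdr201_D_iff hex ha h2
  have q1 : (e.1 ∈ ω.S ↔ rswEnd e ∈ ω.S) ↔ mdl21Sg ((rswd11K F ω).1 e.1) = mdl21Sg ((rswd11K F ω).1 (rswEnd e)) := by
    rw [← mdr201_H_V, ← mdr201_H_V, s1, s2, mdr201_sign_iff]
  have q2 : (e.1 ∈ ω.D ↔ rswCo e ∈ ω.D) ↔ mdl21Sg ((rswd11K F ω).2 e.1) = mdl21Sg ((rswd11K F ω).2 (rswCo e)) := by
    rw [← mdr201_H_F ω h1, ← mdr201_H_F ω h2, d1, d2, mdr201_sign_iff]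
  rw [q1, q2]
  clear q1 q2 s1 s2 d1 d2 c1 c2
  obtain ⟨v, _ | _⟩ := e
  · have hI : mdl21Ih F v := ⟨h1, h2⟩
    obtain ⟨-, b1, b2, b3, b4⟩ := hK.flat_h hI
    have r1 : rswEnd (v, false) = (v.1 + 1, v.2) := rfl
    have r2 : rswCo (v, false) = (v.1, v.2 - 1) := rfl
    rw [r1, r2] at *
    rw [mdl21_sg_eq_iff (by rw [hK.even, hK.even]) b1 b2,
      mdl21_sg_eq_iff (by rw [hK.parity.1 _ hI.1, hK.parity.1 _ hI.2]) b3 b4]
    rw [mdr201_Pl_false, mdr201_Sf_odd _ (mdl21m_F_odd _), mdr201_Df_odd _ (mdl21m_F_odd _)]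
    unfold MdlD1 MdlD2
    rw [mdl21m_F_diag, (mdl21m_F_add _).1, (mdl21m_F_add _).2.2.1]
    simp only [sub_add_cancel]
    rw [mdr201_H_V, mdr201_H_V, mdr201_H_F ω hI.1, mdr201_H_F ω hI.2]
    exact ⟨eq_comm, eq_comm⟩
  · have hI : mdl21Iv F v := ⟨h1, h2⟩
    obtain ⟨-, b1, b2, b3, b4⟩ := hK.flat_v hI
    have r1 : rswEnd (v, true) = (v.1, v.2 + 1) := rfl
    have r2 : rswCo (v, true) = (v.1 - 1, v.2) := rfl
    rw [r1, r2] at *
    rw [mdl21_sg_eq_iff (by rw [hK.even, hK.even]) b1 b2,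
      mdl21_sg_eq_iff (by rw [hK.parity.1 _ hI.1, hK.parity.1 _ hI.2]) b3 b4]
    rw [mdr201_Pl_true, mdr201_Sf_even _ (mdl21m_V_even _), mdr201_Df_even _ (mdl21m_V_even _)]
    unfold MdlD1 MdlD2
    rw [mdl21m_V_diag, (mdl21m_V_add _).1, (mdl21m_V_add _).2.2.1]
    rw [mdr201_H_V, mdr201_H_V, mdr201_H_F ω hI.1, mdr201_H_F ω hI.2]
    exact ⟨Iff.rfl, Iff.rfl⟩

open Classical in
/-- the factor of one plaquette in `mdlWtW` -/
noncomputable def mdr201Fac (c : ℝ) (W : Finset MdlS) (h : MdlS → ℤ) (p : MdlS) : ℝ :=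
  if p ∈ W then (if MdlSf true h p then 1 else 0) else if MdlDf true h p then (if MdlSf true h p then c - 1 else 1) else 0

theorem mdr201_WtW_prod (c : ℝ) {Q W : Finset MdlS} (hW : W ⊆ Q) (h : MdlS → ℤ) :
    mdlWtW c true Q W h = ∏ p ∈ Q, mdr201Fac c W h p := by
  classical
  unfold mdlWtW
  rw [← Finset.prod_sdiff hW, mul_comm]
  congr 1
  · refine Finset.prod_congr rfl fun p hp => ?_
    unfold mdr201Fac
    rw [if_neg (Finset.mem_sdiff.1 hp).2]
  · refine Finset.prod_congr rfl fun p hp => ?_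
    unfold mdr201Fac
    rw [if_pos hp]

/-- one factor -/
theorem mdr201_fac {F : Finset (ℤ × ℤ)} (hex : Mdl21Ex F) {t : ℝ} (ht : t ≠ 0) {ω : RswCfg}
    (ha : IsAdmissibleSpins (rswTau F ω) (rswTauD F ω)) {e : (ℤ × ℤ) × Bool} (he : e ∈ rswInt F) :
    rswFac t ω e = t * mdr201Fac t⁻¹ (ω.O.image mdr201Pl) (mdr201H F ω) (mdr201Pl e) := by
  classical
  obtain ⟨a1, a2⟩ := mdr201_Sf_Df hex ha he
  have a3 : mdr201Pl e ∈ ω.O.image mdr201Pl ↔ e ∈ ω.O := by
    rw [Finset.mem_image]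
    constructor
    · rintro ⟨e', h', q⟩
      rwa [← mdr201_Pl_inj q]
    · intro h'
      exact ⟨e, h', rfl⟩
  unfold rswFac mdr201Fac
  simp only [a1, a2, a3]
  by_cases b1 : e ∈ ω.O <;> by_cases b2 : (e.1 ∈ ω.S ↔ rswEnd e ∈ ω.S) <;> by_cases b3 : (e.1 ∈ ω.D ↔ rswCo e ∈ ω.D) <;>
    simp only [b1, b2, b3, if_true, if_false, mul_one, mul_zero]
  all_goals field_simp

/-- **THE WEIGHT** of a configuration with admissible spins -/
theorem mdr201_wt {F : Finset (ℤ × ℤ)} (hex : Mdl21Ex F) {t : ℝ} (ht : t ≠ 0) {ω : RswCfg}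
    (ha : IsAdmissibleSpins (rswTau F ω) (rswTauD F ω)) (hO : ω.O ⊆ rswInt F) :
    rswWt t F true ω = t ^ (rswInt F).card * mdlWtW t⁻¹ true (mdlQ F) (ω.O.image mdr201Pl) (mdr201H F ω) := by
  classical
  have hb : RswBc F true ω := by
    intro v hv hp
    have := ha.1 v hv hp
    rw [rswd11_spin ω hv] at this
    by_cases h : v ∈ ω.S
    · simp [h]
    · rw [if_neg h] at this
      exact absurd this (by decide)
  unfold rswWt
  rw [if_pos hb, mdr201_WtW_prod _ (by rw [← mdr201_Pl_image]; exact Finset.image_subset_image hO), ← mdr201_Pl_image,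
    Finset.prod_image (fun x _ y _ q => mdr201_Pl_inj q), Finset.prod_congr rfl fun e he => mdr201_fac hex ht ha he,
    Finset.prod_mul_distrib, Finset.prod_const]

open Classical in
/-- the edges of a set of plaquettes -/
noncomputable def mdr201Ed (F : Finset (ℤ × ℤ)) (W : Finset MdlS) : Finset ((ℤ × ℤ) × Bool) :=
  (rswInt F).filter fun e => mdr201Pl e ∈ W

/-- the configuration of a pair `(h, W)` -/
noncomputable def mdr201CW (F : Finset (ℤ × ℤ)) (h : MdlS → ℤ) (W : Finset MdlS) : RswCfg :=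
  ⟨(mdr201C F h).S, (mdr201C F h).D, mdr201Ed F W⟩

/-- the spins of the configuration of a height are the spins of the height -/
theorem mdr201_tau_C {F : Finset (ℤ × ℤ)} (h : MdlS → ℤ) (O : Finset ((ℤ × ℤ) × Bool)) :
    rswTau F ⟨(mdr201C F h).S, (mdr201C F h).D, O⟩ = mdl21Tau (F := F) (mdl21mK F h) ∧
      rswTauD F ⟨(mdr201C F h).S, (mdr201C F h).D, O⟩ = mdl21TauD (F := F) (mdl21mK F h) := by
  classical
  constructor
  · funext ⟨v, hv⟩
    show decide (v ∈ (cornersOf F).filter fun v => mdl21Sg (h (mdlV v)) = 1) =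
      decide (mdl21Sg (if v ∈ cornersOf F then h (mdlV v) else 0) = 1)
    rw [if_pos hv]
    simp [hv]
  · funext ⟨f, hf⟩
    show decide (f ∈ F.filter fun f => mdl21Sg (h (mdlF f)) = 1) =
      decide (mdl21Sg (if f ∈ F then h (mdlF f) else 0) = 1)
    rw [if_pos hf]
    simp [hf]

/-- LEFT INVERSE: the height of the configuration of an admissible height -/
theorem mdr201_H_C {F : Finset (ℤ × ℤ)} {h : MdlS → ℤ} (ha : MdlAdm (mdlDom F) mdlRef h) (O : Finset ((ℤ × ℤ) × Bool)) :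
    IsAdmissibleSpins (rswTau F ⟨(mdr201C F h).S, (mdr201C F h).D, O⟩) (rswTauD F ⟨(mdr201C F h).S, (mdr201C F h).D, O⟩) ∧
      mdr201H F ⟨(mdr201C F h).S, (mdr201C F h).D, O⟩ = h := by
  have hK := mdl21m_ht_of_adm ha
  obtain ⟨e1, e2⟩ := mdr201_tau_C (F := F) h O
  constructor
  · rw [e1, e2]
    exact hK.adm
  · unfold mdr201H rswd11K
    rw [e1, e2, mdl21_K_tau hK, mdl21m_H_K ha]

/-- RIGHT INVERSE -/
theorem mdr201_C_H {F : Finset (ℤ × ℤ)} (hex : Mdl21Ex F) {ω : RswCfg} (ha : IsAdmissibleSpins (rswTau F ω) (rswTauD F ω))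
    (hS : ω.S ⊆ cornersOf F) (hD : ω.D ⊆ F) : (mdr201C F (mdr201H F ω)).S = ω.S ∧ (mdr201C F (mdr201H F ω)).D = ω.D := by
  classical
  constructor
  · ext v
    simp only [mdr201C, Finset.mem_filter]
    constructor
    · rintro ⟨hv, e⟩
      rw [mdr201_S_iff hex ha hv] at e
      by_contra hn
      rw [if_neg hn] at e
      exact absurd e (by decide)
    · intro hv
      exact ⟨hS hv, by rw [mdr201_S_iff hex ha (hS hv), if_pos hv]⟩
  · ext f
    simp only [mdr201C, Finset.mem_filter]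
    constructor
    · rintro ⟨hf, e⟩
      rw [mdr201_D_iff hex ha hf] at e
      by_contra hn
      rw [if_neg hn] at e
      exact absurd e (by decide)
    · intro hf
      exact ⟨hD hf, by rw [mdr201_D_iff hex ha (hD hf), if_pos hf]⟩

theorem mdr201_H_mem {F : Finset (ℤ × ℤ)} (hex : Mdl21Ex F) {ω : RswCfg} (ha : IsAdmissibleSpins (rswTau F ω) (rswTauD F ω)) :
    mdr201H F ω ∈ mdlCfg (mdlDom F) mdlRef :=
  mdl201_mem_cfg_any.2 (mdl21m_adm_of_ht (rswd11_K_ht hex ha))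

theorem mdr201_Ed_image {F : Finset (ℤ × ℤ)} {O : Finset ((ℤ × ℤ) × Bool)} (hO : O ⊆ rswInt F) :
    mdr201Ed F (O.image mdr201Pl) = O := by
  classical
  ext e
  simp only [mdr201Ed, Finset.mem_filter, Finset.mem_image]
  constructor
  · rintro ⟨-, e', h', q⟩
    rwa [← mdr201_Pl_inj q]
  · intro h
    exact ⟨hO h, e, h, rfl⟩

theorem mdr201_image_Ed {F : Finset (ℤ × ℤ)} {W : Finset MdlS} (hW : W ⊆ mdlQ F) :
    (mdr201Ed F W).image mdr201Pl = W := by
  classical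
  ext p
  simp only [mdr201Ed, Finset.mem_filter, Finset.mem_image]
  constructor
  · rintro ⟨e, ⟨-, h⟩, rfl⟩
    exact h
  · intro h
    have := hW h
    rw [← mdr201_Pl_image, Finset.mem_image] at this
    obtain ⟨e, he, rfl⟩ := this
    exact ⟨e, ⟨he, h⟩, rfl⟩

/-- the sum over the edge sets at a fixed height -/
theorem mdr201_sum_O {F : Finset (ℤ × ℤ)} (hex : Mdl21Ex F) {t : ℝ} (ht : t ≠ 0) (X : RswCfg → ℝ) {h : MdlS → ℤ}
    (ha : MdlAdm (mdlDom F) mdlRef h) :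
    ∑ O ∈ (rswInt F).powerset, rswWt t F true ⟨(mdr201C F h).S, (mdr201C F h).D, O⟩ * X ⟨(mdr201C F h).S, (mdr201C F h).D, O⟩ =
      t ^ (rswInt F).card * ∑ W ∈ (mdlQ F).powerset, mdlWtW t⁻¹ true (mdlQ F) W h * X (mdr201CW F h W) := by
  classical
  rw [Finset.mul_sum]
  refine Finset.sum_nbij' (fun O => O.image mdr201Pl) (mdr201Ed F) ?_ ?_ ?_ ?_ ?_
  · intro O hO
    rw [Finset.mem_powerset] at hO ⊢
    rw [← mdr201_Pl_image]
    exact Finset.image_subset_image hO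
  · intro W _
    rw [Finset.mem_powerset]
    exact Finset.filter_subset _ _
  · intro O hO
    exact mdr201_Ed_image (Finset.mem_powerset.1 hO)
  · intro W hW
    exact mdr201_image_Ed (Finset.mem_powerset.1 hW)
  · intro O hO
    obtain ⟨a1, a2⟩ := mdr201_H_C ha O
    rw [mdr201_wt hex ht a1 (Finset.mem_powerset.1 hO), a2, mul_assoc]
    unfold mdr201CW
    rw [mdr201_Ed_image (Finset.mem_powerset.1 hO)]

/-- **THE JOINT LAW**: the unnormalised sum of the flat PLUS problem is the sum over the pairs `(h, W)` with the edge weight `mdlWtW` -/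
theorem mdr201_sum {F : Finset (ℤ × ℤ)} (hex : Mdl21Ex F) {t : ℝ} (ht : t ≠ 0) (X : RswCfg → ℝ) :
    rswSum t F true X = t ^ (rswInt F).card * ∑ h ∈ mdlCfg (mdlDom F) mdlRef, ∑ W ∈ (mdlQ F).powerset,
      mdlWtW t⁻¹ true (mdlQ F) W h * X (mdr201CW F h W) := by
  classical
  rw [Finset.mul_sum]
  unfold rswSum
  rw [← Finset.sum_product' (f := fun S D => ∑ O ∈ (rswInt F).powerset, rswWt t F true ⟨S, D, O⟩ * X ⟨S, D, O⟩)]
  have hsub : (mdlCfg (mdlDom F) mdlRef).image (fun h => ((mdr201C F h).S, (mdr201C F h).D)) ⊆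
      (cornersOf F).powerset ×ˢ F.powerset := by
    intro x hx
    obtain ⟨h, -, rfl⟩ := Finset.mem_image.1 hx
    rw [Finset.mem_product, Finset.mem_powerset, Finset.mem_powerset]
    exact ⟨Finset.filter_subset _ _, Finset.filter_subset _ _⟩
  rw [← Finset.sum_subset hsub, Finset.sum_image]
  · refine Finset.sum_congr rfl fun h hh => ?_
    exact mdr201_sum_O hex ht X (mdl201_mem_cfg_any.1 hh)
  · intro h hh h' hh' e
    simp only [Prod.mk.injEq] at e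
    have a := (mdr201_H_C (mdl201_mem_cfg_any.1 hh) ∅).2
    have a' := (mdr201_H_C (mdl201_mem_cfg_any.1 hh') ∅).2
    rw [← a, ← a', e.1, e.2]
  · rintro ⟨S, D⟩ hx hn
    rw [Finset.mem_product, Finset.mem_powerset, Finset.mem_powerset] at hx
    refine Finset.sum_eq_zero fun O _ => ?_
    by_cases hw : rswWt t F true ⟨S, D, O⟩ = 0
    · rw [hw, zero_mul]
    · exfalso
      have ha := rswd11_adm_of_wt hw
      obtain ⟨c1, c2⟩ := mdr201_C_H hex ha hx.1 hx.2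
      exact hn (Finset.mem_image.2 ⟨_, mdr201_H_mem hex ha, Prod.ext c1 c2⟩)

/-- **expectations of ARBITRARY observables of `(S, D, O)`** in the vocabulary of `Defs/MODEL` -/
theorem mdr201_E {F : Finset (ℤ × ℤ)} (hex : Mdl21Ex F) {t : ℝ} (ht : t ≠ 0) (X : RswCfg → ℝ) :
    rswE t F true X =
      (∑ h ∈ mdlCfg (mdlDom F) mdlRef, ∑ W ∈ (mdlQ F).powerset, mdlWtW t⁻¹ true (mdlQ F) W h * X (mdr201CW F h W)) /
        ∑ h ∈ mdlCfg (mdlDom F) mdlRef, ∑ W ∈ (mdlQ F).powerset, mdlWtW t⁻¹ true (mdlQ F) W h := by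
  unfold rswE
  have h1 := mdr201_sum hex ht (fun _ => 1)
  simp only [mul_one] at h1
  rw [mdr201_sum hex ht X, h1, mul_div_mul_left _ _ (pow_ne_zero _ ht)]

/-- the equation lemmas of the definitions of this file are generated HERE (RULES.md, rule 6) -/
theorem mdr201_eqns_cite : True := by
  have := @mdr201H.eq_1
  have := @mdr201C.eq_1
  have := @Mdr201Cp.eq_1
  have := @mdr201Pick.eq_1
  have := @mdr201X.eq_1
  have := @mdr201Win.eq_1
  have := @Mdr201Plane.eq_1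
  have := @mdr201Sh.eq_1
  have := @mdr201Tr.eq_1
  have := @mdr201Pl.eq_1
  have := @mdr201Fac.eq_1
  have := @mdr201Ed.eq_1
  have := @mdr201CW.eq_1
  trivial

end Claimed.Agent.R292
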