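import Claimed.Agent.R292.Model.Basic

/-!
# Row 292 (S0540), Model/Explore191 : EXPLORATION FROM OUTSIDE, TWO-SIDED COMPARISON WITH A WIRED REFERENCE BOX      (owner helper191; prefix `mdlx_` / `Mdlx`)      no sorry

AT paper Sec 3 (prop:comparison, second paragraph; proof of prop:pattern-comparison, eq:spatial-batch-upper / -lower), vocabulary `Defs/RSW` + `Defs/MODEL`, cut of 91.
`K = Ko.join Ki`: outer prescriptions `Ko` (off the closed reference region), inner prescriptions `Ki` (inside the target region).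
* `MdlPin.join`, `mdlPin0`, `MdlPin.In`;   `mdlx_join_holds`, `mdlx_join_ok`, `mdlx_in_inside`, `mdlx_inside_mono`
* **`mdlx_upper`**   (U) `X` increasing in colour `a`:  `SumK X * E^a_Λ[1_Ki] ≤ SumK 1 * E^a_Λ[1_Ki X]`
* `MdlxReach`, `mdlxFam`, **`mdlx_sep_sum`**   `1_Sep = ∑_R 1_cut(F \ R) 1_reach(R)`  (the set `R` of faces reached from the source `T` across edges which are not good)
* **`mdlx_explore`**  `SumKo (1_Sep X') = ∑_R E^a_{F \ R}[X'] * SumKo (1_cut 1_reach)` for `X'` inside the target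
* **`mdlx_lower`**   (L) `X ≥ 0` increasing in colour `a`, circuit bound `p`:  `p * E^a_Λ[1_Ki X] * SumK 1 ≤ SumK X * E^a_Λ[1_Ki]`
-/

set_option autoImplicit false

namespace Claimed.Agent.R292

open Claims Claims.C0468

/-! ## 1. prescriptions: union, inner prescriptions -/

/-- union of two prescriptions -/
def MdlPin.join (K K' : MdlPin) : MdlPin := ⟨K.Sp ∪ K'.Sp, K.Sm ∪ K'.Sm, K.Oo ∪ K'.Oo, K.Oc ∪ K'.Oc⟩

/-- no prescription -/
def mdlPin0 : MdlPin := ⟨∅, ∅, ∅, ∅⟩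

/-- the prescriptions live inside `G`: pinned vertices are corners of `G`, prescribed edges are interior edges of `G` -/
def MdlPin.In (K : MdlPin) (G : Finset (ℤ × ℤ)) : Prop :=
  (∀ v ∈ K.Sp ∪ K.Sm, v ∈ cornersOf G) ∧ ∀ e ∈ K.Oo ∪ K.Oc, e ∈ rswInt G

theorem mdlx_join_holds (K K' : MdlPin) (ω : RswCfg) : (K.join K').Holds ω ↔ (K.Holds ω ∧ K'.Holds ω) := by
  unfold MdlPin.Holds MdlPin.join
  simp only [Finset.union_subset_iff, Finset.mem_union]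
  constructor
  · rintro ⟨⟨a1, a2⟩, b, ⟨c1, c2⟩, d⟩
    exact ⟨⟨a1, fun v hv => b v (Or.inl hv), c1, fun e he => d e (Or.inl he)⟩,
      ⟨a2, fun v hv => b v (Or.inr hv), c2, fun e he => d e (Or.inr he)⟩⟩
  · rintro ⟨⟨a1, b1, c1, d1⟩, ⟨a2, b2, c2, d2⟩⟩
    exact ⟨⟨a1, a2⟩, fun v hv => hv.elim (b1 v) (b2 v), ⟨c1, c2⟩, fun e he => he.elim (d1 e) (d2 e)⟩

theorem mdlx_join_ok {K K' : MdlPin} (h : K.Ok) (h' : K'.Ok) : (K.join K').Ok := by
  intro e he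
  have he' : e ∈ (K.Oo ∪ K.Oc) ∪ (K'.Oo ∪ K'.Oc) := by
    simp only [MdlPin.join, Finset.mem_union] at he ⊢
    tauto
  have key : ∀ v, (v ∈ K.Sp ∪ K.Sm ∨ v ∈ K'.Sp ∪ K'.Sm) → v ∈ (K.join K').Sp ∪ (K.join K').Sm := by
    intro v hv
    simp only [MdlPin.join, Finset.mem_union] at hv ⊢
    tauto
  rcases Finset.mem_union.1 he' with h1 | h1
  · exact ⟨key _ (Or.inl (h e h1).1), key _ (Or.inl (h e h1).2)⟩
  · exact ⟨key _ (Or.inr (h' e h1).1), key _ (Or.inr (h' e h1).2)⟩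

theorem mdlx_pin0_holds (ω : RswCfg) : mdlPin0.Holds ω := by
  unfold MdlPin.Holds mdlPin0
  simp

theorem mdlx_pin0_ok : mdlPin0.Ok := by
  intro e he
  simp [mdlPin0] at he

theorem mdlx_in_mono {K : MdlPin} {G G' : Finset (ℤ × ℤ)} (h : K.In G) (hG : G ⊆ G') : K.In G' :=
  ⟨fun v hv => rsk_corners_mono hG (h.1 v hv), fun e he => rsk_int_mono hG (h.2 e he)⟩

/-- inner prescriptions are read inside -/
theorem mdlx_in_holds {K : MdlPin} {G : Finset (ℤ × ℤ)} (h : K.In G) (ω : RswCfg) : K.Holds (rskIn G ω) ↔ K.Holds ω := by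
  unfold MdlPin.Holds rskIn
  simp only
  constructor
  · rintro ⟨h1, h2, h3, h4⟩
    exact ⟨fun v hv => (Finset.mem_inter.1 (h1 hv)).1,
      fun v hv hS => h2 v hv (Finset.mem_inter.2 ⟨hS, h.1 v (Finset.mem_union_right _ hv)⟩),
      fun e he => (Finset.mem_inter.1 (h3 he)).1,
      fun e he hO => h4 e he (Finset.mem_inter.2 ⟨hO, h.2 e (Finset.mem_union_right _ he)⟩)⟩
  · rintro ⟨h1, h2, h3, h4⟩
    exact ⟨fun v hv => Finset.mem_inter.2 ⟨h1 hv, h.1 v (Finset.mem_union_left _ hv)⟩,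
      fun v hv hS => h2 v hv (Finset.mem_inter.1 hS).1,
      fun e he => Finset.mem_inter.2 ⟨h3 he, h.2 e (Finset.mem_union_left _ he)⟩,
      fun e he hO => h4 e he (Finset.mem_inter.1 hO).1⟩

theorem mdlx_in_inside {K : MdlPin} {G : Finset (ℤ × ℤ)} (h : K.In G) : RskInside G (mdlInd K.Holds) := by
  intro ω
  by_cases hω : K.Holds ω
  · rw [mdl_ind_pos hω, mdl_ind_pos ((mdlx_in_holds h ω).2 hω)]
  · rw [mdl_ind_neg hω, mdl_ind_neg (fun hc => hω ((mdlx_in_holds h ω).1 hc))]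

theorem mdlx_rskIn_rskIn {G G' : Finset (ℤ × ℤ)} (hG : G ⊆ G') (ω : RswCfg) : rskIn G (rskIn G' ω) = rskIn G ω := by
  unfold rskIn
  simp only
  rw [Finset.inter_assoc, Finset.inter_assoc, Finset.inter_assoc,
    Finset.inter_eq_right.2 (rsk_corners_mono hG), Finset.inter_eq_right.2 hG, Finset.inter_eq_right.2 (rsk_int_mono hG)]

theorem mdlx_inside_mono {G G' : Finset (ℤ × ℤ)} (hG : G ⊆ G') {X : RswCfg → ℝ} (h : RskInside G X) : RskInside G' X := by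
  intro ω
  rw [← h (rskIn G' ω), mdlx_rskIn_rskIn hG, h ω]

/-- outer prescriptions are read outside -/
theorem mdlx_out_outside {Λ : Finset (ℤ × ℤ)} {K : MdlPin} (hK : K.Ok) (hKs : ∀ v ∈ cornersOf Λ, v ∉ K.Sp ∪ K.Sm) :
    RskOutside Λ (mdlInd K.Holds) := by
  intro ω
  by_cases hω : K.Holds ω
  · rw [mdl_ind_pos hω, mdl_ind_pos ((mdl_holds_out hK hKs ω).2 hω)]
  · rw [mdl_ind_neg hω, mdl_ind_neg (fun hc => hω ((mdl_holds_out hK hKs ω).1 hc))]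

theorem mdlx_sumK_eq (t : ℝ) (F : Finset (ℤ × ℤ)) (b : Bool) (K : MdlPin) (X : RswCfg → ℝ) :
    mdlSumK t F b K X = rswSum t F b fun ω => X ω * mdlInd K.Holds ω := by
  classical
  unfold mdlSumK
  refine mdl_sum_congr t F b fun ω => ?_
  by_cases h : K.Holds ω
  · rw [if_pos h, mdl_ind_pos h, mul_one]
  · rw [if_neg h, mdl_ind_neg h, mul_zero]

theorem mdlx_sumK_join (t : ℝ) (F : Finset (ℤ × ℤ)) (b : Bool) (K K' : MdlPin) (X : RswCfg → ℝ) :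
    mdlSumK t F b (K.join K') X = mdlSumK t F b K fun ω => mdlInd K'.Holds ω * X ω := by
  rw [mdlx_sumK_eq, mdlx_sumK_eq]
  refine mdl_sum_congr t F b fun ω => ?_
  have : mdlInd (K.join K').Holds ω = mdlInd K.Holds ω * mdlInd K'.Holds ω := by
    rw [← mdl_ind_and]
    exact congrFun (mdl_ind_congr fun ω => mdlx_join_holds K K' ω) ω
  rw [this]
  ring

theorem mdlx_sumK_pin0 (t : ℝ) (F : Finset (ℤ × ℤ)) (b : Bool) (X : RswCfg → ℝ) : mdlSumK t F b mdlPin0 X = rswSum t F b X := by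
  rw [mdlx_sumK_eq]
  refine mdl_sum_congr t F b fun ω => ?_
  rw [mdl_ind_pos (mdlx_pin0_holds ω), mul_one]

/-! ## 2. (U): comparison with the reference region wired in the SAME colour -/

theorem mdlx_cut_inc (Λ : Finset (ℤ × ℤ)) (a : Bool) : MdlInc a (rskInd Λ a) := by
  classical
  intro ω ω' hle
  unfold rskInd
  by_cases hc : RswCut Λ a ω
  · have hc' : RswCut Λ a ω' := fun e he => hle.2.1 e (hc e he)
    rw [if_pos hc, if_pos hc']
  · rw [if_neg hc]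
    split_ifs <;> norm_num

/-- the exact cut under `Ko.join Ki` -/
theorem mdlx_cut_join {t : ℝ} (ht0 : 0 < t) (ht1 : t ≤ 1) {F Λ : Finset (ℤ × ℤ)} (hΛ : Λ ⊆ F) (b a : Bool) {Ko Ki : MdlPin}
    (hKo : Ko.Ok) (hKs : ∀ v ∈ cornersOf Λ, v ∉ Ko.Sp ∪ Ko.Sm) (hKi : Ki.In Λ) {X : RswCfg → ℝ} (hXin : RskInside Λ X) :
    mdlSumK t F b (Ko.join Ki) (fun ω => X ω * rskInd Λ a ω)
      = rswE t Λ a (fun ω => mdlInd Ki.Holds ω * X ω) * mdlSumK t F b Ko (rskInd Λ a) := by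
  have h := rsk_cut ht0 ht1 hΛ a b (rsk_inside_mul (mdlx_in_inside hKi) hXin) (mdlx_out_outside hKo hKs)
  rw [mdlx_sumK_join, mdlx_sumK_eq, mdlx_sumK_eq]
  rw [← h]
  exact mdl_sum_congr t F b fun ω => by ring

/-- **(U)** -/
theorem mdlx_upper {t : ℝ} (ht0 : 0 < t) (ht2 : t < 1) {F Λ : Finset (ℤ × ℤ)} (hΛ : Λ ⊆ F) (b a : Bool) {Ko Ki : MdlPin}
    (hKo : Ko.Ok) (hfkg : MdlFkgAt t F b a (Ko.join Ki))
    (hin : ∀ v ∈ cornersOf Λ, ¬ OnPolygon F v) (hKs : ∀ v ∈ cornersOf Λ, v ∉ Ko.Sp ∪ Ko.Sm) (hKi : Ki.In Λ)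
    {X : RswCfg → ℝ} (hX : MdlInc a X) (hXin : RskInside Λ X) :
    mdlSumK t F b (Ko.join Ki) X * rswE t Λ a (mdlInd Ki.Holds)
      ≤ mdlSumK t F b (Ko.join Ki) (fun _ => 1) * rswE t Λ a fun ω => mdlInd Ki.Holds ω * X ω := by
  by_cases h0 : mdlSumK t F b Ko (fun _ => 1) = 0
  · rw [mdlx_sumK_join, mdlx_sumK_join, mdl_sumK_zero ht0.le ht2.le h0, mdl_sumK_zero ht0.le ht2.le h0, zero_mul, zero_mul]
  have hI := mdl_cut_pos ht0 ht2 b a hKo hin hKs h0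
  have key := hfkg X _ hX (mdlx_cut_inc Λ a)
  have e1 := mdlx_cut_join ht0 ht2.le hΛ b a hKo hKs hKi hXin
  have e2 := mdlx_cut_join ht0 ht2.le hΛ b a hKo hKs hKi (rsk_inside_const Λ 1)
  have e2' : mdlSumK t F b (Ko.join Ki) (rskInd Λ a) = rswE t Λ a (mdlInd Ki.Holds) * mdlSumK t F b Ko (rskInd Λ a) := by
    have l : mdlSumK t F b (Ko.join Ki) (rskInd Λ a) = mdlSumK t F b (Ko.join Ki) (fun ω => 1 * rskInd Λ a ω) :=
      mdl_sumK_congr t F b _ fun ω => (one_mul _).symm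
    have r : rswE t Λ a (mdlInd Ki.Holds) = rswE t Λ a (fun ω => mdlInd Ki.Holds ω * 1) := by
      congr 1
      funext ω
      rw [mul_one]
    rw [l, r]
    exact e2
  rw [e1, e2'] at key
  refine le_of_mul_le_mul_right ?_ hI
  calc mdlSumK t F b (Ko.join Ki) X * rswE t Λ a (mdlInd Ki.Holds) * mdlSumK t F b Ko (rskInd Λ a)
      = mdlSumK t F b (Ko.join Ki) X * (rswE t Λ a (mdlInd Ki.Holds) * mdlSumK t F b Ko (rskInd Λ a)) := by ring
    _ ≤ mdlSumK t F b (Ko.join Ki) (fun _ => 1) *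
          (rswE t Λ a (fun ω => mdlInd Ki.Holds ω * X ω) * mdlSumK t F b Ko (rskInd Λ a)) := key
    _ = _ := by ring

/-! ## 3. exploration from outside -/

/-- every face of `R` is reached from `T` inside `R` across edges which are not good -/
def MdlxReach (a : Bool) (T R : Finset (ℤ × ℤ)) (ω : RswCfg) : Prop :=
  ∀ f ∈ R, ∃ g ∈ T, Relation.ReflTransGen (RswStep R a ω) g f

/-- the possible values of the explored set -/
def mdlxFam (F A T : Finset (ℤ × ℤ)) : Finset (Finset (ℤ × ℤ)) := (F \ A).powerset.filter fun R => T ⊆ R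

theorem mdlx_mem_fam {F A T R : Finset (ℤ × ℤ)} : R ∈ mdlxFam F A T ↔ (R ⊆ F \ A ∧ T ⊆ R) := by
  unfold mdlxFam
  rw [Finset.mem_filter, Finset.mem_powerset]

theorem mdlx_step_symm {F : Finset (ℤ × ℤ)} {a : Bool} {ω : RswCfg} {f g : ℤ × ℤ} (h : RswStep F a ω f g) :
    RswStep F a ω g f := by
  obtain ⟨hf, hg, e, he, hn⟩ := h
  exact ⟨hg, hf, e, he.symm, hn⟩

theorem mdlx_path_symm {F : Finset (ℤ × ℤ)} {a : Bool} {ω : RswCfg} {f g : ℤ × ℤ}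
    (h : Relation.ReflTransGen (RswStep F a ω) f g) : Relation.ReflTransGen (RswStep F a ω) g f := by
  induction h with
  | refl => exact Relation.ReflTransGen.refl
  | tail _ hbc ih => exact Relation.ReflTransGen.head (mdlx_step_symm hbc) ih

theorem mdlx_step_mono {R F : Finset (ℤ × ℤ)} (h : R ⊆ F) {a : Bool} {ω : RswCfg} {f g : ℤ × ℤ} (hs : RswStep R a ω f g) :
    RswStep F a ω f g := by
  obtain ⟨hf, hg, e, he, hn⟩ := hs
  exact ⟨h hf, h hg, e, he, hn⟩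

/-- a cut confines the paths -/
theorem mdlx_confine {F R : Finset (ℤ × ℤ)} {a : Bool} {ω : RswCfg} (hcut : RswCut (F \ R) a ω) {g f : ℤ × ℤ} (hg : g ∈ R)
    (h : Relation.ReflTransGen (RswStep F a ω) g f) : f ∈ R ∧ Relation.ReflTransGen (RswStep R a ω) g f := by
  induction h with
  | refl => exact ⟨hg, Relation.ReflTransGen.refl⟩
  | tail _ hbc ih =>
    obtain ⟨hb, hpath⟩ := ih
    obtain ⟨hbF, hcF, e, he, hn⟩ := hbc
    rename_i x y _
    have hc : y ∈ R := by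
      by_contra hc
      apply hn
      apply hcut e
      rcases he with ⟨h1, h2⟩ | ⟨h1, h2⟩
      · exact Or.inr ⟨fun h => (Finset.mem_sdiff.1 h).2 (h1 ▸ hb), h2 ▸ Finset.mem_sdiff.2 ⟨hcF, hc⟩⟩
      · exact Or.inl ⟨h1 ▸ Finset.mem_sdiff.2 ⟨hcF, hc⟩, fun h => (Finset.mem_sdiff.1 h).2 (h2 ▸ hb)⟩
    exact ⟨hc, hpath.tail ⟨hb, hc, e, he, hn⟩⟩

/-- a cut gives the separation -/
theorem mdlx_sep_of_cut {F A T R : Finset (ℤ × ℤ)} (hR : R ∈ mdlxFam F A T) {a : Bool} {ω : RswCfg} (hcut : RswCut (F \ R) a ω) :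
    RswSep F a ω A T := by
  obtain ⟨h1, h2⟩ := mdlx_mem_fam.1 hR
  intro f hf g hg hp
  have hp' := mdlx_path_symm hp
  exact (Finset.mem_sdiff.1 (h1 (mdlx_confine hcut (h2 hg) hp').1)).2 hf

/-- **the explored set**: `1_Sep = ∑_R 1_cut(F \ R) 1_reach(R)` -/
theorem mdlx_sep_sum {F A T : Finset (ℤ × ℤ)} (hT : T ⊆ F) (hH : ∀ e ∈ mdlEd (F \ T), e ∈ rswInt F) (a : Bool) (ω : RswCfg) :
    mdlInd (fun ω => RswSep F a ω A T) ω = ∑ R ∈ mdlxFam F A T, rskInd (F \ R) a ω * mdlInd (MdlxReach a T R) ω := by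
  classical
  by_cases hsep : RswSep F a ω A T
  · rw [mdl_ind_pos hsep]
    let Rs : Finset (ℤ × ℤ) := F.filter fun f => ∃ g ∈ T, Relation.ReflTransGen (RswStep F a ω) g f
    have hRs : ∀ f, f ∈ Rs ↔ (f ∈ F ∧ ∃ g ∈ T, Relation.ReflTransGen (RswStep F a ω) g f) := fun f => Finset.mem_filter
    have hTR : T ⊆ Rs := fun g hg => (hRs g).2 ⟨hT hg, g, hg, Relation.ReflTransGen.refl⟩
    have hmem : Rs ∈ mdlxFam F A T := by
      refine mdlx_mem_fam.2 ⟨fun f hf => ?_, hTR⟩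
      obtain ⟨hfF, g, hg, hp⟩ := (hRs f).1 hf
      exact Finset.mem_sdiff.2 ⟨hfF, fun hfA => hsep f hfA g hg (mdlx_path_symm hp)⟩
    have hcut : RswCut (F \ Rs) a ω := by
      intro e he
      by_contra hn
      rcases he with ⟨h1, h2⟩ | ⟨h1, h2⟩
      · obtain ⟨h1F, h1R⟩ := Finset.mem_sdiff.1 h1
        have heF : e ∈ rswInt F :=
          hH e (mdl_mem_ed.2 (Or.inl (Finset.mem_sdiff.2 ⟨h1F, fun h => h1R (hTR h)⟩)))
        have h2F := (rsk_mem_int.1 heF).2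
        have h2R : rswCo e ∈ Rs := by
          by_contra h
          exact h2 (Finset.mem_sdiff.2 ⟨h2F, h⟩)
        obtain ⟨-, g, hg, hp⟩ := (hRs _).1 h2R
        exact h1R ((hRs _).2 ⟨h1F, g, hg, hp.tail ⟨h2F, h1F, e, Or.inr ⟨rfl, rfl⟩, hn⟩⟩)
      · obtain ⟨h2F, h2R⟩ := Finset.mem_sdiff.1 h2
        have heF : e ∈ rswInt F :=
          hH e (mdl_mem_ed.2 (Or.inr (Finset.mem_sdiff.2 ⟨h2F, fun h => h2R (hTR h)⟩)))
        have h1F := (rsk_mem_int.1 heF).1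
        have h1R : e.1 ∈ Rs := by
          by_contra h
          exact h1 (Finset.mem_sdiff.2 ⟨h1F, h⟩)
        obtain ⟨-, g, hg, hp⟩ := (hRs _).1 h1R
        exact h2R ((hRs _).2 ⟨h2F, g, hg, hp.tail ⟨h1F, h2F, e, Or.inl ⟨rfl, rfl⟩, hn⟩⟩)
    have hreach : MdlxReach a T Rs ω := by
      intro f hf
      obtain ⟨-, g, hg, hp⟩ := (hRs f).1 hf
      exact ⟨g, hg, (mdlx_confine hcut (hTR hg) hp).2⟩
    rw [Finset.sum_eq_single Rs]
    · unfold rskInd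
      rw [if_pos hcut, mdl_ind_pos hreach, mul_one]
    · intro R hR hne
      by_cases hc : RswCut (F \ R) a ω
      · by_cases hr : MdlxReach a T R ω
        · exfalso
          apply hne
          obtain ⟨h1, h2⟩ := mdlx_mem_fam.1 hR
          have hRF : R ⊆ F := h1.trans Finset.sdiff_subset
          ext f
          constructor
          · intro hf
            obtain ⟨g, hg, hp⟩ := hr f hf
            exact (hRs f).2 ⟨hRF hf, g, hg, Relation.ReflTransGen.mono (fun _ _ h => mdlx_step_mono hRF h) _ _ hp⟩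
          · intro hf
            obtain ⟨-, g, hg, hp⟩ := (hRs f).1 hf
            exact (mdlx_confine hc (h2 hg) hp).1
        · rw [mdl_ind_neg hr, mul_zero]
      · unfold rskInd
        rw [if_neg hc, zero_mul]
    · intro h
      exact absurd hmem h
  · rw [mdl_ind_neg hsep]
    symm
    refine Finset.sum_eq_zero fun R hR => ?_
    have hc : ¬ RswCut (F \ R) a ω := fun hc => hsep (mdlx_sep_of_cut hR hc)
    unfold rskInd
    rw [if_neg hc, zero_mul]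

/-- the event "reach" is read off the strict inside of the unexplored region -/
theorem mdlx_reach_outside (F T R : Finset (ℤ × ℤ)) (a : Bool) : RskOutside (F \ R) (mdlInd (MdlxReach a T R)) := by
  refine rsk_outside_of_good (a := a) fun ω ω' h => ?_
  have hs : ∀ (ω ω' : RswCfg), (∀ e, e ∉ rswInt (F \ R) → (RswGood a ω e ↔ RswGood a ω' e)) →
      ∀ f g, RswStep R a ω f g → RswStep R a ω' f g := by
    rintro ω ω' h f g ⟨hf, hg, e, he, hn⟩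
    refine ⟨hf, hg, e, he, fun hgood => hn ((h e ?_).2 hgood)⟩
    intro hi
    have h1 := (Finset.mem_sdiff.1 (rsk_mem_int.1 hi).1).2
    rcases he with ⟨h2, -⟩ | ⟨h2, -⟩
    · exact h1 (h2 ▸ hf)
    · exact h1 (h2 ▸ hg)
  have hr : ∀ (ω ω' : RswCfg), (∀ e, e ∉ rswInt (F \ R) → (RswGood a ω e ↔ RswGood a ω' e)) →
      MdlxReach a T R ω → MdlxReach a T R ω' := by
    intro ω ω' h hω f hf
    obtain ⟨g, hg, hp⟩ := hω f hf
    exact ⟨g, hg, Relation.ReflTransGen.mono (hs ω ω' h) _ _ hp⟩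
  by_cases hω : MdlxReach a T R ω
  · rw [mdl_ind_pos hω, mdl_ind_pos (hr ω ω' h hω)]
  · rw [mdl_ind_neg hω, mdl_ind_neg (fun hc => hω (hr ω' ω (fun e he => (h e he).symm) hc))]

theorem mdlx_sumK_sum (t : ℝ) (F : Finset (ℤ × ℤ)) (b : Bool) (K : MdlPin) {ι : Type*} (s : Finset ι) (f : ι → RswCfg → ℝ) :
    mdlSumK t F b K (fun ω => ∑ i ∈ s, f i ω) = ∑ i ∈ s, mdlSumK t F b K (f i) := by
  simp only [mdlx_sumK_eq, mdl_sum_idx]
  rw [Finset.sum_comm]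
  refine Finset.sum_congr rfl fun x _ => ?_
  rw [Finset.sum_mul, Finset.mul_sum]

/-- **EXPLORATION IN LAW** -/
theorem mdlx_explore {t : ℝ} (ht0 : 0 < t) (ht1 : t ≤ 1) {F A T : Finset (ℤ × ℤ)} (hT : T ⊆ F) (hA : A ⊆ F)
    (hH : ∀ e ∈ mdlEd (F \ T), e ∈ rswInt F) (b a : Bool) {Ko : MdlPin} (hKo : Ko.Ok)
    (hKs : ∀ v ∈ cornersOf (F \ T), v ∉ Ko.Sp ∪ Ko.Sm) {X : RswCfg → ℝ} (hX : RskInside A X) :
    mdlSumK t F b Ko (fun ω => mdlInd (fun ω => RswSep F a ω A T) ω * X ω) =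
      ∑ R ∈ mdlxFam F A T, rswE t (F \ R) a X *
        mdlSumK t F b Ko fun ω => rskInd (F \ R) a ω * mdlInd (MdlxReach a T R) ω := by
  have e1 : mdlSumK t F b Ko (fun ω => mdlInd (fun ω => RswSep F a ω A T) ω * X ω)
      = mdlSumK t F b Ko (fun ω => ∑ R ∈ mdlxFam F A T, rskInd (F \ R) a ω * mdlInd (MdlxReach a T R) ω * X ω) :=
    mdl_sumK_congr t F b Ko fun ω => by rw [mdlx_sep_sum hT hH a ω, Finset.sum_mul]
  rw [e1, mdlx_sumK_sum]
  refine Finset.sum_congr rfl fun R hR => ?_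
  obtain ⟨h1, h2⟩ := mdlx_mem_fam.1 hR
  have hAR : A ⊆ F \ R := fun f hf => Finset.mem_sdiff.2 ⟨hA hf, fun hfR => (Finset.mem_sdiff.1 (h1 hfR)).2 hf⟩
  have hRT : F \ R ⊆ F \ T := Finset.sdiff_subset_sdiff le_rfl h2
  have hKs' : ∀ v ∈ cornersOf (F \ R), v ∉ Ko.Sp ∪ Ko.Sm := fun v hv => hKs v (rsk_corners_mono hRT hv)
  have h := rsk_cut ht0 ht1 (Finset.sdiff_subset : F \ R ⊆ F) a b (mdlx_inside_mono hAR hX)
    (rsk_outside_mul (mdlx_reach_outside F T R a) (mdlx_out_outside hKo hKs'))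
  rw [mdlx_sumK_eq, mdlx_sumK_eq]
  have l : rswSum t F b (fun ω => rskInd (F \ R) a ω * mdlInd (MdlxReach a T R) ω * X ω * mdlInd Ko.Holds ω)
      = rswSum t F b (fun ω => rskInd (F \ R) a ω * X ω * (mdlInd (MdlxReach a T R) ω * mdlInd Ko.Holds ω)) :=
    mdl_sum_congr t F b fun ω => by ring
  have r : rswSum t F b (fun ω => rskInd (F \ R) a ω * mdlInd (MdlxReach a T R) ω * mdlInd Ko.Holds ω)
      = rswSum t F b (fun ω => rskInd (F \ R) a ω * (mdlInd (MdlxReach a T R) ω * mdlInd Ko.Holds ω)) :=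
    mdl_sum_congr t F b fun ω => by ring
  rw [l, r]
  exact h

/-! ## 4. (L): lower comparison through a circuit -/

theorem mdlx_sum_mono {t : ℝ} (ht0 : 0 ≤ t) (ht1 : t ≤ 1) (F : Finset (ℤ × ℤ)) (b : Bool) {X Y : RswCfg → ℝ} (h : ∀ ω, X ω ≤ Y ω) :
    rswSum t F b X ≤ rswSum t F b Y := by
  rw [mdl_sum_idx, mdl_sum_idx]
  exact Finset.sum_le_sum fun x _ => mul_le_mul_of_nonneg_left (h _) (rsk_wt_nonneg ht0 ht1 F b _)

theorem mdlx_sum_nonneg {t : ℝ} (ht0 : 0 ≤ t) (ht1 : t ≤ 1) (F : Finset (ℤ × ℤ)) (b : Bool) {X : RswCfg → ℝ} (h : ∀ ω, 0 ≤ X ω) :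
    0 ≤ rswSum t F b X := by
  rw [mdl_sum_idx]
  exact Finset.sum_nonneg fun x _ => mul_nonneg (rsk_wt_nonneg ht0 ht1 F b _) (h _)

theorem mdlx_E_nonneg {t : ℝ} (ht0 : 0 ≤ t) (ht1 : t ≤ 1) (F : Finset (ℤ × ℤ)) (b : Bool) {X : RswCfg → ℝ} (h : ∀ ω, 0 ≤ X ω) :
    0 ≤ rswE t F b X :=
  div_nonneg (mdlx_sum_nonneg ht0 ht1 F b h) (mdlx_sum_nonneg ht0 ht1 F b fun _ => zero_le_one)

theorem mdlx_sumK_mono {t : ℝ} (ht0 : 0 ≤ t) (ht1 : t ≤ 1) (F : Finset (ℤ × ℤ)) (b : Bool) (K : MdlPin) {X Y : RswCfg → ℝ}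
    (h : ∀ ω, X ω ≤ Y ω) : mdlSumK t F b K X ≤ mdlSumK t F b K Y := by
  rw [mdlx_sumK_eq, mdlx_sumK_eq]
  exact mdlx_sum_mono ht0 ht1 F b fun ω => mul_le_mul_of_nonneg_right (h ω) (mdl_ind_nonneg _ _)

theorem mdlx_sumK_nonneg {t : ℝ} (ht0 : 0 ≤ t) (ht1 : t ≤ 1) (F : Finset (ℤ × ℤ)) (b : Bool) (K : MdlPin) {X : RswCfg → ℝ}
    (h : ∀ ω, 0 ≤ X ω) : 0 ≤ mdlSumK t F b K X := by
  rw [mdlx_sumK_eq]
  exact mdlx_sum_nonneg ht0 ht1 F b fun ω => mul_nonneg (h ω) (mdl_ind_nonneg _ _)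

theorem mdlx_sum_eq_E {t : ℝ} (ht0 : 0 < t) (ht1 : t ≤ 1) (F : Finset (ℤ × ℤ)) (b : Bool) (X : RswCfg → ℝ) :
    rswSum t F b X = rswE t F b X * rswSum t F b (fun _ => 1) := by
  unfold rswE
  rw [div_mul_cancel₀ _ (rsk_sum_one_pos ht0 ht1 F b).ne']

/-- **DOMAIN MONOTONICITY under inner prescriptions**: `G ⊆ Λ`, both wired in colour `a`, `X` increasing in colour `a` -/
theorem mdlx_domain {t : ℝ} (ht0 : 0 < t) (ht2 : t < 1) {Λ G : Finset (ℤ × ℤ)} (hG : G ⊆ Λ) (a : Bool) {Ki : MdlPin}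
    (hfkg : MdlFkgAt t Λ a a (mdlPin0.join Ki)) (hin : ∀ v ∈ cornersOf G, ¬ OnPolygon Λ v) (hKi : Ki.In G)
    {X : RswCfg → ℝ} (hX : MdlInc a X) (hXin : RskInside G X) :
    rswE t Λ a (fun ω => mdlInd Ki.Holds ω * X ω) * rswE t G a (mdlInd Ki.Holds)
      ≤ rswE t Λ a (mdlInd Ki.Holds) * rswE t G a fun ω => mdlInd Ki.Holds ω * X ω := by
  have h := mdlx_upper ht0 ht2 hG a a mdlx_pin0_ok hfkg hin (fun v _ => by simp [mdlPin0]) hKi hX hXin
  rw [mdlx_sumK_join, mdlx_sumK_join, mdlx_sumK_pin0, mdlx_sumK_pin0] at h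
  have e : rswSum t Λ a (fun ω => mdlInd Ki.Holds ω * 1) = rswSum t Λ a (mdlInd Ki.Holds) :=
    mdl_sum_congr t Λ a fun ω => mul_one _
  rw [e, mdlx_sum_eq_E ht0 ht2.le Λ a (mdlInd Ki.Holds), mdlx_sum_eq_E ht0 ht2.le Λ a fun ω => mdlInd Ki.Holds ω * X ω] at h
  refine le_of_mul_le_mul_right ?_ (rsk_sum_one_pos ht0 ht2.le Λ a)
  calc rswE t Λ a (fun ω => mdlInd Ki.Holds ω * X ω) * rswE t G a (mdlInd Ki.Holds) * rswSum t Λ a (fun _ => 1)
      = rswE t Λ a (fun ω => mdlInd Ki.Holds ω * X ω) * rswSum t Λ a (fun _ => 1) * rswE t G a (mdlInd Ki.Holds) := by ring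
    _ ≤ rswE t Λ a (mdlInd Ki.Holds) * rswSum t Λ a (fun _ => 1) * rswE t G a fun ω => mdlInd Ki.Holds ω * X ω := h
    _ = _ := by ring

/-- **(L)** -/
theorem mdlx_lower {t : ℝ} (ht0 : 0 < t) (ht2 : t < 1) {F Λ A T : Finset (ℤ × ℤ)} (hT : T ⊆ F) (hA : A ⊆ F)
    (hH : ∀ e ∈ mdlEd (F \ T), e ∈ rswInt F) (hΛ : F \ T ⊆ Λ) (hinΛ : ∀ v ∈ cornersOf (F \ T), ¬ OnPolygon Λ v)
    (b a : Bool) {Ko Ki : MdlPin} (hKo : Ko.Ok) (hKs : ∀ v ∈ cornersOf (F \ T), v ∉ Ko.Sp ∪ Ko.Sm) (hKi : Ki.In A)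
    (hfkg : MdlFkgAt t Λ a a (mdlPin0.join Ki)) {X : RswCfg → ℝ} (hX : MdlInc a X) (hX0 : ∀ ω, 0 ≤ X ω) (hXin : RskInside A X)
    {p : ℝ} (hp : p * mdlSumK t F b (Ko.join Ki) (fun _ => 1) ≤ mdlSumK t F b (Ko.join Ki) (mdlInd fun ω => RswSep F a ω A T)) :
    p * rswE t Λ a (fun ω => mdlInd Ki.Holds ω * X ω) * mdlSumK t F b (Ko.join Ki) (fun _ => 1)
      ≤ mdlSumK t F b (Ko.join Ki) X * rswE t Λ a (mdlInd Ki.Holds) := by
  have hEX : 0 ≤ rswE t Λ a (fun ω => mdlInd Ki.Holds ω * X ω) :=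
    mdlx_E_nonneg ht0.le ht2.le Λ a fun ω => mul_nonneg (mdl_ind_nonneg _ _) (hX0 ω)
  have hE1 : 0 ≤ rswE t Λ a (mdlInd Ki.Holds) := mdlx_E_nonneg ht0.le ht2.le Λ a fun ω => mdl_ind_nonneg _ _
  -- the two expansions
  have x1 : mdlSumK t F b (Ko.join Ki) (fun ω => mdlInd (fun ω => RswSep F a ω A T) ω * X ω)
      = ∑ R ∈ mdlxFam F A T, rswE t (F \ R) a (fun ω => mdlInd Ki.Holds ω * X ω) *
        mdlSumK t F b Ko fun ω => rskInd (F \ R) a ω * mdlInd (MdlxReach a T R) ω := by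
    rw [← mdlx_explore ht0 ht2.le hT hA hH b a hKo hKs (rsk_inside_mul (mdlx_in_inside hKi) hXin), mdlx_sumK_join]
    exact mdl_sumK_congr t F b Ko fun ω => by ring
  have x2 : mdlSumK t F b (Ko.join Ki) (mdlInd fun ω => RswSep F a ω A T)
      = ∑ R ∈ mdlxFam F A T, rswE t (F \ R) a (mdlInd Ki.Holds) *
        mdlSumK t F b Ko fun ω => rskInd (F \ R) a ω * mdlInd (MdlxReach a T R) ω := by
    rw [← mdlx_explore ht0 ht2.le hT hA hH b a hKo hKs (mdlx_in_inside hKi), mdlx_sumK_join]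
    exact mdl_sumK_congr t F b Ko fun ω => by ring
  have m1 : mdlSumK t F b (Ko.join Ki) (fun ω => mdlInd (fun ω => RswSep F a ω A T) ω * X ω) ≤ mdlSumK t F b (Ko.join Ki) X :=
    mdlx_sumK_mono ht0.le ht2.le F b _ fun ω => by
      have := mul_le_mul_of_nonneg_right (mdl_ind_le_one (fun ω => RswSep F a ω A T) ω) (hX0 ω)
      rwa [one_mul] at this
  calc p * rswE t Λ a (fun ω => mdlInd Ki.Holds ω * X ω) * mdlSumK t F b (Ko.join Ki) (fun _ => 1)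
      = rswE t Λ a (fun ω => mdlInd Ki.Holds ω * X ω) * (p * mdlSumK t F b (Ko.join Ki) (fun _ => 1)) := by ring
    _ ≤ rswE t Λ a (fun ω => mdlInd Ki.Holds ω * X ω) * mdlSumK t F b (Ko.join Ki) (mdlInd fun ω => RswSep F a ω A T) :=
        mul_le_mul_of_nonneg_left hp hEX
    _ ≤ mdlSumK t F b (Ko.join Ki) (fun ω => mdlInd (fun ω => RswSep F a ω A T) ω * X ω) * rswE t Λ a (mdlInd Ki.Holds) := by
        rw [x1, x2, Finset.mul_sum, Finset.sum_mul]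
        refine Finset.sum_le_sum fun R hR => ?_
        obtain ⟨h1, h2⟩ := mdlx_mem_fam.1 hR
        have hAR : A ⊆ F \ R := fun f hf => Finset.mem_sdiff.2 ⟨hA hf, fun hfR => (Finset.mem_sdiff.1 (h1 hfR)).2 hf⟩
        have hRT : F \ R ⊆ F \ T := Finset.sdiff_subset_sdiff le_rfl h2
        have hd := mdlx_domain ht0 ht2 (hRT.trans hΛ) a hfkg (fun v hv => hinΛ v (rsk_corners_mono hRT hv))
          (mdlx_in_mono hKi hAR) hX (mdlx_inside_mono hAR hXin)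
        have hc : 0 ≤ mdlSumK t F b Ko fun ω => rskInd (F \ R) a ω * mdlInd (MdlxReach a T R) ω :=
          mdlx_sumK_nonneg ht0.le ht2.le F b Ko fun ω => mul_nonneg (by unfold rskInd; split_ifs <;> norm_num) (mdl_ind_nonneg _ _)
        have := mul_le_mul_of_nonneg_right hd hc
        linarith
    _ ≤ mdlSumK t F b (Ko.join Ki) X * rswE t Λ a (mdlInd Ki.Holds) := mul_le_mul_of_nonneg_right m1 hE1

theorem mdlx_eqns_cite : True := by
  have := @MdlPin.join.eq_1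
  have := @mdlPin0.eq_1
  have := @MdlPin.In.eq_1
  have := @MdlxReach.eq_1
  have := @mdlxFam.eq_1
  trivial

end Claimed.Agent.R292
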