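import Claimed.Agent.R292.Model.Wall191

/-!
# Row 292 (S0540), Model/Gc141 : (W3) ONE FACE SPIN ON THE CLOSED EDGES OF THE SEAL      (owner helper141; prefix `gc141`)

Leaf (W3) of ORDER MODEL-5 (head 191): `gc141 : WlGC t B Ch a` for a rectangle `B`, chamber and complement joined.  Deterministic.  0 sorry.
Road: `η_a` = the disagreement edges of `ω.D` of colour `a` is even, `= Dis D_a` (exactness `mdl41_exists_D`); `N f := (f ∈ ω.D ↔ f ∈ D_a)`.
* `N` does not change across an interior edge with an end of colour `a`; hence it is constant on the star of an inner wall vertex;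
  IRREDUCIBILITY of the wall (`gc141_irred`, the argument of `mdl41c_mono_wall` with labels on the edges): `N e.1` is the same for all wall edges;
* `D_a` does not change across an interior edge with an end on the polygon of `B` (colour `!a`); ring walk (`gc141_ring`): `D_a` is constant on the boundary layer.
-/

set_option autoImplicit false

namespace Claimed.Agent.R292

open Claims Claims.C0468

/-- a sub-family of an even family which is constant at every inner vertex is even -/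
theorem gc141_even_filter {B : Finset (ℤ × ℤ)} {ζ : Finset ((ℤ × ℤ) × Bool)} (hζ : Mdl41Even B ζ) (Q : (ℤ × ℤ) × Bool → Prop)
    [DecidablePred Q]
    (hQ : ∀ v, ¬ OnPolygon B v → ∀ e ∈ ζ, ∀ e' ∈ ζ, (e.1 = v ∨ rswEnd e = v) → (e'.1 = v ∨ rswEnd e' = v) → (Q e ↔ Q e')) :
    Mdl41Even B (ζ.filter Q) := by
  classical
  rw [mdl41_even_iff] at hζ ⊢
  intro v hv
  have h0 := hζ v hv
  by_cases hex : ∃ e ∈ ζ, (e.1 = v ∨ rswEnd e = v) ∧ Q e
  · obtain ⟨e₀, he₀, hi₀, hq₀⟩ := hex
    have : (ζ.filter Q).filter (fun e => e.1 = v ∨ rswEnd e = v) = ζ.filter (fun e => e.1 = v ∨ rswEnd e = v) := by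
      ext e
      simp only [Finset.mem_filter]
      constructor
      · rintro ⟨⟨h1, -⟩, h3⟩; exact ⟨h1, h3⟩
      · rintro ⟨h1, h3⟩
        exact ⟨⟨h1, (hQ v hv e₀ he₀ e h1 hi₀ h3).1 hq₀⟩, h3⟩
    rw [this]
    exact h0
  · have : (ζ.filter Q).filter (fun e => e.1 = v ∨ rswEnd e = v) = ∅ := by
      ext e
      simp only [Finset.mem_filter, Finset.notMem_empty, iff_false]
      rintro ⟨⟨h1, h2⟩, h3⟩
      exact hex ⟨e, h1, h3, h2⟩
    rw [this, Finset.card_empty]
    exact Even.zero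

/-- **IRREDUCIBILITY OF THE WALL** between two joined pieces of `B`: a label of the wall edges which is constant at every inner vertex of `B` is constant -/
theorem gc141_irred {B Ch : Finset (ℤ × ℤ)} (hB : Mdl41Conn B) (hCh : Ch ⊆ B)
    (hc : ∀ f ∈ Ch, ∀ g ∈ Ch, Mdl41cJoin Ch f g) (hx : ∀ f ∈ B \ Ch, ∀ g ∈ B \ Ch, Mdl41cJoin (B \ Ch) f g)
    (Q : (ℤ × ℤ) × Bool → Prop)
    (hQ : ∀ v, ¬ OnPolygon B v → ∀ e ∈ mdl41DisSet B Ch, ∀ e' ∈ mdl41DisSet B Ch, (e.1 = v ∨ rswEnd e = v) →
      (e'.1 = v ∨ rswEnd e' = v) → (Q e ↔ Q e')) :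
    ∀ e ∈ mdl41DisSet B Ch, ∀ e' ∈ mdl41DisSet B Ch, (Q e ↔ Q e') := by
  classical
  set η := (mdl41DisSet B Ch).filter Q with hηdef
  have hηsub : η ⊆ mdl41DisSet B Ch := Finset.filter_subset _ _
  have hev : Mdl41Even B η := gc141_even_filter (mdl41_even_disSet B Ch) Q hQ
  obtain ⟨D, -, hD⟩ := mdl41_exists_D hB hev
  have c1 : ∀ f ∈ Ch, ∀ g ∈ Ch, (f ∈ D ↔ g ∈ D) := fun f hf g hg =>
    mdl41c_const_on hηsub hD hCh (fun a ha b hb => ⟨fun _ => hb, fun _ => ha⟩) (hc f hf g hg)
  have c2 : ∀ f ∈ B \ Ch, ∀ g ∈ B \ Ch, (f ∈ D ↔ g ∈ D) := fun f hf g hg =>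
    mdl41c_const_on hηsub hD Finset.sdiff_subset
      (fun a ha b hb => ⟨fun h => absurd h (Finset.mem_sdiff.1 ha).2, fun h => absurd h (Finset.mem_sdiff.1 hb).2⟩) (hx f hf g hg)
  have hfaces : ∀ e ∈ mdl41DisSet B Ch, ∃ f ∈ Ch, ∃ g ∈ B \ Ch, (Mdl41Dis D e ↔ ¬ (f ∈ D ↔ g ∈ D)) := by
    intro e he
    obtain ⟨h1, h2⟩ := mdl41_mem_disSet.1 he
    obtain ⟨h3, h4⟩ := mdl41_mem_int.1 h1
    unfold Mdl41Dis at h2 ⊢
    by_cases h5 : e.1 ∈ Ch
    · have h6 : rswCo e ∉ Ch := fun h6 => h2 ⟨fun _ => h6, fun _ => h5⟩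
      exact ⟨e.1, h5, rswCo e, Finset.mem_sdiff.2 ⟨h4, h6⟩, Iff.rfl⟩
    · have h6 : rswCo e ∈ Ch := by
        by_contra h6
        exact h2 ⟨fun h => absurd h h5, fun h => absurd h h6⟩
      exact ⟨rswCo e, h6, e.1, Finset.mem_sdiff.2 ⟨h3, h5⟩, by tauto⟩
  intro e he e' he'
  obtain ⟨f, hf, g, hg, hi⟩ := hfaces e he
  obtain ⟨f', hf', g', hg', hi'⟩ := hfaces e' he'
  have k1 := c1 f hf f' hf'
  have k2 := c2 g hg g' hg'
  have m1 : e ∈ η ↔ Q e := by rw [hηdef, Finset.mem_filter]; exact ⟨fun h => h.2, fun h => ⟨he, h⟩⟩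
  have m2 : e' ∈ η ↔ Q e' := by rw [hηdef, Finset.mem_filter]; exact ⟨fun h => h.2, fun h => ⟨he', h⟩⟩
  have d1 := hD e (mdl41_mem_disSet.1 he).1
  have d2 := hD e' (mdl41_mem_disSet.1 he').1
  rw [← m1, ← m2, d1, d2, hi, hi', k1, k2]

theorem gc141_mem_rect {x0 x1 y0 y1 : ℤ} {f : ℤ × ℤ} :
    f ∈ Finset.Ico x0 x1 ×ˢ Finset.Ico y0 y1 ↔ (x0 ≤ f.1 ∧ f.1 < x1) ∧ (y0 ≤ f.2 ∧ f.2 < y1) := by
  rw [Finset.mem_product, Finset.mem_Ico, Finset.mem_Ico]

/-- **RING WALK**: a label of the faces of a rectangle which does not change across the interior edges with an end on the polygon is constant on the boundary layer -/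
theorem gc141_ring {x0 x1 y0 y1 : ℤ} (T : ℤ × ℤ → Prop)
    (hT : ∀ e ∈ rswInt (Finset.Ico x0 x1 ×ˢ Finset.Ico y0 y1),
      (OnPolygon (Finset.Ico x0 x1 ×ˢ Finset.Ico y0 y1) e.1 ∨ OnPolygon (Finset.Ico x0 x1 ×ˢ Finset.Ico y0 y1) (rswEnd e)) →
      (T e.1 ↔ T (rswCo e))) :
    ∀ e ∈ rswInt (Finset.Ico x0 x1 ×ˢ Finset.Ico y0 y1),
      (OnPolygon (Finset.Ico x0 x1 ×ˢ Finset.Ico y0 y1) e.1 ∨ OnPolygon (Finset.Ico x0 x1 ×ˢ Finset.Ico y0 y1) (rswEnd e)) →
      (T e.1 ↔ T (x0, y0)) := by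
  set B := Finset.Ico x0 x1 ×ˢ Finset.Ico y0 y1 with hBdef
  have bottom : ∀ n : ℕ, x0 + n < x1 → y0 < y1 → (T (x0 + n, y0) ↔ T (x0, y0)) := by
    intro n
    induction n with
    | zero => intro _ _; simp
    | succ n ih =>
      intro h hy
      have h' : x0 + (n : ℤ) < x1 := by push_cast at h; omega
      have hstep := hT ((x0 + (n + 1 : ℕ), y0), true)
        (by
          rw [mdl41_mem_int]
          simp only [rswCo, if_true]
          rw [hBdef, gc141_mem_rect, gc141_mem_rect]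
          simp only
          push_cast at h ⊢
          omega)
        (Or.inl (by
          unfold OnPolygon
          simp only
          rintro ⟨-, -, h3, -⟩
          rw [hBdef, gc141_mem_rect] at h3
          simp only at h3
          omega))
      simp only [rswCo, if_true] at hstep
      have e1 : x0 + ((n + 1 : ℕ) : ℤ) - 1 = x0 + n := by push_cast; ring
      rw [e1] at hstep
      exact hstep.trans (ih h' hy)
  have left : ∀ n : ℕ, y0 + n < y1 → x0 < x1 → (T (x0, y0 + n) ↔ T (x0, y0)) := by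
    intro n
    induction n with
    | zero => intro _ _; simp
    | succ n ih =>
      intro h hx
      have h' : y0 + (n : ℤ) < y1 := by push_cast at h; omega
      have hstep := hT ((x0, y0 + (n + 1 : ℕ)), false)
        (by
          rw [mdl41_mem_int]
          simp only [rswCo, Bool.false_eq_true, if_false]
          rw [hBdef, gc141_mem_rect, gc141_mem_rect]
          simp only
          push_cast at h ⊢
          omega)
        (Or.inl (by
          unfold OnPolygon
          simp only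
          rintro ⟨-, h2, -, -⟩
          rw [hBdef, gc141_mem_rect] at h2
          simp only at h2
          omega))
      simp only [rswCo, Bool.false_eq_true, if_false] at hstep
      have e1 : y0 + ((n + 1 : ℕ) : ℤ) - 1 = y0 + n := by push_cast; ring
      rw [e1] at hstep
      exact hstep.trans (ih h' hx)
  have top : ∀ n : ℕ, x0 + n < x1 → y0 < y1 → (T (x0 + n, y1 - 1) ↔ T (x0, y0)) := by
    intro n
    induction n with
    | zero =>
      intro hx hy
      have := left (y1 - 1 - y0).toNat (by rw [Int.toNat_of_nonneg (by omega)]; omega) (by simpa using hx)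
      rw [Int.toNat_of_nonneg (by omega)] at this
      have e1 : y0 + (y1 - 1 - y0) = y1 - 1 := by ring
      rw [e1] at this
      simpa using this
    | succ n ih =>
      intro h hy
      have h' : x0 + (n : ℤ) < x1 := by push_cast at h; omega
      have hstep := hT ((x0 + (n + 1 : ℕ), y1 - 1), true)
        (by
          rw [mdl41_mem_int]
          simp only [rswCo, if_true]
          rw [hBdef, gc141_mem_rect, gc141_mem_rect]
          simp only
          push_cast at h ⊢
          omega)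
        (Or.inr (by
          unfold OnPolygon
          simp only [rswEnd, if_true]
          rintro ⟨h1, -, -, -⟩
          rw [hBdef, gc141_mem_rect] at h1
          simp only at h1
          omega))
      simp only [rswCo, if_true] at hstep
      have e1 : x0 + ((n + 1 : ℕ) : ℤ) - 1 = x0 + n := by push_cast; ring
      rw [e1] at hstep
      exact hstep.trans (ih h' hy)
  have right : ∀ n : ℕ, y0 + n < y1 → x0 < x1 → (T (x1 - 1, y0 + n) ↔ T (x0, y0)) := by
    intro n
    induction n with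
    | zero =>
      intro hy hx
      have := bottom (x1 - 1 - x0).toNat (by rw [Int.toNat_of_nonneg (by omega)]; omega) (by simpa using hy)
      rw [Int.toNat_of_nonneg (by omega)] at this
      have e1 : x0 + (x1 - 1 - x0) = x1 - 1 := by ring
      rw [e1] at this
      simpa using this
    | succ n ih =>
      intro h hx
      have h' : y0 + (n : ℤ) < y1 := by push_cast at h; omega
      have hstep := hT ((x1 - 1, y0 + (n + 1 : ℕ)), false)
        (by
          rw [mdl41_mem_int]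
          simp only [rswCo, Bool.false_eq_true, if_false]
          rw [hBdef, gc141_mem_rect, gc141_mem_rect]
          simp only
          push_cast at h ⊢
          omega)
        (Or.inr (by
          unfold OnPolygon
          simp only [rswEnd, Bool.false_eq_true, if_false]
          rintro ⟨h1, -, -, -⟩
          rw [hBdef, gc141_mem_rect] at h1
          simp only at h1
          omega))
      simp only [rswCo, Bool.false_eq_true, if_false] at hstep
      have e1 : y0 + ((n + 1 : ℕ) : ℤ) - 1 = y0 + n := by push_cast; ring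
      rw [e1] at hstep
      exact hstep.trans (ih h' hx)
  -- the four sides in integer form
  have bottom' : ∀ x, x0 ≤ x → x < x1 → y0 < y1 → (T (x, y0) ↔ T (x0, y0)) := by
    intro x h1 h2 h3
    have := bottom (x - x0).toNat (by rw [Int.toNat_of_nonneg (by omega)]; omega) h3
    rw [Int.toNat_of_nonneg (by omega)] at this
    have e1 : x0 + (x - x0) = x := by ring
    rwa [e1] at this
  have top' : ∀ x, x0 ≤ x → x < x1 → y0 < y1 → (T (x, y1 - 1) ↔ T (x0, y0)) := by
    intro x h1 h2 h3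
    have := top (x - x0).toNat (by rw [Int.toNat_of_nonneg (by omega)]; omega) h3
    rw [Int.toNat_of_nonneg (by omega)] at this
    have e1 : x0 + (x - x0) = x := by ring
    rwa [e1] at this
  have left' : ∀ y, y0 ≤ y → y < y1 → x0 < x1 → (T (x0, y) ↔ T (x0, y0)) := by
    intro y h1 h2 h3
    have := left (y - y0).toNat (by rw [Int.toNat_of_nonneg (by omega)]; omega) h3
    rw [Int.toNat_of_nonneg (by omega)] at this
    have e1 : y0 + (y - y0) = y := by ring
    rwa [e1] at this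
  have right' : ∀ y, y0 ≤ y → y < y1 → x0 < x1 → (T (x1 - 1, y) ↔ T (x0, y0)) := by
    intro y h1 h2 h3
    have := right (y - y0).toNat (by rw [Int.toNat_of_nonneg (by omega)]; omega) h3
    rw [Int.toNat_of_nonneg (by omega)] at this
    have e1 : y0 + (y - y0) = y := by ring
    rwa [e1] at this
  rintro ⟨⟨x, y⟩, c⟩ he hp
  obtain ⟨m1, m2⟩ := mdl41_mem_int.1 he
  rw [hBdef, gc141_mem_rect] at m1 m2
  simp only at m1
  show T (x, y) ↔ T (x0, y0)
  rcases hp with hp | hp
  · -- the first end is on the polygon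
    have : x = x0 ∨ y = y0 := by
      by_contra hne
      rw [not_or] at hne
      apply hp
      simp only
      refine ⟨?_, ?_, ?_, ?_⟩ <;> rw [hBdef, gc141_mem_rect] <;> simp only <;> omega
    rcases this with rfl | rfl
    · exact left' y m1.2.1 m1.2.2 (by omega)
    · exact bottom' x m1.1.1 m1.1.2 (by omega)
  · cases c
    · simp only [rswCo, Bool.false_eq_true, if_false] at m2
      have : x = x1 - 1 := by
        by_contra hne
        apply hp
        simp only [rswEnd, Bool.false_eq_true, if_false]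
        refine ⟨?_, ?_, ?_, ?_⟩ <;> rw [hBdef, gc141_mem_rect] <;> simp only <;> omega
      subst this
      exact right' y m1.2.1 m1.2.2 (by omega)
    · simp only [rswCo, if_true] at m2
      have : y = y1 - 1 := by
        by_contra hne
        apply hp
        simp only [rswEnd, if_true]
        refine ⟨?_, ?_, ?_, ?_⟩ <;> rw [hBdef, gc141_mem_rect] <;> simp only <;> omega
      subst this
      exact top' x m1.1.1 m1.1.2 (by omega)

/-- what a configuration of nonzero weight satisfies -/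
theorem gc141_wt {t : ℝ} {B : Finset (ℤ × ℤ)} {c : Bool} {ω : RswCfg} (hw : rswWt t B c ω ≠ 0) :
    RswBc B c ω ∧ (∀ e ∈ rswInt B, e ∈ ω.O → (e.1 ∈ ω.S ↔ rswEnd e ∈ ω.S)) ∧
      ∀ e ∈ rswInt B, e ∉ ω.O → (e.1 ∈ ω.D ↔ rswCo e ∈ ω.D) := by
  classical
  refine ⟨?_, fun e he hO => mdl41c_cons hw he hO, fun e he hO => ?_⟩
  · by_contra hb
    unfold rswWt at hw
    rw [if_neg hb] at hw
    exact hw rfl
  · unfold rswWt at hw
    split_ifs at hw with hbc
    · have h1 := Finset.prod_ne_zero_iff.1 hw e he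
      unfold rswFac at h1
      rw [if_neg hO] at h1
      by_contra h2
      rw [if_neg h2] at h1
      exact h1 rfl
    · exact absurd rfl hw

/-- an interior edge of a rectangle with sides `≥ 2` does not have both ends on the polygon -/
theorem gc141_thin {x0 x1 y0 y1 : ℤ} (hx01 : x0 + 2 ≤ x1) (hy01 : y0 + 2 ≤ y1) {e : (ℤ × ℤ) × Bool}
    (he : e ∈ rswInt (Finset.Ico x0 x1 ×ˢ Finset.Ico y0 y1)) :
    ¬ (OnPolygon (Finset.Ico x0 x1 ×ˢ Finset.Ico y0 y1) e.1 ∧ OnPolygon (Finset.Ico x0 x1 ×ˢ Finset.Ico y0 y1) (rswEnd e)) := by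
  obtain ⟨⟨x, y⟩, c⟩ := e
  obtain ⟨m1, m2⟩ := mdl41_mem_int.1 he
  rw [gc141_mem_rect] at m1 m2
  simp only at m1
  rintro ⟨p1, p2⟩
  cases c
  · simp only [rswCo, Bool.false_eq_true, if_false] at m2
    by_cases hx : x = x0
    · apply p2
      simp only [rswEnd, Bool.false_eq_true, if_false]
      refine ⟨?_, ?_, ?_, ?_⟩ <;> rw [gc141_mem_rect] <;> simp only <;> omega
    · apply p1
      simp only
      refine ⟨?_, ?_, ?_, ?_⟩ <;> rw [gc141_mem_rect] <;> simp only <;> omega
  · simp only [rswCo, if_true] at m2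
    by_cases hy : y = y0
    · apply p2
      simp only [rswEnd, if_true]
      refine ⟨?_, ?_, ?_, ?_⟩ <;> rw [gc141_mem_rect] <;> simp only <;> omega
    · apply p1
      simp only
      refine ⟨?_, ?_, ?_, ?_⟩ <;> rw [gc141_mem_rect] <;> simp only <;> omega

theorem gc141_p1 {p p' q q' : Prop} (h1 : ¬ (p ↔ p')) (h2 : ¬ (q ↔ q')) : (p ↔ q) ↔ (p' ↔ q') := by tauto

theorem gc141_p2 {p p' q q' : Prop} (h1 : ¬ ¬ (p ↔ p')) (h2 : ¬ ¬ (q ↔ q')) : (p ↔ q) ↔ (p' ↔ q') := by tauto

theorem gc141_p3 {p p' q q' r : Prop} (r1 : q ↔ r) (r2 : q' ↔ r) (l : (p ↔ q) ↔ (p' ↔ q')) : p ↔ p' := by tauto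

theorem gc141_p4 {p q : Prop} (h : (p ∧ ¬ q) ∨ (¬ p ∧ q)) : ¬ (p ↔ q) := by tauto

/-- **(W3) ONE FACE SPIN**, for a rectangle -/
theorem gc141 {t : ℝ} {x0 x1 y0 y1 : ℤ} (_hx01 : x0 + 2 ≤ x1) (_hy01 : y0 + 2 ≤ y1) {Ch : Finset (ℤ × ℤ)}
    (hCh : Ch ⊆ Finset.Ico x0 x1 ×ˢ Finset.Ico y0 y1) (hc : ∀ f ∈ Ch, ∀ g ∈ Ch, Mdl41cJoin Ch f g)
    (hx : ∀ f ∈ (Finset.Ico x0 x1 ×ˢ Finset.Ico y0 y1) \ Ch, ∀ g ∈ (Finset.Ico x0 x1 ×ˢ Finset.Ico y0 y1) \ Ch,
      Mdl41cJoin ((Finset.Ico x0 x1 ×ˢ Finset.Ico y0 y1) \ Ch) f g) (a : Bool) :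
    WlGC t (Finset.Ico x0 x1 ×ˢ Finset.Ico y0 y1) Ch a := by
  classical
  set B := Finset.Ico x0 x1 ×ˢ Finset.Ico y0 y1 with hBdef
  intro ω hw h1 h2
  obtain ⟨hbc, hO, hD⟩ := gc141_wt hw
  have hB : Mdl41Conn B := mdl41c_rect_ext x0 x1 y0 y1
  -- the disagreement edges of `ω.D` are open, hence monochromatic
  have hdis : ∀ e ∈ mdl41DisSet B ω.D, ((e.1 ∈ ω.S ↔ a = true) ↔ (rswEnd e ∈ ω.S ↔ a = true)) := by
    intro e he
    obtain ⟨hi, hd⟩ := mdl41_mem_disSet.1 he
    have ho : e ∈ ω.O := by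
      by_contra hn
      exact hd (hD e hi hn)
    rw [hO e hi ho]
  set η := (mdl41DisSet B ω.D).filter (fun e => (e.1 ∈ ω.S ↔ a = true)) with hηdef
  have hev : Mdl41Even B η := by
    refine gc141_even_filter (mdl41_even_disSet B ω.D) (fun e => (e.1 ∈ ω.S ↔ a = true)) ?_
    intro v _ e he e' he' hi hi'
    have p : (e.1 ∈ ω.S ↔ a = true) ↔ (v ∈ ω.S ↔ a = true) := by
      rcases hi with h | h
      · rw [h]
      · rw [hdis e he, h]
    have p' : (e'.1 ∈ ω.S ↔ a = true) ↔ (v ∈ ω.S ↔ a = true) := by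
      rcases hi' with h | h
      · rw [h]
      · rw [hdis e' he', h]
    exact p.trans p'.symm
  obtain ⟨Da, -, hDa⟩ := mdl41_exists_D hB hev
  -- (A) the label `N` does not change across an interior edge with an end of colour `a`
  have hA : ∀ e ∈ rswInt B, ((e.1 ∈ ω.S ↔ a = true) ∨ (rswEnd e ∈ ω.S ↔ a = true)) →
      ((e.1 ∈ ω.D ↔ e.1 ∈ Da) ↔ (rswCo e ∈ ω.D ↔ rswCo e ∈ Da)) := by
    intro e hi hcol
    by_cases hd : Mdl41Dis ω.D e
    · have he : e ∈ mdl41DisSet B ω.D := mdl41_mem_disSet.2 ⟨hi, hd⟩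
      have hc1 : (e.1 ∈ ω.S ↔ a = true) := by
        rcases hcol with h | h
        · exact h
        · exact (hdis e he).2 h
      have hda : Mdl41Dis Da e := (hDa e hi).1 (Finset.mem_filter.2 ⟨he, hc1⟩)
      exact gc141_p1 hd hda
    · have hda : ¬ Mdl41Dis Da e := fun h => hd (mdl41_mem_disSet.1 (Finset.mem_filter.1 ((hDa e hi).2 h)).1).2
      exact gc141_p2 hd hda
  -- (B) `D_a` does not change across an interior edge with an end on the polygon
  have hBc : ∀ e ∈ rswInt B, (OnPolygon B e.1 ∨ OnPolygon B (rswEnd e)) → (e.1 ∈ Da ↔ rswCo e ∈ Da) := by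
    intro e hi hp
    by_contra hd
    obtain ⟨he1, hc1⟩ := Finset.mem_filter.1 ((hDa e hi).2 hd)
    have hc2 := (hdis e he1).1 hc1
    rcases hp with hp | hp
    · exact wl_col_absurd hc1 (hbc e.1 (rsk_int_fst hi) hp)
    · exact wl_col_absurd hc2 (hbc _ (rsk_int_end hi) hp)
  -- the label is constant on the wall
  have hlab : ∀ e ∈ mdl41DisSet B Ch, ∀ e' ∈ mdl41DisSet B Ch, ((e.1 ∈ ω.D ↔ e.1 ∈ Da) ↔ (e'.1 ∈ ω.D ↔ e'.1 ∈ Da)) := by
    refine gc141_irred hB hCh hc hx (fun e => (e.1 ∈ ω.D ↔ e.1 ∈ Da)) ?_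
    intro v hv e he e' _ hi hi'
    have hcv : (v ∈ ω.S ↔ a = true) := by
      obtain ⟨⟨w1, w2⟩, ⟨w3, w4⟩⟩ := wl_wall_ends he
      rcases hi with h | h
      · rw [h] at w1 w2
        exact h1 v w1 w2 hv
      · rw [h] at w3 w4
        exact h1 v w3 w4 hv
    have star : ∀ u : (ℤ × ℤ) × Bool, (u.1 = v ∨ rswEnd u = v) → ((u.1 ∈ ω.D ↔ u.1 ∈ Da) ↔ (v ∈ ω.D ↔ v ∈ Da)) := by
      obtain ⟨x, y⟩ := v
      have hv' := hv
      unfold OnPolygon at hv'
      rw [not_not] at hv'
      simp only at hv'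
      obtain ⟨b1, b2, b3, -⟩ := hv'
      rintro ⟨⟨u1, u2⟩, c⟩ hu
      rcases hu with hu | hu
      · simp only at hu
        rw [hu]
      · cases c
        · simp only [rswEnd, Bool.false_eq_true, if_false, Prod.mk.injEq] at hu
          obtain ⟨q1, q2⟩ := hu
          have e1 : u1 = x - 1 := by omega
          subst e1
          subst q2
          have := hA ((x, u2), true) (mdl41_mem_int.2 ⟨b1, by simpa [rswCo] using b2⟩) (Or.inl hcv)
          simp only [rswCo, if_true] at this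
          exact this.symm
        · simp only [rswEnd, if_true, Prod.mk.injEq] at hu
          obtain ⟨q1, q2⟩ := hu
          have e1 : u2 = y - 1 := by omega
          subst e1
          subst q1
          have := hA ((u1, y), false) (mdl41_mem_int.2 ⟨b1, by simpa [rswCo] using b3⟩) (Or.inl hcv)
          simp only [rswCo, Bool.false_eq_true, if_false] at this
          exact this.symm
    exact (star e hi).trans (star e' hi').symm
  -- conclusion
  intro e he e' he' hb hb' hn hn'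
  have hw1 : e ∈ mdl41DisSet B Ch := mdl41_mem_disSet.2 ⟨he, gc141_p4 hb⟩
  have hw2 : e' ∈ mdl41DisSet B Ch := mdl41_mem_disSet.2 ⟨he', gc141_p4 hb'⟩
  have hp1 : OnPolygon B e.1 ∨ OnPolygon B (rswEnd e) := by
    by_contra hcon
    rw [not_or] at hcon
    exact hn (h2 e hw1 hcon.1 hcon.2)
  have hp2 : OnPolygon B e'.1 ∨ OnPolygon B (rswEnd e') := by
    by_contra hcon
    rw [not_or] at hcon
    exact hn' (h2 e' hw2 hcon.1 hcon.2)
  have r1 := gc141_ring (fun f => f ∈ Da) hBc e he hp1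
  have r2 := gc141_ring (fun f => f ∈ Da) hBc e' he' hp2
  exact gc141_p3 r1 r2 (hlab e hw1 e' hw2)

end Claimed.Agent.R292
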