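/-
Row 292 (S0540), unit MODEL: (M2) of `Exit/MODEL` closed (helper141, prefix `mdl141b_`).

DLR / Gibbs property of `mdlEQ c Q A b` for EVERY boundary function `b` (no parity, no feasibility), every `A' ⊆ A`, the same `Q`.
Port of `mdl231_dlr_S` (helper231) to the vocabulary of `Defs/MODEL`.
* `mdl141b_cfg_sub` : for `g ∈ mdlCfg A b`: `mdlCfg A' g = (mdlCfg A b).filter (· = g off A')`;
* **`mdl141b_M2`** : the statement of `exit_mdl_dlr`;  `mdl141b_dlr_mul` : DLR with an outside factor.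
-/
import Claimed.Agent.R292.Defs.MODEL

set_option autoImplicit false
set_option linter.unusedVariables false

namespace Claimed.Agent.R292

open Finset

theorem mdl141b_neg_mem_dirs {d : MdlS} (hd : d ∈ mdlDirs) : -d ∈ mdlDirs := by
  simp only [mdlDirs, mem_insert, mem_singleton] at hd ⊢
  rcases hd with rfl | rfl | rfl | rfl <;> simp

theorem mdl141b_adm_of_mem {A : Finset MdlS} {b h : MdlS → ℤ} (hh : h ∈ mdlCfg A b) : MdlAdm A b h := by
  unfold mdlCfg at hh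
  split_ifs at hh with hf
  · exact hf.mem_toFinset.1 hh
  · exact absurd hh (Finset.notMem_empty _)

theorem mdl141b_fin_of_mem {A : Finset MdlS} {b h : MdlS → ℤ} (hh : h ∈ mdlCfg A b) :
    {h | MdlAdm A b h}.Finite := by
  unfold mdlCfg at hh
  split_ifs at hh with hf
  · exact hf
  · exact absurd hh (Finset.notMem_empty _)

theorem mdl141b_mem_cfg {A : Finset MdlS} {b : MdlS → ℤ} (hf : {h | MdlAdm A b h}.Finite) {h : MdlS → ℤ} :
    h ∈ mdlCfg A b ↔ MdlAdm A b h := by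
  unfold mdlCfg
  rw [dif_pos hf]
  exact hf.mem_toFinset

theorem mdl141b_adm_congr {A : Finset MdlS} {b b' : MdlS → ℤ} (h : ∀ x, x ∉ A → b x = b' x) (K : MdlS → ℤ) :
    MdlAdm A b K ↔ MdlAdm A b' K := by
  unfold MdlAdm
  constructor
  · rintro ⟨h1, h2⟩; exact ⟨fun x hx => (h1 x hx).trans (h x hx), h2⟩
  · rintro ⟨h1, h2⟩; exact ⟨fun x hx => (h1 x hx).trans (h x hx).symm, h2⟩

theorem mdl141b_cfg_congr {A : Finset MdlS} {b b' : MdlS → ℤ} (h : ∀ x, x ∉ A → b x = b' x) :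
    mdlCfg A b = mdlCfg A b' := by
  have hs : {K | MdlAdm A b K} = {K | MdlAdm A b' K} := by
    ext K; exact mdl141b_adm_congr h K
  by_cases hf : {K | MdlAdm A b K}.Finite
  · have hf' : {K | MdlAdm A b' K}.Finite := hs ▸ hf
    ext K
    rw [mdl141b_mem_cfg hf, mdl141b_mem_cfg hf', mdl141b_adm_congr h]
  · have hf' : ¬ {K | MdlAdm A b' K}.Finite := hs ▸ hf
    unfold mdlCfg
    rw [dif_neg hf, dif_neg hf']

/-- admissible in `A'` with boundary function `g` admissible in `A ⊇ A'` ⇒ admissible in `A`. -/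
theorem mdl141b_adm_sub {A' A : Finset MdlS} (hA : A' ⊆ A) {b g K : MdlS → ℤ} (hg : MdlAdm A b g)
    (hK : MdlAdm A' g K) : MdlAdm A b K := by
  refine ⟨fun x hx => (hK.1 x fun hc => hx (hA hc)).trans (hg.1 x hx), fun u hu d hd => ?_⟩
  by_cases hu' : u ∈ A'
  · exact hK.2 u hu' d hd
  by_cases hv : u + d ∈ A'
  · have := hK.2 (u + d) hv (-d) (mdl141b_neg_mem_dirs hd)
    rw [add_neg_cancel_right] at this
    rw [abs_sub_comm]; exact this
  · rw [hK.1 u hu', hK.1 _ hv]; exact hg.2 u hu d hd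

open Classical in
theorem mdl141b_cfg_sub {A' A : Finset MdlS} (hA : A' ⊆ A) {b g : MdlS → ℤ} (hg : g ∈ mdlCfg A b) :
    mdlCfg A' g = (mdlCfg A b).filter (fun K => ∀ x, x ∉ A' → K x = g x) := by
  have hf := mdl141b_fin_of_mem hg
  have hg' := mdl141b_adm_of_mem hg
  have hf' : {K | MdlAdm A' g K}.Finite := hf.subset fun K hK => mdl141b_adm_sub hA hg' hK
  ext K
  rw [Finset.mem_filter, mdl141b_mem_cfg hf, mdl141b_mem_cfg hf']
  exact ⟨fun hK => ⟨mdl141b_adm_sub hA hg' hK, hK.1⟩,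
    fun hK => ⟨hK.2, fun u hu d hd => hK.1.2 u (hA hu) d hd⟩⟩

theorem mdl141b_wt_pos {c : ℝ} (hc : 0 < c) (Q : Finset MdlS) (h : MdlS → ℤ) : 0 < mdlWt c Q h :=
  pow_pos hc _

/-- **DLR**, unnormalised. -/
theorem mdl141b_dlr_S {c : ℝ} (hc : 0 < c) (Q : Finset MdlS) {A' A : Finset MdlS} (hA : A' ⊆ A)
    (b : MdlS → ℤ) (F : (MdlS → ℤ) → ℝ) :
    ∑ g ∈ mdlCfg A b, mdlWt c Q g * mdlEQ c Q A' g F = ∑ g ∈ mdlCfg A b, mdlWt c Q g * F g := by
  classical
  set C := mdlCfg A b with hC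
  have e1 : ∑ g ∈ C, mdlWt c Q g * mdlEQ c Q A' g F
      = ∑ g ∈ C, ∑ K ∈ C, if (∀ x, x ∉ A' → K x = g x) then
          mdlWt c Q g * (mdlWt c Q K * F K) / mdlZQ c Q A' g else 0 := by
    refine Finset.sum_congr rfl fun g hg => ?_
    show mdlWt c Q g * ((∑ K ∈ mdlCfg A' g, mdlWt c Q K * F K) / mdlZQ c Q A' g) = _
    rw [mdl141b_cfg_sub hA hg, Finset.sum_filter, mul_div_assoc', Finset.mul_sum, Finset.sum_div]
    refine Finset.sum_congr rfl fun K _ => ?_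
    split_ifs <;> simp
  rw [e1, Finset.sum_comm]
  refine Finset.sum_congr rfl fun K hK => ?_
  have e2 : ∀ g ∈ C, (if (∀ x, x ∉ A' → K x = g x) then
        mdlWt c Q g * (mdlWt c Q K * F K) / mdlZQ c Q A' g else 0)
      = (if (∀ x, x ∉ A' → g x = K x) then mdlWt c Q g else 0) *
        (mdlWt c Q K * F K / mdlZQ c Q A' K) := by
    intro g _
    by_cases hgK : ∀ x, x ∉ A' → K x = g x
    · have hgK' : ∀ x, x ∉ A' → g x = K x := fun x hx => (hgK x hx).symm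
      rw [if_pos hgK, if_pos hgK']
      have z : mdlZQ c Q A' g = mdlZQ c Q A' K := by unfold mdlZQ; rw [mdl141b_cfg_congr hgK']
      rw [z]
      ring
    · have hgK' : ¬ ∀ x, x ∉ A' → g x = K x := fun hc => hgK fun x hx => (hc x hx).symm
      rw [if_neg hgK, if_neg hgK', zero_mul]
  rw [Finset.sum_congr rfl e2, ← Finset.sum_mul, ← Finset.sum_filter, ← mdl141b_cfg_sub hA hK]
  have hself : K ∈ mdlCfg A' K := by
    rw [mdl141b_cfg_sub hA hK]
    exact Finset.mem_filter.2 ⟨hK, fun _ _ => rfl⟩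
  have hZ : 0 < mdlZQ c Q A' K := Finset.sum_pos (fun _ _ => mdl141b_wt_pos hc Q _) ⟨K, hself⟩
  show mdlZQ c Q A' K * _ = _
  field_simp

/-- **(M2)**: the statement of `exit_mdl_dlr`. -/
theorem mdl141b_M2 {c : ℝ} (hc : 0 < c) (Q : Finset MdlS) {A' A : Finset MdlS} (hA : A' ⊆ A) (b : MdlS → ℤ)
    (G : (MdlS → ℤ) → ℝ) : mdlEQ c Q A b G = mdlEQ c Q A b fun h => mdlEQ c Q A' h G := by
  show (∑ h ∈ mdlCfg A b, mdlWt c Q h * G h) / mdlZQ c Q A b =
    (∑ h ∈ mdlCfg A b, mdlWt c Q h * mdlEQ c Q A' h G) / mdlZQ c Q A b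
  rw [mdl141b_dlr_S hc Q hA b G]

/-- DLR with a factor which does not read the heights in `A'`. -/
theorem mdl141b_dlr_mul {c : ℝ} (hc : 0 < c) (Q : Finset MdlS) {A' A : Finset MdlS} (hA : A' ⊆ A)
    (b : MdlS → ℤ) (F G : (MdlS → ℤ) → ℝ)
    (hG : ∀ g K : MdlS → ℤ, (∀ x, x ∉ A' → K x = g x) → G K = G g) :
    mdlEQ c Q A b (fun K => G K * F K) = mdlEQ c Q A b fun g => G g * mdlEQ c Q A' g F := by
  rw [mdl141b_M2 hc Q hA b (fun K => G K * F K)]
  congr 1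
  funext g
  show (∑ K ∈ mdlCfg A' g, mdlWt c Q K * (G K * F K)) / mdlZQ c Q A' g =
    G g * ((∑ K ∈ mdlCfg A' g, mdlWt c Q K * F K) / mdlZQ c Q A' g)
  rw [mul_div_assoc', Finset.mul_sum]
  congr 1
  refine Finset.sum_congr rfl fun K hK => ?_
  rw [hG g K (mdl141b_adm_of_mem hK).1]
  ring

end Claimed.Agent.R292
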