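/-
Row 292 (S0540), unit MODEL: (M3) of `Exit/MODEL` closed (helper141, prefix `mdl141_`).

Adapter between the vocabulary of `Defs/MODEL` (`MdlAdm mdlCfg mdlN mdlEQ` on the turned corner lattice `MdlS`) and the abstract
systems `Mdl231Sys` of `Model/Fkg231` (helper231):  `mdl141Sys Q A` has the edges `(x, x + d)`, `x ∈ A ∪ corners of Q`, the plaquettes `Q`,
parity = coordinate sum.  For a global height `b`:
* `mdl141_global`, `mdl141_parity` : an admissible `h` is a global height;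
* `mdl141_adm_iff`, `mdl141_cfg_eq`, `mdl141_finite`, `mdl141_cfg_nonempty`, `mdl141_mem_cfg`;
* `mdl141_nC_eq`, `mdl141_EQ_eq` : `mdlEQ c Q A b G = (mdl141Sys Q A).Ex c A b G`;
* **`mdl141_M3`** : the statement of `exit_mdl_fkg`, no sorry.
-/
import Claimed.Agent.R292.Defs.MODEL
import Claimed.Agent.R292.Model.Fkg231

set_option autoImplicit false
set_option linter.unusedVariables false

namespace Claimed.Agent.R292

open Finset

theorem mdl141_neg_mem_dirs {d : MdlS} (hd : d ∈ mdlDirs) : -d ∈ mdlDirs := by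
  simp only [mdlDirs, mem_insert, mem_singleton] at hd ⊢
  rcases hd with rfl | rfl | rfl | rfl <;> simp

/-- an admissible height with a global boundary height has steps `± 1` on EVERY edge. -/
theorem mdl141_global {A : Finset MdlS} {b h : MdlS → ℤ} (hb : MdlHt b) (hh : MdlAdm A b h) (x : MdlS)
    {d : MdlS} (hd : d ∈ mdlDirs) : |h (x + d) - h x| = 1 := by
  by_cases hx : x ∈ A
  · exact hh.2 x hx d hd
  by_cases hy : x + d ∈ A
  · have := hh.2 (x + d) hy (-d) (mdl141_neg_mem_dirs hd)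
    rw [add_neg_cancel_right] at this
    rw [abs_sub_comm]; exact this
  · rw [hh.1 x hx, hh.1 _ hy]; exact hb.1 x d hd

theorem mdl141_exists_right (A : Finset MdlS) (x : MdlS) : ∃ n : ℕ, x + ((n : ℤ), 0) ∉ A := by
  have hinj : Function.Injective fun n : ℕ => x + (((n : ℤ), 0) : MdlS) := by
    intro n m hnm
    have := congrArg Prod.fst hnm
    simpa using this
  obtain ⟨y, ⟨n, rfl⟩, hy⟩ := (Set.infinite_range_of_injective hinj).exists_notMem_finset A
  exact ⟨n, hy⟩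

theorem mdl141_one_mem_dirs : ((1, 0) : MdlS) ∈ mdlDirs := by simp [mdlDirs]

/-- an admissible height with a global boundary height has the parity of the coordinate sum. -/
theorem mdl141_parity {A : Finset MdlS} {b h : MdlS → ℤ} (hb : MdlHt b) (hh : MdlAdm A b h) (x : MdlS) :
    (h x - (x.1 + x.2)) % 2 = 0 := by
  have key : ∀ n : ℕ, ∀ x : MdlS, x + ((n : ℤ), 0) ∉ A → (h x - (x.1 + x.2)) % 2 = 0 := by
    intro n
    induction n with
    | zero =>
      intro x hx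
      have e0 : x + ((((0 : ℕ) : ℤ), 0) : MdlS) = x := by ext <;> simp
      rw [e0] at hx
      rw [hh.1 x hx]; exact hb.2 x
    | succ n ih =>
      intro x hx
      have h1 : x + (1, 0) + ((n : ℤ), 0) ∉ A := by
        have e : x + (1, 0) + (((n : ℤ), 0) : MdlS) = x + (((n + 1 : ℕ) : ℤ), 0) := by
          ext <;> simp; ring
        rw [e]; exact hx
      have h2 := ih _ h1
      have h3 := mdl141_global hb hh x mdl141_one_mem_dirs
      have h4 : (x + ((1, 0) : MdlS)).1 = x.1 + 1 := rfl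
      have h5 : (x + ((1, 0) : MdlS)).2 = x.2 + 0 := rfl
      rw [h4, h5] at h2
      rcases abs_eq (zero_le_one' ℤ) |>.1 h3 with h6 | h6 <;> omega
  obtain ⟨n, hn⟩ := mdl141_exists_right A x
  exact key n x hn

/-- the vertices whose outgoing edges are listed. -/
def mdl141X (Q A : Finset MdlS) : Finset MdlS :=
  A ∪ Q.biUnion fun p => {p, p + (1, 0), p + (1, 1), p + (0, 1)}

/-- the edges. -/
def mdl141E (Q A : Finset MdlS) : Finset (MdlS × MdlS) :=
  (mdl141X Q A ×ˢ mdlDirs).image fun z => (z.1, z.1 + z.2)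

/-- the plaquette `p` as a 4-cycle `(u, f, v, g)`; diagonals `u v` and `f g`. -/
def mdl141Pq (p : MdlS) : MdlS × MdlS × MdlS × MdlS := (p, p + (1, 0), p + (1, 1), p + (0, 1))

theorem mdl141Pq_inj : Function.Injective mdl141Pq := fun p q h => congrArg Prod.fst h

theorem mdl141_mem_E {Q A : Finset MdlS} {x d : MdlS} (hx : x ∈ mdl141X Q A) (hd : d ∈ mdlDirs) :
    (x, x + d) ∈ mdl141E Q A :=
  mem_image.2 ⟨(x, d), mem_product.2 ⟨hx, hd⟩, rfl⟩

theorem mdl141_mem_X_of_Q {Q A : Finset MdlS} {p : MdlS} (hp : p ∈ Q) :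
    p ∈ mdl141X Q A ∧ p + (1, 1) ∈ mdl141X Q A := by
  constructor
  · exact mem_union_right _ (mem_biUnion.2 ⟨p, hp, by simp⟩)
  · exact mem_union_right _ (mem_biUnion.2 ⟨p, hp, by simp⟩)

/-- the system of `Fkg231` attached to `(Q, A)`. -/
def mdl141Sys (Q A : Finset MdlS) : Mdl231Sys MdlS where
  E := mdl141E Q A
  P := Q.image mdl141Pq
  par := fun u => u.1 + u.2
  side := by
    intro q hq
    obtain ⟨p, hp, rfl⟩ := mem_image.1 hq
    obtain ⟨h1, h2⟩ := mdl141_mem_X_of_Q (A := A) hp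
    refine ⟨Or.inl ?_, Or.inl ?_, Or.inl ?_, Or.inl ?_⟩
    · exact mdl141_mem_E h1 (by simp [mdlDirs])
    · have := mdl141_mem_E h2 (d := (0, -1)) (by simp [mdlDirs])
      have e : p + ((1, 1) : MdlS) + (0, -1) = p + (1, 0) := by ext <;> simp [add_assoc]
      rw [e] at this; exact this
    · have := mdl141_mem_E h2 (d := (-1, 0)) (by simp [mdlDirs])
      have e : p + ((1, 1) : MdlS) + (-1, 0) = p + (0, 1) := by ext <;> simp [add_assoc]
      rw [e] at this; exact this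
    · exact mdl141_mem_E h1 (by simp [mdlDirs])

theorem mdl141_adm_iff (Q A : Finset MdlS) {b : MdlS → ℤ} (hb : MdlHt b) (h : MdlS → ℤ) :
    (mdl141Sys Q A).Adm A b h ↔ MdlAdm A b h := by
  constructor
  · rintro ⟨h1, h2⟩
    refine ⟨h1, fun u hu d hd => ?_⟩
    have := h2.2 (u, u + d) (mdl141_mem_E (mem_union_left _ hu) hd)
    simp only at this
    rw [abs_sub_comm]
    rcases this with h3 | h3 <;> rw [h3] <;> simp
  · intro hh
    refine ⟨hh.1, fun x => mdl141_parity hb hh x, fun e he => ?_⟩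
    obtain ⟨⟨x, d⟩, hz, rfl⟩ := mem_image.1 he
    have hd : d ∈ mdlDirs := (mem_product.1 hz).2
    have := mdl141_global hb hh x hd
    simp only
    rcases abs_eq (zero_le_one' ℤ) |>.1 this with h3 | h3 <;> omega

theorem mdl141_reach (Q A : Finset MdlS) (x : MdlS) :
    ∃ y, y ∉ A ∧ Relation.ReflTransGen (Mdl231Adj (mdl141Sys Q A).E) x y := by
  have key : ∀ n : ℕ, ∀ x : MdlS, x + ((n : ℤ), 0) ∉ A →
      ∃ y, y ∉ A ∧ Relation.ReflTransGen (Mdl231Adj (mdl141Sys Q A).E) x y := by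
    intro n
    induction n with
    | zero =>
      intro x hx
      have e0 : x + ((((0 : ℕ) : ℤ), 0) : MdlS) = x := by ext <;> simp
      rw [e0] at hx
      exact ⟨x, hx, Relation.ReflTransGen.refl⟩
    | succ n ih =>
      intro x hx
      by_cases hxA : x ∈ A
      · have h1 : x + (1, 0) + ((n : ℤ), 0) ∉ A := by
          have e : x + (1, 0) + (((n : ℤ), 0) : MdlS) = x + (((n + 1 : ℕ) : ℤ), 0) := by
            ext <;> simp; ring
          rw [e]; exact hx
        obtain ⟨y, hy, hxy⟩ := ih _ h1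
        refine ⟨y, hy, Relation.ReflTransGen.head (Or.inl ?_) hxy⟩
        exact mdl141_mem_E (mem_union_left _ hxA) mdl141_one_mem_dirs
      · exact ⟨x, hxA, Relation.ReflTransGen.refl⟩
  obtain ⟨n, hn⟩ := mdl141_exists_right A x
  exact key n x hn

theorem mdl141_finite (A : Finset MdlS) {b : MdlS → ℤ} (hb : MdlHt b) : {h | MdlAdm A b h}.Finite := by
  have h := mdl231_finite_of_reach (mdl141Sys ∅ A) A b fun x _ => mdl141_reach ∅ A x
  have hs : {K | (mdl141Sys ∅ A).Adm A b K} = {h | MdlAdm A b h} := by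
    ext h; exact mdl141_adm_iff ∅ A hb h
  rwa [hs] at h

theorem mdl141_mem_cfg (A : Finset MdlS) {b : MdlS → ℤ} (hb : MdlHt b) (h : MdlS → ℤ) :
    h ∈ mdlCfg A b ↔ MdlAdm A b h := by
  unfold mdlCfg
  rw [dif_pos (mdl141_finite A hb)]
  exact (mdl141_finite A hb).mem_toFinset

theorem mdl141_cfg_eq (Q A : Finset MdlS) {b : MdlS → ℤ} (hb : MdlHt b) :
    (mdl141Sys Q A).cfg A b = mdlCfg A b := by
  have hs : {K | (mdl141Sys Q A).Adm A b K} = {h | MdlAdm A b h} := by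
    ext h; exact mdl141_adm_iff Q A hb h
  have hf : {K | (mdl141Sys Q A).Adm A b K}.Finite := by rw [hs]; exact mdl141_finite A hb
  ext K
  rw [mdl231_mem_cfg hf, mdl141_mem_cfg A hb, mdl141_adm_iff Q A hb]

theorem mdl141_adm_self (A : Finset MdlS) {b : MdlS → ℤ} (hb : MdlHt b) : MdlAdm A b b :=
  ⟨fun _ _ => rfl, fun u _ d hd => hb.1 u d hd⟩

theorem mdl141_cfg_nonempty (A : Finset MdlS) {b : MdlS → ℤ} (hb : MdlHt b) : (mdlCfg A b).Nonempty :=
  ⟨b, (mdl141_mem_cfg A hb b).2 (mdl141_adm_self A hb)⟩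

theorem mdl141_nC_eq (Q A : Finset MdlS) (h : MdlS → ℤ) : (mdl141Sys Q A).nC h = mdlN Q h := by
  classical
  unfold Mdl231Sys.nC mdlN
  show ∑ p ∈ Q.image mdl141Pq, _ = _
  rw [Finset.sum_image (fun p _ q _ hpq => mdl141Pq_inj hpq), Finset.card_filter]
  refine Finset.sum_congr rfl fun p _ => ?_
  by_cases hC : MdlC h p
  · have hC' : h (mdl141Pq p).1 = h (mdl141Pq p).2.2.1 ∧ h (mdl141Pq p).2.1 = h (mdl141Pq p).2.2.2 := hC
    rw [if_pos hC, if_pos hC']
  · have hC' : ¬ (h (mdl141Pq p).1 = h (mdl141Pq p).2.2.1 ∧ h (mdl141Pq p).2.1 = h (mdl141Pq p).2.2.2) := hC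
    rw [if_neg hC, if_neg hC']

theorem mdl141_EQ_eq (c : ℝ) (Q A : Finset MdlS) {b : MdlS → ℤ} (hb : MdlHt b) (G : (MdlS → ℤ) → ℝ) :
    mdlEQ c Q A b G = (mdl141Sys Q A).Ex c A b G := by
  unfold mdlEQ mdlZQ mdlWt Mdl231Sys.Ex Mdl231Sys.Sm Mdl231Sys.Z
  simp only [mdl141_cfg_eq Q A hb, mdl141_nC_eq]

/-- **(M3)**: the statement of `exit_mdl_fkg`. -/
theorem mdl141_M3 {c : ℝ} (hc : 1 ≤ c) (Q A : Finset MdlS) {b : MdlS → ℤ} (hb : MdlHt b) :
    (∀ G₁ G₂ : (MdlS → ℤ) → ℝ, MdlMono G₁ → MdlMono G₂ →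
      mdlEQ c Q A b G₁ * mdlEQ c Q A b G₂ ≤ mdlEQ c Q A b fun h => G₁ h * G₂ h) ∧
    ∀ b' : MdlS → ℤ, MdlHt b' → (∀ u, b u ≤ b' u) → ∀ G : (MdlS → ℤ) → ℝ, MdlMono G →
      mdlEQ c Q A b G ≤ mdlEQ c Q A b' G := by
  have hne : ∀ {b : MdlS → ℤ}, MdlHt b → ((mdl141Sys Q A).cfg A b).Nonempty := fun {b} hb => by
    rw [mdl141_cfg_eq Q A hb]; exact mdl141_cfg_nonempty A hb
  refine ⟨fun G₁ G₂ h1 h2 => ?_, fun b' hb' hbb G hG => ?_⟩
  · rw [mdl141_EQ_eq c Q A hb, mdl141_EQ_eq c Q A hb, mdl141_EQ_eq c Q A hb]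
    exact mdl231_fkg hc _ A b (hne hb) h1 h2
  · rw [mdl141_EQ_eq c Q A hb, mdl141_EQ_eq c Q A hb']
    exact mdl231_order hc _ A hbb (hne hb) (hne hb') hG

theorem mdl141_M3_eqns_cite : True := by
  have := @mdl141X.eq_1
  have := @mdl141E.eq_1
  have := @mdl141Pq.eq_1
  have := @mdl141Sys.eq_1
  trivial

end Claimed.Agent.R292
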