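import Claimed.Agent.R292.Rsw.Cut91

/-!
# Row 292 (S0540), Model/Par282 : (W3) of (WB), order MODEL-5 : THE PARITY OF THE CHANGES OF `S` ALONG THE POLYGON OF A FACE SET      (owner helper282; statement of helper41; prefix `par282_`, defs `par282*`)      0 sorry

Frame free, pure combinatorics.   `C` = a finite set of faces, `S` = a finite set of vertices.   The number of edges of the polygon of `C` (`RskBd C e`) along which `S` changes is EVEN:
in `ZMod 2`,  `∑_e (1_C(e.1) + 1_C(rswCo e)) β(e) = ∑_{f ∈ C} (β along the four sides of f) = 0`,  `β(e) = 1_S(e.1) + 1_S(rswEnd e)`   (`par282_sum`).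
**`par282_two`** (statement of 41, verbatim): if `S` changes along at most the two polygon edges `e₁ ≠ e₂`, and does change along both, then `e₁` is a polygon edge iff `e₂` is.
-/

set_option autoImplicit false

namespace Claimed.Agent.R292

open Finset

/-- the indicator of a set, in `ZMod 2` -/
def par282I (A : Finset (ℤ × ℤ)) (v : ℤ × ℤ) : ZMod 2 := if v ∈ A then 1 else 0

/-- `1` iff `S` changes along `e` -/
def par282B (S : Finset (ℤ × ℤ)) (e : (ℤ × ℤ) × Bool) : ZMod 2 := par282I S e.1 + par282I S (rswEnd e)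

/-- `1` iff `e` is an edge of the polygon of `C` -/
def par282C (C : Finset (ℤ × ℤ)) (e : (ℤ × ℤ) × Bool) : ZMod 2 := par282I C e.1 + par282I C (rswCo e)

/-- the edges whose second face lies in `C` -/
def par282E2 (C : Finset (ℤ × ℤ)) : Finset ((ℤ × ℤ) × Bool) :=
  C.image (fun f => ((f.1 + 1, f.2), true)) ∪ C.image (fun f => ((f.1, f.2 + 1), false))

theorem par282_eqns_cite : True := by
  have := @par282I.eq_1
  have := @par282B.eq_1
  have := @par282C.eq_1
  have := @par282E2.eq_1
  trivial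

theorem par282_I_pos {A : Finset (ℤ × ℤ)} {v : ℤ × ℤ} (h : v ∈ A) : par282I A v = 1 := by
  unfold par282I; rw [if_pos h]

theorem par282_I_neg {A : Finset (ℤ × ℤ)} {v : ℤ × ℤ} (h : v ∉ A) : par282I A v = 0 := by
  unfold par282I; rw [if_neg h]

theorem par282_two_zero : (1 : ZMod 2) + 1 = 0 := by decide

theorem par282_B_one {S : Finset (ℤ × ℤ)} {e : (ℤ × ℤ) × Bool} (h : ¬ (e.1 ∈ S ↔ rswEnd e ∈ S)) : par282B S e = 1 := by
  unfold par282B
  by_cases h1 : e.1 ∈ S
  · by_cases h2 : rswEnd e ∈ S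
    · exact absurd ⟨fun _ => h2, fun _ => h1⟩ h
    · rw [par282_I_pos h1, par282_I_neg h2, add_zero]
  · by_cases h2 : rswEnd e ∈ S
    · rw [par282_I_neg h1, par282_I_pos h2, zero_add]
    · exact absurd ⟨fun h' => absurd h' h1, fun h' => absurd h' h2⟩ h

theorem par282_B_zero {S : Finset (ℤ × ℤ)} {e : (ℤ × ℤ) × Bool} (h : e.1 ∈ S ↔ rswEnd e ∈ S) : par282B S e = 0 := by
  unfold par282B
  by_cases h1 : e.1 ∈ S
  · rw [par282_I_pos h1, par282_I_pos (h.1 h1)]; exact par282_two_zero
  · rw [par282_I_neg h1, par282_I_neg fun h' => h1 (h.2 h'), add_zero]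

theorem par282_C_one {C : Finset (ℤ × ℤ)} {e : (ℤ × ℤ) × Bool} (h : RskBd C e) : par282C C e = 1 := by
  unfold par282C
  rcases h with ⟨h1, h2⟩ | ⟨h1, h2⟩
  · rw [par282_I_pos h1, par282_I_neg h2, add_zero]
  · rw [par282_I_neg h1, par282_I_pos h2, zero_add]

theorem par282_C_zero {C : Finset (ℤ × ℤ)} {e : (ℤ × ℤ) × Bool} (h : ¬ RskBd C e) : par282C C e = 0 := by
  unfold par282C
  by_cases h1 : e.1 ∈ C
  · by_cases h2 : rswCo e ∈ C
    · rw [par282_I_pos h1, par282_I_pos h2]; exact par282_two_zero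
    · exact absurd (Or.inl ⟨h1, h2⟩) h
  · by_cases h2 : rswCo e ∈ C
    · exact absurd (Or.inr ⟨h1, h2⟩) h
    · rw [par282_I_neg h1, par282_I_neg h2, add_zero]

/-- the four sides of a face: every corner is counted twice -/
theorem par282_face (S : Finset (ℤ × ℤ)) (f : ℤ × ℤ) :
    par282B S (f, true) + par282B S (f, false) + (par282B S ((f.1 + 1, f.2), true) + par282B S ((f.1, f.2 + 1), false)) = 0 := by
  obtain ⟨x, y⟩ := f
  have e1 : rswEnd ((x, y), true) = (x, y + 1) := rfl
  have e2 : rswEnd ((x, y), false) = (x + 1, y) := rfl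
  have e3 : rswEnd ((x + 1, y), true) = (x + 1, y + 1) := rfl
  have e4 : rswEnd ((x, y + 1), false) = (x + 1, y + 1) := rfl
  unfold par282B
  simp only [e1, e2, e3, e4]
  generalize par282I S (x, y) = p
  generalize par282I S (x, y + 1) = q
  generalize par282I S (x + 1, y) = r
  generalize par282I S (x + 1, y + 1) = s
  revert p q r s
  decide

theorem par282_mem_E2 {C : Finset (ℤ × ℤ)} {e : (ℤ × ℤ) × Bool} : e ∈ par282E2 C ↔ rswCo e ∈ C := by
  obtain ⟨⟨x, y⟩, b⟩ := e
  unfold par282E2
  rw [mem_union, mem_image, mem_image]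
  cases b
  · have hc : rswCo ((x, y), false) = (x, y - 1) := rfl
    rw [hc]
    constructor
    · rintro (⟨f, _, hf⟩ | ⟨f, hfC, hf⟩)
      · simp at hf
      · obtain ⟨f1, f2⟩ := f
        simp only [Prod.mk.injEq, and_true] at hf
        obtain ⟨rfl, rfl⟩ := hf
        simpa using hfC
    · intro h
      exact Or.inr ⟨(x, y - 1), h, by simp⟩
  · have hc : rswCo ((x, y), true) = (x - 1, y) := rfl
    rw [hc]
    constructor
    · rintro (⟨f, hfC, hf⟩ | ⟨f, _, hf⟩)
      · obtain ⟨f1, f2⟩ := f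
        simp only [Prod.mk.injEq, and_true] at hf
        obtain ⟨rfl, rfl⟩ := hf
        simpa using hfC
      · simp at hf
    · intro h
      exact Or.inl ⟨(x - 1, y), h, by simp⟩

theorem par282_sum_E1 (C S : Finset (ℤ × ℤ)) :
    ∑ e ∈ C ×ˢ (univ : Finset Bool), par282B S e = ∑ f ∈ C, (par282B S (f, true) + par282B S (f, false)) := by
  rw [sum_product]
  exact sum_congr rfl fun f _ => Fintype.sum_bool _

theorem par282_sum_E2 (C S : Finset (ℤ × ℤ)) :
    ∑ e ∈ par282E2 C, par282B S e = ∑ f ∈ C, (par282B S ((f.1 + 1, f.2), true) + par282B S ((f.1, f.2 + 1), false)) := by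
  unfold par282E2
  rw [sum_union, sum_image, sum_image, sum_add_distrib]
  · intro f _ g _ h
    simp only [Prod.mk.injEq, and_true] at h
    exact Prod.ext h.1 (by omega)
  · intro f _ g _ h
    simp only [Prod.mk.injEq, and_true] at h
    exact Prod.ext (by omega) h.2
  · rw [disjoint_left]
    intro e h1 h2
    obtain ⟨f, _, rfl⟩ := mem_image.1 h1
    obtain ⟨g, _, hg⟩ := mem_image.1 h2
    simp at hg

/-- **the parity identity** on every window which contains the edges of the faces of `C` -/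
theorem par282_sum (C S : Finset (ℤ × ℤ)) (U : Finset ((ℤ × ℤ) × Bool)) (h1 : C ×ˢ (univ : Finset Bool) ⊆ U) (h2 : par282E2 C ⊆ U) :
    ∑ e ∈ U, par282C C e * par282B S e = 0 := by
  have a1 : ∑ e ∈ U, par282I C e.1 * par282B S e = ∑ e ∈ C ×ˢ (univ : Finset Bool), par282B S e := by
    rw [← sum_subset h1 (f := fun e => par282I C e.1 * par282B S e)]
    · refine sum_congr rfl fun e he => ?_
      rw [par282_I_pos (mem_product.1 he).1, one_mul]
    · intro e _ he
      rw [par282_I_neg (fun h => he (mem_product.2 ⟨h, mem_univ _⟩)), zero_mul]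
  have a2 : ∑ e ∈ U, par282I C (rswCo e) * par282B S e = ∑ e ∈ par282E2 C, par282B S e := by
    rw [← sum_subset h2 (f := fun e => par282I C (rswCo e) * par282B S e)]
    · refine sum_congr rfl fun e he => ?_
      rw [par282_I_pos (par282_mem_E2.1 he), one_mul]
    · intro e _ he
      rw [par282_I_neg (fun h => he (par282_mem_E2.2 h)), zero_mul]
  unfold par282C
  simp only [add_mul]
  rw [sum_add_distrib, a1, a2, par282_sum_E1, par282_sum_E2, ← sum_add_distrib]
  exact sum_eq_zero fun f _ => par282_face S f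

/-- **(W3)** statement of 41, verbatim -/
theorem par282_two (C S : Finset (ℤ × ℤ)) (e₁ e₂ : (ℤ × ℤ) × Bool) (hne : e₁ ≠ e₂)
    (h : ∀ e, RskBd C e → ¬ (e.1 ∈ S ↔ rswEnd e ∈ S) → e = e₁ ∨ e = e₂)
    (h1 : ¬ (e₁.1 ∈ S ↔ rswEnd e₁ ∈ S)) (h2 : ¬ (e₂.1 ∈ S ↔ rswEnd e₂ ∈ S)) : RskBd C e₁ ↔ RskBd C e₂ := by
  have key := par282_sum C S (C ×ˢ (univ : Finset Bool) ∪ par282E2 C ∪ {e₁, e₂})
    (subset_union_left.trans subset_union_left) (subset_union_right.trans subset_union_left)
  rw [← sum_subset (s₁ := {e₁, e₂}) subset_union_right, sum_pair hne, par282_B_one h1, par282_B_one h2, mul_one, mul_one] at key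
  · by_cases c1 : RskBd C e₁
    · by_cases c2 : RskBd C e₂
      · exact ⟨fun _ => c2, fun _ => c1⟩
      · rw [par282_C_one c1, par282_C_zero c2] at key
        exact absurd key (by decide)
    · by_cases c2 : RskBd C e₂
      · rw [par282_C_zero c1, par282_C_one c2] at key
        exact absurd key (by decide)
      · exact ⟨fun h' => absurd h' c1, fun h' => absurd h' c2⟩
  · intro e _ he
    by_cases c : RskBd C e
    · by_cases s : (e.1 ∈ S ↔ rswEnd e ∈ S)
      · rw [par282_B_zero s, mul_zero]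
      · exact absurd (by simpa using h e c s) he
    · rw [par282_C_zero c, zero_mul]

end Claimed.Agent.R292
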