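import Claimed.Agent.R292.Model.Wall191

/-!
# Row 292 (S0540), Model/Par41 : (W3) ONE FACE SPIN AT THE CLOSED EDGES OF THE WALL      (owner helper41; prefix `par41_`, `Par41`)

Leaf (W3) = `WlGC` of `Model/Wall191` (order MODEL-5 of 191), 0 sorry.
* sec 1 `par41_top / _bot / _left / _right`: the two sides of the rectangle `B` which join the explored end to the free end switch ONCE from `B \ Ch` to `Ch` (from `mdl41c_meet` with one more row / column).
* sec 2 `par41_three` (E): at most TWO edges of the wall have an end on the polygon of `B`.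
* sec 3 `par41_gc_of`: (W3) from (E) and the parity lemma, applied to `C = D ∩ Ch`.
* sec 4 `par41_two` (P) PARITY: the boundary of a finite set of faces has an even number of bichromatic edges. `par41_gc` (absolute rectangle), `par41_gc_full` (`Ch = B`),
  **`par41_gc_shell`** = `WlGC t (mdl41cB z r0 r1 w d) Ch a` under the hypotheses of the record `Mdl41cWBat`.
* sec 5 `par41_atom`: (WB) on one atom off the chamber (Holley to the lowered data, exact cut, screening, (S0) in `B`, chain of boxes).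
* sec 6 **`par41_wb_of`** = `Mdl41cWB t` from the records (W1) (W2) (W5)+(W6), (S0) in the rectangles (0 sorry). The records are discharged DOWNSTREAM (`Model/Wbc101` imports this file: `wbc101_wb_of`, wired in `Exit/MODEL`).
-/
set_option autoImplicit false
namespace Claimed.Agent.R292
open Claims Claims.C0468

/-! ## 1. the two sides of a rectangle switch once -/

theorem par41_adj_v (x y y' : ℤ) (h : y' = y + 1) : Mdl41cAdj (x, y) (x, y') :=
  (mdl41c_adj_iff _ _).2 (Or.inl ⟨rfl, Or.inr h⟩)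

theorem par41_adj_h (x x' y : ℤ) (h : x' = x + 1) : Mdl41cAdj (x, y) (x', y) :=
  (mdl41c_adj_iff _ _).2 (Or.inr ⟨rfl, Or.inr h⟩)

/-- top row, `X` on the left: no face of `Ch` to the left of a face of `X` -/
theorem par41_top {x0 x1 y0 y1 : ℤ} {Ch : Finset (ℤ × ℤ)} (hCh : Ch ⊆ Finset.Ico x0 x1 ×ˢ Finset.Ico y0 y1)
    (hJ : ∀ f ∈ Ch, ∀ g ∈ Ch, Mdl41cJoin Ch f g)
    (hJX : ∀ f ∈ (Finset.Ico x0 x1 ×ˢ Finset.Ico y0 y1) \ Ch, ∀ g ∈ (Finset.Ico x0 x1 ×ˢ Finset.Ico y0 y1) \ Ch,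
      Mdl41cJoin ((Finset.Ico x0 x1 ×ˢ Finset.Ico y0 y1) \ Ch) f g)
    (hL : (x0, y0) ∈ (Finset.Ico x0 x1 ×ˢ Finset.Ico y0 y1) \ Ch) (hR : (x1 - 1, y0) ∈ Ch) {i j : ℤ} (hij : i < j)
    (hi : (i, y1 - 1) ∈ Ch) (hj : (j, y1 - 1) ∈ (Finset.Ico x0 x1 ×ˢ Finset.Ico y0 y1) \ Ch) : False := by
  classical
  set B := Finset.Ico x0 x1 ×ˢ Finset.Ico y0 y1 with hB
  have hiB := hCh hi
  have hjB := (Finset.mem_sdiff.1 hj).1
  rw [hB, mdl41c_mem_rect] at hiB hjB
  simp only at hiB hjB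
  set P := Ch ∪ {(i, y1)} with hP
  set P' := (B \ Ch) ∪ (Finset.Ico j x1 ×ˢ Finset.Ico y1 (y1 + 1)) with hP'
  have hsub : P ⊆ Finset.Ico x0 x1 ×ˢ Finset.Ico y0 (y1 + 1) := by
    intro q hq
    rcases Finset.mem_union.1 hq with h | h
    · have := hCh h
      rw [hB, mdl41c_mem_rect] at this
      rw [mdl41c_mem_rect]
      omega
    · rw [Finset.mem_singleton] at h
      subst h
      rw [mdl41c_mem_rect]
      simp only
      omega
  have hsub' : P' ⊆ Finset.Ico x0 x1 ×ˢ Finset.Ico y0 (y1 + 1) := by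
    intro q hq
    rcases Finset.mem_union.1 hq with h | h
    · have := (Finset.mem_sdiff.1 h).1
      rw [hB, mdl41c_mem_rect] at this
      rw [mdl41c_mem_rect]
      omega
    · rw [mdl41c_mem_rect] at h ⊢
      omega
  have c1 : Mdl41cJoin P (x1 - 1, y0) (i, y1) :=
    mdl41c_join_trans (mdl41c_join_mono Finset.subset_union_left (hJ _ hR _ hi))
      (mdl41c_join_step (Finset.mem_union_left _ hi) (Finset.mem_union_right _ (Finset.mem_singleton_self _))
        (par41_adj_v _ _ _ (by ring)))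
  have m1 : (j, y1) ∈ Finset.Ico j x1 ×ˢ Finset.Ico y1 (y1 + 1) := by
    rw [mdl41c_mem_rect]; simp only; omega
  have m2 : (x1 - 1, y1) ∈ Finset.Ico j x1 ×ˢ Finset.Ico y1 (y1 + 1) := by
    rw [mdl41c_mem_rect]; simp only; omega
  have c2 : Mdl41cJoin P' (x0, y0) (x1 - 1, y1) :=
    mdl41c_join_trans (mdl41c_join_mono Finset.subset_union_left (hJX _ hL _ hj))
      (mdl41c_join_trans (mdl41c_join_step (Finset.mem_union_left _ hj) (Finset.mem_union_right _ m1)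
        (par41_adj_v _ _ _ (by ring))) (mdl41c_join_mono Finset.subset_union_right (mdl41c_rect_conn m1 m2)))
  refine mdl41c_meet x0 x1 y0 (y1 + 1) P P' hsub hsub' (x1 - 1, y0) (i, y1) (x0, y0) (x1 - 1, y1)
    (Finset.mem_union_left _ hR) rfl (by simp) c1 (Finset.mem_union_left _ hL) rfl rfl c2 ?_
  rw [Finset.disjoint_left]
  intro q hq hq'
  rcases Finset.mem_union.1 hq with h | h
  · rcases Finset.mem_union.1 hq' with h' | h'
    · exact (Finset.mem_sdiff.1 h').2 h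
    · have := hCh h
      rw [hB, mdl41c_mem_rect] at this
      rw [mdl41c_mem_rect] at h'
      omega
  · rw [Finset.mem_singleton] at h
    subst h
    rcases Finset.mem_union.1 hq' with h' | h'
    · have := (Finset.mem_sdiff.1 h').1
      rw [hB, mdl41c_mem_rect] at this
      simp only at this
      omega
    · rw [mdl41c_mem_rect] at h'
      simp only at h'
      omega

/-- bottom row, `X` on the left -/
theorem par41_bot {x0 x1 y0 y1 : ℤ}
    {Ch : Finset (ℤ × ℤ)} (hCh : Ch ⊆ Finset.Ico x0 x1 ×ˢ Finset.Ico y0 y1)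
    (hJ : ∀ f ∈ Ch, ∀ g ∈ Ch, Mdl41cJoin Ch f g)
    (hJX : ∀ f ∈ (Finset.Ico x0 x1 ×ˢ Finset.Ico y0 y1) \ Ch, ∀ g ∈ (Finset.Ico x0 x1 ×ˢ Finset.Ico y0 y1) \ Ch,
      Mdl41cJoin ((Finset.Ico x0 x1 ×ˢ Finset.Ico y0 y1) \ Ch) f g)
    (hL : (x0, y0) ∈ (Finset.Ico x0 x1 ×ˢ Finset.Ico y0 y1) \ Ch) (hR : (x1 - 1, y1 - 1) ∈ Ch) {i j : ℤ} (hij : i < j)
    (hi : (i, y0) ∈ Ch) (hj : (j, y0) ∈ (Finset.Ico x0 x1 ×ˢ Finset.Ico y0 y1) \ Ch) : False := by
  classical
  set B := Finset.Ico x0 x1 ×ˢ Finset.Ico y0 y1 with hB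
  have hiB := hCh hi
  have hjB := (Finset.mem_sdiff.1 hj).1
  rw [hB, mdl41c_mem_rect] at hiB hjB
  simp only at hiB hjB
  set P := Ch ∪ {(i, y0 - 1)} with hP
  set P' := (B \ Ch) ∪ (Finset.Ico j x1 ×ˢ Finset.Ico (y0 - 1) y0) with hP'
  have hsub : P ⊆ Finset.Ico x0 x1 ×ˢ Finset.Ico (y0 - 1) y1 := by
    intro q hq
    rcases Finset.mem_union.1 hq with h | h
    · have := hCh h
      rw [hB, mdl41c_mem_rect] at this
      rw [mdl41c_mem_rect]
      omega
    · rw [Finset.mem_singleton] at h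
      subst h
      rw [mdl41c_mem_rect]
      simp only
      omega
  have hsub' : P' ⊆ Finset.Ico x0 x1 ×ˢ Finset.Ico (y0 - 1) y1 := by
    intro q hq
    rcases Finset.mem_union.1 hq with h | h
    · have := (Finset.mem_sdiff.1 h).1
      rw [hB, mdl41c_mem_rect] at this
      rw [mdl41c_mem_rect]
      omega
    · rw [mdl41c_mem_rect] at h ⊢
      omega
  have c1 : Mdl41cJoin P (i, y0 - 1) (x1 - 1, y1 - 1) :=
    mdl41c_join_trans (mdl41c_join_step (Finset.mem_union_right _ (Finset.mem_singleton_self _)) (Finset.mem_union_left _ hi)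
        (par41_adj_v _ _ _ (by ring))) (mdl41c_join_mono Finset.subset_union_left (hJ _ hi _ hR))
  have m1 : (j, y0 - 1) ∈ Finset.Ico j x1 ×ˢ Finset.Ico (y0 - 1) y0 := by
    rw [mdl41c_mem_rect]; simp only; omega
  have m2 : (x1 - 1, y0 - 1) ∈ Finset.Ico j x1 ×ˢ Finset.Ico (y0 - 1) y0 := by
    rw [mdl41c_mem_rect]; simp only; omega
  have c2 : Mdl41cJoin P' (x0, y0) (x1 - 1, y0 - 1) :=
    mdl41c_join_trans (mdl41c_join_mono Finset.subset_union_left (hJX _ hL _ hj))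
      (mdl41c_join_trans (mdl41c_join_step (Finset.mem_union_left _ hj) (Finset.mem_union_right _ m1)
        (mdl41c_adj_symm (par41_adj_v _ _ _ (by ring)))) (mdl41c_join_mono Finset.subset_union_right (mdl41c_rect_conn m1 m2)))
  refine mdl41c_meet x0 x1 (y0 - 1) y1 P P' hsub hsub' (i, y0 - 1) (x1 - 1, y1 - 1) (x0, y0) (x1 - 1, y0 - 1)
    (Finset.mem_union_right _ (Finset.mem_singleton_self _)) rfl rfl c1 (Finset.mem_union_left _ hL) rfl rfl c2 ?_
  rw [Finset.disjoint_left]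
  intro q hq hq'
  rcases Finset.mem_union.1 hq with h | h
  · rcases Finset.mem_union.1 hq' with h' | h'
    · first
        | exact (Finset.mem_sdiff.1 h').2 h
        | exact (Finset.mem_sdiff.1 h).2 h'
    · first
        | (have := hCh h
           rw [hB, mdl41c_mem_rect] at this
           rw [mdl41c_mem_rect] at h'
           omega)
        | (have := (Finset.mem_sdiff.1 h).1
           rw [hB, mdl41c_mem_rect] at this
           rw [Finset.mem_singleton] at h'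
           subst h'
           simp only at this
           omega)
  · rcases Finset.mem_union.1 hq' with h' | h'
    · first
        | (rw [Finset.mem_singleton] at h
           subst h
           have := (Finset.mem_sdiff.1 h').1
           rw [hB, mdl41c_mem_rect] at this
           simp only at this
           omega)
        | (have := hCh h'
           rw [hB, mdl41c_mem_rect] at this
           rw [mdl41c_mem_rect] at h
           omega)
    · first
        | (rw [Finset.mem_singleton] at h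
           subst h
           rw [mdl41c_mem_rect] at h'
           simp only at h'
           omega)
        | (rw [Finset.mem_singleton] at h'
           subst h'
           rw [mdl41c_mem_rect] at h
           simp only at h
           omega)

/-- left column, `X` at the bottom -/
theorem par41_left {x0 x1 y0 y1 : ℤ}
    {Ch : Finset (ℤ × ℤ)} (hCh : Ch ⊆ Finset.Ico x0 x1 ×ˢ Finset.Ico y0 y1)
    (hJ : ∀ f ∈ Ch, ∀ g ∈ Ch, Mdl41cJoin Ch f g)
    (hJX : ∀ f ∈ (Finset.Ico x0 x1 ×ˢ Finset.Ico y0 y1) \ Ch, ∀ g ∈ (Finset.Ico x0 x1 ×ˢ Finset.Ico y0 y1) \ Ch,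
      Mdl41cJoin ((Finset.Ico x0 x1 ×ˢ Finset.Ico y0 y1) \ Ch) f g)
    (hL : (x0, y0) ∈ (Finset.Ico x0 x1 ×ˢ Finset.Ico y0 y1) \ Ch) (hR : (x1 - 1, y1 - 1) ∈ Ch) {i j : ℤ} (hij : i < j)
    (hi : (x0, i) ∈ Ch) (hj : (x0, j) ∈ (Finset.Ico x0 x1 ×ˢ Finset.Ico y0 y1) \ Ch) : False := by
  classical
  set B := Finset.Ico x0 x1 ×ˢ Finset.Ico y0 y1 with hB
  have hiB := hCh hi
  have hjB := (Finset.mem_sdiff.1 hj).1
  rw [hB, mdl41c_mem_rect] at hiB hjB
  simp only at hiB hjB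
  set P := Ch ∪ {(x0 - 1, i)} with hP
  set P' := (B \ Ch) ∪ (Finset.Ico (x0 - 1) x0 ×ˢ Finset.Ico j y1) with hP'
  have hsub : P ⊆ Finset.Ico (x0 - 1) x1 ×ˢ Finset.Ico y0 y1 := by
    intro q hq
    rcases Finset.mem_union.1 hq with h | h
    · have := hCh h
      rw [hB, mdl41c_mem_rect] at this
      rw [mdl41c_mem_rect]
      omega
    · rw [Finset.mem_singleton] at h
      subst h
      rw [mdl41c_mem_rect]
      simp only
      omega
  have hsub' : P' ⊆ Finset.Ico (x0 - 1) x1 ×ˢ Finset.Ico y0 y1 := by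
    intro q hq
    rcases Finset.mem_union.1 hq with h | h
    · have := (Finset.mem_sdiff.1 h).1
      rw [hB, mdl41c_mem_rect] at this
      rw [mdl41c_mem_rect]
      omega
    · rw [mdl41c_mem_rect] at h ⊢
      omega
  have c1 : Mdl41cJoin P (x0 - 1, i) (x1 - 1, y1 - 1) :=
    mdl41c_join_trans (mdl41c_join_step (Finset.mem_union_right _ (Finset.mem_singleton_self _)) (Finset.mem_union_left _ hi)
        (par41_adj_h _ _ _ (by ring))) (mdl41c_join_mono Finset.subset_union_left (hJ _ hi _ hR))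
  have m1 : (x0 - 1, j) ∈ Finset.Ico (x0 - 1) x0 ×ˢ Finset.Ico j y1 := by
    rw [mdl41c_mem_rect]; simp only; omega
  have m2 : (x0 - 1, y1 - 1) ∈ Finset.Ico (x0 - 1) x0 ×ˢ Finset.Ico j y1 := by
    rw [mdl41c_mem_rect]; simp only; omega
  have c2 : Mdl41cJoin P' (x0, y0) (x0 - 1, y1 - 1) :=
    mdl41c_join_trans (mdl41c_join_mono Finset.subset_union_left (hJX _ hL _ hj))
      (mdl41c_join_trans (mdl41c_join_step (Finset.mem_union_left _ hj) (Finset.mem_union_right _ m1)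
        (mdl41c_adj_symm (par41_adj_h _ _ _ (by ring)))) (mdl41c_join_mono Finset.subset_union_right (mdl41c_rect_conn m1 m2)))
  refine mdl41c_meet (x0 - 1) x1 y0 y1 P' P hsub' hsub (x0, y0) (x0 - 1, y1 - 1) (x0 - 1, i) (x1 - 1, y1 - 1)
    (Finset.mem_union_left _ hL) rfl rfl c2 (Finset.mem_union_right _ (Finset.mem_singleton_self _)) rfl rfl c1 ?_
  rw [Finset.disjoint_left]
  intro q hq hq'
  rcases Finset.mem_union.1 hq with h | h
  · rcases Finset.mem_union.1 hq' with h' | h'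
    · first
        | exact (Finset.mem_sdiff.1 h').2 h
        | exact (Finset.mem_sdiff.1 h).2 h'
    · first
        | (have := hCh h
           rw [hB, mdl41c_mem_rect] at this
           rw [mdl41c_mem_rect] at h'
           omega)
        | (have := (Finset.mem_sdiff.1 h).1
           rw [hB, mdl41c_mem_rect] at this
           rw [Finset.mem_singleton] at h'
           subst h'
           simp only at this
           omega)
  · rcases Finset.mem_union.1 hq' with h' | h'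
    · first
        | (rw [Finset.mem_singleton] at h
           subst h
           have := (Finset.mem_sdiff.1 h').1
           rw [hB, mdl41c_mem_rect] at this
           simp only at this
           omega)
        | (have := hCh h'
           rw [hB, mdl41c_mem_rect] at this
           rw [mdl41c_mem_rect] at h
           omega)
    · first
        | (rw [Finset.mem_singleton] at h
           subst h
           rw [mdl41c_mem_rect] at h'
           simp only at h'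
           omega)
        | (rw [Finset.mem_singleton] at h'
           subst h'
           rw [mdl41c_mem_rect] at h
           simp only at h
           omega)

/-- right column, `X` at the bottom -/
theorem par41_right {x0 x1 y0 y1 : ℤ}
    {Ch : Finset (ℤ × ℤ)} (hCh : Ch ⊆ Finset.Ico x0 x1 ×ˢ Finset.Ico y0 y1)
    (hJ : ∀ f ∈ Ch, ∀ g ∈ Ch, Mdl41cJoin Ch f g)
    (hJX : ∀ f ∈ (Finset.Ico x0 x1 ×ˢ Finset.Ico y0 y1) \ Ch, ∀ g ∈ (Finset.Ico x0 x1 ×ˢ Finset.Ico y0 y1) \ Ch,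
      Mdl41cJoin ((Finset.Ico x0 x1 ×ˢ Finset.Ico y0 y1) \ Ch) f g)
    (hL : (x0, y0) ∈ (Finset.Ico x0 x1 ×ˢ Finset.Ico y0 y1) \ Ch) (hR : (x0, y1 - 1) ∈ Ch) {i j : ℤ} (hij : i < j)
    (hi : (x1 - 1, i) ∈ Ch) (hj : (x1 - 1, j) ∈ (Finset.Ico x0 x1 ×ˢ Finset.Ico y0 y1) \ Ch) : False := by
  classical
  set B := Finset.Ico x0 x1 ×ˢ Finset.Ico y0 y1 with hB
  have hiB := hCh hi
  have hjB := (Finset.mem_sdiff.1 hj).1
  rw [hB, mdl41c_mem_rect] at hiB hjB
  simp only at hiB hjB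
  set P := Ch ∪ {(x1, i)} with hP
  set P' := (B \ Ch) ∪ (Finset.Ico x1 (x1 + 1) ×ˢ Finset.Ico j y1) with hP'
  have hsub : P ⊆ Finset.Ico x0 (x1 + 1) ×ˢ Finset.Ico y0 y1 := by
    intro q hq
    rcases Finset.mem_union.1 hq with h | h
    · have := hCh h
      rw [hB, mdl41c_mem_rect] at this
      rw [mdl41c_mem_rect]
      omega
    · rw [Finset.mem_singleton] at h
      subst h
      rw [mdl41c_mem_rect]
      simp only
      omega
  have hsub' : P' ⊆ Finset.Ico x0 (x1 + 1) ×ˢ Finset.Ico y0 y1 := by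
    intro q hq
    rcases Finset.mem_union.1 hq with h | h
    · have := (Finset.mem_sdiff.1 h).1
      rw [hB, mdl41c_mem_rect] at this
      rw [mdl41c_mem_rect]
      omega
    · rw [mdl41c_mem_rect] at h ⊢
      omega
  have c1 : Mdl41cJoin P (x0, y1 - 1) (x1, i) :=
    mdl41c_join_trans (mdl41c_join_mono Finset.subset_union_left (hJ _ hR _ hi))
      (mdl41c_join_step (Finset.mem_union_left _ hi) (Finset.mem_union_right _ (Finset.mem_singleton_self _))
        (par41_adj_h _ _ _ (by ring)))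
  have m1 : (x1, j) ∈ Finset.Ico x1 (x1 + 1) ×ˢ Finset.Ico j y1 := by
    rw [mdl41c_mem_rect]; simp only; omega
  have m2 : (x1, y1 - 1) ∈ Finset.Ico x1 (x1 + 1) ×ˢ Finset.Ico j y1 := by
    rw [mdl41c_mem_rect]; simp only; omega
  have c2 : Mdl41cJoin P' (x0, y0) (x1, y1 - 1) :=
    mdl41c_join_trans (mdl41c_join_mono Finset.subset_union_left (hJX _ hL _ hj))
      (mdl41c_join_trans (mdl41c_join_step (Finset.mem_union_left _ hj) (Finset.mem_union_right _ m1)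
        (par41_adj_h _ _ _ (by ring))) (mdl41c_join_mono Finset.subset_union_right (mdl41c_rect_conn m1 m2)))
  refine mdl41c_meet x0 (x1 + 1) y0 y1 P' P hsub' hsub (x0, y0) (x1, y1 - 1) (x0, y1 - 1) (x1, i)
    (Finset.mem_union_left _ hL) rfl rfl c2 (Finset.mem_union_left _ hR) rfl (by simp) c1 ?_
  rw [Finset.disjoint_left]
  intro q hq hq'
  rcases Finset.mem_union.1 hq with h | h
  · rcases Finset.mem_union.1 hq' with h' | h'
    · first
        | exact (Finset.mem_sdiff.1 h').2 h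
        | exact (Finset.mem_sdiff.1 h).2 h'
    · first
        | (have := hCh h
           rw [hB, mdl41c_mem_rect] at this
           rw [mdl41c_mem_rect] at h'
           omega)
        | (have := (Finset.mem_sdiff.1 h).1
           rw [hB, mdl41c_mem_rect] at this
           rw [Finset.mem_singleton] at h'
           subst h'
           simp only at this
           omega)
  · rcases Finset.mem_union.1 hq' with h' | h'
    · first
        | (rw [Finset.mem_singleton] at h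
           subst h
           have := (Finset.mem_sdiff.1 h').1
           rw [hB, mdl41c_mem_rect] at this
           simp only at this
           omega)
        | (have := hCh h'
           rw [hB, mdl41c_mem_rect] at this
           rw [mdl41c_mem_rect] at h
           omega)
    · first
        | (rw [Finset.mem_singleton] at h
           subst h
           rw [mdl41c_mem_rect] at h'
           simp only at h'
           omega)
        | (rw [Finset.mem_singleton] at h'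
           subst h'
           rw [mdl41c_mem_rect] at h
           simp only at h
           omega)

/-! ## 2. the wall of a chamber of a rectangle has at most two ends -/

theorem par41_poly_rect {x0 x1 y0 y1 : ℤ} {v : ℤ × ℤ} :
    OnPolygon (Finset.Ico x0 x1 ×ˢ Finset.Ico y0 y1) v ↔ ¬ (x0 < v.1 ∧ v.1 < x1 ∧ y0 < v.2 ∧ v.2 < y1) := by
  unfold OnPolygon
  rw [mdl41c_mem_rect, mdl41c_mem_rect, mdl41c_mem_rect, mdl41c_mem_rect]
  simp only
  constructor <;> intro h h' <;> apply h <;> omega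

/-- an END of the wall: an edge of `B` between `Ch` and `B \ Ch` with an end on the polygon of `B` -/
def Par41End (B Ch : Finset (ℤ × ℤ)) (e : (ℤ × ℤ) × Bool) : Prop :=
  e ∈ rswInt B ∧ RskBd Ch e ∧ (OnPolygon B e.1 ∨ OnPolygon B (rswEnd e))

/-- `X` holds the left column, `Ch` the right column: the ends of the wall are vertical edges of the bottom row or of the top row, `Ch` on their right -/
theorem par41_endH {x0 x1 y0 y1 : ℤ} {Ch : Finset (ℤ × ℤ)} (hCh : Ch ⊆ Finset.Ico x0 x1 ×ˢ Finset.Ico y0 y1)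
    (hJ : ∀ f ∈ Ch, ∀ g ∈ Ch, Mdl41cJoin Ch f g)
    (hJX : ∀ f ∈ (Finset.Ico x0 x1 ×ˢ Finset.Ico y0 y1) \ Ch, ∀ g ∈ (Finset.Ico x0 x1 ×ˢ Finset.Ico y0 y1) \ Ch,
      Mdl41cJoin ((Finset.Ico x0 x1 ×ˢ Finset.Ico y0 y1) \ Ch) f g)
    (hx : x0 + 2 ≤ x1) (hy : y0 + 2 ≤ y1)
    (hs : ∀ y, y0 ≤ y → y < y1 → (x0, y) ∉ Ch ∧ (x1 - 1, y) ∈ Ch) {e : (ℤ × ℤ) × Bool}
    (he : Par41End (Finset.Ico x0 x1 ×ˢ Finset.Ico y0 y1) Ch e) :
    e.2 = true ∧ (e.1.2 = y0 ∨ e.1.2 = y1 - 1) ∧ e.1 ∈ Ch ∧ (e.1.1 - 1, e.1.2) ∉ Ch := by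
  obtain ⟨⟨u1, u2⟩, β⟩ := e
  obtain ⟨h1, h2, h3⟩ := he
  rw [rsk_mem_int] at h1
  obtain ⟨h1a, h1b⟩ := h1
  rw [par41_poly_rect, par41_poly_rect] at h3
  have hL : (x0, y0) ∈ (Finset.Ico x0 x1 ×ˢ Finset.Ico y0 y1) \ Ch :=
    Finset.mem_sdiff.2 ⟨by rw [mdl41c_mem_rect]; simp only; omega, (hs y0 le_rfl (by omega)).1⟩
  cases β with
  | false =>
    exfalso
    simp only [rswCo, rswEnd, Bool.false_eq_true, if_false] at h1a h1b h2 h3
    unfold RskBd at h2
    simp only [rswCo, Bool.false_eq_true, if_false] at h2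
    rw [mdl41c_mem_rect] at h1a h1b
    simp only at h1a h1b
    have hc : u1 = x0 ∨ u1 = x1 - 1 := by omega
    rcases hc with rfl | rfl
    · have a1 := (hs u2 (by omega) (by omega)).1
      have a2 := (hs (u2 - 1) (by omega) (by omega)).1
      tauto
    · have a1 := (hs u2 (by omega) (by omega)).2
      have a2 := (hs (u2 - 1) (by omega) (by omega)).2
      tauto
  | true =>
    simp only [rswCo, rswEnd, if_true] at h1a h1b h2 h3
    unfold RskBd at h2
    simp only [rswCo, if_true] at h2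
    have h1a' := h1a
    have h1b' := h1b
    rw [mdl41c_mem_rect] at h1a' h1b'
    simp only at h1a' h1b'
    have hc : u2 = y0 ∨ u2 = y1 - 1 := by omega
    refine ⟨rfl, hc, ?_⟩
    rcases h2 with h2 | h2
    · exact h2
    · exfalso
      rcases hc with rfl | rfl
      · exact par41_bot hCh hJ hJX hL (hs (y1 - 1) (by omega) (by omega)).2 (i := u1 - 1) (j := u1) (by omega) h2.2
          (Finset.mem_sdiff.2 ⟨h1a, h2.1⟩)
      · exact par41_top hCh hJ hJX hL (hs y0 le_rfl (by omega)).2 (i := u1 - 1) (j := u1) (by omega) h2.2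
          (Finset.mem_sdiff.2 ⟨h1a, h2.1⟩)

theorem par41_endH_uniq {x0 x1 y0 y1 : ℤ} {Ch : Finset (ℤ × ℤ)} (hCh : Ch ⊆ Finset.Ico x0 x1 ×ˢ Finset.Ico y0 y1)
    (hJ : ∀ f ∈ Ch, ∀ g ∈ Ch, Mdl41cJoin Ch f g)
    (hJX : ∀ f ∈ (Finset.Ico x0 x1 ×ˢ Finset.Ico y0 y1) \ Ch, ∀ g ∈ (Finset.Ico x0 x1 ×ˢ Finset.Ico y0 y1) \ Ch,
      Mdl41cJoin ((Finset.Ico x0 x1 ×ˢ Finset.Ico y0 y1) \ Ch) f g)
    (hx : x0 + 2 ≤ x1) (hy : y0 + 2 ≤ y1)
    (hs : ∀ y, y0 ≤ y → y < y1 → (x0, y) ∉ Ch ∧ (x1 - 1, y) ∈ Ch) {e e' : (ℤ × ℤ) × Bool}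
    (he : Par41End (Finset.Ico x0 x1 ×ˢ Finset.Ico y0 y1) Ch e) (he' : Par41End (Finset.Ico x0 x1 ×ˢ Finset.Ico y0 y1) Ch e')
    (hrow : e.1.2 = e'.1.2) : e = e' := by
  have key : ∀ {e e' : (ℤ × ℤ) × Bool}, Par41End (Finset.Ico x0 x1 ×ˢ Finset.Ico y0 y1) Ch e →
      Par41End (Finset.Ico x0 x1 ×ˢ Finset.Ico y0 y1) Ch e' → e.1.2 = e'.1.2 → ¬ e.1.1 < e'.1.1 := by
    intro e e' he he' hrow hlt
    obtain ⟨a1, a2, a3, a4⟩ := par41_endH hCh hJ hJX hx hy hs he
    obtain ⟨b1, b2, b3, b4⟩ := par41_endH hCh hJ hJX hx hy hs he'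
    have hL : (x0, y0) ∈ (Finset.Ico x0 x1 ×ˢ Finset.Ico y0 y1) \ Ch :=
      Finset.mem_sdiff.2 ⟨by rw [mdl41c_mem_rect]; simp only; omega, (hs y0 le_rfl (by omega)).1⟩
    obtain ⟨⟨u1, u2⟩, β⟩ := e
    obtain ⟨⟨v1, v2⟩, β'⟩ := e'
    simp only at a1 a2 a3 a4 b1 b2 b3 b4 hrow hlt
    subst hrow
    have hB' : (v1 - 1, u2) ∈ Finset.Ico x0 x1 ×ˢ Finset.Ico y0 y1 := by
      have := (rsk_mem_int.1 he'.1).2
      subst b1
      simpa [rswCo] using this
    by_cases hEq : u1 = v1 - 1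
    · subst hEq
      exact b4 a3
    · rcases a2 with rfl | rfl
      · exact par41_bot hCh hJ hJX hL (hs (y1 - 1) (by omega) (by omega)).2 (i := u1) (j := v1 - 1) (by omega) a3
          (Finset.mem_sdiff.2 ⟨hB', b4⟩)
      · exact par41_top hCh hJ hJX hL (hs y0 le_rfl (by omega)).2 (i := u1) (j := v1 - 1) (by omega) a3
          (Finset.mem_sdiff.2 ⟨hB', b4⟩)
  have k1 := key he he' hrow
  have k2 := key he' he hrow.symm
  have a1 := (par41_endH hCh hJ hJX hx hy hs he).1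
  have b1 := (par41_endH hCh hJ hJX hx hy hs he').1
  obtain ⟨⟨u1, u2⟩, β⟩ := e
  obtain ⟨⟨v1, v2⟩, β'⟩ := e'
  simp only at a1 b1 hrow k1 k2
  subst a1 b1 hrow
  have : u1 = v1 := by omega
  subst this
  rfl

/-- `X` holds the bottom row, `Ch` the top row: the ends of the wall are horizontal edges of the left column or of the right column, `Ch` above them -/
theorem par41_endV {x0 x1 y0 y1 : ℤ} {Ch : Finset (ℤ × ℤ)} (hCh : Ch ⊆ Finset.Ico x0 x1 ×ˢ Finset.Ico y0 y1)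
    (hJ : ∀ f ∈ Ch, ∀ g ∈ Ch, Mdl41cJoin Ch f g)
    (hJX : ∀ f ∈ (Finset.Ico x0 x1 ×ˢ Finset.Ico y0 y1) \ Ch, ∀ g ∈ (Finset.Ico x0 x1 ×ˢ Finset.Ico y0 y1) \ Ch,
      Mdl41cJoin ((Finset.Ico x0 x1 ×ˢ Finset.Ico y0 y1) \ Ch) f g)
    (hx : x0 + 2 ≤ x1) (hy : y0 + 2 ≤ y1)
    (hs : ∀ x, x0 ≤ x → x < x1 → (x, y0) ∉ Ch ∧ (x, y1 - 1) ∈ Ch) {e : (ℤ × ℤ) × Bool}
    (he : Par41End (Finset.Ico x0 x1 ×ˢ Finset.Ico y0 y1) Ch e) :
    e.2 = false ∧ (e.1.1 = x0 ∨ e.1.1 = x1 - 1) ∧ e.1 ∈ Ch ∧ (e.1.1, e.1.2 - 1) ∉ Ch := by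
  obtain ⟨⟨u1, u2⟩, β⟩ := e
  obtain ⟨h1, h2, h3⟩ := he
  rw [rsk_mem_int] at h1
  obtain ⟨h1a, h1b⟩ := h1
  rw [par41_poly_rect, par41_poly_rect] at h3
  have hL : (x0, y0) ∈ (Finset.Ico x0 x1 ×ˢ Finset.Ico y0 y1) \ Ch :=
    Finset.mem_sdiff.2 ⟨by rw [mdl41c_mem_rect]; simp only; omega, (hs x0 le_rfl (by omega)).1⟩
  cases β with
  | true =>
    exfalso
    simp only [rswCo, rswEnd, if_true] at h1a h1b h2 h3
    unfold RskBd at h2
    simp only [rswCo, if_true] at h2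
    rw [mdl41c_mem_rect] at h1a h1b
    simp only at h1a h1b
    have hc : u2 = y0 ∨ u2 = y1 - 1 := by omega
    rcases hc with rfl | rfl
    · have a1 := (hs u1 (by omega) (by omega)).1
      have a2 := (hs (u1 - 1) (by omega) (by omega)).1
      tauto
    · have a1 := (hs u1 (by omega) (by omega)).2
      have a2 := (hs (u1 - 1) (by omega) (by omega)).2
      tauto
  | false =>
    simp only [rswCo, rswEnd, Bool.false_eq_true, if_false] at h1a h1b h2 h3
    unfold RskBd at h2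
    simp only [rswCo, Bool.false_eq_true, if_false] at h2
    have h1a' := h1a
    have h1b' := h1b
    rw [mdl41c_mem_rect] at h1a' h1b'
    simp only at h1a' h1b'
    have hc : u1 = x0 ∨ u1 = x1 - 1 := by omega
    refine ⟨rfl, hc, ?_⟩
    rcases h2 with h2 | h2
    · exact h2
    · exfalso
      rcases hc with rfl | rfl
      · exact par41_left hCh hJ hJX hL (hs (x1 - 1) (by omega) (by omega)).2 (i := u2 - 1) (j := u2) (by omega) h2.2
          (Finset.mem_sdiff.2 ⟨h1a, h2.1⟩)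
      · exact par41_right hCh hJ hJX hL (hs x0 le_rfl (by omega)).2 (i := u2 - 1) (j := u2) (by omega) h2.2
          (Finset.mem_sdiff.2 ⟨h1a, h2.1⟩)

theorem par41_endV_uniq {x0 x1 y0 y1 : ℤ} {Ch : Finset (ℤ × ℤ)} (hCh : Ch ⊆ Finset.Ico x0 x1 ×ˢ Finset.Ico y0 y1)
    (hJ : ∀ f ∈ Ch, ∀ g ∈ Ch, Mdl41cJoin Ch f g)
    (hJX : ∀ f ∈ (Finset.Ico x0 x1 ×ˢ Finset.Ico y0 y1) \ Ch, ∀ g ∈ (Finset.Ico x0 x1 ×ˢ Finset.Ico y0 y1) \ Ch,
      Mdl41cJoin ((Finset.Ico x0 x1 ×ˢ Finset.Ico y0 y1) \ Ch) f g)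
    (hx : x0 + 2 ≤ x1) (hy : y0 + 2 ≤ y1)
    (hs : ∀ x, x0 ≤ x → x < x1 → (x, y0) ∉ Ch ∧ (x, y1 - 1) ∈ Ch) {e e' : (ℤ × ℤ) × Bool}
    (he : Par41End (Finset.Ico x0 x1 ×ˢ Finset.Ico y0 y1) Ch e) (he' : Par41End (Finset.Ico x0 x1 ×ˢ Finset.Ico y0 y1) Ch e')
    (hcol : e.1.1 = e'.1.1) : e = e' := by
  have key : ∀ {e e' : (ℤ × ℤ) × Bool}, Par41End (Finset.Ico x0 x1 ×ˢ Finset.Ico y0 y1) Ch e →
      Par41End (Finset.Ico x0 x1 ×ˢ Finset.Ico y0 y1) Ch e' → e.1.1 = e'.1.1 → ¬ e.1.2 < e'.1.2 := by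
    intro e e' he he' hcol hlt
    obtain ⟨a1, a2, a3, a4⟩ := par41_endV hCh hJ hJX hx hy hs he
    obtain ⟨b1, b2, b3, b4⟩ := par41_endV hCh hJ hJX hx hy hs he'
    have hL : (x0, y0) ∈ (Finset.Ico x0 x1 ×ˢ Finset.Ico y0 y1) \ Ch :=
      Finset.mem_sdiff.2 ⟨by rw [mdl41c_mem_rect]; simp only; omega, (hs x0 le_rfl (by omega)).1⟩
    obtain ⟨⟨u1, u2⟩, β⟩ := e
    obtain ⟨⟨v1, v2⟩, β'⟩ := e'
    simp only at a1 a2 a3 a4 b1 b2 b3 b4 hcol hlt
    subst hcol
    have hB' : (u1, v2 - 1) ∈ Finset.Ico x0 x1 ×ˢ Finset.Ico y0 y1 := by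
      have := (rsk_mem_int.1 he'.1).2
      subst b1
      simpa [rswCo] using this
    by_cases hEq : u2 = v2 - 1
    · subst hEq
      exact b4 a3
    · rcases a2 with rfl | rfl
      · exact par41_left hCh hJ hJX hL (hs (x1 - 1) (by omega) (by omega)).2 (i := u2) (j := v2 - 1) (by omega) a3
          (Finset.mem_sdiff.2 ⟨hB', b4⟩)
      · exact par41_right hCh hJ hJX hL (hs x0 le_rfl (by omega)).2 (i := u2) (j := v2 - 1) (by omega) a3
          (Finset.mem_sdiff.2 ⟨hB', b4⟩)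
  have k1 := key he he' hcol
  have k2 := key he' he hcol.symm
  have a1 := (par41_endV hCh hJ hJX hx hy hs he).1
  have b1 := (par41_endV hCh hJ hJX hx hy hs he').1
  obtain ⟨⟨u1, u2⟩, β⟩ := e
  obtain ⟨⟨v1, v2⟩, β'⟩ := e'
  simp only at a1 b1 hcol k1 k2
  subst a1 b1 hcol
  have : u2 = v2 := by omega
  subst this
  rfl

/-- **(E) AT MOST TWO ENDS** -/
theorem par41_three {x0 x1 y0 y1 : ℤ} {Ch : Finset (ℤ × ℤ)} (hCh : Ch ⊆ Finset.Ico x0 x1 ×ˢ Finset.Ico y0 y1)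
    (hJ : ∀ f ∈ Ch, ∀ g ∈ Ch, Mdl41cJoin Ch f g)
    (hJX : ∀ f ∈ (Finset.Ico x0 x1 ×ˢ Finset.Ico y0 y1) \ Ch, ∀ g ∈ (Finset.Ico x0 x1 ×ˢ Finset.Ico y0 y1) \ Ch,
      Mdl41cJoin ((Finset.Ico x0 x1 ×ˢ Finset.Ico y0 y1) \ Ch) f g)
    (hx : x0 + 2 ≤ x1) (hy : y0 + 2 ≤ y1)
    (hs : (∀ y, y0 ≤ y → y < y1 → (x0, y) ∉ Ch ∧ (x1 - 1, y) ∈ Ch) ∨ (∀ x, x0 ≤ x → x < x1 → (x, y0) ∉ Ch ∧ (x, y1 - 1) ∈ Ch))
    {e e' e'' : (ℤ × ℤ) × Bool}
    (he : Par41End (Finset.Ico x0 x1 ×ˢ Finset.Ico y0 y1) Ch e) (he' : Par41End (Finset.Ico x0 x1 ×ˢ Finset.Ico y0 y1) Ch e')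
    (he'' : Par41End (Finset.Ico x0 x1 ×ˢ Finset.Ico y0 y1) Ch e'') : e = e' ∨ e = e'' ∨ e' = e'' := by
  rcases hs with hs | hs
  · have a := (par41_endH hCh hJ hJX hx hy hs he).2.1
    have a' := (par41_endH hCh hJ hJX hx hy hs he').2.1
    have a'' := (par41_endH hCh hJ hJX hx hy hs he'').2.1
    have : e.1.2 = e'.1.2 ∨ e.1.2 = e''.1.2 ∨ e'.1.2 = e''.1.2 := by omega
    rcases this with h | h | h
    · exact Or.inl (par41_endH_uniq hCh hJ hJX hx hy hs he he' h)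
    · exact Or.inr (Or.inl (par41_endH_uniq hCh hJ hJX hx hy hs he he'' h))
    · exact Or.inr (Or.inr (par41_endH_uniq hCh hJ hJX hx hy hs he' he'' h))
  · have a := (par41_endV hCh hJ hJX hx hy hs he).2.1
    have a' := (par41_endV hCh hJ hJX hx hy hs he').2.1
    have a'' := (par41_endV hCh hJ hJX hx hy hs he'').2.1
    have : e.1.1 = e'.1.1 ∨ e.1.1 = e''.1.1 ∨ e'.1.1 = e''.1.1 := by omega
    rcases this with h | h | h
    · exact Or.inl (par41_endV_uniq hCh hJ hJX hx hy hs he he' h)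
    · exact Or.inr (Or.inl (par41_endV_uniq hCh hJ hJX hx hy hs he he'' h))
    · exact Or.inr (Or.inr (par41_endV_uniq hCh hJ hJX hx hy hs he' he'' h))

/-! ## 3. (W3) one face spin at the closed edges of the wall -/

/-- the statement of the parity lemma -/
def Par41Two : Prop :=
  ∀ (C S : Finset (ℤ × ℤ)) (e₁ e₂ : (ℤ × ℤ) × Bool), e₁ ≠ e₂ →
    (∀ e, RskBd C e → ¬ (e.1 ∈ S ↔ rswEnd e ∈ S) → e = e₁ ∨ e = e₂) →
    ¬ (e₁.1 ∈ S ↔ rswEnd e₁ ∈ S) → ¬ (e₂.1 ∈ S ↔ rswEnd e₂ ∈ S) → (RskBd C e₁ ↔ RskBd C e₂)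

/-- no interior edge of a thick rectangle has both ends on the polygon -/
theorem par41_thin {x0 x1 y0 y1 : ℤ} (hx : x0 + 2 ≤ x1) (hy : y0 + 2 ≤ y1) {e : (ℤ × ℤ) × Bool}
    (he : e ∈ rswInt (Finset.Ico x0 x1 ×ˢ Finset.Ico y0 y1)) :
    ¬ (OnPolygon (Finset.Ico x0 x1 ×ˢ Finset.Ico y0 y1) e.1 ∧ OnPolygon (Finset.Ico x0 x1 ×ˢ Finset.Ico y0 y1) (rswEnd e)) := by
  obtain ⟨⟨u1, u2⟩, β⟩ := e
  rw [rsk_mem_int, mdl41c_mem_rect, mdl41c_mem_rect] at he
  rw [par41_poly_rect, par41_poly_rect]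
  cases β <;> simp only [rswCo, rswEnd, Bool.false_eq_true, if_false, if_true] at he ⊢ <;> omega

theorem par41_wt {t : ℝ} {B : Finset (ℤ × ℤ)} {c : Bool} {ω : RswCfg} (h : rswWt t B c ω ≠ 0) :
    RswBc B c ω ∧ ∀ e ∈ rswInt B, (e ∈ ω.O → (e.1 ∈ ω.S ↔ rswEnd e ∈ ω.S)) ∧ (e ∉ ω.O → (e.1 ∈ ω.D ↔ rswCo e ∈ ω.D)) := by
  classical
  unfold rswWt at h
  by_cases hbc : RswBc B c ω
  · rw [if_pos hbc, Finset.prod_ne_zero_iff] at h
    refine ⟨hbc, fun e he => ?_⟩
    have h1 := h e he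
    unfold rswFac at h1
    constructor
    · intro ho
      rw [if_pos ho] at h1
      by_contra hn
      rw [if_neg hn] at h1
      exact h1 rfl
    · intro ho
      rw [if_neg ho] at h1
      by_contra hn
      rw [if_neg hn] at h1
      exact h1 rfl
  · rw [if_neg hbc] at h
    exact absurd rfl h

theorem par41_bool {a : Bool} {p q : Prop} (h1 : p ↔ (!a) = true) (h2 : q ↔ a = true) : ¬ (p ↔ q) := by
  cases a <;> simp at h1 h2 <;> tauto

theorem par41_dis_of_bd {Ch : Finset (ℤ × ℤ)} {e : (ℤ × ℤ) × Bool} (hb : RskBd Ch e) : Mdl41Dis Ch e := by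
  unfold Mdl41Dis
  rcases hb with h | h <;> tauto

theorem par41_bd_inter_int {D Ch : Finset (ℤ × ℤ)} {e : (ℤ × ℤ) × Bool} (p : e.1 ∈ Ch) (q : rswCo e ∈ Ch)
    (hb : RskBd (D ∩ Ch) e) : ¬ (e.1 ∈ D ↔ rswCo e ∈ D) := by
  unfold RskBd at hb
  simp only [Finset.mem_inter] at hb
  tauto

theorem par41_bd_inter_out {D Ch : Finset (ℤ × ℤ)} {e : (ℤ × ℤ) × Bool} (p : e.1 ∉ Ch) (q : rswCo e ∉ Ch) :
    ¬ RskBd (D ∩ Ch) e := by
  unfold RskBd
  simp only [Finset.mem_inter]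
  tauto

theorem par41_bd_inter_rel {D Ch : Finset (ℤ × ℤ)} {e : (ℤ × ℤ) × Bool} (hb : RskBd Ch e)
    (hD : e.1 ∈ D ↔ rswCo e ∈ D) : RskBd (D ∩ Ch) e ↔ e.1 ∈ D := by
  unfold RskBd at hb ⊢
  simp only [Finset.mem_inter]
  tauto

/-- **(W3)** from the parity lemma and (E) -/
theorem par41_gc_of (hpar : Par41Two) {t : ℝ} {x0 x1 y0 y1 : ℤ} (hx : x0 + 2 ≤ x1) (hy : y0 + 2 ≤ y1) {Ch : Finset (ℤ × ℤ)}
    (hCh : Ch ⊆ Finset.Ico x0 x1 ×ˢ Finset.Ico y0 y1)
    (hJ : ∀ f ∈ Ch, ∀ g ∈ Ch, Mdl41cJoin Ch f g)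
    (hJX : ∀ f ∈ (Finset.Ico x0 x1 ×ˢ Finset.Ico y0 y1) \ Ch, ∀ g ∈ (Finset.Ico x0 x1 ×ˢ Finset.Ico y0 y1) \ Ch,
      Mdl41cJoin ((Finset.Ico x0 x1 ×ˢ Finset.Ico y0 y1) \ Ch) f g)
    (hs : (∀ y, y0 ≤ y → y < y1 → (x0, y) ∉ Ch ∧ (x1 - 1, y) ∈ Ch) ∨ (∀ x, x0 ≤ x → x < x1 → (x, y0) ∉ Ch ∧ (x, y1 - 1) ∈ Ch))
    (a : Bool) : WlGC t (Finset.Ico x0 x1 ×ˢ Finset.Ico y0 y1) Ch a := by
  classical
  set B := Finset.Ico x0 x1 ×ˢ Finset.Ico y0 y1 with hB
  intro ω hw hcol hopen e he e' he' hbd hbd' hc hc'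
  obtain ⟨hbc, hfac⟩ := par41_wt hw
  by_cases hee : e = e'
  · rw [hee]
  -- colours of the ends of an edge between `Ch` and its complement
  have colA : ∀ e : (ℤ × ℤ) × Bool, RskBd Ch e → (¬ OnPolygon B e.1 → (e.1 ∈ ω.S ↔ a = true)) ∧
      (¬ OnPolygon B (rswEnd e) → (rswEnd e ∈ ω.S ↔ a = true)) := by
    intro e hb
    have hed : e ∈ mdlEd Ch := mdl_mem_ed.2 (by rcases hb with h | h; exacts [Or.inl h.1, Or.inr h.2])
    exact ⟨fun h => hcol _ (mdl_ed_fst hed) (fun h' => rsk_bd_not_int hb (rsk_fst_core h')) h,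
      fun h => hcol _ (mdl_ed_end hed) (fun h' => rsk_bd_not_int hb (rsk_end_core h')) h⟩
  have colB : ∀ e : (ℤ × ℤ) × Bool, e ∈ mdlEd B → (OnPolygon B e.1 → (e.1 ∈ ω.S ↔ (!a) = true)) ∧
      (OnPolygon B (rswEnd e) → (rswEnd e ∈ ω.S ↔ (!a) = true)) := fun e hed =>
    ⟨fun h => hbc _ (mdl_ed_fst hed) h, fun h => hbc _ (mdl_ed_end hed) h⟩
  have edB : ∀ e : (ℤ × ℤ) × Bool, RskBd Ch e → e ∈ mdlEd B := fun e hb =>
    mdl_mem_ed.2 (by rcases hb with h | h; exacts [Or.inl (hCh h.1), Or.inr (hCh h.2)])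
  -- a closed edge of the wall is an end, and bichromatic
  have isEnd : ∀ e ∈ rswInt B, RskBd Ch e → e ∉ ω.O → Par41End B Ch e := by
    intro e he hb ho
    refine ⟨he, hb, ?_⟩
    by_contra hn
    push Not at hn
    exact ho (hopen e (mdl41_mem_disSet.2 ⟨he, par41_dis_of_bd hb⟩) hn.1 hn.2)
  have bich : ∀ e, Par41End B Ch e → ¬ (e.1 ∈ ω.S ↔ rswEnd e ∈ ω.S) := by
    intro e hE
    have h1 := colA e hE.2.1
    have h2 := colB e (edB e hE.2.1)
    have h3 := par41_thin hx hy hE.1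
    rw [← hB] at h3
    have h4 := hE.2.2
    by_cases p1 : OnPolygon B e.1
    · have p2 : ¬ OnPolygon B (rswEnd e) := fun p2 => h3 ⟨p1, p2⟩
      exact par41_bool (h2.1 p1) (h1.2 p2)
    · have p2 : OnPolygon B (rswEnd e) := h4.resolve_left p1
      exact fun h => par41_bool (h2.2 p2) (h1.1 p1) h.symm
  have hE := isEnd e he hbd hc
  have hE' := isEnd e' he' hbd' hc'
  -- the parity lemma for `C = D ∩ Ch`
  have key := hpar (ω.D ∩ Ch) ω.S e e' hee (by
    intro e'' hb hbi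
    by_cases p : e''.1 ∈ Ch <;> by_cases q : rswCo e'' ∈ Ch
    · exfalso
      have hint : e'' ∈ rswInt B := rsk_mem_int.2 ⟨hCh p, hCh q⟩
      have hf := hfac e'' hint
      by_cases ho : e'' ∈ ω.O
      · exact hbi (hf.1 ho)
      · exact par41_bd_inter_int p q hb (hf.2 ho)
    · have hb' : RskBd Ch e'' := Or.inl ⟨p, q⟩
      by_cases hq : rswCo e'' ∈ B
      · have hint : e'' ∈ rswInt B := rsk_mem_int.2 ⟨hCh p, hq⟩
        have hE'' : Par41End B Ch e'' := by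
          refine ⟨hint, hb', ?_⟩
          by_contra hn
          push Not at hn
          exact hbi (((colA e'' hb').1 hn.1).trans ((colA e'' hb').2 hn.2).symm)
        rcases par41_three hCh hJ hJX hx hy hs hE hE' hE'' with h | h | h
        · exact absurd h hee
        · exact Or.inl h.symm
        · exact Or.inr h.symm
      · exfalso
        have n1 : OnPolygon B e''.1 := by
          by_contra hn
          exact hq (rsk_mem_int.1 (rsk_fst_core (rsk_core_iff.2 hn))).2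
        have n2 : OnPolygon B (rswEnd e'') := by
          by_contra hn
          exact hq (rsk_mem_int.1 (rsk_end_core (rsk_core_iff.2 hn))).2
        exact hbi (((colB e'' (edB e'' hb')).1 n1).trans ((colB e'' (edB e'' hb')).2 n2).symm)
    · have hb' : RskBd Ch e'' := Or.inr ⟨p, q⟩
      by_cases hq : e''.1 ∈ B
      · have hint : e'' ∈ rswInt B := rsk_mem_int.2 ⟨hq, hCh q⟩
        have hE'' : Par41End B Ch e'' := by
          refine ⟨hint, hb', ?_⟩
          by_contra hn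
          push Not at hn
          exact hbi (((colA e'' hb').1 hn.1).trans ((colA e'' hb').2 hn.2).symm)
        rcases par41_three hCh hJ hJX hx hy hs hE hE' hE'' with h | h | h
        · exact absurd h hee
        · exact Or.inl h.symm
        · exact Or.inr h.symm
      · exfalso
        have n1 : OnPolygon B e''.1 := by
          by_contra hn
          exact hq (rsk_mem_int.1 (rsk_fst_core (rsk_core_iff.2 hn))).1
        have n2 : OnPolygon B (rswEnd e'') := by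
          by_contra hn
          exact hq (rsk_mem_int.1 (rsk_end_core (rsk_core_iff.2 hn))).1
        exact hbi (((colB e'' (edB e'' hb')).1 n1).trans ((colB e'' (edB e'' hb')).2 n2).symm)
    · exact absurd hb (par41_bd_inter_out p q)) (bich e hE) (bich e' hE')
  have rel : ∀ e ∈ rswInt B, RskBd Ch e → e ∉ ω.O → (RskBd (ω.D ∩ Ch) e ↔ e.1 ∈ ω.D) := by
    intro e he hb ho
    exact par41_bd_inter_rel hb ((hfac e he).2 ho)
  rw [← rel e he hbd hc, ← rel e' he' hbd' hc']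
  exact key

/-! ## 4. the parity lemma -/

open Classical in
/-- indicator with values in `ZMod 2` -/
noncomputable def par41I (A : Finset (ℤ × ℤ)) (v : ℤ × ℤ) : ZMod 2 := if v ∈ A then 1 else 0

/-- the number (mod 2) of bichromatic edges of the boundary of `C`, counted in the window `W` -/
noncomputable def par41T (W C S : Finset (ℤ × ℤ)) : ZMod 2 :=
  ∑ e ∈ W ×ˢ (Finset.univ : Finset Bool), (par41I C e.1 + par41I C (rswCo e)) * (par41I S e.1 + par41I S (rswEnd e))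

theorem par41_two_zero : (1 + 1 : ZMod 2) = 0 := by decide

theorem par41_cval (C : Finset (ℤ × ℤ)) (e : (ℤ × ℤ) × Bool) :
    par41I C e.1 + par41I C (rswCo e) = open Classical in if RskBd C e then 1 else 0 := by
  classical
  unfold RskBd par41I
  by_cases h1 : e.1 ∈ C <;> by_cases h2 : rswCo e ∈ C <;> simp [h1, h2, par41_two_zero]

theorem par41_bval (S : Finset (ℤ × ℤ)) (e : (ℤ × ℤ) × Bool) :
    par41I S e.1 + par41I S (rswEnd e) = open Classical in if (e.1 ∈ S ↔ rswEnd e ∈ S) then 0 else 1 := by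
  classical
  unfold par41I
  by_cases h1 : e.1 ∈ S <;> by_cases h2 : rswEnd e ∈ S <;> simp [h1, h2, par41_two_zero]

theorem par41_I_insert {C : Finset (ℤ × ℤ)} {f : ℤ × ℤ} (hf : f ∉ C) (x : ℤ × ℤ) :
    par41I (insert f C) x = par41I C x + par41I {f} x := by
  classical
  unfold par41I
  by_cases h : x = f
  · subst h
    simp [hf]
  · simp [h]

theorem par41_T_insert (W S : Finset (ℤ × ℤ)) {C : Finset (ℤ × ℤ)} {f : ℤ × ℤ} (hf : f ∉ C) :
    par41T W (insert f C) S = par41T W C S + par41T W {f} S := by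
  unfold par41T
  rw [← Finset.sum_add_distrib]
  refine Finset.sum_congr rfl fun e _ => ?_
  rw [par41_I_insert hf, par41_I_insert hf]
  ring

theorem par41_T_single (W S : Finset (ℤ × ℤ)) (f : ℤ × ℤ) (h1 : f ∈ W) (h2 : (f.1 + 1, f.2) ∈ W) (h3 : (f.1, f.2 + 1) ∈ W) :
    par41T W {f} S = 0 := by
  classical
  have e1 : ∀ u : ℤ × ℤ, par41I {f} u = if u = f then 1 else 0 := by
    intro u
    unfold par41I
    simp only [Finset.mem_singleton]
  have e2 : ∀ u : ℤ × ℤ, par41I {f} (u.1 - 1, u.2) = if u = (f.1 + 1, f.2) then 1 else 0 := by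
    intro u
    rw [e1]
    have : ((u.1 - 1, u.2) = f) ↔ (u = (f.1 + 1, f.2)) := by
      obtain ⟨a, b⟩ := u
      obtain ⟨c, d⟩ := f
      simp only [Prod.mk.injEq]
      constructor <;> rintro ⟨p, q⟩ <;> constructor <;> omega
    simp only [this]
  have e3 : ∀ u : ℤ × ℤ, par41I {f} (u.1, u.2 - 1) = if u = (f.1, f.2 + 1) then 1 else 0 := by
    intro u
    rw [e1]
    have : ((u.1, u.2 - 1) = f) ↔ (u = (f.1, f.2 + 1)) := by
      obtain ⟨a, b⟩ := u
      obtain ⟨c, d⟩ := f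
      simp only [Prod.mk.injEq]
      constructor <;> rintro ⟨p, q⟩ <;> constructor <;> omega
    simp only [this]
  have key : par41T W {f} S =
      ∑ u ∈ W, (if u = f then (1 : ZMod 2) else 0) * ((par41I S u + par41I S (u.1, u.2 + 1)) + (par41I S u + par41I S (u.1 + 1, u.2))) +
      ∑ u ∈ W, (if u = (f.1 + 1, f.2) then (1 : ZMod 2) else 0) * (par41I S u + par41I S (u.1, u.2 + 1)) +
      ∑ u ∈ W, (if u = (f.1, f.2 + 1) then (1 : ZMod 2) else 0) * (par41I S u + par41I S (u.1 + 1, u.2)) := by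
    rw [← Finset.sum_add_distrib, ← Finset.sum_add_distrib]
    unfold par41T
    rw [Finset.sum_product]
    refine Finset.sum_congr rfl fun u _ => ?_
    rw [Fintype.sum_bool]
    simp only [rswCo, rswEnd, if_true, Bool.false_eq_true, if_false]
    rw [e1, e2, e3]
    ring
  rw [key]
  simp only [ite_mul, one_mul, zero_mul, Finset.sum_ite_eq', h1, h2, h3, if_true]
  generalize par41I S f = p
  generalize par41I S (f.1, f.2 + 1) = q
  generalize par41I S (f.1 + 1, f.2) = r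
  generalize par41I S (f.1 + 1, f.2 + 1) = s
  linear_combination (p + q + r + s) * par41_two_zero

theorem par41_T_zero (W S : Finset (ℤ × ℤ)) (C : Finset (ℤ × ℤ)) :
    (∀ f ∈ C, f ∈ W ∧ (f.1 + 1, f.2) ∈ W ∧ (f.1, f.2 + 1) ∈ W) → par41T W C S = 0 := by
  classical
  induction C using Finset.induction_on with
  | empty =>
    intro _
    unfold par41T par41I
    simp
  | insert f C hf ih =>
    intro h
    have hf' := h f (Finset.mem_insert_self _ _)
    rw [par41_T_insert W S hf, ih (fun g hg => h g (Finset.mem_insert_of_mem hg)),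
      par41_T_single W S f hf'.1 hf'.2.1 hf'.2.2, add_zero]

/-- **(P) THE PARITY LEMMA** -/
theorem par41_two : Par41Two := by
  classical
  intro C S e₁ e₂ hne h h1 h2
  set W : Finset (ℤ × ℤ) := C ∪ C.image (fun f => (f.1 + 1, f.2)) ∪ C.image (fun f => (f.1, f.2 + 1)) ∪ {e₁.1, e₂.1} with hW
  have hT := par41_T_zero W S C (fun f hf => by
    refine ⟨?_, ?_, ?_⟩
    · exact Finset.mem_union_left _ (Finset.mem_union_left _ (Finset.mem_union_left _ hf))
    · exact Finset.mem_union_left _ (Finset.mem_union_left _ (Finset.mem_union_right _ (Finset.mem_image_of_mem _ hf)))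
    · exact Finset.mem_union_left _ (Finset.mem_union_right _ (Finset.mem_image_of_mem _ hf)))
  unfold par41T at hT
  have hsub : ({e₁, e₂} : Finset ((ℤ × ℤ) × Bool)) ⊆ W ×ˢ (Finset.univ : Finset Bool) := by
    intro e he
    rw [Finset.mem_product]
    refine ⟨Finset.mem_union_right _ ?_, Finset.mem_univ _⟩
    rcases Finset.mem_insert.1 he with rfl | he
    · exact Finset.mem_insert_self _ _
    · rw [Finset.mem_singleton] at he
      subst he
      exact Finset.mem_insert_of_mem (Finset.mem_singleton_self _)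
  rw [← Finset.sum_subset hsub (fun e _ he => by
    rw [par41_cval, par41_bval]
    by_cases hb : RskBd C e
    · by_cases hm : (e.1 ∈ S ↔ rswEnd e ∈ S)
      · rw [if_pos hm, mul_zero]
      · exfalso
        apply he
        rcases h e hb hm with rfl | rfl
        · exact Finset.mem_insert_self _ _
        · exact Finset.mem_insert_of_mem (Finset.mem_singleton_self _)
    · rw [if_neg hb, zero_mul]), Finset.sum_pair hne, par41_cval, par41_cval, par41_bval, par41_bval, if_neg h1, if_neg h2,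
    mul_one, mul_one] at hT
  by_cases b1 : RskBd C e₁ <;> by_cases b2 : RskBd C e₂
  · exact ⟨fun _ => b2, fun _ => b1⟩
  · rw [if_pos b1, if_neg b2, add_zero] at hT
    exact absurd hT (by decide)
  · rw [if_neg b1, if_pos b2, zero_add] at hT
    exact absurd hT (by decide)
  · exact ⟨fun h => absurd h b1, fun h => absurd h b2⟩

/-- **(W3) ONE FACE SPIN**, rectangle in absolute coordinates; `X` holds the left column and `Ch` the right one, or `X` holds the bottom row and `Ch` the top one -/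
theorem par41_gc {t : ℝ} {x0 x1 y0 y1 : ℤ} (hx : x0 + 2 ≤ x1) (hy : y0 + 2 ≤ y1) {Ch : Finset (ℤ × ℤ)}
    (hCh : Ch ⊆ Finset.Ico x0 x1 ×ˢ Finset.Ico y0 y1)
    (hJ : ∀ f ∈ Ch, ∀ g ∈ Ch, Mdl41cJoin Ch f g)
    (hJX : ∀ f ∈ (Finset.Ico x0 x1 ×ˢ Finset.Ico y0 y1) \ Ch, ∀ g ∈ (Finset.Ico x0 x1 ×ˢ Finset.Ico y0 y1) \ Ch,
      Mdl41cJoin ((Finset.Ico x0 x1 ×ˢ Finset.Ico y0 y1) \ Ch) f g)
    (hs : (∀ y, y0 ≤ y → y < y1 → (x0, y) ∉ Ch ∧ (x1 - 1, y) ∈ Ch) ∨ (∀ x, x0 ≤ x → x < x1 → (x, y0) ∉ Ch ∧ (x, y1 - 1) ∈ Ch))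
    (a : Bool) : WlGC t (Finset.Ico x0 x1 ×ˢ Finset.Ico y0 y1) Ch a :=
  par41_gc_of par41_two hx hy hCh hJ hJX hs a

/-- no wall: `Ch = B` -/
theorem par41_gc_full (t : ℝ) (B : Finset (ℤ × ℤ)) (a : Bool) : WlGC t B B a := by
  intro ω _ _ _ e he _ _ hbd
  exact absurd he (rsk_bd_not_int hbd)

/-- **(W3) for the chambers of the record `Mdl41cWB`** -/
theorem par41_gc_shell (t : ℝ) (z : ℤ × ℤ) {r0 r1 w : ℕ} (hr : r0 + 2 ≤ r1) (hw : 1 ≤ w) (d : Fin 4) {Ch : Finset (ℤ × ℤ)}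
    (hRE : mdl41cRE z r0 r1 w d ⊆ Ch) (hCh : Ch ⊆ mdl41cB z r0 r1 w d)
    (hLE : Ch = mdl41cB z r0 r1 w d ∨ mdl41cLE z r0 r1 w d ⊆ mdl41cB z r0 r1 w d \ Ch)
    (hJ : ∀ f ∈ Ch, ∀ g ∈ Ch, Mdl41cJoin Ch f g)
    (hJX : ∀ f ∈ mdl41cB z r0 r1 w d \ Ch, ∀ g ∈ mdl41cB z r0 r1 w d \ Ch, Mdl41cJoin (mdl41cB z r0 r1 w d \ Ch) f g)
    (a : Bool) : WlGC t (mdl41cB z r0 r1 w d) Ch a := by
  rcases hLE with rfl | hLE
  · exact par41_gc_full t _ a
  obtain ⟨x0, x1, y0, y1, hB, hx, hy, hs⟩ := mdl41c_B_rect z hr hw d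
  rw [hB] at hCh hJX hLE ⊢
  refine par41_gc hx hy hCh hJ hJX ?_ a
  rcases hs with hs | hs
  · exact Or.inl fun y h1 h2 => ⟨(Finset.mem_sdiff.1 (hLE (hs y h1 h2).1)).2, hRE (hs y h1 h2).2⟩
  · exact Or.inr fun x h1 h2 => ⟨(Finset.mem_sdiff.1 (hLE (hs x h1 h2).1)).2, hRE (hs x h1 h2).2⟩

/-- the equation lemmas of the definitions of this file are generated HERE (RULES.md, rule 6) -/
theorem par41_defs_eqns_cite : True := by
  have := @Par41End.eq_1
  have := @Par41Two.eq_1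
  have := @par41I.eq_1
  have := @par41T.eq_1
  trivial

/-! ## 5. the assembly of (WB) on one atom -/

theorem par41_exists {t : ℝ} {F : Finset (ℤ × ℤ)} {b : Bool} {Y : RswCfg → ℝ} (h : rswSum t F b Y ≠ 0) :
    ∃ ω, rswWt t F b ω ≠ 0 ∧ Y ω ≠ 0 := by
  by_contra hc
  push Not at hc
  apply h
  unfold rswSum
  refine Finset.sum_eq_zero fun S _ => Finset.sum_eq_zero fun D _ => Finset.sum_eq_zero fun O _ => ?_
  by_cases hw : rswWt t F b ⟨S, D, O⟩ = 0
  · rw [hw, zero_mul]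
  · rw [hc _ hw, mul_zero]

theorem par41_poly_mono {B F : Finset (ℤ × ℤ)} (h : B ⊆ F) {v : ℤ × ℤ} (hv : OnPolygon F v) : OnPolygon B v := by
  unfold OnPolygon at hv ⊢
  exact fun hc => hv ⟨h hc.1, h hc.2.1, h hc.2.2.1, h hc.2.2.2⟩

/-- **(WB) ON ONE ATOM** off the chamber whose wall is good of colour `a`, from the records (W1) (W2) (W3), (S0) in `B` and the probability of the chain of boxes in the flat law `(B, !a)` -/
theorem par41_atom {t : ℝ} (ht0 : 0 < t) (ht2 : t < 1) {F B Ch : Finset (ℤ × ℤ)} (hin : ∀ v ∈ cornersOf B, ¬ OnPolygon F v)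
    (hCh : Ch ⊆ B) (hthin : ∀ e ∈ rswInt B, ¬ (OnPolygon B e.1 ∧ OnPolygon B (rswEnd e))) (b a : Bool)
    (hHol : WlHolley t F b) (hScr : WlScreen t B Ch (!a)) (hGC : WlGC t B Ch a) (hFkg : MdlFkgAt t B (!a) a mdlPin0)
    {J : Finset (ℤ × ℤ)} {ρ : ℕ} {p : ℝ} (hp : p ≤ rswP t B (!a) (WlBlk0 J ρ a))
    {S₀ : Finset (ℤ × ℤ)} {O₀ : Finset ((ℤ × ℤ) × Bool)} (hS : S₀ ⊆ mdlVext F Ch) (hO : O₀ ⊆ mdlEext F Ch)
    (hwall : Mdl41cWall B Ch a ⟨S₀, ∅, O₀⟩) :
    p * mdlSumK t F b (mdlAtom F Ch S₀ O₀) (fun _ => 1) ≤ mdlSumK t F b (mdlAtom F Ch S₀ O₀) (mdlInd (WlBlk J ρ Ch a)) := by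
  classical
  have hBF := wl_sub_of_in hin
  have hK : ∀ Y, mdlSumK t F b (mdlAtom F Ch S₀ O₀) Y = mdlSumK t F b (wlPin (mdlVext F Ch) (mdlEext F Ch) ⟨S₀, ∅, O₀⟩) Y :=
    fun Y => wl_sumK_congr t F b (wl_atom_holds hS hO) Y
  rw [hK, hK]
  generalize hω₀ : (⟨S₀, ∅, O₀⟩ : RswCfg) = ω₀ at hwall ⊢
  have hOsub : ω₀.O ⊆ mdlEext F Ch := by rw [← hω₀]; exact hO
  set X := mdlInd (WlBlk J ρ Ch a) with hX
  have hX0 : ∀ ω, 0 ≤ X ω := fun ω => mdl_ind_nonneg _ _
  by_cases h0 : mdlSumK t F b (wlPin (mdlVext F Ch) (mdlEext F Ch) ω₀) (fun _ => 1) = 0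
  · rw [h0, mul_zero]
    exact mdlx_sumK_nonneg ht0.le ht2.le F b _ hX0
  -- a configuration of positive weight which shows the atom
  have h0' := h0
  rw [mdlx_sumK_eq] at h0'
  obtain ⟨ω, hw, hY⟩ := par41_exists h0'
  have hHolds : (wlPin (mdlVext F Ch) (mdlEext F Ch) ω₀).Holds ω := by
    by_contra hc
    rw [mdl_ind_neg hc, mul_zero] at hY
    exact hY rfl
  obtain ⟨hvS, heO⟩ := (wl_pin_holds _ _ _ _).1 hHolds
  obtain ⟨hbcω, hfacω⟩ := par41_wt hw
  have hmono : ∀ e ∈ ω₀.O, e ∈ rswInt F → (e.1 ∈ ω₀.S ↔ rswEnd e ∈ ω₀.S) := by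
    intro e he heF
    have heE := hOsub he
    rw [← hvS _ (mdl_eext_fst heE), ← hvS _ (mdl_eext_end heE)]
    exact (hfacω e heF).1 ((heO e heE).2 he)
  have hbc : ∀ v ∈ cornersOf F, OnPolygon F v → (v ∈ ω₀.S ↔ b = true) := by
    intro v hv hpv
    rw [← hvS v (mdl_mem_vext.2 ⟨hv, par41_poly_mono (hCh.trans hBF) hpv⟩)]
    exact hbcω v hv hpv
  have hpos1 := wl_low_pos ht0 ht2 hin (Ch := Ch) b a hmono hbc (mdlVext F Ch) (mdlEext F Ch)
  have hOk : ∀ e ∈ mdlEext F Ch, e.1 ∈ mdlVext F Ch ∧ rswEnd e ∈ mdlVext F Ch := fun e he => ⟨mdl_eext_fst he, mdl_eext_end he⟩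
  have hH := hHol a _ _ (wl_pin_coh hOk (wlLow F B Ch a ω₀)) (wl_pin_coh hOk ω₀) (wl_low_le hin hwall) X
    (mdl_inc_ind (wl_blk_inc J ρ Ch a))
  have hXin : RskInside B X := mdlx_inside_mono hCh (wl_blk_inside J ρ Ch a)
  have s1 := wl_low_sum ht0 ht2.le hin hCh b a ω₀ hXin
  have s2 := wl_low_sum ht0 ht2.le hin hCh b a ω₀ (rsk_inside_const B 1)
  -- the screening
  have hYout : RskOutside Ch (wlYin F B Ch a ω₀) :=
    wl_pin_outside (fun v hv => (Finset.mem_sdiff.1 hv).2) (fun e he => (Finset.mem_sdiff.1 he).2) _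
  have hscr := hScr (wlBeta B a) X (wlYin F B Ch a ω₀) (mdlInd (WlFillEv B Ch a)) (wl_blk_inside J ρ Ch a) (wl_blk_blind J ρ Ch a)
    hYout (wl_pin_blind _ _ _) (wl_fill_outside B Ch a) (wl_fill_blind B Ch a)
    (fun ω hw hy => by
      have hs := wl_low_seal hin hCh hthin a ω₀ hy
      exact ⟨hs, hGC ω hw (wl_seal_gc hCh hs).1 (wl_seal_gc hCh hs).2⟩)
    (fun ω hw hy => by
      have hs := wl_fill_seal hCh hthin a hw hy
      exact ⟨hs, hGC ω hw (wl_seal_gc hCh hs).1 (wl_seal_gc hCh hs).2⟩)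
  -- (S0) in `B`
  have hfkg := hFkg (mdlInd (WlFillEv B Ch a)) X (mdl_inc_ind (wl_fill_inc B Ch a)) (mdl_inc_ind (wl_blk_inc J ρ Ch a))
  rw [mdlx_sumK_pin0, mdlx_sumK_pin0, mdlx_sumK_pin0, mdlx_sumK_pin0] at hfkg
  -- the chain of boxes
  have hZ := rsk_sum_one_pos ht0 ht2.le B (!a)
  have hAX : p * rswSum t B (!a) (fun _ => 1) ≤ rswSum t B (!a) X := by
    have h1 : rswP t B (!a) (WlBlk0 J ρ a) ≤ rswP t B (!a) (WlBlk J ρ Ch a) :=
      rsz_P_mono ht0.le ht2.le B (!a) fun ω h => wl_blk0_le Ch h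
    have h2 := le_trans hp h1
    rw [mdl_P_eq] at h2
    rw [mdlx_sum_eq_E ht0 ht2.le B (!a) X]
    exact mul_le_mul_of_nonneg_right h2 hZ.le
  have hA2 := wl_fill_pos ht0 ht2 B Ch (!a) a
  -- names
  have e2 : rswE t B (!a) (fun ω => wlYin F B Ch a ω₀ ω * (fun _ => (1 : ℝ)) ω) = rswE t B (!a) (wlYin F B Ch a ω₀) := by
    congr 1
    funext ω
    rw [mul_one]
  rw [e2] at s2
  unfold rswE at s1 s2
  have hA1 : 0 ≤ rswSum t B (!a) (wlYin F B Ch a ω₀) := mdlx_sum_nonneg ht0.le ht2.le B (!a) fun ω => mdl_ind_nonneg _ _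
  have hR : 0 ≤ rswSum t F b (fun ω => rskInd B (!a) ω * wlYout F B Ch a ω₀ ω) :=
    mdlx_sum_nonneg ht0.le ht2.le F b fun ω => mul_nonneg (by unfold rskInd; split_ifs <;> norm_num) (mdl_ind_nonneg _ _)
  have hK12 : 0 ≤ mdlSumK t F b (wlPin (mdlVext F Ch) (mdlEext F Ch) ω₀) (fun _ => 1) :=
    mdlx_sumK_nonneg ht0.le ht2.le F b _ fun _ => zero_le_one
  generalize rswSum t B (!a) (fun _ => 1) = Z at *
  generalize rswSum t B (!a) X = AX at *
  generalize rswSum t B (!a) (mdlInd (WlFillEv B Ch a)) = A2 at *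
  generalize rswSum t B (!a) (fun ω => mdlInd (WlFillEv B Ch a) ω * X ω) = A2X at *
  generalize rswSum t B (!a) (wlYin F B Ch a ω₀) = A1 at *
  generalize rswSum t B (!a) (fun ω => wlYin F B Ch a ω₀ ω * X ω) = A1X at *
  generalize rswSum t F b (fun ω => rskInd B (!a) ω * wlYout F B Ch a ω₀ ω) = R at *
  generalize mdlSumK t F b (wlPin (mdlVext F Ch) (mdlEext F Ch) (wlLow F B Ch a ω₀)) (fun _ => 1) = K11 at *
  generalize mdlSumK t F b (wlPin (mdlVext F Ch) (mdlEext F Ch) (wlLow F B Ch a ω₀)) X = KX1 at *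
  generalize mdlSumK t F b (wlPin (mdlVext F Ch) (mdlEext F Ch) ω₀) (fun _ => 1) = K12 at *
  generalize mdlSumK t F b (wlPin (mdlVext F Ch) (mdlEext F Ch) ω₀) X = KX2 at *
  have hpA : p * A1 ≤ A1X := by
    refine le_of_mul_le_mul_right ?_ (mul_pos hA2 hZ)
    calc p * A1 * (A2 * Z) = A1 * A2 * (p * Z) := by ring
      _ ≤ A1 * A2 * AX := mul_le_mul_of_nonneg_left hAX (mul_nonneg hA1 hA2.le)
      _ = A1 * (A2 * AX) := by ring
      _ ≤ A1 * (Z * A2X) := mul_le_mul_of_nonneg_left hfkg hA1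
      _ = Z * (A2X * A1) := by ring
      _ = Z * (A1X * A2) := by rw [hscr]
      _ = A1X * (A2 * Z) := by ring
  have h1 : p * K11 ≤ KX1 := by
    rw [s1, s2]
    calc p * (A1 / Z * R) = (p * A1) / Z * R := by ring
      _ ≤ A1X / Z * R := mul_le_mul_of_nonneg_right (div_le_div_of_nonneg_right hpA hZ.le) hR
  refine le_of_mul_le_mul_left ?_ hpos1
  calc K11 * (p * K12) = (p * K11) * K12 := by ring
    _ ≤ KX1 * K12 := mul_le_mul_of_nonneg_right h1 hK12
    _ ≤ K11 * KX2 := hH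

/-! ## 6. the record (WB) -/

theorem par41_ext_mono {B' B : Finset (ℤ × ℤ)} (h : B' ⊆ B) {L : RswCfg → Prop} (hL : MdlExt B L) : MdlExt B' L :=
  fun ω ω' hS hO => hL ω ω' (fun v hv => hS v (par41_poly_mono h hv)) (fun e he => hO e (fun hc => he (rsk_int_mono h hc)))

/-- a region inside `Λ_m(z)` is strictly inside every `F ⊇ Λ_{m+1}(z)` -/
theorem par41_in {F B : Finset (ℤ × ℤ)} {z : ℤ × ℤ} {m : ℕ} (hB : B ⊆ rswBox z m) (hF : rswBox z (m + 1) ⊆ F) :
    ∀ v ∈ cornersOf B, ¬ OnPolygon F v := by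
  intro v hv
  have key : ∀ f : ℤ × ℤ, z.1 - m - 1 ≤ f.1 → f.1 < z.1 + m + 1 → z.2 - m - 1 ≤ f.2 → f.2 < z.2 + m + 1 → f ∈ F := by
    intro f h1 h2 h3 h4
    apply hF
    unfold rswBox
    rw [mdl41c_mem_rect]
    push_cast
    omega
  have hb : ∀ f ∈ B, z.1 - m ≤ f.1 ∧ f.1 < z.1 + m ∧ z.2 - m ≤ f.2 ∧ f.2 < z.2 + m := by
    intro f hf
    have := hB hf
    unfold rswBox at this
    rw [mdl41c_mem_rect] at this
    exact this
  unfold OnPolygon
  rw [not_not]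
  rw [rsk_mem_corners] at hv
  have hv' : z.1 - m ≤ v.1 ∧ v.1 - 1 < z.1 + m ∧ z.2 - m ≤ v.2 ∧ v.2 - 1 < z.2 + m := by
    rcases hv with h | h | h | h
    · have := hb _ h
      omega
    · have := hb _ h
      dsimp only at this
      omega
    · have := hb _ h
      dsimp only at this
      omega
    · have := hb _ h
      dsimp only at this
      omega
  exact ⟨key _ (by omega) (by omega) (by omega) (by omega),
    key _ (by dsimp only; omega) (by dsimp only; omega) (by dsimp only; omega) (by dsimp only; omega),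
    key _ (by dsimp only; omega) (by dsimp only; omega) (by dsimp only; omega) (by dsimp only; omega),
    key _ (by dsimp only; omega) (by dsimp only; omega) (by dsimp only; omega) (by dsimp only; omega)⟩

/-- the wall is read off the atom -/
theorem par41_wall_atom {F B Ch : Finset (ℤ × ℤ)} (hBF : B ⊆ F) {a : Bool} {S₀ : Finset (ℤ × ℤ)} {O₀ : Finset ((ℤ × ℤ) × Bool)}
    (hS : S₀ ⊆ mdlVext F Ch) (hO : O₀ ⊆ mdlEext F Ch) {ω : RswCfg} (hH : (mdlAtom F Ch S₀ O₀).Holds ω)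
    (hw : Mdl41cWall B Ch a ω) : Mdl41cWall B Ch a ⟨S₀, ∅, O₀⟩ := by
  obtain ⟨hvS, heO⟩ := (wl_pin_holds _ _ _ _).1 ((wl_atom_holds hS hO ω).1 hH)
  intro e he
  obtain ⟨h1, h2⟩ := mdl41_mem_disSet.1 he
  have heE : e ∈ mdlEext F Ch := Finset.mem_sdiff.2 ⟨rsk_int_mono hBF h1, fun hc =>
    h2 ⟨fun _ => (rsk_mem_int.1 hc).2, fun _ => (rsk_mem_int.1 hc).1⟩⟩
  obtain ⟨g0, g1, g2⟩ := hw e he
  exact ⟨(heO e heE).1 g0, (hvS _ (mdl_eext_fst heE)).symm.trans g1, (hvS _ (mdl_eext_end heE)).symm.trans g2⟩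

/-- **(WB) = `Mdl41cWB t`** from the records (W1) (W2) (W5)+(W6) of `Model/Wall191`, (S0) in the rectangles; (W3) is `par41_gc_shell` -/
theorem par41_wb_of {t : ℝ} (ht1 : 1 / 2 ≤ t) (ht2 : t < 1)
    (hHol : ∀ F : Finset (ℤ × ℤ), RswJordan F → ∀ b : Bool, WlHolley t F b)
    (hScr : ∀ (B Ch : Finset (ℤ × ℤ)) (c : Bool), Ch ⊆ B → WlScreen t B Ch c)
    (hFkg : ∀ B : Finset (ℤ × ℤ), RswJordan B → ∀ c a : Bool, MdlFkgAt t B c a mdlPin0)
    (hJB : ∀ (z : ℤ × ℤ) (r0 r1 w : ℕ) (d : Fin 4), r0 < r1 → RswJordan (mdl41cB z r0 r1 w d))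
    (hChain : ∀ k : ℕ, ∃ p : ℝ, 0 < p ∧ ∃ n0 : ℕ, ∀ n : ℕ, n0 ≤ n → ∀ (z : ℤ × ℤ) (d : Fin 4),
      WlChain t p (mdl41cR z (k * n) ((k + 1) * n) d) (mdl41cB z (k * n) ((k + 1) * n) (n / 2) d)
        ((Finset.range (2 * ((k + 1) * n))).image (mdl41cSeed z (k * n) ((k + 1) * n) d))
        (mdl41cTop z (k * n) ((k + 1) * n) d)) : Mdl41cWB t := by
  classical
  have ht0 : 0 < t := by linarith
  intro k
  obtain ⟨p, hp, n0, h⟩ := hChain k
  refine ⟨min p 1, lt_min hp one_pos, max n0 2, ?_⟩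
  intro n hn F z b d hF hbox Ch a H hRE hCh hLE hJ hJX hExt hWall
  have hn2 : 2 ≤ n := le_trans (le_max_right _ _) hn
  obtain ⟨J, ρ, -, hprob, hdet⟩ := h n (le_trans (le_max_left _ _) hn) z d
  have hkn : (k + 1) * n = k * n + n := by ring
  have hkn2 : (k + 2) * n = k * n + n + n := by ring
  have hr : k * n + 2 ≤ (k + 1) * n := by omega
  have hw1 : 1 ≤ n / 2 := by omega
  have hGC := par41_gc_shell t z hr hw1 d hRE hCh hLE hJ hJX a
  have hthin : ∀ e ∈ rswInt (mdl41cB z (k * n) ((k + 1) * n) (n / 2) d),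
      ¬ (OnPolygon (mdl41cB z (k * n) ((k + 1) * n) (n / 2) d) e.1 ∧ OnPolygon (mdl41cB z (k * n) ((k + 1) * n) (n / 2) d) (rswEnd e)) := by
    obtain ⟨x0, x1, y0, y1, hB, hx, hy, -⟩ := mdl41c_B_rect z hr hw1 d
    rw [hB]
    exact fun e he => par41_thin hx hy he
  have hJor := hJB z (k * n) ((k + 1) * n) (n / 2) d (by omega)
  have hBsub := mdl41c_B_sub z (r0 := k * n) (r1 := (k + 1) * n) (by omega) (n / 2) d
  have hin : ∀ v ∈ cornersOf (mdl41cB z (k * n) ((k + 1) * n) (n / 2) d), ¬ OnPolygon F v := by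
    refine par41_in hBsub (subset_trans ?_ hbox)
    intro f hf
    unfold rswBox at hf ⊢
    rw [mdl41c_mem_rect] at hf ⊢
    have h6 : (((k + 1) * n + n / 2 + 1 : ℕ) : ℤ) ≤ (((k + 2) * n : ℕ) : ℤ) := by
      have : (k + 1) * n + n / 2 + 1 ≤ (k + 2) * n := by omega
      exact_mod_cast this
    omega
  generalize mdl41cB z (k * n) ((k + 1) * n) (n / 2) d = B at *
  have hBF := wl_sub_of_in hin
  have hBbox : B ⊆ rswBox z ((k + 2) * n) := by
    refine hBsub.trans ?_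
    intro f hf
    unfold rswBox at hf ⊢
    rw [mdl41c_mem_rect] at hf ⊢
    have h6 : (((k + 1) * n + n / 2 : ℕ) : ℤ) ≤ (((k + 2) * n : ℕ) : ℤ) := by
      have : (k + 1) * n + n / 2 ≤ (k + 2) * n := by omega
      exact_mod_cast this
    omega
  have hExt' : MdlExt Ch H := par41_ext_mono (fun f hf => Finset.mem_sdiff.2 ⟨hBbox (hCh hf), fun hc => (Finset.mem_sdiff.1 hc).2 hf⟩) hExt
  have key := mdl_P_of_atoms ht0 ht2.le F Ch b hExt' (min p 1) (fun ω => Mdl41cWall B Ch a ω → WlBlk J ρ Ch a ω)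
    (fun S₀ hS O₀ hO => by
      have hZ0 : 0 ≤ mdlSumK t F b (mdlAtom F Ch S₀ O₀) (fun _ => 1) :=
        mdlx_sumK_nonneg ht0.le ht2.le F b _ fun _ => zero_le_one
      by_cases hw : Mdl41cWall B Ch a ⟨S₀, ∅, O₀⟩
      · have h1 := par41_atom ht0 ht2 hin hCh hthin b a (hHol F hF b) (hScr B Ch (!a) hCh) hGC (hFkg B hJor (!a) a)
          (hprob (!a) a) hS hO hw
        refine le_trans (mul_le_mul_of_nonneg_right (min_le_left _ _) hZ0) (le_trans h1 ?_)
        refine mdlx_sumK_mono ht0.le ht2.le F b _ fun ω => ?_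
        by_cases hb : WlBlk J ρ Ch a ω
        · rw [mdl_ind_pos hb, mdl_ind_pos (E := fun ω => Mdl41cWall B Ch a ω → WlBlk J ρ Ch a ω) (fun _ => hb)]
        · rw [mdl_ind_neg hb]
          exact mdl_ind_nonneg _ _
      · refine le_trans (mul_le_mul_of_nonneg_right (min_le_right _ _) hZ0) ?_
        rw [one_mul]
        unfold mdlSumK
        refine mdlx_sum_mono ht0.le ht2.le F b fun ω => ?_
        by_cases hH : (mdlAtom F Ch S₀ O₀).Holds ω
        · rw [if_pos hH, if_pos hH, mdl_ind_pos (E := fun ω => Mdl41cWall B Ch a ω → WlBlk J ρ Ch a ω)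
            (fun hc => absurd (par41_wall_atom hBF hS hO hH hc) hw)]
        · rw [if_neg hH, if_neg hH])
  exact le_trans key (rsz_P_mono ht0.le ht2.le F b fun ω hω => ⟨hω.1, hdet Ch a ω hCh (hω.2 (hWall ω hω.1))⟩)

end Claimed.Agent.R292
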