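import Claimed.Agent.R292.Model.Contig261
import Claimed.Agent.R292.Model.Explore191
import Claimed.Agent.R292.Model.Leaf72

/-!
# Row 292 (S0540), Model/Step261 : THE ONE-STEP STATEMENT eq:spatial-witness-step WITHOUT lem:collar      (owner helper261; prefix `stp261_`, `Stp261`, `stp261*`)      0 sorry

AT paper 03-spatial, lem:buffered-witnesses, eq:spatial-witness-step (TEX l.1370-1590).  OWN PROOF, shorter than the paper's (no collar, no grid of small circuits, no loops):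
* (CM) `cm72_main` (72, from `mdl41_exact`): in a compatible configuration with a missing pair there are a colour `a` and an endpoint `i0` of a missing pair such that every
  endpoint of a missing pair reached from `i0` off the good edges of colour `a` is `N`-connected to `i0` (a leaf of the tree of clusters).
* TYPE `(a, J, i0)`: `J` = the marks NOT reached from `i0`.  No missing pair lies in `I = marks \ J`; a partner of `i0` lies in `J`.   (`stp261_ex`)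
* EXPLORATION: `U` = the faces reached from `J` off the good edges of colour `a`.  The history (read on the closed `U`) certifies the `N`-disconnections inside `J`; the frontier of `U` consists of
  good edges of colour `a`, so `I` is cut from `J`; the pairs inside `I` are short already: COMPATIBILITY IS CERTAIN given the history.
* `V = F \ U` is sealed: exact screening `stp261_screen` (91's `rsk_seal_cross`); "the frontier is good" is increasing in the colour `a`: FKG (S0) + one circuit (S1) give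
  `P(i0 is cut off inside Lo | history) >= p`   (`stp261_perU`, `stp261_explore`: sum over `U` and over the atoms of the data off the buffer).
* then `(i0, partner)` is short in the enlarged core (`ctg261_localise`)   (`stp261_det`).   Union bound over the `<= 2 * 2 ^ M * M` types: **`stp261_step`**, **`stp261_wstep : Ctg261W1 t`**,
  **`stp261_witness : Ctg261W t`** from the records (S0) `Ctg261S0`, (S1) `Ctg261S1` alone.
-/

set_option autoImplicit false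

namespace Claimed.Agent.R292

open Claims Claims.C0468

/-! ## 1. screening across a frontier of good edges (91's seals) -/

/-- all the interior edges of `F` on the polygon of `V` are good of colour `a` -/
def Stp261Fr (F V : Finset (ℤ × ℤ)) (a : Bool) (ω : RswCfg) : Prop :=
  ∀ e ∈ rswInt F, RskBd V e → RswGood a ω e

theorem stp261_fr_inc (F V : Finset (ℤ × ℤ)) (a : Bool) : MdlIncP a (Stp261Fr F V a) :=
  fun _ _ hle h e he hb => hle.2.1 e (h e he hb)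

theorem stp261_ind_congr {A B : RswCfg → Prop} {ω ω' : RswCfg} (h : A ω ↔ B ω') : mdlInd A ω = mdlInd B ω' := by
  by_cases hA : A ω
  · rw [mdl_ind_pos hA, mdl_ind_pos (h.1 hA)]
  · rw [mdl_ind_neg hA, mdl_ind_neg (fun c => hA (h.2 c))]

theorem stp261_sum_congr (t : ℝ) (F : Finset (ℤ × ℤ)) (b : Bool) {X Y : RswCfg → ℝ}
    (h : ∀ ω, rswWt t F b ω ≠ 0 → X ω = Y ω) : rswSum t F b X = rswSum t F b Y := by
  unfold rswSum
  refine Finset.sum_congr rfl fun S _ => Finset.sum_congr rfl fun D _ => Finset.sum_congr rfl fun O _ => ?_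
  by_cases hw : rswWt t F b ⟨S, D, O⟩ = 0
  · rw [hw, zero_mul, zero_mul]
  · rw [h _ hw]

theorem stp261_P_zero {t : ℝ} (h0 : 0 ≤ t) (h1 : t ≤ 1) (F : Finset (ℤ × ℤ)) (b : Bool) {E : RswCfg → Prop}
    (h : ∀ ω, rswWt t F b ω ≠ 0 → ¬ E ω) : rswP t F b E = 0 := by
  have a1 : rswP t F b E ≤ rswP t F b (fun _ => False) :=
    ctg261_P_mono h0 h1 F b fun ω _ _ _ hw x => h ω hw x
  rw [ctg261_P_false t F b (fun _ => id)] at a1
  exact le_antisymm a1 (rsz_P_nonneg h0 h1 F b _)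

theorem stp261_bc_of_wt {t : ℝ} {F : Finset (ℤ × ℤ)} {b : Bool} {ω : RswCfg} (h : rswWt t F b ω ≠ 0) : RswBc F b ω :=
  (dua261_feas_of_wt h).1

/-- a vertex of the polygon of `V ⊆ F` is on the polygon of `F` or an endpoint of an interior edge of `F` on the polygon of `V` -/
theorem stp261_rim {F V : Finset (ℤ × ℤ)} {v : ℤ × ℤ} (hc : v ∈ cornersOf V) (hn : v ∉ rskCore V) :
    OnPolygon F v ∨ ∃ e ∈ rswInt F, RskBd V e ∧ (v = e.1 ∨ v = rswEnd e) := by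
  by_cases hP : OnPolygon F v
  · exact Or.inl hP
  right
  have hF : v ∈ F ∧ (v.1 - 1, v.2) ∈ F ∧ (v.1, v.2 - 1) ∈ F ∧ (v.1 - 1, v.2 - 1) ∈ F := by
    by_contra h
    exact hP h
  rw [rsk_mem_corners] at hc
  rw [rsk_mem_core] at hn
  by_contra hno
  push Not at hno
  have iE : (v, false) ∈ rswInt F := rsk_mem_int.2 ⟨hF.1, by rw [col261_co_false]; exact hF.2.2.1⟩
  have iW : ((v.1 - 1, v.2), false) ∈ rswInt F := rsk_mem_int.2 ⟨hF.2.1, by rw [col261_co_false]; exact hF.2.2.2⟩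
  have iN : (v, true) ∈ rswInt F := rsk_mem_int.2 ⟨hF.1, by rw [col261_co_true]; exact hF.2.1⟩
  have eW : rswEnd ((v.1 - 1, v.2), false) = v := by
    rw [col261_end_false]; ext <;> simp
  have bE : ¬ RskBd V (v, false) := fun hb => (hno _ iE hb).1 rfl
  have bW : ¬ RskBd V ((v.1 - 1, v.2), false) := fun hb => (hno _ iW hb).2 eW.symm
  have bN : ¬ RskBd V (v, true) := fun hb => (hno _ iN hb).1 rfl
  unfold RskBd at bE bW bN
  rw [col261_co_false] at bE bW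
  rw [col261_co_true] at bN
  simp only at bE bW bN
  tauto

theorem stp261_bd_corner {V : Finset (ℤ × ℤ)} {e : (ℤ × ℤ) × Bool} (h : RskBd V e) :
    e.1 ∈ cornersOf V ∧ rswEnd e ∈ cornersOf V := by
  obtain ⟨⟨x, y⟩, c⟩ := e
  unfold RskBd at h
  rw [rsk_mem_corners, rsk_mem_corners]
  cases c
  · rw [col261_co_false] at h
    rw [col261_end_false]
    simp only [add_sub_cancel_right] at h ⊢
    tauto
  · rw [col261_co_true] at h
    rw [col261_end_true]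
    simp only [add_sub_cancel_right] at h ⊢
    tauto

theorem stp261_seal_iff {F V : Finset (ℤ × ℤ)} {a b : Bool} {ω₁ ω : RswCfg} (h1 : Stp261Fr F V a ω₁)
    (hV : V ⊆ F) (hb1 : RswBc F b ω₁) (hb : RswBc F b ω) : RskSeal F V ω₁ ω ↔ Stp261Fr F V a ω := by
  constructor
  · rintro ⟨_, hB1, hB2⟩ e he hbd
    have g1 := h1 e he hbd
    have hc := stp261_bd_corner hbd
    have n1 : e.1 ∉ rskCore V := fun h => rsk_bd_not_int hbd (rsk_fst_core h)
    have n2 : rswEnd e ∉ rskCore V := fun h => rsk_bd_not_int hbd (rsk_end_core h)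
    exact ⟨(hB2 e he hbd).1.2 g1.1, (hB1 _ hc.1 n1).trans g1.2.1, (hB1 _ hc.2 n2).trans g1.2.2⟩
  · intro hfr
    refine ⟨fun e he hbd hO => absurd (h1 e he hbd).1 hO, fun v hc hn => ?_, fun e he hbd =>
      ⟨⟨fun _ => (h1 e he hbd).1, fun _ => (hfr e he hbd).1⟩, fun hO => absurd (h1 e he hbd).1 hO⟩⟩
    rcases stp261_rim (F := F) hc hn with hP | ⟨e, he, hbd, hv⟩
    · have hcF := rsk_corners_mono hV hc
      exact (hb v hcF hP).trans (hb1 v hcF hP).symm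
    · rcases hv with hv | hv
      · rw [hv]; exact (hfr e he hbd).2.1.trans (h1 e he hbd).2.1.symm
      · rw [hv]; exact (hfr e he hbd).2.2.trans (h1 e he hbd).2.2.symm

/-- the prescriptions read inside `V` -/
def stp261Kin (K : MdlPin) (V : Finset (ℤ × ℤ)) : MdlPin :=
  ⟨K.Sp ∩ cornersOf V, K.Sm ∩ cornersOf V, K.Oo ∩ rswInt V, K.Oc ∩ rswInt V⟩

/-- the other prescriptions -/
def stp261Kout (K : MdlPin) (V : Finset (ℤ × ℤ)) : MdlPin :=
  ⟨K.Sp \ cornersOf V, K.Sm \ cornersOf V, K.Oo \ rswInt V, K.Oc \ rswInt V⟩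

theorem stp261_K_split (K : MdlPin) (V : Finset (ℤ × ℤ)) (ω : RswCfg) :
    K.Holds ω ↔ ((stp261Kin K V).Holds ω ∧ (stp261Kout K V).Holds ω) := by
  unfold MdlPin.Holds stp261Kin stp261Kout
  simp only [Finset.subset_iff, Finset.mem_inter, Finset.mem_sdiff]
  constructor
  · rintro ⟨a1, a2, a3, a4⟩
    exact ⟨⟨fun v hv => a1 hv.1, fun v hv => a2 v hv.1, fun e he => a3 he.1, fun e he => a4 e he.1⟩,
      fun v hv => a1 hv.1, fun v hv => a2 v hv.1, fun e he => a3 he.1, fun e he => a4 e he.1⟩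
  · rintro ⟨⟨a1, a2, a3, a4⟩, c1, c2, c3, c4⟩
    refine ⟨fun v hv => ?_, fun v hv => ?_, fun e he => ?_, fun e he => ?_⟩
    · by_cases h : v ∈ cornersOf V
      · exact a1 ⟨hv, h⟩
      · exact c1 ⟨hv, h⟩
    · by_cases h : v ∈ cornersOf V
      · exact a2 v ⟨hv, h⟩
      · exact c2 v ⟨hv, h⟩
    · by_cases h : e ∈ rswInt V
      · exact a3 ⟨he, h⟩
      · exact c3 ⟨he, h⟩
    · by_cases h : e ∈ rswInt V
      · exact a4 e ⟨he, h⟩
      · exact c4 e ⟨he, h⟩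

theorem stp261_Kin_inside (K : MdlPin) (V : Finset (ℤ × ℤ)) : RskInside V (mdlInd (stp261Kin K V).Holds) := by
  refine mdlx_in_inside ⟨fun v hv => ?_, fun e he => ?_⟩
  · unfold stp261Kin at hv
    simp only [Finset.mem_union, Finset.mem_inter] at hv
    tauto
  · unfold stp261Kin at he
    simp only [Finset.mem_union, Finset.mem_inter] at he
    tauto

theorem stp261_Kout_outside (K : MdlPin) (V : Finset (ℤ × ℤ)) : RskOutside V (mdlInd (stp261Kout K V).Holds) := by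
  intro ω
  refine stp261_ind_congr ?_
  have hcs := rsk_core_sub V
  unfold MdlPin.Holds stp261Kout rskOut
  simp only [Finset.subset_iff, Finset.mem_sdiff]
  constructor
  · rintro ⟨a1, a2, a3, a4⟩
    exact ⟨fun v hv => (a1 hv).1, fun v hv h => a2 v hv ⟨h, fun hc => hv.2 (hcs hc)⟩, fun e he => (a3 he).1,
      fun e he h => a4 e he ⟨h, he.2⟩⟩
  · rintro ⟨a1, a2, a3, a4⟩
    exact ⟨fun v hv => ⟨a1 hv, fun hc => hv.2 (hcs hc)⟩, fun v hv h => a2 v hv h.1, fun e he => ⟨a3 he, he.2⟩,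
      fun e he h => a4 e he h.1⟩

/-- **EXACT SCREENING** across a frontier of good edges: `G` = any history read off the strict inside of `V` which forces the frontier, `Z` read inside `V`, `K` any prescriptions -/
theorem stp261_screen {t : ℝ} (h0 : 0 < t) (h1 : t ≤ 1) {F V : Finset (ℤ × ℤ)} (hV : V ⊆ F) (b a : Bool) (K : MdlPin)
    {G Z : RswCfg → Prop} (hG : RskOutside V (mdlInd G)) (hGF : ∀ ω, G ω → Stp261Fr F V a ω) (hZ : RskInside V (mdlInd Z)) :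
    rswP t F b (fun ω => K.Holds ω ∧ G ω ∧ Z ω) * rswP t F b (fun ω => K.Holds ω ∧ Stp261Fr F V a ω) =
      rswP t F b (fun ω => K.Holds ω ∧ G ω) * rswP t F b (fun ω => K.Holds ω ∧ Stp261Fr F V a ω ∧ Z ω) := by
  by_cases hex : ∃ ω₁, RswBc F b ω₁ ∧ Stp261Fr F V a ω₁
  swap
  · have z1 : rswP t F b (fun ω => K.Holds ω ∧ G ω ∧ Z ω) = 0 :=
      stp261_P_zero h0.le h1 F b fun ω hw x => hex ⟨ω, stp261_bc_of_wt hw, hGF ω x.2.1⟩
    have z2 : rswP t F b (fun ω => K.Holds ω ∧ G ω) = 0 :=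
      stp261_P_zero h0.le h1 F b fun ω hw x => hex ⟨ω, stp261_bc_of_wt hw, hGF ω x.2⟩
    rw [z1, z2, zero_mul, zero_mul]
  obtain ⟨ω₁, hb1, hf1⟩ := hex
  have key := rsk_seal_cross t hV b ω₁ (X := fun ω => mdlInd (stp261Kin K V).Holds ω * mdlInd Z ω)
    (X' := mdlInd (stp261Kin K V).Holds) (Y := fun ω => mdlInd (stp261Kout K V).Holds ω * mdlInd G ω)
    (Y' := mdlInd (stp261Kout K V).Holds) (rsk_inside_mul (stp261_Kin_inside K V) hZ) (stp261_Kin_inside K V)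
    (rsk_outside_mul (stp261_Kout_outside K V) hG) (stp261_Kout_outside K V)
  have hs : ∀ ω, rswWt t F b ω ≠ 0 → rskSealInd F V ω₁ ω = mdlInd (Stp261Fr F V a) ω := by
    intro ω hw
    have hiff := stp261_seal_iff hf1 hV hb1 (stp261_bc_of_wt hw)
    unfold rskSealInd
    by_cases hh : RskSeal F V ω₁ ω
    · rw [if_pos hh, mdl_ind_pos (hiff.1 hh)]
    · rw [if_neg hh, mdl_ind_neg (fun c => hh (hiff.2 c))]
  have hK : ∀ ω, mdlInd K.Holds ω = mdlInd (stp261Kin K V).Holds ω * mdlInd (stp261Kout K V).Holds ω := by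
    intro ω
    rw [← mdl_ind_and]
    exact stp261_ind_congr (stp261_K_split K V ω)
  have hfg : ∀ ω, mdlInd (Stp261Fr F V a) ω * mdlInd G ω = mdlInd G ω := by
    intro ω
    by_cases hg : G ω
    · rw [mdl_ind_pos (hGF ω hg), one_mul]
    · rw [mdl_ind_neg hg, mul_zero]
  have e1 : rswSum t F b (fun ω => rskSealInd F V ω₁ ω * (mdlInd (stp261Kin K V).Holds ω * mdlInd Z ω) *
      (mdlInd (stp261Kout K V).Holds ω * mdlInd G ω)) = rswSum t F b (mdlInd fun ω => K.Holds ω ∧ G ω ∧ Z ω) := by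
    refine stp261_sum_congr t F b fun ω hw => ?_
    rw [hs ω hw, mdl_ind_and, mdl_ind_and, hK]
    linear_combination (mdlInd (stp261Kin K V).Holds ω * mdlInd Z ω * mdlInd (stp261Kout K V).Holds ω) * hfg ω
  have e2 : rswSum t F b (fun ω => rskSealInd F V ω₁ ω * mdlInd (stp261Kin K V).Holds ω *
      mdlInd (stp261Kout K V).Holds ω) = rswSum t F b (mdlInd fun ω => K.Holds ω ∧ Stp261Fr F V a ω) := by
    refine stp261_sum_congr t F b fun ω hw => ?_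
    rw [hs ω hw, mdl_ind_and, hK]
    ring
  have e3 : rswSum t F b (fun ω => rskSealInd F V ω₁ ω * (mdlInd (stp261Kin K V).Holds ω * mdlInd Z ω) *
      mdlInd (stp261Kout K V).Holds ω) = rswSum t F b (mdlInd fun ω => K.Holds ω ∧ Stp261Fr F V a ω ∧ Z ω) := by
    refine stp261_sum_congr t F b fun ω hw => ?_
    rw [hs ω hw, mdl_ind_and, mdl_ind_and, hK]
    ring
  have e4 : rswSum t F b (fun ω => rskSealInd F V ω₁ ω * mdlInd (stp261Kin K V).Holds ω *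
      (mdlInd (stp261Kout K V).Holds ω * mdlInd G ω)) = rswSum t F b (mdlInd fun ω => K.Holds ω ∧ G ω) := by
    refine stp261_sum_congr t F b fun ω hw => ?_
    rw [hs ω hw, mdl_ind_and, hK]
    linear_combination (mdlInd (stp261Kin K V).Holds ω * mdlInd (stp261Kout K V).Holds ω) * hfg ω
  rw [e1, e2, e3, e4] at key
  simp only [mdl_P_eq]
  unfold rswE
  rw [div_mul_div_comm, div_mul_div_comm, key, mul_comm (rswSum t F b (mdlInd fun ω => K.Holds ω ∧ Stp261Fr F V a ω ∧ Z ω))]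

/-! ## 2. the exploration -/

/-- the faces of `F` reached from `J` across edges which are not good of colour `a` -/
noncomputable def stp261U (F J : Finset (ℤ × ℤ)) (a : Bool) (ω : RswCfg) : Finset (ℤ × ℤ) :=
  open Classical in F.filter fun x => ∃ j ∈ J, Relation.ReflTransGen (RswStep F a ω) j x

theorem stp261_mem_U {F J : Finset (ℤ × ℤ)} {a : Bool} {ω : RswCfg} {x : ℤ × ℤ} :
    x ∈ stp261U F J a ω ↔ x ∈ F ∧ ∃ j ∈ J, Relation.ReflTransGen (RswStep F a ω) j x := by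
  classical
  unfold stp261U
  rw [Finset.mem_filter]

/-- the history with explored set `U`: frontier good, `U` reached from `J` inside `U`, the pairs of `Pr` not `N`-connected inside `U` -/
def Stp261G (F U J : Finset (ℤ × ℤ)) (a : Bool) (Pr : Finset ((ℤ × ℤ) × (ℤ × ℤ))) (ω : RswCfg) : Prop :=
  Stp261Fr F (F \ U) a ω ∧ MdlxReach a J U ω ∧ ∀ pr ∈ Pr, ¬ MdlNConn U ω pr.1 pr.2

theorem stp261_iff_of_ind {A : RswCfg → Prop} {ω ω' : RswCfg} (h : mdlInd A ω = mdlInd A ω') : A ω ↔ A ω' := by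
  by_cases h1 : A ω <;> by_cases h2 : A ω'
  · exact ⟨fun _ => h2, fun _ => h1⟩
  · rw [mdl_ind_pos h1, mdl_ind_neg h2] at h; exact absurd h one_ne_zero
  · rw [mdl_ind_neg h1, mdl_ind_pos h2] at h; exact absurd h.symm one_ne_zero
  · exact ⟨fun c => absurd c h1, fun c => absurd c h2⟩

theorem stp261_G_outside (F U J : Finset (ℤ × ℤ)) (a : Bool) (Pr : Finset ((ℤ × ℤ) × (ℤ × ℤ))) :
    RskOutside (F \ U) (mdlInd (Stp261G F U J a Pr)) := by
  intro ω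
  refine stp261_ind_congr ?_
  have o1 : RskOutside (F \ U) (mdlInd (Stp261Fr F (F \ U) a)) := by
    refine rsk_outside_of_good (a := a) fun ω ω' h => stp261_ind_congr ?_
    exact ⟨fun x e he hb => (h e (rsk_bd_not_int hb)).1 (x e he hb), fun x e he hb => (h e (rsk_bd_not_int hb)).2 (x e he hb)⟩
  have hN : ∀ f g, MdlNStep U (rskOut (F \ U) ω) f g ↔ MdlNStep U ω f g := by
    intro f g
    unfold MdlNStep
    refine and_congr_right fun _ => and_congr_right fun hg => exists_congr fun e => and_congr_right fun he => ?_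
    have hni : e ∉ rswInt (F \ U) := by
      intro hi
      have h2 := rsk_mem_int.1 hi
      rcases he with ⟨_, r⟩ | ⟨r, _⟩
      · exact (Finset.mem_sdiff.1 h2.2).2 (r ▸ hg)
      · exact (Finset.mem_sdiff.1 h2.1).2 (r ▸ hg)
    rw [rsk_out_O hni]
  have hNc : ∀ f g, MdlNConn U (rskOut (F \ U) ω) f g ↔ MdlNConn U ω f g := by
    intro f g
    exact ⟨fun h => ctg261_rtg_mono (fun x y => (hN x y).1) h, fun h => ctg261_rtg_mono (fun x y => (hN x y).2) h⟩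
  unfold Stp261G
  refine and_congr (stp261_iff_of_ind (o1 ω)) (and_congr (stp261_iff_of_ind (mdlx_reach_outside F J U a ω)) ?_)
  exact forall_congr' fun pr => imp_congr_right fun _ => not_congr (hNc _ _)

/-- a frontier of good edges confines the paths -/
theorem stp261_confine {F W : Finset (ℤ × ℤ)} {a : Bool} {ω : RswCfg}
    (h : ∀ e ∈ rswInt F, ¬ (e.1 ∈ W ↔ rswCo e ∈ W) → RswGood a ω e) {x y : ℤ × ℤ} (hx : x ∈ W)
    (hp : Relation.ReflTransGen (RswStep F a ω) x y) : y ∈ W ∧ Relation.ReflTransGen (RswStep W a ω) x y := by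
  induction hp with
  | refl => exact ⟨hx, Relation.ReflTransGen.refl⟩
  | @tail u v _ hs ih =>
    obtain ⟨hu, hpath⟩ := ih
    obtain ⟨huF, hvF, e, he, hn⟩ := hs
    have hv : v ∈ W := by
      by_contra hv
      apply hn
      rcases he with ⟨r1, r2⟩ | ⟨r1, r2⟩
      · exact h e (rsk_mem_int.2 ⟨r1 ▸ huF, r2 ▸ hvF⟩) (fun c => hv (r2 ▸ c.1 (r1 ▸ hu)))
      · exact h e (rsk_mem_int.2 ⟨r1 ▸ hvF, r2 ▸ huF⟩) (fun c => hv (r1 ▸ c.2 (r2 ▸ hu)))
    exact ⟨hv, hpath.tail ⟨hu, hv, e, he, hn⟩⟩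

theorem stp261_fr_U {F U : Finset (ℤ × ℤ)} {a : Bool} {ω : RswCfg} (h : Stp261Fr F (F \ U) a ω) :
    ∀ e ∈ rswInt F, ¬ (e.1 ∈ U ↔ rswCo e ∈ U) → RswGood a ω e := by
  intro e he hne
  have h2 := rsk_mem_int.1 he
  refine h e he ?_
  unfold RskBd
  simp only [Finset.mem_sdiff]
  tauto

theorem stp261_fr_V {F U : Finset (ℤ × ℤ)} {a : Bool} {ω : RswCfg} (h : Stp261Fr F (F \ U) a ω) :
    ∀ e ∈ rswInt F, ¬ (e.1 ∈ F \ U ↔ rswCo e ∈ F \ U) → RswGood a ω e := by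
  intro e he hne
  refine h e he ?_
  unfold RskBd
  tauto

theorem stp261_U_fr {F J : Finset (ℤ × ℤ)} {a : Bool} {ω : RswCfg} : Stp261Fr F (F \ stp261U F J a ω) a ω := by
  intro e he hb
  have h2 := rsk_mem_int.1 he
  by_contra hng
  unfold RskBd at hb
  simp only [Finset.mem_sdiff] at hb
  have key : e.1 ∈ stp261U F J a ω ↔ rswCo e ∈ stp261U F J a ω := by
    constructor
    · intro h
      obtain ⟨_, j, hj, hp⟩ := stp261_mem_U.1 h
      exact stp261_mem_U.2 ⟨h2.2, j, hj, hp.tail ⟨h2.1, h2.2, e, Or.inl ⟨rfl, rfl⟩, hng⟩⟩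
    · intro h
      obtain ⟨_, j, hj, hp⟩ := stp261_mem_U.1 h
      exact stp261_mem_U.2 ⟨h2.1, j, hj, hp.tail ⟨h2.2, h2.1, e, Or.inr ⟨rfl, rfl⟩, hng⟩⟩
  tauto

theorem stp261_J_sub {F J : Finset (ℤ × ℤ)} (hJ : J ⊆ F) (a : Bool) (ω : RswCfg) : J ⊆ stp261U F J a ω :=
  fun j hj => stp261_mem_U.2 ⟨hJ hj, j, hj, Relation.ReflTransGen.refl⟩

theorem stp261_U_sub (F J : Finset (ℤ × ℤ)) (a : Bool) (ω : RswCfg) : stp261U F J a ω ⊆ F :=
  fun _ hx => (stp261_mem_U.1 hx).1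

theorem stp261_U_reach {F J : Finset (ℤ × ℤ)} (hJ : J ⊆ F) (a : Bool) (ω : RswCfg) : MdlxReach a J (stp261U F J a ω) ω := by
  intro f hf
  obtain ⟨_, j, hj, hp⟩ := stp261_mem_U.1 hf
  exact ⟨j, hj, (stp261_confine (stp261_fr_U stp261_U_fr) (stp261_J_sub hJ a ω hj) hp).2⟩

theorem stp261_U_eq {F U J : Finset (ℤ × ℤ)} {a : Bool} {ω : RswCfg} (hU : U ⊆ F) (hJU : J ⊆ U)
    (hfr : Stp261Fr F (F \ U) a ω) (hr : MdlxReach a J U ω) : stp261U F J a ω = U := by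
  ext x
  rw [stp261_mem_U]
  constructor
  · rintro ⟨_, j, hj, hp⟩
    exact (stp261_confine (stp261_fr_U hfr) (hJU hj) hp).1
  · intro hx
    obtain ⟨j, hj, hp⟩ := hr x hx
    exact ⟨hU hx, j, hj, ctg261_rtg_mono (fun _ _ => mdlx_step_mono hU) hp⟩

theorem stp261_N_confine {F U : Finset (ℤ × ℤ)} {a : Bool} {ω : RswCfg} (hfr : Stp261Fr F (F \ U) a ω) {x y : ℤ × ℤ}
    (hx : x ∈ U) (hp : MdlNConn F ω x y) : y ∈ U ∧ MdlNConn U ω x y := by
  induction hp with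
  | refl => exact ⟨hx, Relation.ReflTransGen.refl⟩
  | @tail u v _ hs ih =>
    obtain ⟨hu, hpath⟩ := ih
    obtain ⟨huF, hvF, e, he, hn⟩ := hs
    have hv : v ∈ U := by
      by_contra hv
      apply hn
      rcases he with ⟨r1, r2⟩ | ⟨r1, r2⟩
      · exact (stp261_fr_U hfr e (rsk_mem_int.2 ⟨r1 ▸ huF, r2 ▸ hvF⟩) (fun c => hv (r2 ▸ c.1 (r1 ▸ hu)))).1
      · exact (stp261_fr_U hfr e (rsk_mem_int.2 ⟨r1 ▸ hvF, r2 ▸ huF⟩) (fun c => hv (r1 ▸ c.2 (r2 ▸ hu)))).1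
    exact ⟨hv, hpath.tail ⟨hu, hv, e, he, hn⟩⟩

theorem stp261_sep_inside (V : Finset (ℤ × ℤ)) (a : Bool) (A B : Finset (ℤ × ℤ)) :
    RskInside V (mdlInd fun ω => RswSep V a ω A B) := by
  intro ω
  refine stp261_ind_congr ?_
  have hg : ∀ e ∈ rswInt V, (RswGood a (rskIn V ω) e ↔ RswGood a ω e) := by
    intro e he
    have c1 := rsk_int_fst he
    have c2 := rsk_int_end he
    unfold RswGood rskIn
    simp only [Finset.mem_inter]
    tauto
  have hs : ∀ f g, RswStep V a (rskIn V ω) f g ↔ RswStep V a ω f g := by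
    intro f g
    unfold RswStep
    refine and_congr_right fun hf => and_congr_right fun hg' => exists_congr fun e => and_congr_right fun he => not_congr ?_
    refine hg e (rsk_mem_int.2 ?_)
    rcases he with ⟨r1, r2⟩ | ⟨r1, r2⟩
    · exact ⟨r1 ▸ hf, r2 ▸ hg'⟩
    · exact ⟨r1 ▸ hg', r2 ▸ hf⟩
  unfold RswSep
  refine forall_congr' fun f => imp_congr_right fun _ => forall_congr' fun g => imp_congr_right fun _ => not_congr ?_
  exact ⟨fun h => ctg261_rtg_mono (fun x y => (hs x y).1) h, fun h => ctg261_rtg_mono (fun x y => (hs x y).2) h⟩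

/-- THE TYPE EVENT: `J` is separated from `I` by the colour `a`, the pairs of `Pr` (first point in `J`) are not `N`-connected -/
def Stp261T (F J I : Finset (ℤ × ℤ)) (a : Bool) (Pr : Finset ((ℤ × ℤ) × (ℤ × ℤ))) (ω : RswCfg) : Prop :=
  (∀ j ∈ J, ∀ i ∈ I, ¬ Relation.ReflTransGen (RswStep F a ω) j i) ∧ ∀ pr ∈ Pr, ¬ MdlNConn F ω pr.1 pr.2

theorem stp261_perU {t : ℝ} (h0 : 0 < t) (h1 : t ≤ 1) {F B Λi Λo J I : Finset (ℤ × ℤ)} {b a : Bool}
    (hfkg : ∀ K : MdlPin, K.Ok → MdlFkgAt t F b a K) (hJ : J ⊆ F) {Pr : Finset ((ℤ × ℤ) × (ℤ × ℤ))} (hPr : ∀ pr ∈ Pr, pr.1 ∈ J)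
    {K : MdlPin} (hK : MdlExt B K.Holds) {p : ℝ}
    (hcirc : ∀ L' : RswCfg → Prop, MdlExt B L' → p * rswP t F b L' ≤ rswP t F b (fun ω => L' ω ∧ RswSep F a ω Λi (F \ Λo)))
    {i₀ : ℤ × ℤ} (hi : i₀ ∈ I) (hiF : i₀ ∈ F) (hiΛ : i₀ ∈ Λi) (U : Finset (ℤ × ℤ)) :
    p * rswP t F b (fun ω => (K.Holds ω ∧ Stp261T F J I a Pr ω) ∧ stp261U F J a ω = U) ≤
      rswP t F b (fun ω => (K.Holds ω ∧ Stp261T F J I a Pr ω ∧ RswSep F a ω {i₀} (F \ Λo)) ∧ stp261U F J a ω = U) := by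
  have hnn := rsz_P_nonneg h0.le h1 F b
    (fun ω => (K.Holds ω ∧ Stp261T F J I a Pr ω ∧ RswSep F a ω {i₀} (F \ Λo)) ∧ stp261U F J a ω = U)
  by_cases sc : U ⊆ F ∧ J ⊆ U ∧ ∀ i ∈ I, i ∉ U
  swap
  · rw [ctg261_P_false t F b (A := fun ω => (K.Holds ω ∧ Stp261T F J I a Pr ω) ∧ stp261U F J a ω = U) ?_, mul_zero]
    · exact hnn
    · intro ω x
      apply sc
      rw [← x.2]
      refine ⟨stp261_U_sub F J a ω, stp261_J_sub hJ a ω, fun i hiI hiU => ?_⟩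
      obtain ⟨_, j, hj, hp⟩ := stp261_mem_U.1 hiU
      exact x.1.2.1 j hj i hiI hp
  obtain ⟨hUF, hJU, hIU⟩ := sc
  have hiV : i₀ ∈ F \ U := Finset.mem_sdiff.2 ⟨hiF, hIU i₀ hi⟩
  have l1 : rswP t F b (fun ω => (K.Holds ω ∧ Stp261T F J I a Pr ω) ∧ stp261U F J a ω = U) ≤
      rswP t F b (fun ω => K.Holds ω ∧ Stp261G F U J a Pr ω) := by
    refine ctg261_P_mono h0.le h1 F b fun ω _ _ _ _ x => ⟨x.1.1, ?_, ?_, fun pr hpr hc => x.1.2.2 pr hpr (ctg261_conn_mono hUF hc)⟩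
    · have := @stp261_U_fr F J a ω
      rwa [x.2] at this
    · have := stp261_U_reach hJ a ω
      rwa [x.2] at this
  have l2 : rswP t F b (fun ω => K.Holds ω ∧ Stp261G F U J a Pr ω ∧ RswSep (F \ U) a ω {i₀} ((F \ U) \ Λo)) ≤
      rswP t F b (fun ω => (K.Holds ω ∧ Stp261T F J I a Pr ω ∧ RswSep F a ω {i₀} (F \ Λo)) ∧ stp261U F J a ω = U) := by
    refine ctg261_P_mono h0.le h1 F b fun ω _ _ _ _ x => ?_
    obtain ⟨hKω, ⟨hfr, hr, hN⟩, hz⟩ := x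
    refine ⟨⟨hKω, ⟨fun j hj i hiI hp => hIU i hiI (stp261_confine (stp261_fr_U hfr) (hJU hj) hp).1,
      fun pr hpr hc => hN pr hpr (stp261_N_confine hfr (hJU (hPr pr hpr)) hc).2⟩, ?_⟩, stp261_U_eq hUF hJU hfr hr⟩
    intro f hf g hg hp
    rw [Finset.mem_singleton] at hf
    subst hf
    have c := stp261_confine (stp261_fr_V hfr) hiV hp
    exact hz f (Finset.mem_singleton_self f) g (Finset.mem_sdiff.2 ⟨c.1, (Finset.mem_sdiff.1 hg).2⟩) c.2
  have scr := stp261_screen h0 h1 (Finset.sdiff_subset : F \ U ⊆ F) b a K (stp261_G_outside F U J a Pr) (fun ω g => g.1)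
    (stp261_sep_inside (F \ U) a {i₀} ((F \ U) \ Λo))
  have fk := ctg261_fkg_circ h0 h1 hfkg hK (stp261_fr_inc F (F \ U) a) (ctg261_sep_inc F a Λi (F \ Λo)) hcirc
  have fk2 : rswP t F b (fun ω => K.Holds ω ∧ Stp261Fr F (F \ U) a ω ∧ RswSep F a ω Λi (F \ Λo)) ≤
      rswP t F b (fun ω => K.Holds ω ∧ Stp261Fr F (F \ U) a ω ∧ RswSep (F \ U) a ω {i₀} ((F \ U) \ Λo)) := by
    refine ctg261_P_mono h0.le h1 F b fun ω _ _ _ _ x => ⟨x.1, x.2.1, ?_⟩
    intro f hf g hg hp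
    rw [Finset.mem_singleton] at hf
    subst hf
    have hg' := Finset.mem_sdiff.1 hg
    exact x.2.2 f hiΛ g (Finset.mem_sdiff.2 ⟨(Finset.mem_sdiff.1 hg'.1).1, hg'.2⟩)
      (ctg261_rtg_mono (fun _ _ => mdlx_step_mono Finset.sdiff_subset) hp)
  have xu : rswP t F b (fun ω => K.Holds ω ∧ Stp261G F U J a Pr ω) ≤ rswP t F b (fun ω => K.Holds ω ∧ Stp261Fr F (F \ U) a ω) :=
    ctg261_P_mono h0.le h1 F b fun ω _ _ _ _ x => ⟨x.1, x.2.1⟩
  have x0 := rsz_P_nonneg h0.le h1 F b (fun ω => K.Holds ω ∧ Stp261G F U J a Pr ω)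
  have u0 := rsz_P_nonneg h0.le h1 F b (fun ω => K.Holds ω ∧ Stp261Fr F (F \ U) a ω)
  have y0 := rsz_P_nonneg h0.le h1 F b (fun ω => K.Holds ω ∧ Stp261G F U J a Pr ω ∧ RswSep (F \ U) a ω {i₀} ((F \ U) \ Λo))
  have l0 := rsz_P_nonneg h0.le h1 F b (fun ω => (K.Holds ω ∧ Stp261T F J I a Pr ω) ∧ stp261U F J a ω = U)
  refine le_trans ?_ l2
  rcases u0.eq_or_lt with hu | hu
  · have hx : rswP t F b (fun ω => K.Holds ω ∧ Stp261G F U J a Pr ω) = 0 := le_antisymm (hu ▸ xu) x0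
    have hl : rswP t F b (fun ω => (K.Holds ω ∧ Stp261T F J I a Pr ω) ∧ stp261U F J a ω = U) = 0 := le_antisymm (hx ▸ l1) l0
    rw [hl, mul_zero]
    exact y0
  · by_cases hp0 : 0 ≤ p
    · refine le_trans (mul_le_mul_of_nonneg_left l1 hp0) ?_
      refine le_of_mul_le_mul_right ?_ hu
      rw [scr]
      have := mul_le_mul_of_nonneg_left (fk.trans fk2) x0
      linarith
    · have : p * rswP t F b (fun ω => (K.Holds ω ∧ Stp261T F J I a Pr ω) ∧ stp261U F J a ω = U) ≤ 0 :=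
        mul_nonpos_of_nonpos_of_nonneg (not_le.1 hp0).le l0
      linarith

/-- **THE EXPLORATION STEP**: given ANY data `A` off the buffer `B` and the type event, the mark `i₀ ∈ I` is cut off inside `Λo` with conditional probability `≥ p` -/
theorem stp261_explore {t : ℝ} (h0 : 0 < t) (h1 : t ≤ 1) {F B Λi Λo J I : Finset (ℤ × ℤ)} {b a : Bool}
    (hfkg : ∀ K : MdlPin, K.Ok → MdlFkgAt t F b a K) (hJ : J ⊆ F) {Pr : Finset ((ℤ × ℤ) × (ℤ × ℤ))} (hPr : ∀ pr ∈ Pr, pr.1 ∈ J)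
    {A : RswCfg → Prop} (hA : MdlExt B A) {p : ℝ}
    (hcirc : ∀ L' : RswCfg → Prop, MdlExt B L' → p * rswP t F b L' ≤ rswP t F b (fun ω => L' ω ∧ RswSep F a ω Λi (F \ Λo)))
    {i₀ : ℤ × ℤ} (hi : i₀ ∈ I) (hiF : i₀ ∈ F) (hiΛ : i₀ ∈ Λi) :
    p * rswP t F b (fun ω => A ω ∧ Stp261T F J I a Pr ω) ≤
      rswP t F b (fun ω => A ω ∧ Stp261T F J I a Pr ω ∧ RswSep F a ω {i₀} (F \ Λo)) := by
  classical
  have hZ := rsz_Z_pos h0 h1 F b
  have atoms : ∀ S₀ ⊆ mdlVext F B, ∀ O₀ ⊆ mdlEext F B,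
      p * mdlSumK t F b (mdlAtom F B S₀ O₀) (mdlInd (Stp261T F J I a Pr)) ≤
        mdlSumK t F b (mdlAtom F B S₀ O₀) (mdlInd fun ω => Stp261T F J I a Pr ω ∧ RswSep F a ω {i₀} (F \ Λo)) := by
    intro S₀ hS O₀ hO
    have hK := ctg261_atom_ext (F := F) (B := B) hS hO
    have main : p * rswP t F b (fun ω => (mdlAtom F B S₀ O₀).Holds ω ∧ Stp261T F J I a Pr ω) ≤
        rswP t F b (fun ω => (mdlAtom F B S₀ O₀).Holds ω ∧ Stp261T F J I a Pr ω ∧ RswSep F a ω {i₀} (F \ Λo)) := by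
      rw [ctg261_P_part t F b (fun ω => (mdlAtom F B S₀ O₀).Holds ω ∧ Stp261T F J I a Pr ω) F.powerset (stp261U F J a)
          (fun ω => Finset.mem_powerset.2 (stp261_U_sub F J a ω)),
        ctg261_P_part t F b (fun ω => (mdlAtom F B S₀ O₀).Holds ω ∧ Stp261T F J I a Pr ω ∧ RswSep F a ω {i₀} (F \ Λo))
          F.powerset (stp261U F J a) (fun ω => Finset.mem_powerset.2 (stp261_U_sub F J a ω)), Finset.mul_sum]
      exact Finset.sum_le_sum fun U _ => stp261_perU h0 h1 hfkg hJ hPr hK hcirc hi hiF hiΛ U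
    rw [ctg261_P_holds, ctg261_P_holds, ← mul_div_assoc] at main
    exact (div_le_div_iff_of_pos_right hZ).1 main
  have key := mdl_of_atoms t F B b hA p (mdlInd (Stp261T F J I a Pr))
    (mdlInd fun ω => Stp261T F J I a Pr ω ∧ RswSep F a ω {i₀} (F \ Λo)) atoms
  rw [ctg261_P_ite, ctg261_P_ite t F b A (fun ω => Stp261T F J I a Pr ω ∧ RswSep F a ω {i₀} (F \ Λo)), ← mul_div_assoc]
  exact div_le_div_of_nonneg_right key hZ.le

/-! ## 3. types: the deterministic part -/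

theorem stp261_N_to_a {F : Finset (ℤ × ℤ)} {ω : RswCfg} (a : Bool) {x y : ℤ × ℤ} (h : MdlNConn F ω x y) :
    Relation.ReflTransGen (RswStep F a ω) x y := by
  refine ctg261_rtg_mono (s := RswStep F a ω) ?_ h
  rintro u v ⟨hu, hv, e, he, hO⟩
  exact ⟨hu, hv, e, he, fun hg => hO hg.1⟩

theorem stp261_wstep_symm {B : Finset (ℤ × ℤ)} {a : Bool} {ω : RswCfg} {f g : ℤ × ℤ} (h : Ctg261Step B a ω f g) :
    Ctg261Step B a ω g f := by
  obtain ⟨e, he, hn⟩ := h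
  exact ⟨e, he.symm, hn⟩

/-- the type `(a, J, i₀)` is admissible for the set `Pm` of missing pairs -/
def Stp261Adm (Mk J : Finset (ℤ × ℤ)) (i₀ : ℤ × ℤ) (Pm : Finset ((ℤ × ℤ) × (ℤ × ℤ))) : Prop :=
  i₀ ∈ Mk \ J ∧ (∃ i₁ ∈ J, (i₀, i₁) ∈ Pm ∨ (i₁, i₀) ∈ Pm) ∧ ∀ pr ∈ Pm, pr.1 ∈ J ∨ pr.2 ∈ J

/-- (DET) on the type event, with `i₀` cut off inside `Λo`: compatibility holds and one more pair is short -/
theorem stp261_det {F K K' Λo Mp Mm J : Finset (ℤ × ℤ)} {a : Bool} {g ω : RswCfg} {i₀ : ℤ × ℤ} (hKK : K ⊆ K') (hK'F : K' ⊆ F)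
    (hdeep : ∀ e : (ℤ × ℤ) × Bool, (e.1 ∈ Λo ∨ rswCo e ∈ Λo) → e ∈ rswInt K') (hio : i₀ ∈ Λo) (hp : MdlPat K g ω)
    (hadm : Stp261Adm (Mp ∪ Mm) J i₀ ((Mp ×ˢ Mm) \ ctg261Sh K Mp Mm g))
    (hT : Stp261T F J ((Mp ∪ Mm) \ J) a ((Mp ∩ J) ×ˢ (Mm ∩ J)) ω) (hZ : RswSep F a ω {i₀} (F \ Λo)) :
    Ctg261Compat F Mp Mm ω ∧ (ctg261Sh K Mp Mm g).card < (ctg261Sh K' Mp Mm ω).card := by
  classical
  obtain ⟨hi0, ⟨i₁, hi1, hpr⟩, hall⟩ := hadm
  constructor
  · intro x hx y hy hc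
    by_cases hxJ : x ∈ J
    · by_cases hyJ : y ∈ J
      · exact hT.2 (x, y) (Finset.mem_product.2 ⟨Finset.mem_inter.2 ⟨hx, hxJ⟩, Finset.mem_inter.2 ⟨hy, hyJ⟩⟩) hc
      · exact hT.1 x hxJ y (Finset.mem_sdiff.2 ⟨Finset.mem_union_right _ hy, hyJ⟩) (stp261_N_to_a a hc)
    · by_cases hyJ : y ∈ J
      · exact hT.1 y hyJ x (Finset.mem_sdiff.2 ⟨Finset.mem_union_left _ hx, hxJ⟩) (stp261_N_to_a a (ctg261_conn_symm hc))
      · have hsh : (x, y) ∈ ctg261Sh K Mp Mm g := by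
          by_contra hsh
          rcases hall (x, y) (Finset.mem_sdiff.2 ⟨Finset.mem_product.2 ⟨hx, hy⟩, hsh⟩) with h | h
          · exact hxJ h
          · exact hyJ h
        rw [ctg261_sh_pat hp Mp Mm] at hsh
        obtain ⟨_, a', ha'⟩ := ctg261_mem_sh.1 hsh
        refine ha' (ctg261_rtg_mono (s := Ctg261Step K a' ω) ?_ hc)
        rintro u v ⟨_, _, e, he, heO⟩
        exact ⟨e, he, fun h => heO h.2.1⟩
  · have hsep : ¬ Relation.ReflTransGen (RswStep F a ω) i₀ i₁ := fun hc => hT.1 i₁ hi1 i₀ hi0 (mdlx_path_symm hc)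
    have hloc : ¬ Relation.ReflTransGen (Ctg261Step K' a ω) i₀ i₁ :=
      ctg261_localise hK'F hdeep hZ (Finset.mem_singleton_self i₀) hio hsep
    have hsub : ctg261Sh K Mp Mm g ⊆ ctg261Sh K' Mp Mm ω := by
      rw [ctg261_sh_pat hp Mp Mm]
      exact ctg261_sh_mono hKK Mp Mm ω
    refine Finset.card_lt_card ⟨hsub, fun hcon => ?_⟩
    rcases hpr with h | h
    · obtain ⟨h1, h2⟩ := Finset.mem_sdiff.1 h
      exact h2 (hcon (ctg261_mem_sh.2 ⟨Finset.mem_product.1 h1, a, hloc⟩))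
    · obtain ⟨h1, h2⟩ := Finset.mem_sdiff.1 h
      exact h2 (hcon (ctg261_mem_sh.2 ⟨Finset.mem_product.1 h1, a,
        fun hc => hloc (ctg261_rtg_symm (fun _ _ => stp261_wstep_symm) hc)⟩))

/-- (EX) every compatible configuration with a missing pair has an admissible type (`cm72_main` of 72) -/
theorem stp261_ex {t : ℝ} {F Mp Mm : Finset (ℤ × ℤ)} {b : Bool} {ω : RswCfg} (hw : rswWt t F b ω ≠ 0)
    {Pm : Finset ((ℤ × ℤ) × (ℤ × ℤ))} (hPm : Pm ⊆ Mp ×ˢ Mm) (hne : Pm.Nonempty)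
    (hc : ∀ x ∈ Mp ∪ Mm, ∀ y ∈ Mp ∪ Mm,
      Relation.ReflTransGen (fun u v => ∃ e ∈ rswInt F, (u = e.1 ∧ v = rswCo e) ∨ (v = e.1 ∧ u = rswCo e)) x y)
    (hcomp : Ctg261Compat F Mp Mm ω) :
    ∃ τ ∈ (Finset.univ : Finset Bool) ×ˢ ((Mp ∪ Mm).powerset ×ˢ (Mp ∪ Mm)), Stp261Adm (Mp ∪ Mm) τ.2.1 τ.2.2 Pm ∧
      Stp261T F τ.2.1 ((Mp ∪ Mm) \ τ.2.1) τ.1 ((Mp ∩ τ.2.1) ×ˢ (Mm ∩ τ.2.1)) ω := by
  classical
  have cN : ∀ x y, Relation.ReflTransGen (Col261NStep F ω) x y → MdlNConn F ω x y := by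
    intro x y h
    refine ctg261_rtg_mono (s := MdlNStep F ω) ?_ h
    rintro u v ⟨e, he, hx, hO⟩
    have h2 := rsz_mem_int.1 he
    rcases hx with ⟨h1, h3⟩ | ⟨h1, h3⟩
    · exact ⟨h1 ▸ h2.1, h3 ▸ h2.2, e, Or.inl ⟨h1, h3⟩, hO⟩
    · exact ⟨h3 ▸ h2.2, h1 ▸ h2.1, e, Or.inr ⟨h1, h3⟩, hO⟩
  have cA : ∀ (a : Bool) x y, Relation.ReflTransGen (RswStep F a ω) x y → Relation.ReflTransGen (Col261StepIn F F a ω) x y := by
    intro a x y h
    refine ctg261_rtg_mono (s := Col261StepIn F F a ω) ?_ h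
    rintro u v ⟨hx, hy, e, he, hn⟩
    refine ⟨e, rsz_mem_int.2 ?_, he, fun hh => hn hh.1⟩
    rcases he with ⟨h1, h3⟩ | ⟨h1, h3⟩
    · exact ⟨h1 ▸ hx, h3 ▸ hy⟩
    · exact ⟨h1 ▸ hy, h3 ▸ hx⟩
  obtain ⟨M, hM⟩ : ∃ M : Finset (ℤ × ℤ), M = Pm.image Prod.fst ∪ Pm.image Prod.snd := ⟨_, rfl⟩
  have hM1 : ∀ pr ∈ Pm, pr.1 ∈ M ∧ pr.2 ∈ M := fun pr hpr => by
    rw [hM]
    exact ⟨Finset.mem_union_left _ (Finset.mem_image_of_mem _ hpr), Finset.mem_union_right _ (Finset.mem_image_of_mem _ hpr)⟩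
  have hPm' : ∀ pr ∈ Pm, pr.1 ∈ Mp ∧ pr.2 ∈ Mm := fun pr hpr => Finset.mem_product.1 (hPm hpr)
  have hMsub : M ⊆ Mp ∪ Mm := by
    intro x hx
    rw [hM, Finset.mem_union, Finset.mem_image, Finset.mem_image] at hx
    rcases hx with ⟨pr, hpr, rfl⟩ | ⟨pr, hpr, rfl⟩
    · exact Finset.mem_union_left _ (hPm' pr hpr).1
    · exact Finset.mem_union_right _ (hPm' pr hpr).2
  obtain ⟨pr0, hpr0⟩ := hne
  obtain ⟨a, i₀, hi0, hcm⟩ := cm72_main (dua261_feas_of_wt hw) M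
    ⟨pr0.1, (hM1 pr0 hpr0).1, pr0.2, (hM1 pr0 hpr0).2, fun h => hcomp _ (hPm' pr0 hpr0).1 _ (hPm' pr0 hpr0).2 (cN _ _ h)⟩
    (fun x hx y hy => hc x (hMsub hx) y (hMsub hy))
  have hcm' : ∀ m ∈ M, Relation.ReflTransGen (RswStep F a ω) i₀ m → MdlNConn F ω i₀ m :=
    fun m hm h => cN _ _ (hcm m hm (cA a _ _ h))
  obtain ⟨J, hJ⟩ : ∃ J : Finset (ℤ × ℤ), J = (Mp ∪ Mm).filter fun m => ¬ Relation.ReflTransGen (RswStep F a ω) i₀ m := ⟨_, rfl⟩
  have hJm : ∀ m, m ∈ J ↔ (m ∈ Mp ∪ Mm ∧ ¬ Relation.ReflTransGen (RswStep F a ω) i₀ m) := fun m => by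
    rw [hJ, Finset.mem_filter]
  have hnot : ∀ pr ∈ Pm, ¬ (Relation.ReflTransGen (RswStep F a ω) i₀ pr.1 ∧ Relation.ReflTransGen (RswStep F a ω) i₀ pr.2) := by
    rintro pr hpr ⟨c1, c2⟩
    have n1 := hcm' _ (hM1 pr hpr).1 c1
    have n2 := hcm' _ (hM1 pr hpr).2 c2
    exact hcomp _ (hPm' pr hpr).1 _ (hPm' pr hpr).2 ((ctg261_conn_symm n1).trans n2)
  refine ⟨(a, J, i₀), ?_, ⟨?_, ?_, ?_⟩, ?_, ?_⟩
  · refine Finset.mem_product.2 ⟨Finset.mem_univ _, Finset.mem_product.2 ⟨Finset.mem_powerset.2 fun m hm => ((hJm m).1 hm).1, hMsub hi0⟩⟩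
  · exact Finset.mem_sdiff.2 ⟨hMsub hi0, fun h => ((hJm i₀).1 h).2 Relation.ReflTransGen.refl⟩
  · have hi0' := hi0
    rw [hM, Finset.mem_union, Finset.mem_image, Finset.mem_image] at hi0'
    rcases hi0' with ⟨pr, hpr, rfl⟩ | ⟨pr, hpr, rfl⟩
    · exact ⟨pr.2, (hJm _).2 ⟨Finset.mem_union_right _ (hPm' pr hpr).2, fun c => hnot pr hpr ⟨Relation.ReflTransGen.refl, c⟩⟩,
        Or.inl hpr⟩
    · exact ⟨pr.1, (hJm _).2 ⟨Finset.mem_union_left _ (hPm' pr hpr).1, fun c => hnot pr hpr ⟨c, Relation.ReflTransGen.refl⟩⟩,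
        Or.inr hpr⟩
  · intro pr hpr
    by_contra hcon
    rw [not_or] at hcon
    have c1 : Relation.ReflTransGen (RswStep F a ω) i₀ pr.1 := by
      by_contra c
      exact hcon.1 ((hJm _).2 ⟨Finset.mem_union_left _ (hPm' pr hpr).1, c⟩)
    have c2 : Relation.ReflTransGen (RswStep F a ω) i₀ pr.2 := by
      by_contra c
      exact hcon.2 ((hJm _).2 ⟨Finset.mem_union_right _ (hPm' pr hpr).2, c⟩)
    exact hnot pr hpr ⟨c1, c2⟩
  · intro j hj i hi hp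
    obtain ⟨hiM, hiJ⟩ := Finset.mem_sdiff.1 hi
    have c1 : Relation.ReflTransGen (RswStep F a ω) i₀ i := by
      by_contra c
      exact hiJ ((hJm _).2 ⟨hiM, c⟩)
    exact ((hJm j).1 hj).2 (c1.trans (mdlx_path_symm hp))
  · intro pr hpr
    obtain ⟨h1, h2⟩ := Finset.mem_product.1 hpr
    exact hcomp _ (Finset.mem_inter.1 h1).1 _ (Finset.mem_inter.1 h2).1

/-- union bound -/
theorem stp261_union {ι : Type*} [DecidableEq ι] {t : ℝ} (h0 : 0 ≤ t) (h1 : t ≤ 1) (F : Finset (ℤ × ℤ)) (b : Bool) (s : Finset ι)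
    {E : RswCfg → Prop} {Eτ : ι → RswCfg → Prop} (h : ∀ ω, rswWt t F b ω ≠ 0 → E ω → ∃ τ ∈ s, Eτ τ ω) :
    rswP t F b E ≤ ∑ τ ∈ s, rswP t F b (Eτ τ) := by
  classical
  rcases s.eq_empty_or_nonempty with hs | ⟨τ₀, hτ₀⟩
  · subst hs
    rw [stp261_P_zero h0 h1 F b (E := E) (fun ω hw x => by obtain ⟨τ, hτ, _⟩ := h ω hw x; simp at hτ)]
    simp
  · obtain ⟨idx, hidx⟩ : ∃ idx : RswCfg → ι, ∀ ω, idx ω ∈ s ∧ ((∃ τ ∈ s, Eτ τ ω) → Eτ (idx ω) ω) := by
      refine ⟨fun ω => if hh : ∃ τ ∈ s, Eτ τ ω then hh.choose else τ₀, fun ω => ?_⟩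
      by_cases hh : ∃ τ ∈ s, Eτ τ ω
      · simp only [dif_pos hh]
        exact ⟨hh.choose_spec.1, fun _ => hh.choose_spec.2⟩
      · simp only [dif_neg hh]
        exact ⟨hτ₀, fun c => absurd c hh⟩
    rw [ctg261_P_part t F b E s idx (fun ω => (hidx ω).1)]
    refine Finset.sum_le_sum fun τ _ => ctg261_P_mono h0 h1 F b fun ω _ _ _ hw x => ?_
    have := (hidx ω).2 (h ω hw x.1)
    rwa [x.2] at this

/-! ## 4. the one-step statement -/

/-- RECORD (geometry): a square box is connected -/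
def Stp261Box : Prop := ∀ (z : ℤ × ℤ) (m : ℕ) (F : Finset (ℤ × ℤ)), rswBox z m ⊆ F → ∀ x ∈ rswBox z m, ∀ y ∈ rswBox z m,
  Relation.ReflTransGen (fun u v => ∃ e ∈ rswInt F, (u = e.1 ∧ v = rswCo e) ∨ (v = e.1 ∧ u = rswCo e)) x y

/-- **eq:spatial-witness-step** (`Ctg261W1`) from (S0), (S1): union bound over the `≤ 2 · 2 ^ M · M` types, exploration step, localisation.  No collar. -/
theorem stp261_step {t : ℝ} (h0 : 0 < t) (h1 : t ≤ 1) (hS0 : Ctg261S0 t) (hS1 : Ctg261S1 t) (hbox : Stp261Box) : Ctg261W1 t := by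
  classical
  intro k M α hα
  obtain ⟨p1, hp1, n1, H1⟩ := hS1 (4 * k + 5)
  obtain ⟨Nn, hNn⟩ : ∃ Nn : ℝ, Nn = 2 * (2 ^ M * M) + 1 := ⟨_, rfl⟩
  have hNpos : 0 < Nn := by rw [hNn]; positivity
  refine ⟨p1 * α / Nn, by positivity, 4 * (n1 + 3 * (k + 1) + 1) + 4,
    fun n hn F z b L g Mp Mm hF hsub hL hMp hMm hM hmiss hc => ?_⟩
  obtain ⟨n', hn'def⟩ : ∃ n' : ℕ, n' = n / 4 := ⟨_, rfl⟩
  have a1 : 4 * n' ≤ n := by omega
  have a2 : n < 4 * n' + 4 := by omega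
  have a3 : n1 + 3 * (k + 1) + 1 ≤ n' := by omega
  have g0 : k * n ≤ (4 * k + 5 + 1) * n' := by nlinarith
  have g1 : (k + 1) * n ≤ (4 * k + 5) * n' := by nlinarith
  have g2 : (4 * k + 5 + 3) * n' ≤ (k + 2) * n := by nlinarith
  have g3 : (4 * k + 5 + 2) * n' + 1 ≤ (k + 2) * n := by nlinarith
  have g4 : (k + 2) * n ≤ (k + 3) * n := by nlinarith
  have g5 : (k + 1) * n ≤ (k + 2) * n := by nlinarith
  have g6 : (4 * k + 5 + 1) * n' ≤ (4 * k + 5 + 2) * n' := by nlinarith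
  have g7 : k * n ≤ (k + 3) * n := by nlinarith
  have sK' : rswBox z ((k + 2) * n) ⊆ F := (ctg261_box_mono z g4).trans hsub
  have sB : rswBox z ((4 * k + 5 + 3) * n') ⊆ F := (ctg261_box_mono z g2).trans sK'
  have sBox : rswBox z (k * n) ⊆ F := (ctg261_box_mono z g7).trans hsub
  have hBsub : rswBox z ((4 * k + 5 + 3) * n') \ rswBox z ((4 * k + 5) * n') ⊆ rswBox z ((k + 3) * n) :=
    Finset.sdiff_subset.trans ((ctg261_box_mono z g2).trans (ctg261_box_mono z g4))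
  have hdisj : Disjoint (rswBox z ((k + 1) * n)) (rswBox z ((4 * k + 5 + 3) * n') \ rswBox z ((4 * k + 5) * n')) :=
    Finset.disjoint_of_subset_left (ctg261_box_mono z g1) Finset.disjoint_sdiff
  have hA : MdlExt (rswBox z ((4 * k + 5 + 3) * n') \ rswBox z ((4 * k + 5) * n'))
      (fun ω => L ω ∧ MdlPat (rswBox z ((k + 1) * n)) g ω) :=
    ctg261_ext_and (ctg261_ext_mono hBsub hL) (ctg261_pat_ext hdisj g)
  have hu_nn : 0 ≤ rswP t F b (fun ω => L ω ∧ MdlPat (rswBox z ((k + 1) * n)) g ω) := rsz_P_nonneg h0.le h1 F b _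
  obtain ⟨Pm, hPm⟩ : ∃ Pm, Pm = (Mp ×ˢ Mm) \ ctg261Sh (rswBox z ((k + 1) * n)) Mp Mm g := ⟨_, rfl⟩
  have hPne : Pm.Nonempty := by
    by_contra hcon
    rw [Finset.not_nonempty_iff_eq_empty, hPm] at hcon
    apply hmiss
    rw [ctg261_wit_iff]
    calc Mp.card * Mm.card = (Mp ×ˢ Mm).card := (Finset.card_product _ _).symm
      _ ≤ _ := Finset.card_le_card (Finset.sdiff_eq_empty_iff_subset.1 hcon)
  have hMk : ∀ x ∈ Mp ∪ Mm, x ∈ rswBox z (k * n) := by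
    intro x hx
    rcases Finset.mem_union.1 hx with h | h
    · exact hMp h
    · exact hMm h
  have hconn : ∀ x ∈ Mp ∪ Mm, ∀ y ∈ Mp ∪ Mm,
      Relation.ReflTransGen (fun u v => ∃ e ∈ rswInt F, (u = e.1 ∧ v = rswCo e) ∨ (v = e.1 ∧ u = rswCo e)) x y :=
    fun x hx y hy => hbox z (k * n) F sBox x (hMk x hx) y (hMk y hy)
  obtain ⟨s, hs⟩ : ∃ s, s = (Finset.univ : Finset Bool) ×ˢ ((Mp ∪ Mm).powerset ×ˢ (Mp ∪ Mm)) := ⟨_, rfl⟩
  have ub := stp261_union h0.le h1 F b s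
    (E := fun ω => (L ω ∧ MdlPat (rswBox z ((k + 1) * n)) g ω) ∧ Ctg261Compat F Mp Mm ω)
    (Eτ := fun τ ω => (L ω ∧ MdlPat (rswBox z ((k + 1) * n)) g ω) ∧ Stp261Adm (Mp ∪ Mm) τ.2.1 τ.2.2 Pm ∧
      Stp261T F τ.2.1 ((Mp ∪ Mm) \ τ.2.1) τ.1 ((Mp ∩ τ.2.1) ×ˢ (Mm ∩ τ.2.1)) ω)
    (fun ω hw x => by
      obtain ⟨τ, hτ, c1, c2⟩ := stp261_ex hw (Pm := Pm) (by rw [hPm]; exact Finset.sdiff_subset) hPne hconn x.2
      exact ⟨τ, hs ▸ hτ, x.1, c1, c2⟩)
  have htg_nn : 0 ≤ rswP t F b (fun ω => (L ω ∧ MdlPat (rswBox z ((k + 1) * n)) g ω) ∧ Ctg261Compat F Mp Mm ω ∧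
      (ctg261Sh (rswBox z ((k + 1) * n)) Mp Mm g).card < (ctg261Sh (rswBox z ((k + 2) * n)) Mp Mm ω).card) :=
    rsz_P_nonneg h0.le h1 F b _
  have term : ∀ τ ∈ s, p1 * rswP t F b (fun ω => (L ω ∧ MdlPat (rswBox z ((k + 1) * n)) g ω) ∧
      Stp261Adm (Mp ∪ Mm) τ.2.1 τ.2.2 Pm ∧ Stp261T F τ.2.1 ((Mp ∪ Mm) \ τ.2.1) τ.1 ((Mp ∩ τ.2.1) ×ˢ (Mm ∩ τ.2.1)) ω) ≤
      rswP t F b (fun ω => (L ω ∧ MdlPat (rswBox z ((k + 1) * n)) g ω) ∧ Ctg261Compat F Mp Mm ω ∧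
        (ctg261Sh (rswBox z ((k + 1) * n)) Mp Mm g).card < (ctg261Sh (rswBox z ((k + 2) * n)) Mp Mm ω).card) := by
    rintro ⟨a, J, i₀⟩ hτ
    simp only
    rw [hs, Finset.mem_product, Finset.mem_product, Finset.mem_powerset] at hτ
    obtain ⟨_, hJs, hi0M⟩ := hτ
    simp only at hJs hi0M
    by_cases hadm : Stp261Adm (Mp ∪ Mm) J i₀ Pm
    · have hib := hMk i₀ hi0M
      have e1 : rswP t F b (fun ω => (L ω ∧ MdlPat (rswBox z ((k + 1) * n)) g ω) ∧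
          Stp261Adm (Mp ∪ Mm) J i₀ Pm ∧ Stp261T F J ((Mp ∪ Mm) \ J) a ((Mp ∩ J) ×ˢ (Mm ∩ J)) ω) ≤
          rswP t F b (fun ω => (L ω ∧ MdlPat (rswBox z ((k + 1) * n)) g ω) ∧
            Stp261T F J ((Mp ∪ Mm) \ J) a ((Mp ∩ J) ×ˢ (Mm ∩ J)) ω) :=
        ctg261_P_mono h0.le h1 F b fun ω _ _ _ _ x => ⟨x.1, x.2.2⟩
      have ex := stp261_explore h0 h1 (fun K hK => hS0 F hF b a K hK) (J := J) (I := (Mp ∪ Mm) \ J)
        (fun j hj => sBox (hMk j (hJs hj))) (Pr := (Mp ∩ J) ×ˢ (Mm ∩ J))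
        (fun pr hpr => (Finset.mem_inter.1 (Finset.mem_product.1 hpr).1).2) hA
        (fun L' hL' => H1 n' (by omega) F z b a L' hF sB hL') hadm.1 (sBox hib) (ctg261_box_mono z g0 hib)
      have e2 : rswP t F b (fun ω => (L ω ∧ MdlPat (rswBox z ((k + 1) * n)) g ω) ∧
          Stp261T F J ((Mp ∪ Mm) \ J) a ((Mp ∩ J) ×ˢ (Mm ∩ J)) ω ∧
          RswSep F a ω {i₀} (F \ rswBox z ((4 * k + 5 + 2) * n'))) ≤
          rswP t F b (fun ω => (L ω ∧ MdlPat (rswBox z ((k + 1) * n)) g ω) ∧ Ctg261Compat F Mp Mm ω ∧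
            (ctg261Sh (rswBox z ((k + 1) * n)) Mp Mm g).card < (ctg261Sh (rswBox z ((k + 2) * n)) Mp Mm ω).card) :=
        ctg261_P_mono h0.le h1 F b fun ω _ _ _ _ x => ⟨x.1, stp261_det (ctg261_box_mono z g5) sK' (ctg261_box_deep z g3)
          (ctg261_box_mono z g6 (ctg261_box_mono z g0 hib)) x.1.2 (hPm ▸ hadm) x.2.1 x.2.2⟩
      exact ((mul_le_mul_of_nonneg_left e1 hp1.le).trans ex).trans e2
    · rw [ctg261_P_false t F b (A := fun ω => (L ω ∧ MdlPat (rswBox z ((k + 1) * n)) g ω) ∧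
        Stp261Adm (Mp ∪ Mm) J i₀ Pm ∧ Stp261T F J ((Mp ∪ Mm) \ J) a ((Mp ∩ J) ×ˢ (Mm ∩ J)) ω) (fun ω x => hadm x.2.1), mul_zero]
      exact htg_nn
  have hcard : (s.card : ℝ) ≤ Nn := by
    have hm : (Mp ∪ Mm).card ≤ M := (Finset.card_union_le _ _).trans hM
    have c1 : s.card = 2 * (2 ^ (Mp ∪ Mm).card * (Mp ∪ Mm).card) := by
      rw [hs, Finset.card_product, Finset.card_product, Finset.card_powerset, Finset.card_univ, Fintype.card_bool]
    have c2 : s.card ≤ 2 * (2 ^ M * M) := by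
      rw [c1]
      exact Nat.mul_le_mul_left _ (Nat.mul_le_mul (Nat.pow_le_pow_right (by norm_num) hm) hm)
    have c3 : (s.card : ℝ) ≤ ((2 * (2 ^ M * M) : ℕ) : ℝ) := by exact_mod_cast c2
    rw [hNn]
    push_cast at c3
    linarith
  have sum1 := Finset.sum_le_sum term
  rw [← Finset.mul_sum, Finset.sum_const, nsmul_eq_mul] at sum1
  have m1 := mul_le_mul_of_nonneg_left (hc.trans ub) hp1.le
  have m2 := mul_le_mul_of_nonneg_right hcard htg_nn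
  rw [div_mul_eq_mul_div, div_le_iff₀ hNpos]
  nlinarith

/-- **eq:spatial-witness-step, final form**: `Ctg261W1 t` from (S0) and (S1) alone (box connectivity: `cm72_box_conn` of 72) -/
theorem stp261_wstep {t : ℝ} (h0 : 0 < t) (h1 : t ≤ 1) (hS0 : Ctg261S0 t) (hS1 : Ctg261S1 t) : Ctg261W1 t :=
  stp261_step h0 h1 hS0 hS1 fun z m _ hsub _ hx _ hy => cm72_box_conn z m hsub hx hy

/-- **lem:buffered-witnesses** (`Ctg261W t`) from (S0) and (S1) alone -/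
theorem stp261_witness {t : ℝ} (h0 : 0 < t) (h1 : t ≤ 1) (hS0 : Ctg261S0 t) (hS1 : Ctg261S1 t) : Ctg261W t :=
  ctg261_witness_of_step h0 h1 (stp261_wstep h0 h1 hS0 hS1)

/-- the equation lemmas of the definitions of this file are generated HERE (RULES.md, rule 6) -/
theorem stp261_eqns_cite : True := by
  have := @Stp261Fr.eq_1
  have := @stp261Kin.eq_1
  have := @stp261Kout.eq_1
  have := @stp261U.eq_1
  have := @Stp261G.eq_1
  have := @Stp261T.eq_1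
  have := @Stp261Adm.eq_1
  have := @Stp261Box.eq_1
  trivial

end Claimed.Agent.R292
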