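import Claimed.Agent.R292.Model.Step261
import Claimed.Agent.R292.Model.Leaf72
import Claimed.Agent.R292.Model.Count41

/-!
# Row 292 (S0540), Model/Step41 : eq:spatial-witness-step = `Ctg261W1 t` ASSEMBLED      (owner helper41; prefix `stp41_`, `stp41`)

Second rope of the assembly of 261's road without lem:collar: `stp261_explore` (261: exploration + screening + FKG + (S1)), `cm72_main` (72: a leaf of the cluster tree of the marks),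
`ctg261_localise` (261).  (CM) is applied to the marks of the MISSING pairs only, so that the innermost class has a missing partner outside.
-/

set_option autoImplicit false

namespace Claimed.Agent.R292

open Claims Claims.C0468

/-- the marks of the missing pairs -/
def stp41M (Pm : Finset ((ℤ × ℤ) × (ℤ × ℤ))) : Finset (ℤ × ℤ) := Pm.image Prod.fst ∪ Pm.image Prod.snd

theorem stp41_fst {Pm : Finset ((ℤ × ℤ) × (ℤ × ℤ))} {pr : (ℤ × ℤ) × (ℤ × ℤ)} (h : pr ∈ Pm) : pr.1 ∈ stp41M Pm :=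
  Finset.mem_union_left _ (Finset.mem_image_of_mem _ h)

theorem stp41_snd {Pm : Finset ((ℤ × ℤ) × (ℤ × ℤ))} {pr : (ℤ × ℤ) × (ℤ × ℤ)} (h : pr ∈ Pm) : pr.2 ∈ stp41M Pm :=
  Finset.mem_union_right _ (Finset.mem_image_of_mem _ h)

theorem stp41_mem {Pm : Finset ((ℤ × ℤ) × (ℤ × ℤ))} {x : ℤ × ℤ} (h : x ∈ stp41M Pm) : ∃ pr ∈ Pm, pr.1 = x ∨ pr.2 = x := by
  rcases Finset.mem_union.1 h with h | h
  · obtain ⟨pr, hpr, rfl⟩ := Finset.mem_image.1 h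
    exact ⟨pr, hpr, Or.inl rfl⟩
  · obtain ⟨pr, hpr, rfl⟩ := Finset.mem_image.1 h
    exact ⟨pr, hpr, Or.inr rfl⟩

/-- the missing pairs with both marks in `J` -/
noncomputable def stp41Pr (Pm : Finset ((ℤ × ℤ) × (ℤ × ℤ))) (J : Finset (ℤ × ℤ)) : Finset ((ℤ × ℤ) × (ℤ × ℤ)) :=
  Pm.filter fun pr => pr.1 ∈ J ∧ pr.2 ∈ J

/-- a type `(a, i₀, I)` is GOOD: `i₀ ∈ I`, no missing pair inside `I` -/
def Stp41Gd (Pm : Finset ((ℤ × ℤ) × (ℤ × ℤ))) (τ : Bool × ((ℤ × ℤ) × Finset (ℤ × ℤ))) : Prop :=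
  τ.2.1 ∈ τ.2.2 ∧ ∀ pr ∈ Pm, ¬ (pr.1 ∈ τ.2.2 ∧ pr.2 ∈ τ.2.2)

/-- the type event -/
def Stp41Ev (F : Finset (ℤ × ℤ)) (Pm : Finset ((ℤ × ℤ) × (ℤ × ℤ))) (τ : Bool × ((ℤ × ℤ) × Finset (ℤ × ℤ))) (ω : RswCfg) : Prop :=
  Stp261T F (stp41M Pm \ τ.2.2) τ.2.2 τ.1 (stp41Pr Pm (stp41M Pm \ τ.2.2)) ω

theorem stp41_N_of_col {F : Finset (ℤ × ℤ)} {ω : RswCfg} {x y : ℤ × ℤ} (h : Relation.ReflTransGen (Col261NStep F ω) x y) :
    MdlNConn F ω x y := by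
  refine ctg261_rtg_mono (s := MdlNStep F ω) ?_ h
  rintro x y ⟨e, he, hx, hO⟩
  have h2 := rsz_mem_int.1 he
  rcases hx with ⟨h1, h3⟩ | ⟨h1, h3⟩
  · exact ⟨h1 ▸ h2.1, h3 ▸ h2.2, e, Or.inl ⟨h1, h3⟩, hO⟩
  · exact ⟨h3 ▸ h2.2, h1 ▸ h2.1, e, Or.inr ⟨h1, h3⟩, hO⟩

theorem stp41_col_of_rsw {F : Finset (ℤ × ℤ)} {a : Bool} {ω : RswCfg} {x y : ℤ × ℤ}
    (h : Relation.ReflTransGen (RswStep F a ω) x y) : Relation.ReflTransGen (Col261StepIn F F a ω) x y := by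
  refine ctg261_rtg_mono (s := Col261StepIn F F a ω) ?_ h
  rintro x y ⟨hx, hy, e, he, hn⟩
  refine ⟨e, rsz_mem_int.2 ?_, he, fun hh => hn hh.1⟩
  rcases he with ⟨h1, h3⟩ | ⟨h1, h3⟩
  · exact ⟨h1 ▸ hx, h3 ▸ hy⟩
  · exact ⟨h1 ▸ hy, h3 ▸ hx⟩

theorem stp41_rsw_of_N {F : Finset (ℤ × ℤ)} (a : Bool) {ω : RswCfg} {x y : ℤ × ℤ} (h : MdlNConn F ω x y) :
    Relation.ReflTransGen (RswStep F a ω) x y := by
  refine ctg261_rtg_mono (s := RswStep F a ω) ?_ h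
  rintro x y ⟨hx, hy, e, he, heO⟩
  exact ⟨hx, hy, e, he, fun hg => heO hg.1⟩

/-- **every compatible configuration has a good type** -/
theorem stp41_cover {t : ℝ} {F Λi Mp Mm : Finset (ℤ × ℤ)} {b : Bool} {Pm : Finset ((ℤ × ℤ) × (ℤ × ℤ))}
    (hPm : Pm ⊆ Mp ×ˢ Mm) (hne : Pm.Nonempty) (hMp : Mp ⊆ Λi) (hMm : Mm ⊆ Λi)
    (hconn : ∀ x ∈ Λi, ∀ y ∈ Λi,
      Relation.ReflTransGen (fun u v => ∃ e ∈ rswInt F, (u = e.1 ∧ v = rswCo e) ∨ (v = e.1 ∧ u = rswCo e)) x y)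
    {ω : RswCfg} (hw : rswWt t F b ω ≠ 0) (hcomp : Ctg261Compat F Mp Mm ω) :
    ∃ τ ∈ (Finset.univ : Finset Bool) ×ˢ (stp41M Pm ×ˢ (stp41M Pm).powerset), Stp41Gd Pm τ ∧ Stp41Ev F Pm τ ω := by
  classical
  have hmem : ∀ pr ∈ Pm, pr.1 ∈ Mp ∧ pr.2 ∈ Mm := fun pr h => Finset.mem_product.1 (hPm h)
  have hMΛ : ∀ x ∈ stp41M Pm, x ∈ Λi := by
    intro x hx
    obtain ⟨pr, hpr, h | h⟩ := stp41_mem hx
    · exact h ▸ hMp (hmem pr hpr).1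
    · exact h ▸ hMm (hmem pr hpr).2
  obtain ⟨pr0, hpr0⟩ := hne
  obtain ⟨a, i0, hi0, hcm⟩ := cm72_main (dua261_feas_of_wt hw) (stp41M Pm)
    ⟨pr0.1, stp41_fst hpr0, pr0.2, stp41_snd hpr0, fun hc => hcomp _ (hmem _ hpr0).1 _ (hmem _ hpr0).2 (stp41_N_of_col hc)⟩
    (fun x hx y hy => hconn x (hMΛ x hx) y (hMΛ y hy))
  set I := (stp41M Pm).filter (fun m => Relation.ReflTransGen (RswStep F a ω) i0 m) with hI
  have hIN : ∀ m ∈ I, MdlNConn F ω i0 m := fun m hm =>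
    stp41_N_of_col (hcm m (Finset.mem_filter.1 hm).1 (stp41_col_of_rsw (Finset.mem_filter.1 hm).2))
  refine ⟨(a, i0, I), Finset.mem_product.2 ⟨Finset.mem_univ _, Finset.mem_product.2 ⟨hi0, Finset.mem_powerset.2 (Finset.filter_subset _ _)⟩⟩,
    ⟨Finset.mem_filter.2 ⟨hi0, Relation.ReflTransGen.refl⟩, fun pr hpr hh => ?_⟩, ⟨fun j hj i hi hp => ?_, fun pr hpr => ?_⟩⟩
  · exact hcomp _ (hmem pr hpr).1 _ (hmem pr hpr).2 ((ctg261_conn_symm (hIN _ hh.1)).trans (hIN _ hh.2))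
  · obtain ⟨hj1, hj2⟩ := Finset.mem_sdiff.1 hj
    exact hj2 (Finset.mem_filter.2 ⟨hj1, (Finset.mem_filter.1 hi).2.trans (mdlx_path_symm hp)⟩)
  · have hpr' := (Finset.mem_filter.1 hpr).1
    exact hcomp _ (hmem pr hpr').1 _ (hmem pr hpr').2

theorem stp41_wstep_symm {K : Finset (ℤ × ℤ)} {a : Bool} {ω : RswCfg} {x y : ℤ × ℤ}
    (h : Relation.ReflTransGen (Ctg261Step K a ω) x y) : Relation.ReflTransGen (Ctg261Step K a ω) y x :=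
  ctg261_rtg_symm (fun _ _ ⟨e, he, hn⟩ => ⟨e, he.symm, hn⟩) h

/-- **the type event + the cut around `i₀` give compatibility and one more short pair** (deterministic) -/
theorem stp41_final {F K K' Λi Λo Mp Mm : Finset (ℤ × ℤ)} (hKK : K ⊆ K') (hK'F : K' ⊆ F)
    (hdeep : ∀ e : (ℤ × ℤ) × Bool, (e.1 ∈ Λo ∨ rswCo e ∈ Λo) → e ∈ rswInt K') (hio : Λi ⊆ Λo) (hMp : Mp ⊆ Λi) (hMm : Mm ⊆ Λi)
    {g ω : RswCfg} (hpat : MdlPat K g ω) {τ : Bool × ((ℤ × ℤ) × Finset (ℤ × ℤ))}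
    (hτ : τ.2.1 ∈ stp41M ((Mp ×ˢ Mm) \ ctg261Sh K Mp Mm g)) (hgd : Stp41Gd ((Mp ×ˢ Mm) \ ctg261Sh K Mp Mm g) τ)
    (hev : Stp41Ev F ((Mp ×ˢ Mm) \ ctg261Sh K Mp Mm g) τ ω) (hcut : RswSep F τ.1 ω {τ.2.1} (F \ Λo)) :
    Ctg261Compat F Mp Mm ω ∧ (ctg261Sh K Mp Mm g).card < (ctg261Sh K' Mp Mm ω).card := by
  classical
  obtain ⟨a, i0, I⟩ := τ
  simp only at hτ hcut
  unfold Stp41Gd at hgd
  unfold Stp41Ev at hev
  simp only at hgd hev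
  set Pm := (Mp ×ˢ Mm) \ ctg261Sh K Mp Mm g with hPm
  have hmem : ∀ pr ∈ Pm, pr.1 ∈ Mp ∧ pr.2 ∈ Mm := fun pr h => Finset.mem_product.1 (Finset.mem_sdiff.1 h).1
  constructor
  · intro f hf f' hf' hc
    by_cases hsh : (f, f') ∈ ctg261Sh K Mp Mm g
    · rw [ctg261_sh_pat hpat Mp Mm] at hsh
      obtain ⟨a', ha'⟩ := (ctg261_mem_sh.1 hsh).2
      refine ha' (ctg261_rtg_mono (s := Ctg261Step K a' ω) ?_ hc)
      rintro x y ⟨_, _, e, he, heO⟩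
      exact ⟨e, he, fun h => heO h.2.1⟩
    · have hpm : (f, f') ∈ Pm := Finset.mem_sdiff.2 ⟨Finset.mem_product.2 ⟨hf, hf'⟩, hsh⟩
      have m1 : f ∈ stp41M Pm := stp41_fst hpm
      have m2 : f' ∈ stp41M Pm := stp41_snd hpm
      have hR := stp41_rsw_of_N a hc
      by_cases i1 : f ∈ I <;> by_cases i2 : f' ∈ I
      · exact hgd.2 _ hpm ⟨i1, i2⟩
      · exact hev.1 f' (Finset.mem_sdiff.2 ⟨m2, i2⟩) f i1 (mdlx_path_symm hR)
      · exact hev.1 f (Finset.mem_sdiff.2 ⟨m1, i1⟩) f' i2 hR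
      · exact hev.2 (f, f') (Finset.mem_filter.2 ⟨hpm, Finset.mem_sdiff.2 ⟨m1, i1⟩, Finset.mem_sdiff.2 ⟨m2, i2⟩⟩) hc
  · have hsub : ctg261Sh K Mp Mm g ⊆ ctg261Sh K' Mp Mm ω := by
      rw [ctg261_sh_pat hpat Mp Mm]
      exact ctg261_sh_mono hKK Mp Mm ω
    obtain ⟨pr, hpr, hi⟩ := stp41_mem hτ
    have hi0Λ : i0 ∈ Λo := by
      rcases hi with h | h
      · exact h ▸ hio (hMp (hmem pr hpr).1)
      · exact h ▸ hio (hMm (hmem pr hpr).2)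
    have key : ∀ y ∈ stp41M Pm, y ∉ I → ¬ Relation.ReflTransGen (Ctg261Step K' a ω) i0 y := fun y hy hyI =>
      ctg261_localise hK'F hdeep hcut (Finset.mem_singleton_self i0) hi0Λ
        (fun h => hev.1 y (Finset.mem_sdiff.2 ⟨hy, hyI⟩) i0 hgd.1 (mdlx_path_symm h))
    have hnew : pr ∈ ctg261Sh K' Mp Mm ω := by
      refine ctg261_mem_sh.2 ⟨hmem pr hpr, a, ?_⟩
      rcases hi with h | h
      · rw [h]
        exact key _ (stp41_snd hpr) (fun hc => hgd.2 pr hpr ⟨h ▸ hgd.1, hc⟩)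
      · rw [h]
        exact fun hc => key _ (stp41_fst hpr) (fun hc' => hgd.2 pr hpr ⟨hc', h ▸ hgd.1⟩) (stp41_wstep_symm hc)
    exact Finset.card_lt_card ((Finset.ssubset_iff_of_subset hsub).2 ⟨pr, hnew, (Finset.mem_sdiff.1 hpr).2⟩)

/-- **THE STEP on abstract sets** -/
theorem stp41_core {t : ℝ} (h0 : 0 < t) (h1 : t ≤ 1) {F K K' Λi Λo B Mp Mm : Finset (ℤ × ℤ)} {b : Bool}
    (hfkg : ∀ (a : Bool) (K : MdlPin), K.Ok → MdlFkgAt t F b a K) (hKK : K ⊆ K') (hK'F : K' ⊆ F)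
    (hdeep : ∀ e : (ℤ × ℤ) × Bool, (e.1 ∈ Λo ∨ rswCo e ∈ Λo) → e ∈ rswInt K') (hio : Λi ⊆ Λo) (hΛF : Λi ⊆ F)
    (hMp : Mp ⊆ Λi) (hMm : Mm ⊆ Λi)
    (hconn : ∀ x ∈ Λi, ∀ y ∈ Λi,
      Relation.ReflTransGen (fun u v => ∃ e ∈ rswInt F, (u = e.1 ∧ v = rswCo e) ∨ (v = e.1 ∧ u = rswCo e)) x y)
    {L : RswCfg → Prop} {g : RswCfg} (hA : MdlExt B (fun ω => L ω ∧ MdlPat K g ω)) {p1 : ℝ} (hp1 : 0 ≤ p1)
    (hcirc : ∀ (a : Bool) (L' : RswCfg → Prop), MdlExt B L' →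
      p1 * rswP t F b L' ≤ rswP t F b (fun ω => L' ω ∧ RswSep F a ω Λi (F \ Λo)))
    (hmiss : ¬ Ctg261Wit K Mp Mm g) {M : ℕ} (hM : Mp.card + Mm.card ≤ M) :
    p1 * rswP t F b (fun ω => (L ω ∧ MdlPat K g ω) ∧ Ctg261Compat F Mp Mm ω) ≤
      ((2 * (M * 2 ^ M) : ℕ) : ℝ) * rswP t F b (fun ω => (L ω ∧ MdlPat K g ω) ∧ Ctg261Compat F Mp Mm ω ∧
        (ctg261Sh K Mp Mm g).card < (ctg261Sh K' Mp Mm ω).card) := by
  classical
  set Pm := (Mp ×ˢ Mm) \ ctg261Sh K Mp Mm g with hPm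
  have hPsub : Pm ⊆ Mp ×ˢ Mm := Finset.sdiff_subset
  have hne : Pm.Nonempty := by
    by_contra hc
    rw [Finset.not_nonempty_iff_eq_empty] at hc
    apply hmiss
    intro f hf f' hf'
    have : (f, f') ∈ ctg261Sh K Mp Mm g := by
      by_contra hn
      have : (f, f') ∈ Pm := Finset.mem_sdiff.2 ⟨Finset.mem_product.2 ⟨hf, hf'⟩, hn⟩
      rw [hc] at this
      exact absurd this (Finset.notMem_empty _)
    exact (ctg261_mem_sh.1 this).2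
  have hmem : ∀ pr ∈ Pm, pr.1 ∈ Mp ∧ pr.2 ∈ Mm := fun pr h => Finset.mem_product.1 (hPsub h)
  have hMsub : stp41M Pm ⊆ Mp ∪ Mm := by
    intro x hx
    obtain ⟨pr, hpr, h | h⟩ := stp41_mem hx
    · exact h ▸ Finset.mem_union_left _ (hmem pr hpr).1
    · exact h ▸ Finset.mem_union_right _ (hmem pr hpr).2
  have hMΛ : stp41M Pm ⊆ Λi := hMsub.trans (Finset.union_subset hMp hMm)
  have hMcard : (stp41M Pm).card ≤ M := (Finset.card_le_card hMsub).trans ((Finset.card_union_le _ _).trans hM)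
  set 𝒯 := (Finset.univ : Finset Bool) ×ˢ (stp41M Pm ×ˢ (stp41M Pm).powerset) with h𝒯
  set Tg : RswCfg → Prop := fun ω => (L ω ∧ MdlPat K g ω) ∧ Ctg261Compat F Mp Mm ω ∧
        (ctg261Sh K Mp Mm g).card < (ctg261Sh K' Mp Mm ω).card with hTg
  have hTg0 : 0 ≤ rswP t F b Tg := rsz_P_nonneg h0.le h1 F b _
  -- union bound over the types
  have c1 : rswP t F b (fun ω => (L ω ∧ MdlPat K g ω) ∧ Ctg261Compat F Mp Mm ω) ≤
      rswP t F b (fun ω => ((L ω ∧ MdlPat K g ω) ∧ Ctg261Compat F Mp Mm ω) ∧ rswWt t F b ω ≠ 0) :=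
    ctg261_P_mono h0.le h1 F b fun ω _ _ _ hw x => ⟨x, hw⟩
  have c2 : rswP t F b (fun ω => ((L ω ∧ MdlPat K g ω) ∧ Ctg261Compat F Mp Mm ω) ∧ rswWt t F b ω ≠ 0) ≤
      ∑ τ ∈ 𝒯, rswP t F b (fun ω => (L ω ∧ MdlPat K g ω) ∧ Stp41Gd Pm τ ∧ Stp41Ev F Pm τ ω) := by
    refine mdl41c_P_le_fsum h0.le h1 F b 𝒯 _ _ ?_
    rintro ω ⟨⟨hAω, hcomp⟩, hw⟩
    obtain ⟨τ, hτ, h2⟩ := stp41_cover hPsub hne hMp hMm hconn hw hcomp
    exact ⟨τ, hτ, hAω, h2⟩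
  -- one type
  have c3 : ∀ τ ∈ 𝒯, p1 * rswP t F b (fun ω => (L ω ∧ MdlPat K g ω) ∧ Stp41Gd Pm τ ∧ Stp41Ev F Pm τ ω) ≤ rswP t F b Tg := by
    intro τ hτ
    by_cases hgd : Stp41Gd Pm τ
    · obtain ⟨-, hτ2⟩ := Finset.mem_product.1 hτ
      obtain ⟨hi0, hI⟩ := Finset.mem_product.1 hτ2
      have e1 : rswP t F b (fun ω => (L ω ∧ MdlPat K g ω) ∧ Stp41Gd Pm τ ∧ Stp41Ev F Pm τ ω) ≤
          rswP t F b (fun ω => (L ω ∧ MdlPat K g ω) ∧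
            Stp261T F (stp41M Pm \ τ.2.2) τ.2.2 τ.1 (stp41Pr Pm (stp41M Pm \ τ.2.2)) ω) :=
        rsz_P_mono h0.le h1 F b fun ω x => ⟨x.1, x.2.2⟩
      have e2 := stp261_explore h0 h1 (hfkg τ.1) (J := stp41M Pm \ τ.2.2) (I := τ.2.2)
        ((Finset.sdiff_subset.trans hMΛ).trans hΛF) (Pr := stp41Pr Pm (stp41M Pm \ τ.2.2))
        (fun pr hpr => (Finset.mem_filter.1 hpr).2.1) hA (hcirc τ.1) hgd.1 (hΛF (hMΛ hi0)) (hMΛ hi0)
      have e3 : rswP t F b (fun ω => (L ω ∧ MdlPat K g ω) ∧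
            Stp261T F (stp41M Pm \ τ.2.2) τ.2.2 τ.1 (stp41Pr Pm (stp41M Pm \ τ.2.2)) ω ∧ RswSep F τ.1 ω {τ.2.1} (F \ Λo)) ≤
          rswP t F b Tg :=
        rsz_P_mono h0.le h1 F b fun ω x =>
          ⟨x.1, stp41_final hKK hK'F hdeep hio hMp hMm x.1.2 hi0 hgd x.2.1 x.2.2⟩
      exact (mul_le_mul_of_nonneg_left e1 hp1).trans (e2.trans e3)
    · rw [ctg261_P_false t F b (fun ω x => hgd x.2.1), mul_zero]
      exact hTg0
  have hcard : 𝒯.card ≤ 2 * (M * 2 ^ M) := by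
    rw [h𝒯, Finset.card_product, Finset.card_product, Finset.card_powerset, Finset.card_univ, Fintype.card_bool]
    exact Nat.mul_le_mul_left 2 (Nat.mul_le_mul hMcard (Nat.pow_le_pow_right (by norm_num) hMcard))
  calc p1 * rswP t F b (fun ω => (L ω ∧ MdlPat K g ω) ∧ Ctg261Compat F Mp Mm ω)
      ≤ p1 * ∑ τ ∈ 𝒯, rswP t F b (fun ω => (L ω ∧ MdlPat K g ω) ∧ Stp41Gd Pm τ ∧ Stp41Ev F Pm τ ω) :=
        mul_le_mul_of_nonneg_left (c1.trans c2) hp1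
    _ = ∑ τ ∈ 𝒯, p1 * rswP t F b (fun ω => (L ω ∧ MdlPat K g ω) ∧ Stp41Gd Pm τ ∧ Stp41Ev F Pm τ ω) := Finset.mul_sum _ _ _
    _ ≤ ∑ _τ ∈ 𝒯, rswP t F b Tg := Finset.sum_le_sum c3
    _ = (𝒯.card : ℝ) * rswP t F b Tg := by rw [Finset.sum_const, nsmul_eq_mul]
    _ ≤ ((2 * (M * 2 ^ M) : ℕ) : ℝ) * rswP t F b Tg := mul_le_mul_of_nonneg_right (by exact_mod_cast hcard) hTg0

/-- **eq:spatial-witness-step = `Ctg261W1 t`** from (S0) and (S1) alone (no lem:collar) -/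
theorem stp41_step {t : ℝ} (h0 : 0 < t) (h1 : t ≤ 1) (hS0 : Ctg261S0 t) (hS1 : Ctg261S1 t) : Ctg261W1 t := by
  classical
  intro k M α hα
  obtain ⟨p1, hp1, n1, H1⟩ := hS1 (4 * k + 5)
  obtain ⟨C, hCdef⟩ : ∃ C : ℝ, C = ((2 * (M * 2 ^ M) : ℕ) : ℝ) := ⟨_, rfl⟩
  have hC0 : 0 ≤ C := by rw [hCdef]; exact Nat.cast_nonneg _
  refine ⟨p1 * α / (C + 1), by positivity, 4 * (n1 + 3 * (k + 1) + 1) + 4,
    fun n hn F z b L g Mp Mm hF hsub hL hMp hMm hM hmiss hc => ?_⟩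
  obtain ⟨n', hn'def⟩ : ∃ n' : ℕ, n' = n / 4 := ⟨_, rfl⟩
  have a1 : 4 * n' ≤ n := by omega
  have a2 : n < 4 * n' + 4 := by omega
  have a3 : n1 + 3 * (k + 1) + 1 ≤ n' := by omega
  -- geometry
  have g0 : k * n ≤ (4 * k + 5 + 1) * n' := by nlinarith
  have g1 : (k + 1) * n ≤ (4 * k + 5) * n' := by nlinarith
  have g2 : (4 * k + 5 + 3) * n' ≤ (k + 2) * n := by nlinarith
  have g3 : (4 * k + 5 + 2) * n' + 1 ≤ (k + 2) * n := by nlinarith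
  have g4 : (k + 2) * n ≤ (k + 3) * n := by nlinarith
  have g5 : (k + 1) * n ≤ (k + 2) * n := by nlinarith
  have g6 : (4 * k + 5 + 1) * n' ≤ (4 * k + 5 + 2) * n' := by nlinarith
  have g7 : (4 * k + 5 + 1) * n' ≤ (4 * k + 5 + 3) * n' := by nlinarith
  have sK' : rswBox z ((k + 2) * n) ⊆ F := (ctg261_box_mono z g4).trans hsub
  have sB : rswBox z ((4 * k + 5 + 3) * n') ⊆ F := (ctg261_box_mono z g2).trans sK'
  have sΛ : rswBox z ((4 * k + 5 + 1) * n') ⊆ F := (ctg261_box_mono z g7).trans sB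
  have hBsub : rswBox z ((4 * k + 5 + 3) * n') \ rswBox z ((4 * k + 5) * n') ⊆ rswBox z ((k + 3) * n) :=
    Finset.sdiff_subset.trans ((ctg261_box_mono z g2).trans (ctg261_box_mono z g4))
  have hdisj : Disjoint (rswBox z ((k + 1) * n)) (rswBox z ((4 * k + 5 + 3) * n') \ rswBox z ((4 * k + 5) * n')) :=
    Finset.disjoint_of_subset_left (ctg261_box_mono z g1) Finset.disjoint_sdiff
  have hA : MdlExt (rswBox z ((4 * k + 5 + 3) * n') \ rswBox z ((4 * k + 5) * n'))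
      (fun ω => L ω ∧ MdlPat (rswBox z ((k + 1) * n)) g ω) :=
    ctg261_ext_and (ctg261_ext_mono hBsub hL) (ctg261_pat_ext hdisj g)
  have core := stp41_core h0 h1 (fun a K hK => hS0 F hF b a K hK) (ctg261_box_mono z g5) sK' (ctg261_box_deep z g3)
    (ctg261_box_mono z g6) sΛ (hMp.trans (ctg261_box_mono z g0)) (hMm.trans (ctg261_box_mono z g0))
    (fun x hx y hy => mdl41c_box_conn z _ sΛ hx hy) hA hp1.le
    (fun a L' hL' => H1 n' (by omega) F z b a L' hF sB hL') hmiss hM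
  rw [← hCdef] at core
  have hT0 : 0 ≤ rswP t F b (fun ω => (L ω ∧ MdlPat (rswBox z ((k + 1) * n)) g ω) ∧ Ctg261Compat F Mp Mm ω ∧
      (ctg261Sh (rswBox z ((k + 1) * n)) Mp Mm g).card < (ctg261Sh (rswBox z ((k + 2) * n)) Mp Mm ω).card) :=
    rsz_P_nonneg h0.le h1 F b _
  have m1 := mul_le_mul_of_nonneg_left hc hp1.le
  rw [div_mul_eq_mul_div, div_le_iff₀ (by positivity)]
  nlinarith

/-- the equation lemmas of the definitions of this file are generated HERE (RULES.md, rule 6) -/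
theorem stp41_eqns_cite : True := by
  have := @stp41M.eq_1
  have := @stp41Pr.eq_1
  have := @Stp41Gd.eq_1
  have := @Stp41Ev.eq_1
  trivial

end Claimed.Agent.R292
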