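import Claimed.Agent.R292.Model.Step261
import Claimed.Agent.R292.Model.Leaf72

/-!
# Row 292 (S0540), Model/StepAsm72 : ASSEMBLY OF THE ONE-STEP STATEMENT `Ctg261W1` FROM `stp261_explore` (261) AND `cm72_main`      (pen helper72; prefix `sa72_`, `Sa72`, `sa72*`)

Road of 261 (no lem:collar).  `Pm` = the MISSING pairs, `M'` = their endpoints.  TYPE of a configuration: a colour `a`, a mark `i0 ∈ M'`, the set `I` of the marks of `M'` reached from `i0`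
off the good edges of colour `a`; `J = M' \ I`; `Pr` = the pairs of `Pm` with a point in `J`, oriented with the first point in `J`.
* `sa72_type`  (deterministic, from `cm72_main`): a compatible configuration of non zero weight has a VALID type (no pair of `Pm` inside `I`) on which `Stp261T` holds;
* `sa72_concl` (deterministic, `ctg261_localise`): pattern + valid type + `Stp261T` + `i0` cut off inside `Λo` ⟹ compatibility and one more short pair;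
* `sa72_step`  : the abstract step (partition over the types + `stp261_explore`);
* **`sa72_W1`** : `Ctg261W1 t` from (S0) and (S1).
-/

set_option autoImplicit false

namespace Claimed.Agent.R292

open Claims Claims.C0468

/-- the endpoints of the pairs -/
def sa72M (Pm : Finset ((ℤ × ℤ) × (ℤ × ℤ))) : Finset (ℤ × ℤ) := Pm.image Prod.fst ∪ Pm.image Prod.snd

/-- the pairs with a point in `J`, oriented with the first point in `J` -/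
def sa72Pr (Pm : Finset ((ℤ × ℤ) × (ℤ × ℤ))) (J : Finset (ℤ × ℤ)) : Finset ((ℤ × ℤ) × (ℤ × ℤ)) :=
  Pm.filter (fun pr => pr.1 ∈ J) ∪ (Pm.filter (fun pr => pr.2 ∈ J)).image Prod.swap

/-- a valid type -/
def Sa72V (Pm : Finset ((ℤ × ℤ) × (ℤ × ℤ))) (i0 : ℤ × ℤ) (I : Finset (ℤ × ℤ)) : Prop :=
  i0 ∈ I ∧ i0 ∈ sa72M Pm ∧ ∀ pr ∈ Pm, pr.1 ∉ I ∨ pr.2 ∉ I

theorem sa72_fst_mem {Pm : Finset ((ℤ × ℤ) × (ℤ × ℤ))} {pr : (ℤ × ℤ) × (ℤ × ℤ)} (h : pr ∈ Pm) : pr.1 ∈ sa72M Pm :=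
  Finset.mem_union_left _ (Finset.mem_image_of_mem _ h)

theorem sa72_snd_mem {Pm : Finset ((ℤ × ℤ) × (ℤ × ℤ))} {pr : (ℤ × ℤ) × (ℤ × ℤ)} (h : pr ∈ Pm) : pr.2 ∈ sa72M Pm :=
  Finset.mem_union_right _ (Finset.mem_image_of_mem _ h)

theorem sa72_mem_M {Pm : Finset ((ℤ × ℤ) × (ℤ × ℤ))} {x : ℤ × ℤ} (h : x ∈ sa72M Pm) :
    ∃ pr ∈ Pm, pr.1 = x ∨ pr.2 = x := by
  rcases Finset.mem_union.1 h with h | h
  · obtain ⟨pr, hpr, rfl⟩ := Finset.mem_image.1 h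
    exact ⟨pr, hpr, Or.inl rfl⟩
  · obtain ⟨pr, hpr, rfl⟩ := Finset.mem_image.1 h
    exact ⟨pr, hpr, Or.inr rfl⟩

theorem sa72_Pr_fst {Pm : Finset ((ℤ × ℤ) × (ℤ × ℤ))} {J : Finset (ℤ × ℤ)} : ∀ pr ∈ sa72Pr Pm J, pr.1 ∈ J := by
  intro pr hpr
  rcases Finset.mem_union.1 hpr with h | h
  · exact (Finset.mem_filter.1 h).2
  · obtain ⟨q, hq, rfl⟩ := Finset.mem_image.1 h
    exact (Finset.mem_filter.1 hq).2

theorem sa72_rstep_symm {F : Finset (ℤ × ℤ)} {a : Bool} {ω : RswCfg} {x y : ℤ × ℤ}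
    (h : Relation.ReflTransGen (RswStep F a ω) x y) : Relation.ReflTransGen (RswStep F a ω) y x :=
  col261_rtg_symm (fun _ _ ⟨hx, hy, e, he, hn⟩ => ⟨hy, hx, e, he.symm, hn⟩) h

theorem sa72_nconn_symm {F : Finset (ℤ × ℤ)} {ω : RswCfg} {x y : ℤ × ℤ} (h : MdlNConn F ω x y) : MdlNConn F ω y x :=
  col261_rtg_symm (fun _ _ ⟨hx, hy, e, he, hn⟩ => ⟨hy, hx, e, he.symm, hn⟩) h

theorem sa72_cstep_symm {K : Finset (ℤ × ℤ)} {a : Bool} {ω : RswCfg} {x y : ℤ × ℤ}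
    (h : Relation.ReflTransGen (Ctg261Step K a ω) x y) : Relation.ReflTransGen (Ctg261Step K a ω) y x :=
  col261_rtg_symm (fun _ _ ⟨e, he, hn⟩ => ⟨e, he.symm, hn⟩) h

theorem sa72_N_of_col {F : Finset (ℤ × ℤ)} {ω : RswCfg} {x y : ℤ × ℤ}
    (h : Relation.ReflTransGen (Col261NStep F ω) x y) : MdlNConn F ω x y := by
  refine ctg261_rtg_mono (s := MdlNStep F ω) ?_ h
  rintro x y ⟨e, he, hx, hO⟩
  have h2 := rsz_mem_int.1 he
  rcases hx with ⟨h1, h3⟩ | ⟨h1, h3⟩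
  · exact ⟨h1 ▸ h2.1, h3 ▸ h2.2, e, Or.inl ⟨h1, h3⟩, hO⟩
  · exact ⟨h3 ▸ h2.2, h1 ▸ h2.1, e, Or.inr ⟨h1, h3⟩, hO⟩

theorem sa72_col_of_rstep {F : Finset (ℤ × ℤ)} {a : Bool} {ω : RswCfg} {x y : ℤ × ℤ}
    (h : Relation.ReflTransGen (RswStep F a ω) x y) : Relation.ReflTransGen (Col261StepIn F F a ω) x y := by
  refine ctg261_rtg_mono (s := Col261StepIn F F a ω) ?_ h
  rintro x y ⟨hx, hy, e, he, hn⟩
  refine ⟨e, rsz_mem_int.2 ?_, he, fun hh => hn hh.1⟩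
  rcases he with ⟨h1, h3⟩ | ⟨h1, h3⟩
  · exact ⟨h1 ▸ hx, h3 ▸ hy⟩
  · exact ⟨h1 ▸ hy, h3 ▸ hx⟩

/-- **(A)** a compatible configuration of non zero weight has a valid type -/
theorem sa72_type {t : ℝ} {F : Finset (ℤ × ℤ)} {b : Bool} {ω : RswCfg} (hw : rswWt t F b ω ≠ 0)
    {Pm : Finset ((ℤ × ℤ) × (ℤ × ℤ))} (hne : Pm.Nonempty) (hcomp : ∀ pr ∈ Pm, ¬ MdlNConn F ω pr.1 pr.2)
    (hconn : ∀ x ∈ sa72M Pm, ∀ y ∈ sa72M Pm,
      Relation.ReflTransGen (fun u v => ∃ e ∈ rswInt F, (u = e.1 ∧ v = rswCo e) ∨ (v = e.1 ∧ u = rswCo e)) x y) :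
    ∃ a : Bool, ∃ i0 ∈ sa72M Pm, ∃ I ⊆ sa72M Pm, Sa72V Pm i0 I ∧
      Stp261T F (sa72M Pm \ I) I a (sa72Pr Pm (sa72M Pm \ I)) ω := by
  classical
  obtain ⟨pr0, hpr0⟩ := hne
  obtain ⟨a, i0, hi0, hcl⟩ := cm72_main (dua261_feas_of_wt hw) (sa72M Pm)
    ⟨pr0.1, sa72_fst_mem hpr0, pr0.2, sa72_snd_mem hpr0, fun h => hcomp pr0 hpr0 (sa72_N_of_col h)⟩ hconn
  refine ⟨a, i0, hi0, (sa72M Pm).filter (fun m => Relation.ReflTransGen (RswStep F a ω) i0 m), Finset.filter_subset _ _,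
    ⟨Finset.mem_filter.2 ⟨hi0, Relation.ReflTransGen.refl⟩, hi0, fun pr hpr => ?_⟩, fun j hj i hi hji => ?_, fun pr hpr => ?_⟩
  · by_contra hc
    push Not at hc
    obtain ⟨h1, h2⟩ := hc
    have n1 := sa72_N_of_col (hcl _ (Finset.mem_filter.1 h1).1 (sa72_col_of_rstep (Finset.mem_filter.1 h1).2))
    have n2 := sa72_N_of_col (hcl _ (Finset.mem_filter.1 h2).1 (sa72_col_of_rstep (Finset.mem_filter.1 h2).2))
    exact hcomp pr hpr (Relation.ReflTransGen.trans (sa72_nconn_symm n1) n2)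
  · obtain ⟨hjM, hjI⟩ := Finset.mem_sdiff.1 hj
    exact hjI (Finset.mem_filter.2 ⟨hjM, (Finset.mem_filter.1 hi).2.trans (sa72_rstep_symm hji)⟩)
  · rcases Finset.mem_union.1 hpr with h | h
    · exact hcomp pr (Finset.mem_filter.1 h).1
    · obtain ⟨q, hq, rfl⟩ := Finset.mem_image.1 h
      exact fun hc => hcomp q (Finset.mem_filter.1 hq).1 (sa72_nconn_symm hc)

/-- **(B)** pattern + valid type + the type event + `i0` cut off inside `Λo` ⟹ compatibility and one more short pair -/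
theorem sa72_concl {F K K' Λo Mp Mm : Finset (ℤ × ℤ)} {a : Bool} {ω g : RswCfg} (hKK : K ⊆ K') (hK'F : K' ⊆ F)
    (hdeep : ∀ e : (ℤ × ℤ) × Bool, (e.1 ∈ Λo ∨ rswCo e ∈ Λo) → e ∈ rswInt K') (hpat : MdlPat K g ω)
    {i0 : ℤ × ℤ} {I : Finset (ℤ × ℤ)} (hV : Sa72V ((Mp ×ˢ Mm) \ ctg261Sh K Mp Mm g) i0 I) (hi0 : i0 ∈ Λo)
    (hT : Stp261T F (sa72M ((Mp ×ˢ Mm) \ ctg261Sh K Mp Mm g) \ I) I a
      (sa72Pr ((Mp ×ˢ Mm) \ ctg261Sh K Mp Mm g) (sa72M ((Mp ×ˢ Mm) \ ctg261Sh K Mp Mm g) \ I)) ω)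
    (hsep : RswSep F a ω {i0} (F \ Λo)) :
    Ctg261Compat F Mp Mm ω ∧ (ctg261Sh K Mp Mm g).card < (ctg261Sh K' Mp Mm ω).card := by
  classical
  obtain ⟨Pm, hPm⟩ : ∃ Pm, Pm = (Mp ×ˢ Mm) \ ctg261Sh K Mp Mm g := ⟨_, rfl⟩
  rw [← hPm] at hV hT
  obtain ⟨hiI, hiM, hval⟩ := hV
  obtain ⟨hJI, hPr⟩ := hT
  constructor
  · intro f hf f' hf'
    by_cases hsh : (f, f') ∈ ctg261Sh K Mp Mm g
    · rw [ctg261_sh_pat hpat Mp Mm] at hsh
      obtain ⟨c, hc⟩ := (ctg261_mem_sh.1 hsh).2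
      intro hN
      refine hc (ctg261_rtg_mono (s := Ctg261Step K c ω) ?_ hN)
      rintro x y ⟨_, _, e, he, heO⟩
      exact ⟨e, he, fun h => heO h.2.1⟩
    · have hmem : (f, f') ∈ Pm := by
        rw [hPm]
        exact Finset.mem_sdiff.2 ⟨Finset.mem_product.2 ⟨hf, hf'⟩, hsh⟩
      rcases hval _ hmem with h | h
      · exact hPr (f, f') (Finset.mem_union_left _ (Finset.mem_filter.2 ⟨hmem, Finset.mem_sdiff.2 ⟨sa72_fst_mem hmem, h⟩⟩))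
      · have := hPr (f', f) (Finset.mem_union_right _ (Finset.mem_image.2
          ⟨(f, f'), Finset.mem_filter.2 ⟨hmem, Finset.mem_sdiff.2 ⟨sa72_snd_mem hmem, h⟩⟩, rfl⟩))
        exact fun hc => this (sa72_nconn_symm hc)
  · obtain ⟨pr, hpr, hend⟩ := sa72_mem_M hiM
    have hprod : pr ∈ Mp ×ˢ Mm ∧ pr ∉ ctg261Sh K Mp Mm g := by
      rw [hPm] at hpr
      exact Finset.mem_sdiff.1 hpr
    have hnew : pr ∈ ctg261Sh K' Mp Mm ω := by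
      rw [ctg261_mem_sh]
      refine ⟨Finset.mem_product.1 hprod.1, a, ?_⟩
      rcases hend with h | h
      · have h2 : pr.2 ∉ I := (hval pr hpr).resolve_left (fun hc => hc (h ▸ hiI))
        have hs : ¬ Relation.ReflTransGen (RswStep F a ω) i0 pr.2 := fun hc =>
          hJI pr.2 (Finset.mem_sdiff.2 ⟨sa72_snd_mem hpr, h2⟩) i0 hiI (sa72_rstep_symm hc)
        rw [h]
        exact ctg261_localise hK'F hdeep hsep (Finset.mem_singleton_self i0) hi0 hs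
      · have h1 : pr.1 ∉ I := (hval pr hpr).resolve_right (fun hc => hc (h ▸ hiI))
        have hs : ¬ Relation.ReflTransGen (RswStep F a ω) i0 pr.1 := fun hc =>
          hJI pr.1 (Finset.mem_sdiff.2 ⟨sa72_fst_mem hpr, h1⟩) i0 hiI (sa72_rstep_symm hc)
        rw [h]
        exact fun hc => ctg261_localise hK'F hdeep hsep (Finset.mem_singleton_self i0) hi0 hs (sa72_cstep_symm hc)
    apply Finset.card_lt_card
    rw [Finset.ssubset_iff_of_subset]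
    · exact ⟨pr, hnew, hprod.2⟩
    · rw [ctg261_sh_pat hpat Mp Mm]
      exact ctg261_sh_mono hKK Mp Mm ω

/-- the type event with its validity -/
def Sa72Good (F : Finset (ℤ × ℤ)) (Pm : Finset ((ℤ × ℤ) × (ℤ × ℤ))) (τ : Bool × (ℤ × ℤ) × Finset (ℤ × ℤ)) (ω : RswCfg) : Prop :=
  Sa72V Pm τ.2.1 τ.2.2 ∧ Stp261T F (sa72M Pm \ τ.2.2) τ.2.2 τ.1 (sa72Pr Pm (sa72M Pm \ τ.2.2)) ω

open Classical in
/-- a type of the configuration (a chosen one) -/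
noncomputable def sa72Idx (F : Finset (ℤ × ℤ)) (Pm : Finset ((ℤ × ℤ) × (ℤ × ℤ))) (Ty : Finset (Bool × (ℤ × ℤ) × Finset (ℤ × ℤ)))
    (τ0 : Bool × (ℤ × ℤ) × Finset (ℤ × ℤ)) (ω : RswCfg) : Bool × (ℤ × ℤ) × Finset (ℤ × ℤ) :=
  if h : ∃ τ ∈ Ty, Sa72Good F Pm τ ω then Classical.choose h else τ0

theorem sa72_idx_mem {F : Finset (ℤ × ℤ)} {Pm : Finset ((ℤ × ℤ) × (ℤ × ℤ))} {Ty : Finset (Bool × (ℤ × ℤ) × Finset (ℤ × ℤ))}
    {τ0 : Bool × (ℤ × ℤ) × Finset (ℤ × ℤ)} (h0 : τ0 ∈ Ty) (ω : RswCfg) : sa72Idx F Pm Ty τ0 ω ∈ Ty := by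
  unfold sa72Idx
  split_ifs with h
  · exact (Classical.choose_spec h).1
  · exact h0

theorem sa72_idx_good {F : Finset (ℤ × ℤ)} {Pm : Finset ((ℤ × ℤ) × (ℤ × ℤ))} {Ty : Finset (Bool × (ℤ × ℤ) × Finset (ℤ × ℤ))}
    {τ0 : Bool × (ℤ × ℤ) × Finset (ℤ × ℤ)} {ω : RswCfg} (h : ∃ τ ∈ Ty, Sa72Good F Pm τ ω) :
    Sa72Good F Pm (sa72Idx F Pm Ty τ0 ω) ω := by
  unfold sa72Idx
  rw [dif_pos h]
  exact (Classical.choose_spec h).2

/-- **(C) THE ABSTRACT STEP**: partition over the types, `stp261_explore` on each valid type -/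
theorem sa72_step {t : ℝ} (h0 : 0 < t) (h1 : t ≤ 1) {F K K' Λi Λo B Mp Mm : Finset (ℤ × ℤ)} {b : Bool}
    (hfkg : ∀ (a : Bool) (K : MdlPin), K.Ok → MdlFkgAt t F b a K) (hKK : K ⊆ K') (hK'F : K' ⊆ F)
    (hdeep : ∀ e : (ℤ × ℤ) × Bool, (e.1 ∈ Λo ∨ rswCo e ∈ Λo) → e ∈ rswInt K') (hio : Λi ⊆ Λo) (hΛF : Λi ⊆ F)
    (hMp : Mp ⊆ Λi) (hMm : Mm ⊆ Λi)
    (hconn : ∀ x ∈ Λi, ∀ y ∈ Λi,
      Relation.ReflTransGen (fun u v => ∃ e ∈ rswInt F, (u = e.1 ∧ v = rswCo e) ∨ (v = e.1 ∧ u = rswCo e)) x y)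
    {L : RswCfg → Prop} {g : RswCfg} (hA : MdlExt B (fun ω => L ω ∧ MdlPat K g ω)) {p1 : ℝ}
    (hcirc : ∀ (a : Bool) (L' : RswCfg → Prop), MdlExt B L' →
      p1 * rswP t F b L' ≤ rswP t F b (fun ω => L' ω ∧ RswSep F a ω Λi (F \ Λo)))
    (hmiss : ¬ Ctg261Wit K Mp Mm g) :
    p1 * rswP t F b (fun ω => (L ω ∧ MdlPat K g ω) ∧ Ctg261Compat F Mp Mm ω) ≤
      (((Finset.univ : Finset Bool) ×ˢ ((Mp ∪ Mm) ×ˢ (Mp ∪ Mm).powerset)).card : ℝ) *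
        rswP t F b (fun ω => (L ω ∧ MdlPat K g ω) ∧ Ctg261Compat F Mp Mm ω ∧
          (ctg261Sh K Mp Mm g).card < (ctg261Sh K' Mp Mm ω).card) := by
  classical
  have hR : 0 ≤ rswP t F b (fun ω => (L ω ∧ MdlPat K g ω) ∧ Ctg261Compat F Mp Mm ω ∧
      (ctg261Sh K Mp Mm g).card < (ctg261Sh K' Mp Mm ω).card) := rsz_P_nonneg h0.le h1 F b _
  -- the missing pairs
  have hne : ((Mp ×ˢ Mm) \ ctg261Sh K Mp Mm g).Nonempty := by
    rw [Finset.sdiff_nonempty]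
    intro hsub
    apply hmiss
    rw [ctg261_wit_iff, ← Finset.card_product]
    exact Finset.card_le_card hsub
  have hMsub : sa72M ((Mp ×ˢ Mm) \ ctg261Sh K Mp Mm g) ⊆ Mp ∪ Mm := by
    intro x hx
    obtain ⟨pr, hpr, h⟩ := sa72_mem_M hx
    have h2 := Finset.mem_product.1 (Finset.mem_sdiff.1 hpr).1
    rcases h with rfl | rfl
    · exact Finset.mem_union_left _ h2.1
    · exact Finset.mem_union_right _ h2.2
  have hMΛ : Mp ∪ Mm ⊆ Λi := Finset.union_subset hMp hMm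
  obtain ⟨pr0, hpr0⟩ := hne
  have hτ0 : ((true, pr0.1, ∅) : Bool × (ℤ × ℤ) × Finset (ℤ × ℤ)) ∈
      (Finset.univ : Finset Bool) ×ˢ ((Mp ∪ Mm) ×ˢ (Mp ∪ Mm).powerset) :=
    Finset.mem_product.2 ⟨Finset.mem_univ _, Finset.mem_product.2 ⟨hMsub (sa72_fst_mem hpr0), Finset.empty_mem_powerset _⟩⟩
  rw [ctg261_P_part t F b (fun ω => (L ω ∧ MdlPat K g ω) ∧ Ctg261Compat F Mp Mm ω)
    ((Finset.univ : Finset Bool) ×ˢ ((Mp ∪ Mm) ×ˢ (Mp ∪ Mm).powerset))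
    (sa72Idx F ((Mp ×ˢ Mm) \ ctg261Sh K Mp Mm g) ((Finset.univ : Finset Bool) ×ˢ ((Mp ∪ Mm) ×ˢ (Mp ∪ Mm).powerset)) (true, pr0.1, ∅))
    (sa72_idx_mem hτ0), Finset.mul_sum, ← nsmul_eq_mul, ← Finset.sum_const]
  refine Finset.sum_le_sum fun τ _ => ?_
  -- step 1: the event is inside the type event
  have s1 : rswP t F b (fun ω => ((L ω ∧ MdlPat K g ω) ∧ Ctg261Compat F Mp Mm ω) ∧
      sa72Idx F ((Mp ×ˢ Mm) \ ctg261Sh K Mp Mm g) ((Finset.univ : Finset Bool) ×ˢ ((Mp ∪ Mm) ×ˢ (Mp ∪ Mm).powerset))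
        (true, pr0.1, ∅) ω = τ) ≤
      rswP t F b (fun ω => (L ω ∧ MdlPat K g ω) ∧ Sa72Good F ((Mp ×ˢ Mm) \ ctg261Sh K Mp Mm g) τ ω) := by
    refine ctg261_P_mono h0.le h1 F b fun ω _ _ _ hw x => ⟨x.1.1, ?_⟩
    obtain ⟨a, i0, hi0, I, hI, hV, hT⟩ := sa72_type hw ⟨pr0, hpr0⟩
      (fun pr hpr => by
        have h2 := Finset.mem_product.1 (Finset.mem_sdiff.1 hpr).1
        exact x.1.2 pr.1 h2.1 pr.2 h2.2)
      (fun u hu v hv => hconn u (hMΛ (hMsub hu)) v (hMΛ (hMsub hv)))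
    rw [← x.2]
    exact sa72_idx_good ⟨(a, i0, I), Finset.mem_product.2 ⟨Finset.mem_univ _, Finset.mem_product.2
      ⟨hMsub hi0, Finset.mem_powerset.2 (hI.trans hMsub)⟩⟩, hV, hT⟩
  by_cases hv : Sa72V ((Mp ×ˢ Mm) \ ctg261Sh K Mp Mm g) τ.2.1 τ.2.2
  · have hiΛ : τ.2.1 ∈ Λi := hMΛ (hMsub hv.2.1)
    have s2 : rswP t F b (fun ω => (L ω ∧ MdlPat K g ω) ∧ Sa72Good F ((Mp ×ˢ Mm) \ ctg261Sh K Mp Mm g) τ ω) ≤
        rswP t F b (fun ω => (L ω ∧ MdlPat K g ω) ∧ Stp261T F (sa72M ((Mp ×ˢ Mm) \ ctg261Sh K Mp Mm g) \ τ.2.2) τ.2.2 τ.1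
          (sa72Pr ((Mp ×ˢ Mm) \ ctg261Sh K Mp Mm g) (sa72M ((Mp ×ˢ Mm) \ ctg261Sh K Mp Mm g) \ τ.2.2)) ω) :=
      ctg261_P_mono h0.le h1 F b fun ω _ _ _ _ x => ⟨x.1, x.2.2⟩
    have s3 := stp261_explore h0 h1 (hfkg τ.1)
      (J := sa72M ((Mp ×ˢ Mm) \ ctg261Sh K Mp Mm g) \ τ.2.2) (I := τ.2.2)
      (Finset.sdiff_subset.trans ((hMsub.trans hMΛ).trans hΛF))
      (sa72_Pr_fst (Pm := (Mp ×ˢ Mm) \ ctg261Sh K Mp Mm g)) hA (hcirc τ.1) hv.1 (hΛF hiΛ) hiΛ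
    have s4 : rswP t F b (fun ω => (L ω ∧ MdlPat K g ω) ∧
        Stp261T F (sa72M ((Mp ×ˢ Mm) \ ctg261Sh K Mp Mm g) \ τ.2.2) τ.2.2 τ.1
          (sa72Pr ((Mp ×ˢ Mm) \ ctg261Sh K Mp Mm g) (sa72M ((Mp ×ˢ Mm) \ ctg261Sh K Mp Mm g) \ τ.2.2)) ω ∧
        RswSep F τ.1 ω {τ.2.1} (F \ Λo)) ≤
        rswP t F b (fun ω => (L ω ∧ MdlPat K g ω) ∧ Ctg261Compat F Mp Mm ω ∧
          (ctg261Sh K Mp Mm g).card < (ctg261Sh K' Mp Mm ω).card) :=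
      ctg261_P_mono h0.le h1 F b fun ω _ _ _ _ x =>
        ⟨x.1, sa72_concl hKK hK'F hdeep x.1.2 hv (hio hiΛ) x.2.1 x.2.2⟩
    by_cases hp : 0 ≤ p1
    · exact (mul_le_mul_of_nonneg_left (s1.trans s2) hp).trans (s3.trans s4)
    · exact (mul_nonpos_of_nonpos_of_nonneg (not_le.1 hp).le (rsz_P_nonneg h0.le h1 F b _)).trans hR
  · have z : rswP t F b (fun ω => (L ω ∧ MdlPat K g ω) ∧ Sa72Good F ((Mp ×ˢ Mm) \ ctg261Sh K Mp Mm g) τ ω) = 0 :=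
      ctg261_P_false t F b fun ω x => hv x.2.1
    have z' : rswP t F b (fun ω => ((L ω ∧ MdlPat K g ω) ∧ Ctg261Compat F Mp Mm ω) ∧
      sa72Idx F ((Mp ×ˢ Mm) \ ctg261Sh K Mp Mm g) ((Finset.univ : Finset Bool) ×ˢ ((Mp ∪ Mm) ×ˢ (Mp ∪ Mm).powerset))
        (true, pr0.1, ∅) ω = τ) = 0 := le_antisymm (z ▸ s1) (rsz_P_nonneg h0.le h1 F b _)
    rw [z', mul_zero]
    exact hR

/-- **(D) THE ONE-STEP STATEMENT** eq:spatial-witness-step, from (S0) and (S1) only (geometry block of `ctg261_step_of_mixed`: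
(S1) at the ratio `4k+5` and the scale `⌊n/4⌋`) -/
theorem sa72_W1 {t : ℝ} (h0 : 0 < t) (h1 : t ≤ 1) (hS0 : Ctg261S0 t) (hS1 : Ctg261S1 t) : Ctg261W1 t := by
  classical
  intro k M α hα
  obtain ⟨p1, hp1, n1, H1⟩ := hS1 (4 * k + 5)
  obtain ⟨N, hNdef⟩ : ∃ N : ℝ, N = 2 * ((M : ℝ) * 2 ^ M) + 1 := ⟨_, rfl⟩
  have hN : 0 < N := by rw [hNdef]; positivity
  refine ⟨p1 * α / N, div_pos (mul_pos hp1 hα) hN, 4 * (n1 + 3 * (k + 1) + 1) + 4,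
    fun n hn F z b L g Mp Mm hF hsub hL hMp hMm hM hmiss hc => ?_⟩
  obtain ⟨n', hn'def⟩ : ∃ n' : ℕ, n' = n / 4 := ⟨_, rfl⟩
  have a1 : 4 * n' ≤ n := by omega
  have a2 : n < 4 * n' + 4 := by omega
  have a3 : n1 + 3 * (k + 1) + 1 ≤ n' := by omega
  -- geometry
  have g0 : k * n ≤ (4 * k + 5 + 1) * n' := by nlinarith
  have g1 : (k + 1) * n ≤ (4 * k + 5) * n' := by nlinarith
  have g2 : (4 * k + 5 + 3) * n' ≤ (k + 2) * n := by nlinarith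
  have g3 : (4 * k + 5 + 2) * n' + 1 ≤ (k + 2) * n := by nlinarith
  have g4 : (k + 2) * n ≤ (k + 3) * n := by nlinarith
  have g5 : (k + 1) * n ≤ (k + 2) * n := by nlinarith
  have g6 : (4 * k + 5 + 1) * n' ≤ (4 * k + 5 + 2) * n' := by nlinarith
  have g7 : (4 * k + 5 + 1) * n' ≤ (4 * k + 5 + 3) * n' := by nlinarith
  have sK' : rswBox z ((k + 2) * n) ⊆ F := (ctg261_box_mono z g4).trans hsub
  have sB : rswBox z ((4 * k + 5 + 3) * n') ⊆ F := (ctg261_box_mono z g2).trans sK'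
  have sΛ : rswBox z ((4 * k + 5 + 1) * n') ⊆ F := (ctg261_box_mono z g7).trans sB
  have hBsub : rswBox z ((4 * k + 5 + 3) * n') \ rswBox z ((4 * k + 5) * n') ⊆ rswBox z ((k + 3) * n) :=
    Finset.sdiff_subset.trans ((ctg261_box_mono z g2).trans (ctg261_box_mono z g4))
  have hdisj : Disjoint (rswBox z ((k + 1) * n)) (rswBox z ((4 * k + 5 + 3) * n') \ rswBox z ((4 * k + 5) * n')) :=
    Finset.disjoint_of_subset_left (ctg261_box_mono z g1) Finset.disjoint_sdiff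
  have hA : MdlExt (rswBox z ((4 * k + 5 + 3) * n') \ rswBox z ((4 * k + 5) * n'))
      (fun ω => L ω ∧ MdlPat (rswBox z ((k + 1) * n)) g ω) :=
    ctg261_ext_and (ctg261_ext_mono hBsub hL) (ctg261_pat_ext hdisj g)
  have hR : 0 ≤ rswP t F b (fun ω => (L ω ∧ MdlPat (rswBox z ((k + 1) * n)) g ω) ∧ Ctg261Compat F Mp Mm ω ∧
      (ctg261Sh (rswBox z ((k + 1) * n)) Mp Mm g).card < (ctg261Sh (rswBox z ((k + 2) * n)) Mp Mm ω).card) :=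
    rsz_P_nonneg h0.le h1 F b _
  have step := sa72_step h0 h1 (fun a K hK => hS0 F hF b a K hK) (ctg261_box_mono z g5) sK' (ctg261_box_deep z g3)
    (ctg261_box_mono z g6) sΛ (hMp.trans (ctg261_box_mono z g0)) (hMm.trans (ctg261_box_mono z g0))
    (fun x hx y hy => cm72_box_conn z _ sΛ hx hy) hA
    (fun a L' hL' => H1 n' (by omega) F z b a L' hF sB hL') hmiss
  -- the number of types
  have hcardM : (Mp ∪ Mm).card ≤ M := (Finset.card_union_le _ _).trans hM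
  have hcard : (((Finset.univ : Finset Bool) ×ˢ ((Mp ∪ Mm) ×ˢ (Mp ∪ Mm).powerset)).card : ℝ) ≤ N := by
    rw [Finset.card_product, Finset.card_product, Finset.card_powerset, Finset.card_univ, Fintype.card_bool, hNdef]
    push_cast
    have c1 : (((Mp ∪ Mm).card : ℕ) : ℝ) ≤ M := by exact_mod_cast hcardM
    have c2 : (2 : ℝ) ^ (Mp ∪ Mm).card ≤ 2 ^ M := pow_le_pow_right₀ (by norm_num) hcardM
    have c3 : (((Mp ∪ Mm).card : ℕ) : ℝ) * 2 ^ (Mp ∪ Mm).card ≤ (M : ℝ) * 2 ^ M :=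
      mul_le_mul c1 c2 (by positivity) (by positivity)
    linarith
  have e1 := mul_le_mul_of_nonneg_left hc hp1.le
  have e2 := mul_le_mul_of_nonneg_right hcard hR
  rw [div_mul_eq_mul_div, div_le_iff₀ hN]
  linarith

/-- the equation lemmas of the definitions of this file are generated HERE (RULES.md, rule 6) -/
theorem sa72_eqns_cite : True := by
  have := @sa72M.eq_1
  have := @sa72Pr.eq_1
  have := @Sa72V.eq_1
  have := @Sa72Good.eq_1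
  have := @sa72Idx.eq_1
  trivial

end Claimed.Agent.R292
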