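/-
Row 292 (S0540), unit MODEL: model-free tools for `prop:comparison` of the AT paper (Sec. 3.1), helper141,
prefix `mdl141_`.

* T1 `mdl141_two_step` : TWO-STEP HOLLEY on a product `A × B` of finite distributive lattices: lattice (Holley)
  condition of the `A`-marginals + Holley condition of the conditional weights for COMPARABLE `a ≤ a'` only.
  Zeros and unequal supports are allowed, signed increasing observables, cross multiplied form.
  `mdl141_two_step_fkg` : positive association of one such weight.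
* T2 `mdl141_K` : the Ising sum of `R291/Tool/IsingZ` in the even-subgraph normalisation,
  `K α = iszZ Bool s t α / ∏ (1 + α i)`; it is antitone on `[0,1]^E` (first Griffiths inequality, by the character
  expansion) and log-supermodular.
* T3 three-state edges `η : ι → SignType` (open minus < closed < open plus): the sets `{η = 1}`, `{η = -1}` under
  `⊓`, `⊔`, and the cluster factor `N(W⁺) N(W⁻)`.
-/
import Claimed.Agent.R291.Tool.IsingZ

set_option autoImplicit false
set_option linter.unusedSectionVars false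
set_option linter.unusedVariables false

namespace Claimed.Agent.R292

open Finset Claimed.Agent.R291

/-! ### T1: two-step Holley and FKG -/

/-- The cancellation step. -/
theorem mdl141_cancel {X P Q R T Y : ℝ} (hX : 0 ≤ X) (hP : 0 ≤ P) (hQ : 0 ≤ Q) (hR : 0 ≤ R)
    (hT : 0 ≤ T) (hY : 0 ≤ Y) (h0 : P = 0 → X = 0) (h1 : X * R ≤ P * Y) (h2 : P * Q ≤ T * R) :
    X * Q ≤ T * Y := by
  rcases hP.eq_or_lt with hP0 | hP0
  · rw [h0 hP0.symm, zero_mul]; exact mul_nonneg hT hY
  rcases hR.eq_or_lt with hR0 | hR0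
  · rw [← hR0, mul_zero] at h2
    have hQ0 : Q = 0 := by
      have : Q ≤ 0 := by
        by_contra hc
        have := mul_pos hP0 (not_le.1 hc)
        linarith
      linarith
    rw [hQ0, mul_zero]; exact mul_nonneg hT hY
  have hPR : 0 < P * R := mul_pos hP0 hR0
  have h3 : X * Q * (P * R) ≤ T * Y * (P * R) := by
    calc X * Q * (P * R) = (X * R) * (P * Q) := by ring
      _ ≤ (P * Y) * (T * R) := mul_le_mul h1 h2 (mul_nonneg hP hQ) (mul_nonneg hP hY)
      _ = T * Y * (P * R) := by ring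
  exact le_of_mul_le_mul_right h3 hPR

section TwoStep

variable {A B : Type*} [DistribLattice A] [Fintype A] [DistribLattice B] [Fintype B]

/-- a finite family of reals indexed by two finite types is bounded below. -/
theorem mdl141_exists_shift (f : A → B → ℝ) : ∃ c : ℝ, ∀ a b, 0 ≤ f a b + c := by
  refine ⟨∑ a, ∑ b, |f a b|, fun a b => ?_⟩
  have h1 : |f a b| ≤ ∑ b, |f a b| :=
    Finset.single_le_sum (f := fun b => |f a b|) (fun i _ => abs_nonneg _) (Finset.mem_univ b)
  have h2 : ∑ b, |f a b| ≤ ∑ a, ∑ b, |f a b| :=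
    Finset.single_le_sum (f := fun a => ∑ b, |f a b|)
      (fun i _ => Finset.sum_nonneg fun j _ => abs_nonneg _) (Finset.mem_univ a)
  have h3 := neg_abs_le (f a b)
  linarith

/-- Conditional step: for `a ≤ a'` the conditional weights are Holley ordered. -/
theorem mdl141_cond_step {w₁ w₂ : A → B → ℝ} (h1 : ∀ a b, 0 ≤ w₁ a b) (h2 : ∀ a b, 0 ≤ w₂ a b)
    (H2 : ∀ a a', a ≤ a' → ∀ b b', w₁ a b * w₂ a' b' ≤ w₁ a (b ⊓ b') * w₂ a' (b ⊔ b'))
    {f : A → B → ℝ} (hf : ∀ a a' b b', a ≤ a' → b ≤ b' → f a b ≤ f a' b') {a a' : A} (haa : a ≤ a') :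
    (∑ b, w₁ a b * f a b) * ∑ b, w₂ a' b ≤ (∑ b, w₁ a b) * ∑ b, w₂ a' b * f a' b := by
  have hm : Monotone (f a) := fun b b' hb => hf a a b b' le_rfl hb
  have h := isz_holley (w₁ := w₁ a) (w₂ := w₂ a') (f := f a) (h1 a) (h2 a') hm (H2 a a' haa)
  refine h.trans (mul_le_mul_of_nonneg_left ?_ (Finset.sum_nonneg fun b _ => h1 a b))
  exact Finset.sum_le_sum fun b _ => mul_le_mul_of_nonneg_left (hf a a' b b haa le_rfl) (h2 a' b)

/-- **T1, two-step Holley inequality.** -/
theorem mdl141_two_step {w₁ w₂ : A → B → ℝ} (h1 : ∀ a b, 0 ≤ w₁ a b) (h2 : ∀ a b, 0 ≤ w₂ a b)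
    (H1 : ∀ a a', (∑ b, w₁ a b) * (∑ b, w₂ a' b) ≤ (∑ b, w₁ (a ⊓ a') b) * ∑ b, w₂ (a ⊔ a') b)
    (H2 : ∀ a a', a ≤ a' → ∀ b b', w₁ a b * w₂ a' b' ≤ w₁ a (b ⊓ b') * w₂ a' (b ⊔ b'))
    {f : A → B → ℝ} (hf : ∀ a a' b b', a ≤ a' → b ≤ b' → f a b ≤ f a' b') :
    (∑ a, ∑ b, w₁ a b * f a b) * (∑ a, ∑ b, w₂ a b) ≤
      (∑ a, ∑ b, w₁ a b) * ∑ a, ∑ b, w₂ a b * f a b := by
  classical
  obtain ⟨c, hc⟩ := mdl141_exists_shift f
  have hfc : ∀ a a' b b', a ≤ a' → b ≤ b' → f a b + c ≤ f a' b' + c := fun a a' b b' ha hb => by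
    have := hf a a' b b' ha hb
    linarith
  have key := four_functions_theorem_univ (fun a => ∑ b, w₁ a b * (f a b + c)) (fun a => ∑ b, w₂ a b)
    (fun a => ∑ b, w₁ a b) (fun a => ∑ b, w₂ a b * (f a b + c))
    (fun a => Finset.sum_nonneg fun b _ => mul_nonneg (h1 a b) (hc a b))
    (fun a => Finset.sum_nonneg fun b _ => h2 a b)
    (fun a => Finset.sum_nonneg fun b _ => h1 a b)
    (fun a => Finset.sum_nonneg fun b _ => mul_nonneg (h2 a b) (hc a b))
    (fun a a' => by
      refine mdl141_cancel (P := ∑ b, w₁ a b) (R := ∑ b, w₂ (a ⊔ a') b)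
        (Finset.sum_nonneg fun b _ => mul_nonneg (h1 a b) (hc a b))
        (Finset.sum_nonneg fun b _ => h1 a b) (Finset.sum_nonneg fun b _ => h2 a' b)
        (Finset.sum_nonneg fun b _ => h2 _ b) (Finset.sum_nonneg fun b _ => h1 _ b)
        (Finset.sum_nonneg fun b _ => mul_nonneg (h2 _ b) (hc _ b)) ?_ ?_ (H1 a a')
      · intro h0
        have h0' := (Finset.sum_eq_zero_iff_of_nonneg (fun b _ => h1 a b)).1 h0
        exact Finset.sum_eq_zero fun b hb => by rw [h0' b hb, zero_mul]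
      · exact mdl141_cond_step h1 h2 H2 hfc le_sup_left)
  simp only [mul_add, Finset.sum_add_distrib, ← Finset.sum_mul] at key
  nlinarith [key]

/-- **T1', two-step FKG**: positive association of a weight on `A × B` whose `A`-marginal satisfies the lattice
condition and whose conditional weights are Holley ordered along `a ≤ a'`. -/
theorem mdl141_two_step_fkg {w : A → B → ℝ} (h0 : ∀ a b, 0 ≤ w a b)
    (H1 : ∀ a a', (∑ b, w a b) * (∑ b, w a' b) ≤ (∑ b, w (a ⊓ a') b) * ∑ b, w (a ⊔ a') b)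
    (H2 : ∀ a a', a ≤ a' → ∀ b b', w a b * w a' b' ≤ w a (b ⊓ b') * w a' (b ⊔ b'))
    {f g : A → B → ℝ} (hf : ∀ a a' b b', a ≤ a' → b ≤ b' → f a b ≤ f a' b')
    (hg : ∀ a a' b b', a ≤ a' → b ≤ b' → g a b ≤ g a' b') :
    (∑ a, ∑ b, w a b * f a b) * (∑ a, ∑ b, w a b * g a b) ≤
      (∑ a, ∑ b, w a b) * ∑ a, ∑ b, w a b * (f a b * g a b) := by
  classical
  obtain ⟨d, hd⟩ := mdl141_exists_shift g
  have hgd : ∀ a a' b b', a ≤ a' → b ≤ b' → g a b + d ≤ g a' b' + d := fun a a' b b' ha hb => by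
    have := hg a a' b b' ha hb
    linarith
  have hw2 : ∀ a b, 0 ≤ w a b * (g a b + d) := fun a b => mul_nonneg (h0 a b) (hd a b)
  have key := mdl141_two_step (w₁ := w) (w₂ := fun a b => w a b * (g a b + d)) h0 hw2
    (fun a a' => by
      have h := mdl141_cancel (X := ∑ b, w a' b * (g a' b + d)) (P := ∑ b, w a' b)
        (Q := ∑ b, w a b) (R := ∑ b, w (a ⊔ a') b) (T := ∑ b, w (a ⊓ a') b)
        (Y := ∑ b, w (a ⊔ a') b * (g (a ⊔ a') b + d))
        (Finset.sum_nonneg fun b _ => hw2 a' b) (Finset.sum_nonneg fun b _ => h0 a' b)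
        (Finset.sum_nonneg fun b _ => h0 a b) (Finset.sum_nonneg fun b _ => h0 _ b)
        (Finset.sum_nonneg fun b _ => h0 _ b) (Finset.sum_nonneg fun b _ => hw2 _ b)
        (fun h00 => by
          have h0' := (Finset.sum_eq_zero_iff_of_nonneg (fun b _ => h0 a' b)).1 h00
          exact Finset.sum_eq_zero fun b hb => by rw [h0' b hb, zero_mul])
        (mdl141_cond_step h0 h0 H2 hgd le_sup_right)
        (by rw [mul_comm]; exact H1 a a')
      rw [mul_comm]; exact h)
    (fun a a' haa b b' => by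
      have h3 : g a' b' + d ≤ g a' (b ⊔ b') + d := hgd a' a' b' _ le_rfl le_sup_right
      calc w a b * (w a' b' * (g a' b' + d)) = (w a b * w a' b') * (g a' b' + d) := by ring
        _ ≤ (w a (b ⊓ b') * w a' (b ⊔ b')) * (g a' (b ⊔ b') + d) :=
            mul_le_mul (H2 a a' haa b b') h3 (hd a' b') (mul_nonneg (h0 _ _) (h0 _ _))
        _ = w a (b ⊓ b') * (w a' (b ⊔ b') * (g a' (b ⊔ b') + d)) := by ring)
    hf
  have e1 : ∀ a b, w a b * (g a b + d) = w a b * g a b + d * w a b := fun a b => by ring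
  have e2 : ∀ a b, w a b * (g a b + d) * f a b = w a b * (f a b * g a b) + d * (w a b * f a b) :=
    fun a b => by ring
  simp only [e2] at key
  simp only [e1, Finset.sum_add_distrib, ← Finset.mul_sum] at key
  nlinarith [key]

end TwoStep

/-! ### T2: the first Griffiths inequality in the form needed for `E(S ∪ T) ⊇ E(S) ∪ E(T)` -/

section GKS

variable {V ι : Type*} [Fintype V] [DecidableEq V] [Fintype ι] [DecidableEq ι]

/-- sign of a Boolean spin. -/
def mdl141_sg (b : Bool) : ℝ := if b then -1 else 1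

theorem mdl141_sg_xor (x y : Bool) : mdl141_sg (xor x y) = mdl141_sg x * mdl141_sg y := by
  cases x <;> cases y <;> simp [mdl141_sg]

/-- the character of the edge `i`. -/
def mdl141_chi (s t : ι → V) (i : ι) (ρ : V → Bool) : ℝ := mdl141_sg (ρ (s i)) * mdl141_sg (ρ (t i))

theorem mdl141_chi_eq (s t : ι → V) (i : ι) (ρ : V → Bool) :
    mdl141_chi s t i ρ = if ρ (s i) = ρ (t i) then 1 else -1 := by
  unfold mdl141_chi mdl141_sg
  cases ρ (s i) <;> cases ρ (t i) <;> simp

theorem mdl141_chi_xor (s t : ι → V) (i : ι) (ρ ρ₀ : V → Bool) :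
    mdl141_chi s t i (fun v => xor (ρ v) (ρ₀ v)) = mdl141_chi s t i ρ * mdl141_chi s t i ρ₀ := by
  unfold mdl141_chi
  rw [mdl141_sg_xor, mdl141_sg_xor]; ring

/-- translation by `ρ₀` in the group `V → Bool`. -/
def mdl141_xorEquiv (ρ₀ : V → Bool) : (V → Bool) ≃ (V → Bool) where
  toFun ρ := fun v => xor (ρ v) (ρ₀ v)
  invFun ρ := fun v => xor (ρ v) (ρ₀ v)
  left_inv ρ := by funext v; simp
  right_inv ρ := by funext v; simp

/-- Character sums over the group `V → Bool` are nonnegative. -/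
theorem mdl141_charsum_nonneg (s t : ι → V) (A : Finset ι) :
    0 ≤ ∑ ρ : V → Bool, ∏ i ∈ A, mdl141_chi s t i ρ := by
  by_contra hneg
  have hne : (∑ ρ : V → Bool, ∏ i ∈ A, mdl141_chi s t i ρ) ≠ 0 := fun h => hneg h.ge
  have hshift : ∀ ρ₀ : V → Bool, (∑ ρ : V → Bool, ∏ i ∈ A, mdl141_chi s t i ρ) =
      (∏ i ∈ A, mdl141_chi s t i ρ₀) * ∑ ρ : V → Bool, ∏ i ∈ A, mdl141_chi s t i ρ := by
    intro ρ₀
    calc (∑ ρ : V → Bool, ∏ i ∈ A, mdl141_chi s t i ρ)
        = ∑ ρ : V → Bool, ∏ i ∈ A, mdl141_chi s t i ((mdl141_xorEquiv ρ₀) ρ) :=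
          ((mdl141_xorEquiv ρ₀).sum_comp (fun ρ => ∏ i ∈ A, mdl141_chi s t i ρ)).symm
      _ = ∑ ρ : V → Bool, (∏ i ∈ A, mdl141_chi s t i ρ₀) * ∏ i ∈ A, mdl141_chi s t i ρ := by
          refine Finset.sum_congr rfl fun ρ _ => ?_
          show ∏ i ∈ A, mdl141_chi s t i (fun v => xor (ρ v) (ρ₀ v)) = _
          simp only [mdl141_chi_xor, Finset.prod_mul_distrib]
          ring
      _ = _ := (Finset.mul_sum _ _ _).symm
  have hone : ∀ ρ₀ : V → Bool, ∏ i ∈ A, mdl141_chi s t i ρ₀ = 1 := by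
    intro ρ₀
    have h := hshift ρ₀
    have h' : (1 - ∏ i ∈ A, mdl141_chi s t i ρ₀) *
        ∑ ρ : V → Bool, ∏ i ∈ A, mdl141_chi s t i ρ = 0 := by linarith
    rcases mul_eq_zero.1 h' with h2 | h2
    · linarith
    · exact absurd h2 hne
  apply hneg
  simp only [hone]
  positivity

/-- The Ising sum in the even-subgraph (high temperature) normalisation. -/
noncomputable def mdl141_Zev (s t : ι → V) (θ : ι → ℝ) : ℝ :=
  ∑ ρ : V → Bool, ∏ i, (1 + θ i * mdl141_chi s t i ρ)

theorem mdl141_Zev_expand (s t : ι → V) (θ : ι → ℝ) :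
    mdl141_Zev s t θ =
      ∑ A : Finset ι, (∏ i ∈ A, θ i) * ∑ ρ : V → Bool, ∏ i ∈ A, mdl141_chi s t i ρ := by
  unfold mdl141_Zev
  simp only [Finset.prod_one_add, Finset.powerset_univ, Finset.prod_mul_distrib]
  rw [Finset.sum_comm]
  simp only [Finset.mul_sum]

/-- **First Griffiths inequality**: the even-subgraph sum is increasing in the couplings `θ ≥ 0`. -/
theorem mdl141_Zev_mono (s t : ι → V) {θ θ' : ι → ℝ} (h0 : ∀ i, 0 ≤ θ i) (h : ∀ i, θ i ≤ θ' i) :
    mdl141_Zev s t θ ≤ mdl141_Zev s t θ' := by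
  rw [mdl141_Zev_expand, mdl141_Zev_expand]
  refine Finset.sum_le_sum fun A _ => mul_le_mul_of_nonneg_right ?_ (mdl141_charsum_nonneg s t A)
  exact Finset.prod_le_prod (fun i _ => h0 i) fun i _ => h i

theorem mdl141_Zev_nonneg (s t : ι → V) {θ : ι → ℝ} (h0 : ∀ i, 0 ≤ θ i) : 0 ≤ mdl141_Zev s t θ := by
  rw [mdl141_Zev_expand]
  exact Finset.sum_nonneg fun A _ =>
    mul_nonneg (Finset.prod_nonneg fun i _ => h0 i) (mdl141_charsum_nonneg s t A)

/-- `K α = iszZ α / ∏ (1 + α)`. -/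
noncomputable def mdl141_K (s t : ι → V) (α : ι → ℝ) : ℝ := iszZ Bool s t α / ∏ i, (1 + α i)

theorem mdl141_K_eq_Zev (s t : ι → V) {α : ι → ℝ} (h0 : ∀ i, 0 ≤ α i) :
    mdl141_K s t α = (1 / 2) ^ Fintype.card ι * mdl141_Zev s t (fun i => (1 - α i) / (1 + α i)) := by
  unfold mdl141_K mdl141_Zev iszZ
  rw [Finset.sum_div, Finset.mul_sum]
  refine Finset.sum_congr rfl fun ρ _ => ?_
  rw [← Finset.prod_div_distrib, Fintype.card, ← Finset.prod_const, ← Finset.prod_mul_distrib]
  refine Finset.prod_congr rfl fun i _ => ?_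
  have hpos : (1 + α i) ≠ 0 := by have := h0 i; positivity
  rw [mdl141_chi_eq]
  split_ifs
  · field_simp; ring
  · field_simp; ring

theorem mdl141_K_nonneg (s t : ι → V) {α : ι → ℝ} (h0 : ∀ i, 0 ≤ α i) : 0 ≤ mdl141_K s t α := by
  unfold mdl141_K
  refine div_nonneg (isz_Z_nonneg s t h0) (Finset.prod_nonneg fun i _ => ?_)
  have := h0 i; positivity

/-- `iszZ` recovered from `K`. -/
theorem mdl141_Z_eq_K (s t : ι → V) {α : ι → ℝ} (h0 : ∀ i, 0 ≤ α i) :
    iszZ Bool s t α = (∏ i, (1 + α i)) * mdl141_K s t α := by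
  unfold mdl141_K
  have hpos : (∏ i, (1 + α i)) ≠ 0 := by
    refine (Finset.prod_pos fun i _ => ?_).ne'
    have := h0 i; positivity
  field_simp

/-- **T2a**: `K` is antitone on `[0,1]^E`. -/
theorem mdl141_K_anti (s t : ι → V) {α β : ι → ℝ} (h0 : ∀ i, 0 ≤ α i) (h : ∀ i, α i ≤ β i)
    (h1 : ∀ i, β i ≤ 1) : mdl141_K s t β ≤ mdl141_K s t α := by
  rw [mdl141_K_eq_Zev s t h0, mdl141_K_eq_Zev s t fun i => (h0 i).trans (h i)]
  refine mul_le_mul_of_nonneg_left (mdl141_Zev_mono s t (fun i => ?_) fun i => ?_) (by positivity)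
  · have := h0 i; have := h i; have := h1 i
    exact div_nonneg (by linarith) (by linarith)
  · have := h0 i; have := h i; have := h1 i
    rw [div_le_div_iff₀ (by linarith) (by linarith)]
    nlinarith

/-- **T2b**: `K` is log-supermodular on `[0,1]^E`. -/
theorem mdl141_K_super (s t : ι → V) {α β : ι → ℝ} (ha0 : ∀ i, 0 ≤ α i) (ha1 : ∀ i, α i ≤ 1)
    (hb0 : ∀ i, 0 ≤ β i) (hb1 : ∀ i, β i ≤ 1) :
    mdl141_K s t α * mdl141_K s t β ≤ mdl141_K s t (α ⊓ β) * mdl141_K s t (α ⊔ β) := by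
  unfold mdl141_K
  rw [div_mul_div_comm, div_mul_div_comm]
  have hden : (∏ i, (1 + (α ⊓ β) i)) * ∏ i, (1 + (α ⊔ β) i) = (∏ i, (1 + α i)) * ∏ i, (1 + β i) := by
    rw [← Finset.prod_mul_distrib, ← Finset.prod_mul_distrib]
    refine Finset.prod_congr rfl fun i _ => ?_
    simp only [Pi.inf_apply, Pi.sup_apply]
    rcases le_total (α i) (β i) with h | h
    · rw [inf_eq_left.2 h, sup_eq_right.2 h]
    · rw [inf_eq_right.2 h, sup_eq_left.2 h]; ring
  rw [hden]
  refine div_le_div_of_nonneg_right (isz_Z_super (by simp) s t ha0 ha1 hb0 hb1) ?_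
  refine mul_nonneg (Finset.prod_nonneg fun i _ => ?_) (Finset.prod_nonneg fun i _ => ?_)
  · have := ha0 i; positivity
  · have := hb0 i; positivity

/-- **T2, packaged**: the mixed inequality used for the spin lattice condition and for ordered wirings:
if `γ ≤ α ⊓ β` and `γ' ≤ α ⊔ β` then `K α K β ≤ K γ K γ'`. -/
theorem mdl141_K_mixed (s t : ι → V) {α β γ γ' : ι → ℝ} (ha0 : ∀ i, 0 ≤ α i) (ha1 : ∀ i, α i ≤ 1)
    (hb0 : ∀ i, 0 ≤ β i) (hb1 : ∀ i, β i ≤ 1) (hc0 : ∀ i, 0 ≤ γ i) (hc0' : ∀ i, 0 ≤ γ' i)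
    (hc : ∀ i, γ i ≤ min (α i) (β i)) (hc' : ∀ i, γ' i ≤ max (α i) (β i)) :
    mdl141_K s t α * mdl141_K s t β ≤ mdl141_K s t γ * mdl141_K s t γ' := by
  refine (mdl141_K_super s t ha0 ha1 hb0 hb1).trans ?_
  refine mul_le_mul (mdl141_K_anti s t hc0 hc fun i => ?_) (mdl141_K_anti s t hc0' hc' fun i => ?_)
    (mdl141_K_nonneg s t fun i => ?_) (mdl141_K_nonneg s t hc0)
  · exact (min_le_left _ _).trans (ha1 i)
  · exact max_le (ha1 i) (hb1 i)
  · exact (ha0 i).trans (le_max_left _ _)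

end GKS

/-! ### T3: three-state edges -/

section Sign

variable {V ι : Type*} [Fintype V] [DecidableEq V] [Fintype ι] [DecidableEq ι]

theorem mdl141_filter_one_inf (η η' : ι → SignType) :
    univ.filter (fun e => (η ⊓ η') e = 1) =
      univ.filter (fun e => η e = 1) ∩ univ.filter (fun e => η' e = 1) := by
  ext e
  simp only [mem_filter, mem_univ, true_and, mem_inter, Pi.inf_apply]
  generalize η e = x; generalize η' e = y
  revert x y; decide

theorem mdl141_filter_one_sup (η η' : ι → SignType) :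
    univ.filter (fun e => (η ⊔ η') e = 1) =
      univ.filter (fun e => η e = 1) ∪ univ.filter (fun e => η' e = 1) := by
  ext e
  simp only [mem_filter, mem_univ, true_and, mem_union, Pi.sup_apply]
  generalize η e = x; generalize η' e = y
  revert x y; decide

theorem mdl141_filter_neg_inf (η η' : ι → SignType) :
    univ.filter (fun e => (η ⊓ η') e = -1) =
      univ.filter (fun e => η e = -1) ∪ univ.filter (fun e => η' e = -1) := by
  ext e
  simp only [mem_filter, mem_univ, true_and, mem_union, Pi.inf_apply]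
  generalize η e = x; generalize η' e = y
  revert x y; decide

theorem mdl141_filter_neg_sup (η η' : ι → SignType) :
    univ.filter (fun e => (η ⊔ η') e = -1) =
      univ.filter (fun e => η e = -1) ∩ univ.filter (fun e => η' e = -1) := by
  ext e
  simp only [mem_filter, mem_univ, true_and, mem_inter, Pi.sup_apply]
  generalize η e = x; generalize η' e = y
  revert x y; decide

/-- the cluster factor `N(W⁺) N(W⁻) = 2^{k(W⁺) + k(W⁻)}` of a three-state edge configuration. -/
noncomputable def mdl141_NN (s t : ι → V) (η : ι → SignType) : ℝ :=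
  (iszN Bool s t (univ.filter fun e => η e = 1) : ℝ) * (iszN Bool s t (univ.filter fun e => η e = -1) : ℝ)

theorem mdl141_NN_nonneg (s t : ι → V) (η : ι → SignType) : 0 ≤ mdl141_NN s t η := by
  unfold mdl141_NN; positivity

/-- **T3**: the cluster factor satisfies the lattice condition in the order `(W⁺, -W⁻)`. -/
theorem mdl141_NN_super (s t : ι → V) (η η' : ι → SignType) :
    mdl141_NN s t η * mdl141_NN s t η' ≤ mdl141_NN s t (η ⊓ η') * mdl141_NN s t (η ⊔ η') := by
  unfold mdl141_NN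
  rw [mdl141_filter_one_inf, mdl141_filter_one_sup, mdl141_filter_neg_inf, mdl141_filter_neg_sup]
  have h1 : (iszN Bool s t (univ.filter fun e => η e = 1) : ℝ) * iszN Bool s t (univ.filter fun e => η' e = 1)
      ≤ (iszN Bool s t (univ.filter (fun e => η e = 1) ∩ univ.filter fun e => η' e = 1) : ℝ) *
        iszN Bool s t (univ.filter (fun e => η e = 1) ∪ univ.filter fun e => η' e = 1) := by
    exact_mod_cast isz_N_super (by simp) s t _ _
  have h2 : (iszN Bool s t (univ.filter fun e => η e = -1) : ℝ) *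
        iszN Bool s t (univ.filter fun e => η' e = -1)
      ≤ (iszN Bool s t (univ.filter (fun e => η e = -1) ∩ univ.filter fun e => η' e = -1) : ℝ) *
        iszN Bool s t (univ.filter (fun e => η e = -1) ∪ univ.filter fun e => η' e = -1) := by
    exact_mod_cast isz_N_super (by simp) s t _ _
  have h := mul_le_mul h1 h2 (by positivity) (by positivity)
  calc _ = _ := by ring
    _ ≤ _ := h
    _ = _ := by ring

/-- mixing two colourings along a vertex set. -/
def mdl141_mix (S : V → Bool) (ρ τ : V → Bool) : V → Bool := fun v => if S v then ρ v else τ v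

/-- **T4**: if the plus edges live on `S` and the minus edges on its complement, then
`2^{k(W⁺ ∪ W⁻)} 2^{|V|} = 2^{k(W⁺)} 2^{k(W⁻)}`. -/
theorem mdl141_N_disjoint (s t : ι → V) (S : V → Bool) (ωp ωm : Finset ι)
    (hp : ∀ i ∈ ωp, S (s i) = true ∧ S (t i) = true)
    (hm : ∀ i ∈ ωm, S (s i) = false ∧ S (t i) = false) :
    iszN Bool s t (ωp ∪ ωm) * 2 ^ Fintype.card V = iszN Bool s t ωp * iszN Bool s t ωm := by
  unfold iszN
  have hc : (2 : ℕ) ^ Fintype.card V = (univ : Finset (V → Bool)).card := by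
    rw [Finset.card_univ, Fintype.card_fun, Fintype.card_bool]
  rw [hc, ← Finset.card_product, ← Finset.card_product]
  refine Finset.card_nbij' (fun x => (mdl141_mix S x.1 x.2, mdl141_mix S x.2 x.1))
    (fun x => (mdl141_mix S x.1 x.2, mdl141_mix S x.2 x.1)) ?_ ?_ ?_ ?_
  · rintro ⟨ρ, τ⟩ hx
    simp only [coe_product, coe_filter, mem_univ, true_and, coe_univ, Set.mem_prod, Set.mem_ofPred_eq,
      Set.mem_univ, and_true] at hx ⊢
    refine ⟨fun i hi => ?_, fun i hi => ?_⟩
    · simp only [mdl141_mix, (hp i hi).1, (hp i hi).2, if_true]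
      exact hx i (mem_union_left _ hi)
    · simp only [mdl141_mix, (hm i hi).1, (hm i hi).2]
      exact hx i (mem_union_right _ hi)
  · rintro ⟨ρ, τ⟩ hx
    simp only [coe_product, coe_filter, mem_univ, true_and, coe_univ, Set.mem_prod, Set.mem_ofPred_eq,
      Set.mem_univ, and_true] at hx ⊢
    intro i hi
    rcases mem_union.1 hi with hi | hi
    · simp only [mdl141_mix, (hp i hi).1, (hp i hi).2, if_true]
      exact hx.1 i hi
    · simp only [mdl141_mix, (hm i hi).1, (hm i hi).2]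
      exact hx.2 i hi
  · rintro ⟨ρ, τ⟩ _
    ext v <;> simp only [mdl141_mix] <;> cases S v <;> simp
  · rintro ⟨ρ, τ⟩ _
    ext v <;> simp only [mdl141_mix] <;> cases S v <;> simp

end Sign

theorem mdl141_eqns_cite : True := by
  have := @mdl141_sg.eq_1
  have := @mdl141_chi.eq_1.{0,0}
  have := @mdl141_xorEquiv.eq_1.{0}
  have := @mdl141_Zev.eq_1.{0,0}
  have := @mdl141_K.eq_1.{0,0}
  have := @mdl141_NN.eq_1.{0,0}
  have := @mdl141_mix.eq_1.{0}
  trivial

end Claimed.Agent.R292
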