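import Claimed.Agent.R292.Model.WbDefs79

/-!
# Row 292 (S0540), Model/Wb131 : LEAF W4 = (D) of the typed cut `Model/Wb79` (architect helper79; pen helper131; prefix `wb131_`)

`wb131_wall_conn` = `wb79_wall_conn` VERBATIM: the inner wall between the two connected pieces `Ch`, `B \ Ch` of `B` is connected (chain form):
every 0-chain mod 2 of total mass 0 carried by the wall vertices strictly inside `B` bounds a set of wall edges with both endpoints strictly inside `B`.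
Proof: `u ~ w` := `single u + single w` bounds a chain of such edges; the wall edges with an inner endpoint `~ u` form an even subgraph of `B`, which is a
disagreement set (`mdl41_exists_D`) of a colouring constant on `Ch` and on `B \ Ch` (`mdl41c_const_on`): it is the whole wall.
-/

set_option autoImplicit false

namespace Claimed.Agent.R292

open Claims Claims.C0468 Relation

/-- two vertices are joined modulo a submodule of 0-chains -/
def Wb131R (N : Submodule (ZMod 2) ((ℤ × ℤ) →₀ ZMod 2)) (u w : ℤ × ℤ) : Prop :=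
  (Finsupp.single u 1 + Finsupp.single w 1 : (ℤ × ℤ) →₀ ZMod 2) ∈ N

theorem wb131_R_refl (N : Submodule (ZMod 2) ((ℤ × ℤ) →₀ ZMod 2)) (u : ℤ × ℤ) : Wb131R N u u := by
  unfold Wb131R
  rw [← Finsupp.single_add, mdl41_two, Finsupp.single_zero]
  exact Submodule.zero_mem _

theorem wb131_R_symm {N : Submodule (ZMod 2) ((ℤ × ℤ) →₀ ZMod 2)} {u w : ℤ × ℤ} (h : Wb131R N u w) : Wb131R N w u := by
  unfold Wb131R at *
  rwa [add_comm]

theorem wb131_R_trans {N : Submodule (ZMod 2) ((ℤ × ℤ) →₀ ZMod 2)} {u w z : ℤ × ℤ} (h1 : Wb131R N u w)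
    (h2 : Wb131R N w z) : Wb131R N u z := by
  unfold Wb131R at *
  have h := Submodule.add_mem _ h1 h2
  have e : (Finsupp.single u 1 + Finsupp.single w 1 + (Finsupp.single w 1 + Finsupp.single z 1) : (ℤ × ℤ) →₀ ZMod 2)
      = Finsupp.single u 1 + Finsupp.single z 1 := by
    have hw : (Finsupp.single w 1 + Finsupp.single w 1 : (ℤ × ℤ) →₀ ZMod 2) = 0 := by
      rw [← Finsupp.single_add, mdl41_two, Finsupp.single_zero]
    calc (Finsupp.single u 1 + Finsupp.single w 1 + (Finsupp.single w 1 + Finsupp.single z 1) : (ℤ × ℤ) →₀ ZMod 2)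
        = Finsupp.single u 1 + (Finsupp.single w 1 + Finsupp.single w 1) + Finsupp.single z 1 := by abel
      _ = _ := by rw [hw, add_zero]
  rwa [e] at h

/-- the boundaries of the chains carried by a finite set of edges -/
noncomputable def wb131N (W : Finset ((ℤ × ℤ) × Bool)) : Submodule (ZMod 2) ((ℤ × ℤ) →₀ ZMod 2) :=
  (Finsupp.supported (ZMod 2) (ZMod 2) (W : Set ((ℤ × ℤ) × Bool))).map mdl41Bd

theorem wb131_R_edge {W : Finset ((ℤ × ℤ) × Bool)} {e : (ℤ × ℤ) × Bool} (he : e ∈ W) :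
    Wb131R (wb131N W) e.1 (rswEnd e) := by
  unfold Wb131R wb131N
  refine ⟨Finsupp.single e 1, ?_, ?_⟩
  · exact Finsupp.single_mem_supported _ _ (Finset.mem_coe.2 he)
  · rw [mdl41_bd_single, one_smul]

theorem wb131_zmod2 : ∀ a : ZMod 2, a ≠ 0 → a = 1 := by decide

/-- a chain mod 2 is the chain of its support -/
theorem wb131_ch_support (x : ((ℤ × ℤ) × Bool) →₀ ZMod 2) : mdl41Ch x.support = x := by
  ext e
  rw [mdl41_ch_apply]
  by_cases h : e ∈ x.support
  · rw [if_pos h, wb131_zmod2 _ (Finsupp.mem_support_iff.1 h)]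
  · rw [if_neg h, Finsupp.notMem_support_iff.1 h]

/-- a 0-chain of total mass 0 carried by a set of pairwise joined vertices bounds -/
theorem wb131_of_joined (W : Finset ((ℤ × ℤ) × Bool)) (V : Set (ℤ × ℤ))
    (hV : ∀ u ∈ V, ∀ w ∈ V, Wb131R (wb131N W) u w) (c : (ℤ × ℤ) →₀ ZMod 2) (hc : ∀ v, c v ≠ 0 → v ∈ V)
    (h0 : mdl41Aug c = 0) : ∃ J : Finset ((ℤ × ℤ) × Bool), J ⊆ W ∧ mdl41Bd (mdl41Ch J) = c := by
  classical
  by_cases hz : c = 0
  · refine ⟨∅, Finset.empty_subset _, ?_⟩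
    have : mdl41Ch ∅ = 0 := by
      ext e
      rw [mdl41_ch_apply]
      simp
    rw [this, map_zero, hz]
  obtain ⟨u₀, hu₀⟩ : ∃ u₀, c u₀ ≠ 0 := by
    by_contra hcon
    apply hz
    ext v
    by_contra hv
    exact hcon ⟨v, hv⟩
  have hu₀V := hc u₀ hu₀
  let φ : ((ℤ × ℤ) →₀ ZMod 2) →ₗ[ZMod 2] ((ℤ × ℤ) →₀ ZMod 2) :=
    LinearMap.id + LinearMap.smulRight mdl41Aug (Finsupp.single u₀ 1)
  have hle : Finsupp.supported (ZMod 2) (ZMod 2) V ≤ (wb131N W).comap φ := by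
    rw [Finsupp.supported_eq_span_single, Submodule.span_le]
    rintro _ ⟨v, hv, rfl⟩
    show φ (Finsupp.single v 1) ∈ wb131N W
    have : φ (Finsupp.single v 1) = Finsupp.single v 1 + Finsupp.single u₀ 1 := by
      simp [φ, mdl41_aug_single]
    rw [this]
    exact hV v hv u₀ hu₀V
  have hcm : c ∈ Finsupp.supported (ZMod 2) (ZMod 2) V := by
    rw [Finsupp.mem_supported]
    intro v hv
    exact hc v (Finsupp.mem_support_iff.1 hv)
  have h1 : φ c ∈ wb131N W := hle hcm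
  have h2 : φ c = c := by simp [φ, h0]
  rw [h2] at h1
  obtain ⟨x, hx, hxc⟩ := h1
  refine ⟨x.support, fun e he => ?_, by rw [wb131_ch_support, hxc]⟩
  exact Finset.mem_coe.1 ((Finsupp.mem_supported _ _).1 hx he)

/-- the wall vertices strictly inside `B` are pairwise joined by the inner wall edges -/
theorem wb131_joined {F B Ch : Finset (ℤ × ℤ)} (G : Wb79Geo F B Ch) {u w : ℤ × ℤ} (hu : u ∈ wb79WV B Ch)
    (hw : w ∈ wb79WV B Ch) : Wb131R (wb131N (wb79W2 B Ch)) u w := by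
  classical
  set N := wb131N (wb79W2 B Ch) with hN
  have hW2 : ∀ e ∈ mdl41DisSet B Ch, ¬ OnPolygon B e.1 → ¬ OnPolygon B (rswEnd e) → Wb131R N e.1 (rswEnd e) :=
    fun e he h1 h2 => wb131_R_edge (Finset.mem_filter.2 ⟨he, h1, h2⟩)
  set η := (mdl41DisSet B Ch).filter (fun e => (¬ OnPolygon B e.1 ∧ Wb131R N u e.1) ∨
    (¬ OnPolygon B (rswEnd e) ∧ Wb131R N u (rswEnd e))) with hηdef
  have hηsub : η ⊆ mdl41DisSet B Ch := Finset.filter_subset _ _
  have hev : Mdl41Even B η := by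
    rw [mdl41_even_iff]
    intro v hv
    have h0 := (mdl41_even_iff B (mdl41DisSet B Ch)).1 (mdl41_even_disSet B Ch) v hv
    by_cases hvR : Wb131R N u v
    · have : η.filter (fun e => e.1 = v ∨ rswEnd e = v) = (mdl41DisSet B Ch).filter (fun e => e.1 = v ∨ rswEnd e = v) := by
        ext e
        simp only [hηdef, Finset.mem_filter]
        constructor
        · rintro ⟨⟨h1, -⟩, h3⟩; exact ⟨h1, h3⟩
        · rintro ⟨h1, h3⟩
          refine ⟨⟨h1, ?_⟩, h3⟩
          rcases h3 with h3 | h3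
          · left; rw [h3]; exact ⟨hv, hvR⟩
          · right; rw [h3]; exact ⟨hv, hvR⟩
      convert h0 using 2
    · have : η.filter (fun e => e.1 = v ∨ rswEnd e = v) = ∅ := by
        ext e
        simp only [hηdef, Finset.mem_filter, Finset.notMem_empty, iff_false]
        rintro ⟨⟨h1, h2⟩, h3⟩
        rcases h3 with h3 | h3
        · rcases h2 with ⟨-, h2⟩ | ⟨h4, h2⟩
          · exact hvR (h3 ▸ h2)
          · exact hvR (h3 ▸ wb131_R_trans h2 (wb131_R_symm (hW2 e h1 (h3 ▸ hv) h4)))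
        · rcases h2 with ⟨h4, h2⟩ | ⟨-, h2⟩
          · exact hvR (h3 ▸ wb131_R_trans h2 (hW2 e h1 h4 (h3 ▸ hv)))
          · exact hvR (h3 ▸ h2)
      have h00 : Even ((η.filter (fun e => e.1 = v ∨ rswEnd e = v)).card) := by
        rw [this, Finset.card_empty]; exact Even.zero
      convert h00 using 2
  obtain ⟨D, -, hD⟩ := mdl41_exists_D G.conn hev
  have c1 : ∀ f ∈ Ch, ∀ g ∈ Ch, (f ∈ D ↔ g ∈ D) := fun f hf g hg =>
    mdl41c_const_on hηsub hD G.sub (fun a ha b hb => ⟨fun _ => hb, fun _ => ha⟩) (G.cC f hf g hg)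
  have c2 : ∀ f ∈ B \ Ch, ∀ g ∈ B \ Ch, (f ∈ D ↔ g ∈ D) := fun f hf g hg =>
    mdl41c_const_on hηsub hD Finset.sdiff_subset
      (fun a ha b hb => ⟨fun h => absurd h (Finset.mem_sdiff.1 ha).2, fun h => absurd h (Finset.mem_sdiff.1 hb).2⟩) (G.cG f hf g hg)
  -- the two faces of a wall edge
  have hfaces : ∀ e ∈ mdl41DisSet B Ch, ∃ f ∈ Ch, ∃ g ∈ B \ Ch, (Mdl41Dis D e ↔ ¬ (f ∈ D ↔ g ∈ D)) := by
    intro e he
    obtain ⟨h1, h2⟩ := mdl41_mem_disSet.1 he
    obtain ⟨h3, h4⟩ := mdl41_mem_int.1 h1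
    unfold Mdl41Dis at h2 ⊢
    by_cases h5 : e.1 ∈ Ch
    · have h6 : rswCo e ∉ Ch := fun h6 => h2 ⟨fun _ => h6, fun _ => h5⟩
      exact ⟨e.1, h5, rswCo e, Finset.mem_sdiff.2 ⟨h4, h6⟩, Iff.rfl⟩
    · have h6 : rswCo e ∈ Ch := by
        by_contra h6
        exact h2 ⟨fun h => absurd h h5, fun h => absurd h h6⟩
      exact ⟨rswCo e, h6, e.1, Finset.mem_sdiff.2 ⟨h3, h5⟩, by tauto⟩
  -- a wall edge at `u` lies in `η`
  obtain ⟨-, huP, e₀, he₀, hu₀⟩ := Finset.mem_filter.1 hu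
  have he₀η : e₀ ∈ η := by
    refine Finset.mem_filter.2 ⟨he₀, ?_⟩
    rcases hu₀ with h | h
    · left; rw [h]; exact ⟨huP, wb131_R_refl N u⟩
    · right; rw [h]; exact ⟨huP, wb131_R_refl N u⟩
  obtain ⟨f₀, hf₀, g₀, hg₀, hi₀⟩ := hfaces e₀ he₀
  have hd₀ := hi₀.1 ((hD e₀ (mdl41_mem_disSet.1 he₀).1).1 he₀η)
  -- hence the whole wall
  have hall : ∀ e ∈ mdl41DisSet B Ch, e ∈ η := by
    intro e he
    obtain ⟨f, hf, g, hg, hi⟩ := hfaces e he
    have h1 := c1 f hf f₀ hf₀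
    have h2 := c2 g hg g₀ hg₀
    exact (hD e (mdl41_mem_disSet.1 he).1).2 (hi.2 (by rw [h1, h2]; exact hd₀))
  obtain ⟨-, hwP, e, he, hwe⟩ := Finset.mem_filter.1 hw
  have h2 := (Finset.mem_filter.1 (hall e he)).2
  rcases hwe with h3 | h3
  · rcases h2 with ⟨-, h2⟩ | ⟨h4, h2⟩
    · exact h3 ▸ h2
    · exact h3 ▸ wb131_R_trans h2 (wb131_R_symm (hW2 e he (h3 ▸ hwP) h4))
  · rcases h2 with ⟨h4, h2⟩ | ⟨-, h2⟩
    · exact h3 ▸ wb131_R_trans h2 (hW2 e he h4 (h3 ▸ hwP))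
    · exact h3 ▸ h2

/-- **LEAF W4 = (D)** (`wb79_wall_conn` of `Model/Wb79`, verbatim): the inner wall is connected (chain form). -/
theorem wb131_wall_conn {F B Ch : Finset (ℤ × ℤ)} (G : Wb79Geo F B Ch) (c : (ℤ × ℤ) →₀ ZMod 2)
    (hc : ∀ v, c v ≠ 0 → v ∈ wb79WV B Ch) (h0 : mdl41Aug c = 0) :
    ∃ J : Finset ((ℤ × ℤ) × Bool), J ⊆ wb79W2 B Ch ∧ mdl41Bd (mdl41Ch J) = c :=
  wb131_of_joined (wb79W2 B Ch) {v | v ∈ wb79WV B Ch} (fun _ hu _ hw => wb131_joined G hu hw) c hc h0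

/-- the equation lemmas of the definitions of this file are generated HERE (RULES.md, rule 6) -/
theorem wb131_defs_eqns_cite : True := by
  have := @Wb131R.eq_1
  have := @wb131N.eq_1
  trivial


end Claimed.Agent.R292
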