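import Claimed.Agent.R292.Model.WbDefs79

/-!
# Row 292 (S0540), Model/Wb139 : LEAF W5 = (R) of the board `wb_post` (architect helper79; pen helper139; prefix `wb139_`)

The polygon of a rectangle is connected by its own edges (chain form): a 0-chain mod 2 carried by the polygon of the rectangle, of total mass zero,
is the boundary of a set of edges of the polygon.  Four inductions along the sides; an even chain is a sum of pairs (as in `mdl41_join`).
-/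

set_option autoImplicit false

namespace Claimed.Agent.R292

open Claims Claims.C0468

theorem wb139_pair_self (u : ℤ × ℤ) : (Finsupp.single u 1 + Finsupp.single u 1 : (ℤ × ℤ) →₀ ZMod 2) = 0 := by
  rw [← Finsupp.single_add, mdl41_two, Finsupp.single_zero]

theorem wb139_trans {M : Submodule (ZMod 2) ((ℤ × ℤ) →₀ ZMod 2)} {u w z : ℤ × ℤ}
    (h1 : (Finsupp.single u 1 + Finsupp.single w 1 : (ℤ × ℤ) →₀ ZMod 2) ∈ M)
    (h2 : (Finsupp.single w 1 + Finsupp.single z 1 : (ℤ × ℤ) →₀ ZMod 2) ∈ M) :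
    (Finsupp.single u 1 + Finsupp.single z 1 : (ℤ × ℤ) →₀ ZMod 2) ∈ M := by
  have h := Submodule.add_mem _ h1 h2
  have e : (Finsupp.single u 1 + Finsupp.single w 1 + (Finsupp.single w 1 + Finsupp.single z 1) : (ℤ × ℤ) →₀ ZMod 2)
      = Finsupp.single u 1 + Finsupp.single z 1 := by
    calc (Finsupp.single u 1 + Finsupp.single w 1 + (Finsupp.single w 1 + Finsupp.single z 1) : (ℤ × ℤ) →₀ ZMod 2)
        = Finsupp.single u 1 + (Finsupp.single w 1 + Finsupp.single w 1) + Finsupp.single z 1 := by abel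
      _ = _ := by rw [wb139_pair_self, add_zero]
  rwa [e] at h

theorem wb139_edge {E : Set ((ℤ × ℤ) × Bool)} {e : (ℤ × ℤ) × Bool} (he : e ∈ E) :
    (Finsupp.single e.1 1 + Finsupp.single (rswEnd e) 1 : (ℤ × ℤ) →₀ ZMod 2)
      ∈ (Finsupp.supported (ZMod 2) (ZMod 2) E).map mdl41Bd :=
  ⟨Finsupp.single e 1, Finsupp.single_mem_supported _ _ he, by rw [mdl41_bd_single, one_smul]⟩

/-- along a horizontal side -/
theorem wb139_hline {E : Set ((ℤ × ℤ) × Bool)} {a b y : ℤ} (h : ∀ x, a ≤ x → x < b → ((x, y), false) ∈ E) (n : ℕ)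
    (hn : a + n ≤ b) :
    (Finsupp.single (a, y) 1 + Finsupp.single (a + n, y) 1 : (ℤ × ℤ) →₀ ZMod 2)
      ∈ (Finsupp.supported (ZMod 2) (ZMod 2) E).map mdl41Bd := by
  induction n with
  | zero =>
    rw [Nat.cast_zero, add_zero, wb139_pair_self]
    exact Submodule.zero_mem _
  | succ n ih =>
    push_cast at hn
    have h1 := ih (by omega)
    have h2 := wb139_edge (h (a + n) (by omega) (by omega))
    have e : rswEnd ((a + (n : ℤ), y), false) = (a + ((n + 1 : ℕ) : ℤ), y) := by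
      simp only [rswEnd, Bool.false_eq_true, if_false]
      push_cast
      rw [add_assoc]
    rw [e] at h2
    exact wb139_trans h1 h2

/-- along a vertical side -/
theorem wb139_vline {E : Set ((ℤ × ℤ) × Bool)} {a b x : ℤ} (h : ∀ y, a ≤ y → y < b → ((x, y), true) ∈ E) (n : ℕ)
    (hn : a + n ≤ b) :
    (Finsupp.single (x, a) 1 + Finsupp.single (x, a + n) 1 : (ℤ × ℤ) →₀ ZMod 2)
      ∈ (Finsupp.supported (ZMod 2) (ZMod 2) E).map mdl41Bd := by
  induction n with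
  | zero =>
    rw [Nat.cast_zero, add_zero, wb139_pair_self]
    exact Submodule.zero_mem _
  | succ n ih =>
    push_cast at hn
    have h1 := ih (by omega)
    have h2 := wb139_edge (h (a + n) (by omega) (by omega))
    have e : rswEnd ((x, a + (n : ℤ)), true) = (x, a + ((n + 1 : ℕ) : ℤ)) := by
      simp only [rswEnd, if_true]
      push_cast
      rw [add_assoc]
    rw [e] at h2
    exact wb139_trans h1 h2

theorem wb139_hline' {E : Set ((ℤ × ℤ) × Bool)} {a b y : ℤ} (h : ∀ x, a ≤ x → x < b → ((x, y), false) ∈ E) {p : ℤ}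
    (h1 : a ≤ p) (h2 : p ≤ b) :
    (Finsupp.single (a, y) 1 + Finsupp.single (p, y) 1 : (ℤ × ℤ) →₀ ZMod 2)
      ∈ (Finsupp.supported (ZMod 2) (ZMod 2) E).map mdl41Bd := by
  have := wb139_hline h (p - a).toNat (by omega)
  have e : a + ((p - a).toNat : ℤ) = p := by omega
  rwa [e] at this

theorem wb139_vline' {E : Set ((ℤ × ℤ) × Bool)} {a b x : ℤ} (h : ∀ y, a ≤ y → y < b → ((x, y), true) ∈ E) {q : ℤ}
    (h1 : a ≤ q) (h2 : q ≤ b) :
    (Finsupp.single (x, a) 1 + Finsupp.single (x, q) 1 : (ℤ × ℤ) →₀ ZMod 2)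
      ∈ (Finsupp.supported (ZMod 2) (ZMod 2) E).map mdl41Bd := by
  have := wb139_vline h (q - a).toNat (by omega)
  have e : a + ((q - a).toNat : ℤ) = q := by omega
  rwa [e] at this

theorem wb139_zmod2 : ∀ a : ZMod 2, a ≠ 0 → a = 1 := by decide

/-- the chain of the support of a chain mod 2 is the chain -/
theorem wb139_ch_support (j : ((ℤ × ℤ) × Bool) →₀ ZMod 2) : mdl41Ch j.support = j := by
  ext e
  rw [mdl41_ch_apply]
  by_cases he : e ∈ j.support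
  · rw [if_pos he, wb139_zmod2 _ (Finsupp.mem_support_iff.1 he)]
  · rw [if_neg he, Finsupp.notMem_support_iff.1 he]

/-- every vertex of the polygon of the rectangle is joined to the corner `(x0, y0)` by edges of the polygon -/
theorem wb139_ring_pair {x0 x1 y0 y1 : ℤ} (hx : x0 + 2 ≤ x1) (hy : y0 + 2 ≤ y1) {v : ℤ × ℤ}
    (hv : v ∈ cornersOf (Finset.Ico x0 x1 ×ˢ Finset.Ico y0 y1)) (hp : OnPolygon (Finset.Ico x0 x1 ×ˢ Finset.Ico y0 y1) v) :
    (Finsupp.single (x0, y0) 1 + Finsupp.single v 1 : (ℤ × ℤ) →₀ ZMod 2)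
      ∈ (Finsupp.supported (ZMod 2) (ZMod 2)
        {e : (ℤ × ℤ) × Bool | ¬ (e.1 ∈ Finset.Ico x0 x1 ×ˢ Finset.Ico y0 y1 ↔ rswCo e ∈ Finset.Ico x0 x1 ×ˢ Finset.Ico y0 y1)}).map
          mdl41Bd := by
  obtain ⟨p, q⟩ := v
  have hbot : ∀ x, x0 ≤ x → x < x1 → ((x, y0), false) ∈
      {e : (ℤ × ℤ) × Bool | ¬ (e.1 ∈ Finset.Ico x0 x1 ×ˢ Finset.Ico y0 y1 ↔ rswCo e ∈ Finset.Ico x0 x1 ×ˢ Finset.Ico y0 y1)} := by
    intro x h1 h2
    simp only [Set.mem_ofPred_eq, rswCo, Finset.mem_product, Finset.mem_Ico, Bool.false_eq_true, if_false]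
    omega
  have htop : ∀ x, x0 ≤ x → x < x1 → ((x, y1), false) ∈
      {e : (ℤ × ℤ) × Bool | ¬ (e.1 ∈ Finset.Ico x0 x1 ×ˢ Finset.Ico y0 y1 ↔ rswCo e ∈ Finset.Ico x0 x1 ×ˢ Finset.Ico y0 y1)} := by
    intro x h1 h2
    simp only [Set.mem_ofPred_eq, rswCo, Finset.mem_product, Finset.mem_Ico, Bool.false_eq_true, if_false]
    omega
  have hleft : ∀ y, y0 ≤ y → y < y1 → ((x0, y), true) ∈
      {e : (ℤ × ℤ) × Bool | ¬ (e.1 ∈ Finset.Ico x0 x1 ×ˢ Finset.Ico y0 y1 ↔ rswCo e ∈ Finset.Ico x0 x1 ×ˢ Finset.Ico y0 y1)} := by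
    intro y h1 h2
    simp only [Set.mem_ofPred_eq, rswCo, Finset.mem_product, Finset.mem_Ico, if_true]
    omega
  have hright : ∀ y, y0 ≤ y → y < y1 → ((x1, y), true) ∈
      {e : (ℤ × ℤ) × Bool | ¬ (e.1 ∈ Finset.Ico x0 x1 ×ˢ Finset.Ico y0 y1 ↔ rswCo e ∈ Finset.Ico x0 x1 ×ˢ Finset.Ico y0 y1)} := by
    intro y h1 h2
    simp only [Set.mem_ofPred_eq, rswCo, Finset.mem_product, Finset.mem_Ico, if_true]
    omega
  have hr : x0 ≤ p ∧ p ≤ x1 ∧ y0 ≤ q ∧ q ≤ y1 := by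
    unfold cornersOf at hv
    rw [Finset.mem_biUnion] at hv
    obtain ⟨⟨f1, f2⟩, hf, hv⟩ := hv
    simp only [Finset.mem_product, Finset.mem_Ico] at hf
    simp only [Finset.mem_insert, Finset.mem_singleton, Prod.mk.injEq] at hv
    omega
  have hs : p = x0 ∨ p = x1 ∨ q = y0 ∨ q = y1 := by
    unfold OnPolygon at hp
    simp only [Finset.mem_product, Finset.mem_Ico] at hp
    omega
  obtain ⟨r1, r2, r3, r4⟩ := hr
  rcases hs with rfl | rfl | rfl | rfl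
  · exact wb139_vline' hleft r3 r4
  · exact wb139_trans (wb139_hline' hbot r1 r2) (wb139_vline' hright r3 r4)
  · exact wb139_hline' hbot r1 r2
  · exact wb139_trans (wb139_vline' hleft r3 r4) (wb139_hline' htop r1 r2)

/-- **LEAF W5 = (R)**: the polygon of a rectangle is connected by its own edges (chain form). -/
theorem wb139_ring_conn {x0 x1 y0 y1 : ℤ} (hx : x0 + 2 ≤ x1) (hy : y0 + 2 ≤ y1) (c : (ℤ × ℤ) →₀ ZMod 2)
    (hc : ∀ v, c v ≠ 0 → v ∈ cornersOf (Finset.Ico x0 x1 ×ˢ Finset.Ico y0 y1) ∧ OnPolygon (Finset.Ico x0 x1 ×ˢ Finset.Ico y0 y1) v)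
    (h0 : mdl41Aug c = 0) :
    ∃ J : Finset ((ℤ × ℤ) × Bool), (∀ e ∈ J, ¬ (e.1 ∈ Finset.Ico x0 x1 ×ˢ Finset.Ico y0 y1 ↔ rswCo e ∈ Finset.Ico x0 x1 ×ˢ Finset.Ico y0 y1)) ∧
      mdl41Bd (mdl41Ch J) = c := by
  let φ : ((ℤ × ℤ) →₀ ZMod 2) →ₗ[ZMod 2] ((ℤ × ℤ) →₀ ZMod 2) :=
    LinearMap.id + LinearMap.smulRight mdl41Aug (Finsupp.single (x0, y0) 1)
  have hle : Finsupp.supported (ZMod 2) (ZMod 2)
      {v | v ∈ cornersOf (Finset.Ico x0 x1 ×ˢ Finset.Ico y0 y1) ∧ OnPolygon (Finset.Ico x0 x1 ×ˢ Finset.Ico y0 y1) v}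
      ≤ ((Finsupp.supported (ZMod 2) (ZMod 2)
        {e : (ℤ × ℤ) × Bool | ¬ (e.1 ∈ Finset.Ico x0 x1 ×ˢ Finset.Ico y0 y1 ↔ rswCo e ∈ Finset.Ico x0 x1 ×ˢ Finset.Ico y0 y1)}).map
          mdl41Bd).comap φ := by
    rw [Finsupp.supported_eq_span_single, Submodule.span_le]
    rintro _ ⟨v, hv, rfl⟩
    rw [SetLike.mem_coe, Submodule.mem_comap]
    have : φ (Finsupp.single v 1) = Finsupp.single (x0, y0) 1 + Finsupp.single v 1 := by
      simp [φ, mdl41_aug_single, add_comm]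
    rw [this]
    exact wb139_ring_pair hx hy hv.1 hv.2
  have hcm : c ∈ Finsupp.supported (ZMod 2) (ZMod 2)
      {v | v ∈ cornersOf (Finset.Ico x0 x1 ×ˢ Finset.Ico y0 y1) ∧ OnPolygon (Finset.Ico x0 x1 ×ˢ Finset.Ico y0 y1) v} := by
    rw [Finsupp.mem_supported]
    intro v hv
    exact hc v (Finsupp.mem_support_iff.1 hv)
  have h1 := hle hcm
  have h2 : φ c = c := by simp [φ, h0]
  rw [Submodule.mem_comap, h2] at h1
  obtain ⟨j, hj, hjb⟩ := h1
  refine ⟨j.support, fun e he => (Finsupp.mem_supported _ _).1 hj he, ?_⟩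
  rw [wb139_ch_support, hjb]

end Claimed.Agent.R292
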