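import Claimed.Agent.R292.Model.WbDefs79

/-!
# Row 292 (S0540), Model/Wb165 : LEAF W13 of the board `wb_post` (architect helper79; pen helper165; prefix `wb165_`)

`wb165_geo_cov` = `wb79_geo_cov` of `Model/Wb79`, verbatim: the chain of boxes on the middle row of the rectangle `d` of a shell.
In the coordinates of the frame: `R = [0, 2 r1) x [0, n)`, `B = [-(n/2), 2 r1 + n/2) x [0, n)` (width retyped to `n / 2` by 79, 22:40Z: same text), seeds on the row `0`, `Top` = the row `n - 1`;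
centres `(j r, n / 2)` with `j r < 2 r1`, `r = n / (8 κ)`; a chain from the row `0` to the row `n - 1` visits the row `n / 2` (discrete IVT).
-/

set_option autoImplicit false

namespace Claimed.Agent.R292

open Claims Claims.C0468 Relation

/-- a frame transports boxes to boxes (the centre is a CORNER, so a flip sends the height `Y` to `- Y`) -/
theorem wb165_ctr (sw fl : Bool) (c : ℤ × ℤ) : ∃ ctr : ℤ × ℤ → ℤ × ℤ, ∀ (p g : ℤ × ℤ) (ρ : ℕ),
    g ∈ rswBox (ctr p) ρ ↔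
      (p.1 - ρ ≤ ((mdl41cFrame sw fl c).symm g).1 ∧ ((mdl41cFrame sw fl c).symm g).1 < p.1 + ρ) ∧
      (p.2 - ρ ≤ ((mdl41cFrame sw fl c).symm g).2 ∧ ((mdl41cFrame sw fl c).symm g).2 < p.2 + ρ) := by
  refine ⟨fun p => if sw then (c.1 + (if fl then -p.2 else p.2), c.2 + p.1)
    else (c.1 + p.1, c.2 + (if fl then -p.2 else p.2)), ?_⟩
  intro p g ρ
  unfold rswBox
  rw [mdl41c_frame_symm_apply]
  simp only [Finset.mem_product, Finset.mem_Ico]
  cases sw <;> cases fl <;> simp only [Bool.false_eq_true, if_false, if_true] <;> omega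

/-- the four faces around a corner of a box are in the box of radius one more -/
theorem wb165_corner {x v : ℤ × ℤ} {ρ : ℕ} (hv : v ∈ cornersOf (rswBox x ρ)) :
    v ∈ rswBox x (ρ + 1) ∧ (v.1 - 1, v.2) ∈ rswBox x (ρ + 1) ∧ (v.1, v.2 - 1) ∈ rswBox x (ρ + 1) ∧
      (v.1 - 1, v.2 - 1) ∈ rswBox x (ρ + 1) := by
  unfold cornersOf at hv
  simp only [Finset.mem_biUnion, Finset.mem_insert, Finset.mem_singleton] at hv
  obtain ⟨f, hf, hv⟩ := hv
  unfold rswBox at hf ⊢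
  simp only [Finset.mem_product, Finset.mem_Ico] at hf ⊢
  push_cast
  rcases hv with rfl | rfl | rfl | rfl <;> (try simp only) <;> omega

/-- discrete intermediate value theorem along a chain -/
theorem wb165_ivt (φ : ℤ × ℤ → ℤ) (Rc : Finset (ℤ × ℤ)) (s : ℤ × ℤ → ℤ × ℤ → Prop)
    (hs : ∀ u v, s u v → u ∈ Rc ∧ v ∈ Rc ∧ φ v ≤ φ u + 1) (Y : ℤ) {f g : ℤ × ℤ} (h : ReflTransGen s f g)
    (hf : f ∈ Rc) (hfY : φ f ≤ Y) (hgY : Y ≤ φ g) : ∃ u ∈ Rc, ReflTransGen s u g ∧ φ u = Y := by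
  revert hf hfY
  refine ReflTransGen.head_induction_on h ?_ ?_
  · intro hf hfY
    exact ⟨g, hf, ReflTransGen.refl, le_antisymm hfY hgY⟩
  · intro a b hab hbg ih ha haY
    by_cases hY : φ a = Y
    · exact ⟨a, ha, ReflTransGen.head hab hbg, hY⟩
    · have h3 := (hs a b hab).2.2
      exact ih (hs a b hab).2.1 (by omega)

/-- **LEAF W13** (geometry, 3), verbatim `wb79_geo_cov` of `Model/Wb79`. -/
theorem wb165_geo_cov (κ k : ℕ) (hκ : 2 ≤ κ) : ∃ M : ℕ, ∀ n : ℕ, 8 * κ ≤ n → ∀ (z : ℤ × ℤ) (d : Fin 4), ∃ Cs : Finset (ℤ × ℤ), Cs.card ≤ M ∧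
    (∀ x ∈ Cs, ∀ v ∈ cornersOf (rswBox x (κ * (n / (8 * κ)))), ¬ OnPolygon (mdl41cB z (k * n) ((k + 1) * n) (n / 2) d) v) ∧
    Wb79Cov (mdl41cR z (k * n) ((k + 1) * n) d) ((Finset.range (2 * ((k + 1) * n))).image (mdl41cSeed z (k * n) ((k + 1) * n) d))
      (mdl41cTop z (k * n) ((k + 1) * n) d) Cs (n / (8 * κ)) (κ * (n / (8 * κ))) := by
  refine ⟨32 * κ * (k + 1), fun n hn z d => ?_⟩
  obtain ⟨sw, fl, c, hfr⟩ := mdl41c_fr_eq z (k * n) ((k + 1) * n) d
  obtain ⟨ctr, hctr⟩ := wb165_ctr sw fl c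
  have hsub : (k + 1) * n - k * n = n := by
    rw [Nat.add_mul, one_mul]; omega
  obtain ⟨r, hr⟩ : ∃ r : ℕ, r = n / (8 * κ) := ⟨_, rfl⟩
  rw [← hr]
  have hr1 : 1 ≤ r := by
    rw [hr]; exact (Nat.le_div_iff_mul_le (by omega)).2 (by omega)
  have hr8 : 8 * (κ * r) ≤ n := by
    have := Nat.div_mul_le_self n (8 * κ)
    rw [← hr] at this
    nlinarith
  have hnr : n < 16 * (κ * r) := by
    have := Nat.lt_div_mul_add (a := n) (b := 8 * κ) (by omega)
    rw [← hr] at this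
    nlinarith
  obtain ⟨ρ, hρ⟩ : ∃ ρ : ℕ, ρ = κ * r := ⟨_, rfl⟩
  obtain ⟨r1, hr1'⟩ : ∃ r1 : ℕ, r1 = (k + 1) * n := ⟨_, rfl⟩
  rw [← hρ] at hr8 hnr ⊢
  have hmemB : ∀ u, u ∈ mdl41cB z (k * n) ((k + 1) * n) (n / 2) d ↔
      (-((n / 2 : ℕ) : ℤ) ≤ ((mdl41cFrame sw fl c).symm u).1 ∧
        ((mdl41cFrame sw fl c).symm u).1 < ((2 * r1 : ℕ) : ℤ) + ((n / 2 : ℕ) : ℤ)) ∧
      (0 ≤ ((mdl41cFrame sw fl c).symm u).2 ∧ ((mdl41cFrame sw fl c).symm u).2 < (n : ℤ)) := by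
    intro u
    unfold mdl41cB
    rw [hfr, Finset.mem_map_equiv, Finset.mem_product, Finset.mem_Ico, Finset.mem_Ico, hsub, hr1']
  have hmemR : ∀ u, u ∈ mdl41cR z (k * n) ((k + 1) * n) d ↔
      (0 ≤ ((mdl41cFrame sw fl c).symm u).1 ∧ ((mdl41cFrame sw fl c).symm u).1 < ((2 * r1 : ℕ) : ℤ)) ∧
      (0 ≤ ((mdl41cFrame sw fl c).symm u).2 ∧ ((mdl41cFrame sw fl c).symm u).2 < (n : ℤ)) := by
    intro u
    unfold mdl41cR
    rw [hfr, Finset.mem_map_equiv, Finset.mem_product, Finset.mem_Ico, Finset.mem_Ico, hsub, hr1']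
  classical
  refine ⟨((Finset.range (32 * κ * (k + 1))).filter (fun j => j * r < 2 * r1)).image
    (fun j => ctr (((j * r : ℕ) : ℤ), ((n / 2 : ℕ) : ℤ))), ?_, ?_, ?_⟩
  · exact Finset.card_image_le.trans ((Finset.card_filter_le _ _).trans (by simp))
  · intro x hx v hv
    obtain ⟨j, hj, rfl⟩ := Finset.mem_image.1 hx
    have hj2 := (Finset.mem_filter.1 hj).2
    obtain ⟨h1, h2, h3, h4⟩ := wb165_corner hv
    have key : ∀ g, g ∈ rswBox (ctr (((j * r : ℕ) : ℤ), ((n / 2 : ℕ) : ℤ))) (ρ + 1) →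
        g ∈ mdl41cB z (k * n) ((k + 1) * n) (n / 2) d := by
      intro g hg
      rw [hctr] at hg
      rw [hmemB]
      obtain ⟨X, hX⟩ : ∃ X : ℕ, X = j * r := ⟨_, rfl⟩
      rw [← hX] at hg hj2
      simp only at hg
      omega
    unfold OnPolygon
    exact not_not.2 ⟨key _ h1, key _ h2, key _ h3, key _ h4⟩
  · intro f hf g hg s hs hfg
    obtain ⟨i, hi, rfl⟩ := Finset.mem_image.1 hf
    have hi' := Finset.mem_range.1 hi
    rw [← hr1'] at hi'
    have hseed : (mdl41cFrame sw fl c).symm (mdl41cSeed z (k * n) ((k + 1) * n) d i) = ((i : ℤ), 0) := by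
      unfold mdl41cSeed
      rw [hfr]
      exact Equiv.symm_apply_apply _ _
    have hg' : ((mdl41cFrame sw fl c).symm g).2 = (n : ℤ) - 1 := by
      unfold mdl41cTop at hg
      rw [hfr, Finset.mem_map_equiv, Finset.mem_product, Finset.mem_Ico, Finset.mem_Ico, hsub] at hg
      omega
    obtain ⟨u, huR, hug, huY⟩ := wb165_ivt (fun u => ((mdl41cFrame sw fl c).symm u).2)
      (mdl41cR z (k * n) ((k + 1) * n) d) s (fun u v huv => ⟨(hs u v huv).1, (hs u v huv).2.1, by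
        have := mdl41c_frame_symm_adj sw fl c u v (hs u v huv).2.2
        rw [mdl41c_adj_iff] at this
        omega⟩) ((n / 2 : ℕ) : ℤ) hfg
      (by rw [hmemR, hseed]; simp only; omega) (by simp only [hseed]; omega) (by simp only [hg']; omega)
    have huR' := (hmemR u).1 huR
    obtain ⟨X, hX⟩ : ∃ X : ℕ, ((mdl41cFrame sw fl c).symm u).1 = (X : ℤ) :=
      ⟨((mdl41cFrame sw fl c).symm u).1.toNat, by omega⟩
    have hXr1 : X < 2 * r1 := by omega
    have hd1 := Nat.div_mul_le_self X r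
    have hd2 := Nat.lt_div_mul_add (a := X) (b := r) (by omega)
    refine ⟨ctr (((X / r * r : ℕ) : ℤ), ((n / 2 : ℕ) : ℤ)),
      Finset.mem_image.2 ⟨X / r, Finset.mem_filter.2 ⟨Finset.mem_range.2 ?_, ?_⟩, rfl⟩, u, ?_, hug, ?_⟩
    · rw [Nat.div_lt_iff_lt_mul (by omega)]
      have h5 : 2 * r1 < 32 * κ * (k + 1) * r := by
        rw [hr1']
        have : (k + 1) * n < (k + 1) * (16 * ρ) := Nat.mul_lt_mul_of_pos_left hnr (by omega)
        rw [hρ] at this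
        nlinarith
      omega
    · omega
    · rw [hctr]
      obtain ⟨Q, hQ⟩ : ∃ Q : ℕ, Q = X / r * r := ⟨_, rfl⟩
      rw [← hQ] at hd1 hd2 ⊢
      simp only
      omega
    · rw [hctr]
      simp only
      omega

end Claimed.Agent.R292
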