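import Claimed.Agent.R292.Model.WbDefs79

/-!
# Row 292 (S0540), Model/Wb177 : leaves W11 / W12 of (WB) WALL BLOCKING (geometry of the four frames)      (pen helper177; prefix `wb177_`)

Statements verbatim as `wb79_geo_rect`, `wb79_geo_in` of `Model/Wb79`.
-/

set_option autoImplicit false

namespace Claimed.Agent.R292

open Claims Claims.C0468 Relation

/-- membership in the extended rectangle, in the coordinates of the plane -/
theorem wb177_mem_B (z : ℤ × ℤ) {r0 r1 : ℕ} (hr : r0 ≤ r1) (w : ℕ) (d : Fin 4) (f : ℤ × ℤ) :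
    f ∈ mdl41cB z r0 r1 w d ↔
      (d = 0 ∧ z.1 + r0 ≤ f.1 ∧ f.1 < z.1 + r1 ∧ z.2 - r1 - w ≤ f.2 ∧ f.2 < z.2 + r1 + w) ∨
      (d = 1 ∧ z.1 - r1 ≤ f.1 ∧ f.1 < z.1 - r0 ∧ z.2 - r1 - w ≤ f.2 ∧ f.2 < z.2 + r1 + w) ∨
      (d = 2 ∧ z.1 - r1 - w ≤ f.1 ∧ f.1 < z.1 + r1 + w ∧ z.2 + r0 ≤ f.2 ∧ f.2 < z.2 + r1) ∨
      (d = 3 ∧ z.1 - r1 - w ≤ f.1 ∧ f.1 < z.1 + r1 + w ∧ z.2 - r1 ≤ f.2 ∧ f.2 < z.2 - r0) := by
  unfold mdl41cB
  rw [Finset.mem_map_equiv, mdl41c_mem_rect]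
  have hc : ((r1 - r0 : ℕ) : ℤ) = (r1 : ℤ) - r0 := Nat.cast_sub hr
  rw [hc]
  rcases mdl41c_fin4 d with rfl | rfl | rfl | rfl
  · simp [mdl41cFr, mdl41c_frame_symm_apply]
    omega
  · simp [mdl41cFr, mdl41c_frame_symm_apply]
    omega
  · simp [mdl41cFr, mdl41c_frame_symm_apply]
    omega
  · simp [mdl41cFr, mdl41c_frame_symm_apply]
    omega

/-- **LEAF W11** (geometry of the four frames, 1): the extended rectangle is a rectangle. -/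
theorem wb177_geo_rect (z : ℤ × ℤ) {r0 r1 : ℕ} (hr : r0 + 2 ≤ r1) (w : ℕ) (d : Fin 4) :
    ∃ x0 x1 y0 y1 : ℤ, x0 + 2 ≤ x1 ∧ y0 + 2 ≤ y1 ∧ mdl41cB z r0 r1 w d = Finset.Ico x0 x1 ×ˢ Finset.Ico y0 y1 := by
  have hr' : r0 ≤ r1 := by omega
  rcases mdl41c_fin4 d with rfl | rfl | rfl | rfl
  · refine ⟨z.1 + r0, z.1 + r1, z.2 - r1 - w, z.2 + r1 + w, by omega, by omega, ?_⟩
    ext f
    rw [wb177_mem_B z hr', mdl41c_mem_rect]
    simp
  · refine ⟨z.1 - r1, z.1 - r0, z.2 - r1 - w, z.2 + r1 + w, by omega, by omega, ?_⟩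
    ext f
    rw [wb177_mem_B z hr', mdl41c_mem_rect]
    simp
  · refine ⟨z.1 - r1 - w, z.1 + r1 + w, z.2 + r0, z.2 + r1, by omega, by omega, ?_⟩
    ext f
    rw [wb177_mem_B z hr', mdl41c_mem_rect]
    simp
  · refine ⟨z.1 - r1 - w, z.1 + r1 + w, z.2 - r1, z.2 - r0, by omega, by omega, ?_⟩
    ext f
    rw [wb177_mem_B z hr', mdl41c_mem_rect]
    simp

/-- **LEAF W12** (geometry, 2): with lateral width `n - 1` the closed rectangle is strictly inside the box of radius `(k + 2) n`. -/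
theorem wb177_geo_in (z : ℤ × ℤ) (k n : ℕ) (hn : 1 ≤ n) (d : Fin 4) :
    ∀ v ∈ cornersOf (mdl41cB z (k * n) ((k + 1) * n) (n - 1) d), ¬ OnPolygon (rswBox z ((k + 2) * n)) v := by
  intro v hv
  have h1 : (k + 1) * n = k * n + n := by ring
  have h2 : (k + 2) * n = k * n + 2 * n := by ring
  rw [h1] at hv
  rw [h2]
  generalize k * n = a at hv ⊢
  unfold cornersOf at hv
  obtain ⟨f, hf, hvf⟩ := Finset.mem_biUnion.1 hv
  rw [wb177_mem_B z (by omega : a ≤ a + n)] at hf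
  have hw : ((n - 1 : ℕ) : ℤ) = (n : ℤ) - 1 := by omega
  rw [hw] at hf
  push_cast at hf
  have hv' : (v.1 = f.1 ∨ v.1 = f.1 + 1) ∧ (v.2 = f.2 ∨ v.2 = f.2 + 1) := by
    simp only [Finset.mem_insert, Finset.mem_singleton] at hvf
    rcases hvf with rfl | rfl | rfl | rfl <;> simp
  unfold OnPolygon
  rw [not_not]
  unfold rswBox
  rw [mdl41c_mem_rect, mdl41c_mem_rect, mdl41c_mem_rect, mdl41c_mem_rect]
  push_cast
  omega

end Claimed.Agent.R292
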