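import Claimed.Agent.R292.Model.WbDefs79

/-!
# Row 292 (S0540), Model/Wb217 : LEAF W7 of the typed cut `Model/Wb79` (architect helper79)      (pen helper217; prefix `wb217_`)

`wb217_contact` = `wb79_contact` VERBATIM: the adverse and the filled atom have the same contact spins.
A corner of a face of `Ch` and of a face of `B \ Ch` strictly inside `B` is an endpoint of a wall edge (the four faces around the vertex), and a wall vertex is a corner of `B \ Ch`.
-/

set_option autoImplicit false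

namespace Claimed.Agent.R292

open Claims Claims.C0468 Relation

/-- a vertex is a corner of `P` iff one of the four faces around it lies in `P` -/
theorem wb217_mem_corners (P : Finset (ℤ × ℤ)) (v : ℤ × ℤ) :
    v ∈ cornersOf P ↔ (v ∈ P ∨ (v.1 - 1, v.2) ∈ P ∨ (v.1, v.2 - 1) ∈ P ∨ (v.1 - 1, v.2 - 1) ∈ P) := by
  obtain ⟨x, y⟩ := v
  unfold cornersOf
  simp only [Finset.mem_biUnion, Finset.mem_insert, Finset.mem_singleton, Prod.mk.injEq]
  constructor
  · rintro ⟨⟨p, q⟩, hf, h⟩
    rcases h with h | h | h | h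
    · obtain ⟨rfl, rfl⟩ := h
      exact Or.inl hf
    · obtain ⟨rfl, rfl⟩ := h
      refine Or.inr (Or.inl ?_)
      simpa using hf
    · obtain ⟨rfl, rfl⟩ := h
      refine Or.inr (Or.inr (Or.inl ?_))
      simpa using hf
    · obtain ⟨rfl, rfl⟩ := h
      refine Or.inr (Or.inr (Or.inr ?_))
      simpa using hf
  · rintro (h | h | h | h)
    · exact ⟨_, h, Or.inl rfl⟩
    · exact ⟨_, h, Or.inr (Or.inl ⟨by simp, rfl⟩)⟩
    · exact ⟨_, h, Or.inr (Or.inr (Or.inl ⟨rfl, by simp⟩))⟩
    · exact ⟨_, h, Or.inr (Or.inr (Or.inr ⟨by simp, by simp⟩))⟩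

/-- both endpoints of an edge are corners of both of its faces -/
theorem wb217_end_corner (P : Finset (ℤ × ℤ)) (e : (ℤ × ℤ) × Bool) (v : ℤ × ℤ) (hv : e.1 = v ∨ rswEnd e = v)
    (hP : e.1 ∈ P ∨ rswCo e ∈ P) : v ∈ cornersOf P := by
  obtain ⟨⟨x, y⟩, c⟩ := e
  rw [wb217_mem_corners]
  cases c
  · simp only [rswEnd, rswCo, Bool.false_eq_true, if_false] at hv hP
    rcases hv with rfl | rfl
    · rcases hP with h | h
      · exact Or.inl h
      · exact Or.inr (Or.inr (Or.inl h))
    · rcases hP with h | h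
      · refine Or.inr (Or.inl ?_)
        simpa using h
      · refine Or.inr (Or.inr (Or.inr ?_))
        simpa using h
  · simp only [rswEnd, rswCo, if_true] at hv hP
    rcases hv with rfl | rfl
    · rcases hP with h | h
      · exact Or.inl h
      · exact Or.inr (Or.inl h)
    · rcases hP with h | h
      · refine Or.inr (Or.inr (Or.inl ?_))
        simpa using h
      · refine Or.inr (Or.inr (Or.inr ?_))
        simpa using h

/-- a wall vertex is a corner of `B \ Ch` strictly inside `B` -/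
theorem wb217_WV_sub_CG (B Ch : Finset (ℤ × ℤ)) : wb79WV B Ch ⊆ wb79CG B Ch := by
  classical
  intro v hv
  unfold wb79WV at hv
  unfold wb79CG
  rw [Finset.mem_filter] at hv ⊢
  obtain ⟨-, hin, e, he, hev⟩ := hv
  refine ⟨?_, hin⟩
  obtain ⟨heB, hdis⟩ := mdl41_mem_disSet.1 he
  have h1 : e.1 ∈ B ∧ rswCo e ∈ B := by
    unfold rswInt at heB
    rw [Finset.mem_filter, Finset.mem_product] at heB
    exact ⟨heB.1.1, heB.2⟩
  apply wb217_end_corner _ e v hev
  unfold Mdl41Dis at hdis
  by_cases hc : e.1 ∈ Ch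
  · right
    rw [Finset.mem_sdiff]
    exact ⟨h1.2, fun h => hdis ⟨fun _ => h, fun _ => hc⟩⟩
  · left
    rw [Finset.mem_sdiff]
    exact ⟨h1.1, hc⟩

/-- an edge with both faces in `B`, exactly one of them in `Ch`, is a wall edge -/
theorem wb217_mem_dis {B Ch : Finset (ℤ × ℤ)} {e : (ℤ × ℤ) × Bool} (h1 : e.1 ∈ B) (h2 : rswCo e ∈ B)
    (h : ¬ (e.1 ∈ Ch ↔ rswCo e ∈ Ch)) : e ∈ mdl41DisSet B Ch := by
  rw [mdl41_mem_disSet]
  refine ⟨?_, h⟩
  unfold rswInt
  rw [Finset.mem_filter, Finset.mem_product]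
  exact ⟨⟨h1, Finset.mem_univ _⟩, h2⟩

/-- a corner of `Ch` and of `B \ Ch` strictly inside `B` is a wall vertex -/
theorem wb217_CG_sub_WV (B Ch : Finset (ℤ × ℤ)) {v : ℤ × ℤ} (hv : v ∈ wb79CG B Ch) (hC : v ∈ cornersOf Ch) :
    v ∈ wb79WV B Ch := by
  classical
  unfold wb79CG at hv
  unfold wb79WV
  rw [Finset.mem_filter] at hv ⊢
  obtain ⟨hG, hin⟩ := hv
  have hall : v ∈ B ∧ (v.1 - 1, v.2) ∈ B ∧ (v.1, v.2 - 1) ∈ B ∧ (v.1 - 1, v.2 - 1) ∈ B := by
    unfold OnPolygon at hin
    exact not_not.1 hin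
  obtain ⟨b1, b2, b3, b4⟩ := hall
  refine ⟨(wb217_mem_corners B v).2 (Or.inl b1), hin, ?_⟩
  rw [wb217_mem_corners] at hG hC
  simp only [Finset.mem_sdiff] at hG
  obtain ⟨x, y⟩ := v
  simp only at b1 b2 b3 b4 hG hC
  -- the four edges at `v`
  by_cases e1 : ((x, y) ∈ Ch ↔ (x - 1, y) ∈ Ch)
  · by_cases e2 : ((x, y) ∈ Ch ↔ (x, y - 1) ∈ Ch)
    · by_cases e3 : ((x - 1, y) ∈ Ch ↔ (x - 1, y - 1) ∈ Ch)
      · exfalso
        by_cases h0 : (x, y) ∈ Ch
        · have h1 := e1.1 h0
          have h2 := e2.1 h0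
          have h3 := e3.1 h1
          rcases hG with h | h | h | h
          · exact h.2 h0
          · exact h.2 h1
          · exact h.2 h2
          · exact h.2 h3
        · have h1 : (x - 1, y) ∉ Ch := fun h => h0 (e1.2 h)
          have h2 : (x, y - 1) ∉ Ch := fun h => h0 (e2.2 h)
          have h3 : (x - 1, y - 1) ∉ Ch := fun h => h1 (e3.2 h)
          rcases hC with h | h | h | h
          · exact h0 h
          · exact h1 h
          · exact h2 h
          · exact h3 h
      · refine ⟨((x - 1, y), false), wb217_mem_dis (by simpa using b2) (by simpa [rswCo] using b4)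
          (by simpa [rswCo] using e3), Or.inr ?_⟩
        simp [rswEnd]
    · exact ⟨((x, y), false), wb217_mem_dis (by simpa using b1) (by simpa [rswCo] using b3)
        (by simpa [rswCo] using e2), Or.inl rfl⟩
  · exact ⟨((x, y), true), wb217_mem_dis (by simpa using b1) (by simpa [rswCo] using b2)
      (by simpa [rswCo] using e1), Or.inl rfl⟩

/-- **LEAF W7** (the two atoms have the same contact spins): a corner of `Ch` and of `B \ Ch` strictly inside `B` is a wall vertex. -/
theorem wb217_contact {F B Ch : Finset (ℤ × ℤ)} (G : Wb79Geo F B Ch) (b a : Bool) :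
    (wb79Adv F B Ch b a).1 ∩ cornersOf Ch = (wb79Fil F B Ch b a).1 ∩ cornersOf Ch := by
  classical
  have _hG := G
  ext v
  unfold wb79Adv wb79Fil wb79Atom
  simp only [Finset.mem_inter, Finset.mem_filter, Finset.mem_union]
  constructor
  · rintro ⟨⟨hV, h⟩, hC⟩
    refine ⟨⟨hV, ?_⟩, hC⟩
    rw [← h]
    constructor
    · rintro (h1 | h1)
      · exact Or.inl (wb217_CG_sub_WV B Ch h1 hC)
      · exact Or.inr h1
    · rintro (h1 | h1)
      · exact Or.inl (wb217_WV_sub_CG B Ch h1)
      · exact Or.inr h1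
  · rintro ⟨⟨hV, h⟩, hC⟩
    refine ⟨⟨hV, ?_⟩, hC⟩
    rw [← h]
    constructor
    · rintro (h1 | h1)
      · exact Or.inl (wb217_WV_sub_CG B Ch h1)
      · exact Or.inr h1
    · rintro (h1 | h1)
      · exact Or.inl (wb217_CG_sub_WV B Ch h1 hC)
      · exact Or.inr h1

end Claimed.Agent.R292
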