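import Claimed.Agent.R292.Model.WbDefs79

/-!
# Row 292 (S0540), Model/Wb220 : LEAF W10 of the typed cut `Model/Wb79` (pen helper220; prefix `wb220_`)

The six small lemmas on the observables of (WB): the fill, the event `A` (no chain of NOT `a`-good edges), the event `Q` (all small separations).
Statements VERBATIM those of `Model/Wb79`, leaf W10.
-/

set_option autoImplicit false

namespace Claimed.Agent.R292

open Claims Claims.C0468 Relation

/-- an indicator is increasing as soon as the event is (any decidability instance) -/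
theorem wb220_ind_inc {a : Bool} {E : RswCfg → Prop} [inst : ∀ ω, Decidable (E ω)] (h : ∀ ω ω' : RswCfg, MdlLe a ω ω' → E ω → E ω') :
    MdlInc a (fun ω => if E ω then (1 : ℝ) else 0) := by
  intro ω ω' hle
  by_cases h1 : E ω
  · simp only [if_pos h1, if_pos (h ω ω' hle h1)]
    exact le_refl _
  · simp only [if_neg h1]
    split_ifs <;> norm_num

theorem wb220_fill_inc (B Ch : Finset (ℤ × ℤ)) (a : Bool) :
    MdlInc a (fun ω => open Classical in if Wb79Fill B Ch a ω then (1 : ℝ) else 0) := by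
  classical
  refine wb220_ind_inc ?_
  intro ω ω' hle h
  refine ⟨fun v hv => hle.1 v (h.1 v hv), fun e he => ?_⟩
  have he' := he
  unfold wb79FE at he'
  rw [Finset.mem_filter] at he'
  exact (hle.2.1 e ⟨h.2 e he, h.1 _ he'.2.1, h.1 _ he'.2.2⟩).1

theorem wb220_A_mono {P : Finset (ℤ × ℤ)} {a : Bool} {Bot Top : Finset (ℤ × ℤ)} {ω ω' : RswCfg}
    (h : ∀ e ∈ rswInt P, RswGood a ω e → RswGood a ω' e) (hA : Wb79A P a Bot Top ω) : Wb79A P a Bot Top ω' := by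
  intro f hf g hg hfP hp
  refine hA f hf g hg hfP (ReflTransGen.mono ?_ f g hp)
  rintro u v ⟨h1, h2, e, h3, h4⟩
  refine ⟨h1, h2, e, h3, fun h5 => h4 (h e ?_ h5)⟩
  rw [rsk_mem_int]
  rcases h3 with ⟨rfl, rfl⟩ | ⟨rfl, rfl⟩
  · exact ⟨h1, h2⟩
  · exact ⟨h2, h1⟩

theorem wb220_A_inc (P : Finset (ℤ × ℤ)) (a : Bool) (Bot Top : Finset (ℤ × ℤ)) :
    MdlInc a (fun ω => open Classical in if Wb79A P a Bot Top ω then (1 : ℝ) else 0) := by
  classical
  refine wb220_ind_inc ?_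
  intro ω ω' hle h
  exact wb220_A_mono (fun e _ => hle.2.1 e) h

theorem wb220_A_in {P U : Finset (ℤ × ℤ)} (hP : P ⊆ U) (a : Bool) (Bot Top : Finset (ℤ × ℤ)) :
    Wb79In U (fun ω => open Classical in if Wb79A P a Bot Top ω then (1 : ℝ) else 0) := by
  classical
  intro ω ω' hS hO
  have key : ∀ ω ω' : RswCfg, (∀ v ∈ cornersOf U, (v ∈ ω.S ↔ v ∈ ω'.S)) → (∀ e ∈ rswInt U, (e ∈ ω.O ↔ e ∈ ω'.O)) →
      Wb79A P a Bot Top ω → Wb79A P a Bot Top ω' := by
    intro ω ω' hS hO hA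
    refine wb220_A_mono ?_ hA
    intro e he hg
    have heU : e ∈ rswInt U := rsk_int_mono hP he
    refine ⟨(hO e heU).1 hg.1, ?_, ?_⟩
    · rw [← hS _ (rsk_int_fst heU)]
      exact hg.2.1
    · rw [← hS _ (rsk_int_end heU)]
      exact hg.2.2
  have hiff : Wb79A P a Bot Top ω ↔ Wb79A P a Bot Top ω' :=
    ⟨key ω ω' hS hO, key ω' ω (fun v hv => (hS v hv).symm) (fun e he => (hO e he).symm)⟩
  simp only [hiff]

theorem wb220_A_nox {P : Finset (ℤ × ℤ)} {a : Bool} {Bot Top : Finset (ℤ × ℤ)} {ω : RswCfg} (h : Wb79A P a Bot Top ω) :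
    Mdl41cNoX P Bot Top ω := by
  intro f hf g hg hfP hp
  refine h f hf g hg hfP (ReflTransGen.mono ?_ f g hp)
  rintro u v ⟨h1, h2, e, h3, h4⟩
  exact ⟨h1, h2, e, h3, fun h5 => h4 h5.1⟩

theorem wb220_Q_inc (F : Finset (ℤ × ℤ)) (a : Bool) (Cs : Finset (ℤ × ℤ)) (r R : ℕ) :
    MdlInc a (fun ω => open Classical in if (∀ x ∈ Cs, RswSep F a ω (rswBox x r) (F \ rswBox x R)) then (1 : ℝ) else 0) := by
  classical
  refine wb220_ind_inc (E := fun ω => ∀ x ∈ Cs, RswSep F a ω (rswBox x r) (F \ rswBox x R)) ?_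
  intro ω ω' hle h x hx
  exact mdl1_sep_mono hle.2.1 (h x hx)

theorem wb220_Q_A {F Rc P Bot Top Cs : Finset (ℤ × ℤ)} {r R : ℕ} (hcov : Wb79Cov Rc Bot Top Cs r R) (hP : P ⊆ Rc) (hPF : P ⊆ F)
    {a : Bool} {ω : RswCfg} (h : ∀ x ∈ Cs, RswSep F a ω (rswBox x r) (F \ rswBox x R)) : Wb79A P a Bot Top ω := by
  intro f hf g hg hfP hp
  have hgP : g ∈ P := by
    rcases ReflTransGen.cases_tail hp with h0 | ⟨c, _, hc⟩
    · rw [h0]; exact hfP
    · exact hc.2.1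
  obtain ⟨x, hx, u, hu, hug, hgx⟩ := hcov f hf g hg (RswStep P a ω)
    (fun u v huv => ⟨hP huv.1, hP huv.2.1, by
      obtain ⟨_, _, e, he, _⟩ := huv
      exact ⟨e, he⟩⟩) hp
  refine h x hx u hu g (Finset.mem_sdiff.2 ⟨hPF hgP, hgx⟩) (ReflTransGen.mono ?_ u g hug)
  rintro p q ⟨h1, h2, e, h3, h4⟩
  exact ⟨hPF h1, hPF h2, e, h3, h4⟩

end Claimed.Agent.R292
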