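import Claimed.Agent.R292.Model.WbDefs79

/-!
# Row 292 (S0540), Model/Wb237 : LEAF W6 OF THE CUT `Model/Wb79` (completability is the same in both atoms)      (pen helper237; prefix `wb237_`, `wb237`)

`wb237_compl_iff` = `wb79_compl_iff` VERBATIM, with the leaves W4 (`wb79_wall_conn`) and W5 (`wb79_ring_conn`) as hypotheses typed verbatim.
Wiring in `Model/Wb79`:  `wb237_compl_iff wb79_wall_conn wb79_ring_conn G b a hη`.

Both sides are equivalent to the SAME condition on `η` (`wb237_atom_iff`): the part `c_a` of the boundary of `η` strictly inside `B`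
is carried by the wall vertices and has total mass zero.
-/

set_option autoImplicit false

namespace Claimed.Agent.R292

open Claims Claims.C0468 Relation

/-! ## 1. local geometry of one edge and one vertex -/

theorem wb237_mem_corners {P : Finset (ℤ × ℤ)} {v : ℤ × ℤ} :
    v ∈ cornersOf P ↔ v ∈ P ∨ (v.1 - 1, v.2) ∈ P ∨ (v.1, v.2 - 1) ∈ P ∨ (v.1 - 1, v.2 - 1) ∈ P := by
  obtain ⟨x, y⟩ := v
  simp only [cornersOf, Finset.mem_biUnion, Finset.mem_insert, Finset.mem_singleton]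
  constructor
  · rintro ⟨⟨p, q⟩, hf, h⟩
    simp only [Prod.mk.injEq] at h
    rcases h with ⟨rfl, rfl⟩ | ⟨rfl, rfl⟩ | ⟨rfl, rfl⟩ | ⟨rfl, rfl⟩
    · exact Or.inl hf
    · exact Or.inr (Or.inl (by simpa using hf))
    · exact Or.inr (Or.inr (Or.inl (by simpa using hf)))
    · exact Or.inr (Or.inr (Or.inr (by simpa using hf)))
  · rintro (h | h | h | h)
    · exact ⟨_, h, by simp⟩
    · exact ⟨_, h, by simp⟩
    · exact ⟨_, h, by simp⟩
    · exact ⟨_, h, by simp⟩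

theorem wb237_in_corner {P : Finset (ℤ × ℤ)} {v : ℤ × ℤ} (h : ¬ OnPolygon P v) : v ∈ cornersOf P := by
  unfold OnPolygon at h
  rw [not_not] at h
  exact wb237_mem_corners.2 (Or.inl h.1)

/-- the two endpoints of an edge are corners of each of its two faces -/
theorem wb237_edge_corners {P : Finset (ℤ × ℤ)} {e : (ℤ × ℤ) × Bool} (h : e.1 ∈ P ∨ rswCo e ∈ P) :
    e.1 ∈ cornersOf P ∧ rswEnd e ∈ cornersOf P := by
  obtain ⟨⟨x, y⟩, b⟩ := e
  rw [wb237_mem_corners, wb237_mem_corners]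
  cases b <;> simp [rswEnd, rswCo] at h ⊢ <;> tauto

/-- the two endpoints of an edge which is not interior are on the polygon -/
theorem wb237_edge_poly {P : Finset (ℤ × ℤ)} {e : (ℤ × ℤ) × Bool} (h : ¬ (e.1 ∈ P ∧ rswCo e ∈ P)) :
    OnPolygon P e.1 ∧ OnPolygon P (rswEnd e) := by
  obtain ⟨⟨x, y⟩, b⟩ := e
  unfold OnPolygon
  cases b <;> simp [rswEnd, rswCo] at h ⊢ <;> tauto

theorem wb237_bd_ne {X : Finset ((ℤ × ℤ) × Bool)} {v : ℤ × ℤ} (h : mdl41Bd (mdl41Ch X) v ≠ 0) :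
    ∃ e ∈ X, (e.1 = v ∨ rswEnd e = v) := by
  by_contra hc
  push Not at hc
  apply h
  rw [mdl41_bd_apply]
  have h1 : (v, false) ∉ X := fun hm => (hc _ hm).1 rfl
  have h2 : ((v.1 - 1, v.2), false) ∉ X := fun hm => (hc _ hm).2 (by simp [rswEnd])
  have h3 : (v, true) ∉ X := fun hm => (hc _ hm).1 rfl
  have h4 : ((v.1, v.2 - 1), true) ∉ X := fun hm => (hc _ hm).2 (by simp [rswEnd])
  simp [mdl41_ch_apply, h1, h2, h3, h4]

theorem wb237_ch_union {X Y : Finset ((ℤ × ℤ) × Bool)} (h : Disjoint X Y) :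
    mdl41Ch (X ∪ Y) = mdl41Ch X + mdl41Ch Y := by
  ext e
  rw [Finsupp.add_apply, mdl41_ch_apply, mdl41_ch_apply, mdl41_ch_apply]
  by_cases h1 : e ∈ X
  · have h2 : e ∉ Y := Finset.disjoint_left.1 h h1
    simp [h1, h2]
  · by_cases h2 : e ∈ Y <;> simp [h1, h2]

/-- **the local lemma**: a vertex strictly inside `B` which meets an interior edge of `Ch` and an edge which is not one is a wall vertex -/
theorem wb237_local {B Ch : Finset (ℤ × ℤ)} {v : ℤ × ℤ} (hv : ¬ OnPolygon B v) {e1 e2 : (ℤ × ℤ) × Bool}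
    (h1 : e1.1 = v ∨ rswEnd e1 = v) (m1 : e1 ∈ rswInt Ch) (h2 : e2.1 = v ∨ rswEnd e2 = v) (m2 : e2 ∉ rswInt Ch) :
    v ∈ wb79WV B Ch := by
  classical
  have hB := hv
  unfold OnPolygon at hB
  rw [not_not] at hB
  obtain ⟨b1, b2, b3, b4⟩ := hB
  have c1 : v ∈ cornersOf Ch := by
    have := wb237_edge_corners (P := Ch) (e := e1) (Or.inl (mdl41_mem_int.1 m1).1)
    rcases h1 with h | h
    · exact h ▸ this.1
    · exact h ▸ this.2
  have c2 : OnPolygon Ch v := by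
    have := wb237_edge_poly (P := Ch) (e := e2) (fun h => m2 (mdl41_mem_int.2 h))
    rcases h2 with h | h
    · exact h ▸ this.1
    · exact h ▸ this.2
  rw [wb237_mem_corners] at c1
  unfold OnPolygon at c2
  have key : ∃ e ∈ mdl41DisSet B Ch, e.1 = v ∨ rswEnd e = v := by
    by_cases k1 : (v ∈ Ch ↔ (v.1, v.2 - 1) ∈ Ch)
    · by_cases k2 : ((v.1 - 1, v.2) ∈ Ch ↔ (v.1 - 1, v.2 - 1) ∈ Ch)
      · by_cases k3 : (v ∈ Ch ↔ (v.1 - 1, v.2) ∈ Ch)
        · exfalso; tauto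
        · exact ⟨(v, true), mdl41_mem_disSet.2 ⟨mdl41_mem_int.2 ⟨b1, by simpa [rswCo] using b2⟩,
            by simpa [Mdl41Dis, rswCo] using k3⟩, Or.inl rfl⟩
      · exact ⟨((v.1 - 1, v.2), false), mdl41_mem_disSet.2 ⟨mdl41_mem_int.2 ⟨b2, by simpa [rswCo] using b4⟩,
          by simpa [Mdl41Dis, rswCo] using k2⟩, Or.inr (by simp [rswEnd])⟩
    · exact ⟨(v, false), mdl41_mem_disSet.2 ⟨mdl41_mem_int.2 ⟨b1, by simpa [rswCo] using b3⟩,
        by simpa [Mdl41Dis, rswCo] using k1⟩, Or.inl rfl⟩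
  unfold wb79WV
  exact Finset.mem_filter.2 ⟨wb237_in_corner hv, hv, key⟩

/-! ## 2. the two parts of the boundary of `η` -/

open Classical in
/-- the part of the boundary of `η` strictly inside `B` -/
noncomputable def wb237Ca (B : Finset (ℤ × ℤ)) (η : Finset ((ℤ × ℤ) × Bool)) : (ℤ × ℤ) →₀ ZMod 2 :=
  Finsupp.filter (fun v => ¬ OnPolygon B v) (mdl41Bd (mdl41Ch η))

open Classical in
/-- the part of the boundary of `η` on the polygon of `B` -/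
noncomputable def wb237Cp (B : Finset (ℤ × ℤ)) (η : Finset ((ℤ × ℤ) × Bool)) : (ℤ × ℤ) →₀ ZMod 2 :=
  Finsupp.filter (fun v => OnPolygon B v) (mdl41Bd (mdl41Ch η))

theorem wb237_ca_in {B : Finset (ℤ × ℤ)} {η : Finset ((ℤ × ℤ) × Bool)} {v : ℤ × ℤ} (h : ¬ OnPolygon B v) :
    wb237Ca B η v = mdl41Bd (mdl41Ch η) v := by
  classical
  unfold wb237Ca
  exact Finsupp.filter_apply_pos _ _ h

theorem wb237_ca_on {B : Finset (ℤ × ℤ)} {η : Finset ((ℤ × ℤ) × Bool)} {v : ℤ × ℤ} (h : OnPolygon B v) :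
    wb237Ca B η v = 0 := by
  classical
  unfold wb237Ca
  exact Finsupp.filter_apply_neg _ _ (not_not.2 h)

theorem wb237_cp_on {B : Finset (ℤ × ℤ)} {η : Finset ((ℤ × ℤ) × Bool)} {v : ℤ × ℤ} (h : OnPolygon B v) :
    wb237Cp B η v = mdl41Bd (mdl41Ch η) v := by
  classical
  unfold wb237Cp
  exact Finsupp.filter_apply_pos _ _ h

theorem wb237_cp_in {B : Finset (ℤ × ℤ)} {η : Finset ((ℤ × ℤ) × Bool)} {v : ℤ × ℤ} (h : ¬ OnPolygon B v) :
    wb237Cp B η v = 0 := by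
  classical
  unfold wb237Cp
  exact Finsupp.filter_apply_neg _ _ h

theorem wb237_cp_add_ca (B : Finset (ℤ × ℤ)) (η : Finset ((ℤ × ℤ) × Bool)) :
    wb237Cp B η + wb237Ca B η = mdl41Bd (mdl41Ch η) := by
  ext v
  rw [Finsupp.add_apply]
  by_cases h : OnPolygon B v
  · rw [wb237_cp_on h, wb237_ca_on h, add_zero]
  · rw [wb237_cp_in h, wb237_ca_in h, zero_add]

/-! ## 3. one atom -/

/-- a completion in the atom `(A ∪ PF, Oa)` forces the condition -/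
theorem wb237_fwd {F B Ch A : Finset (ℤ × ℤ)} {Oa : Finset ((ℤ × ℤ) × Bool)} (G : Wb79Geo F B Ch) (a : Bool) (PF : Finset (ℤ × ℤ))
    (p1 : ∀ e ∈ Oa, e.1 ∈ A ∧ rswEnd e ∈ A) (p2 : wb79WV B Ch ⊆ A) (p3 : ∀ v ∈ A, ¬ OnPolygon B v)
    {η η' : Finset ((ℤ × ℤ) × Bool)} (hη : η ⊆ rswInt Ch) (hη' : η' ⊆ (wb79Atom F Ch a (A ∪ PF) Oa).2)
    (hev : Mdl41Even F (η ∪ η')) :
    (∀ v, wb237Ca B η v ≠ 0 → v ∈ wb79WV B Ch) ∧ mdl41Aug (wb237Ca B η) = 0 := by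
  classical
  have hBF : ∀ v, ¬ OnPolygon B v → ¬ OnPolygon F v := fun v hv => G.inF v (wb237_in_corner hv)
  have hE : ∀ e ∈ η', e ∉ rswInt Ch ∧ (e ∈ Oa ∨ (e.1 ∉ A ∧ rswEnd e ∉ A)) := by
    intro e he
    have := hη' he
    simp only [wb79Atom, Finset.mem_filter, mdl1aE, Finset.mem_sdiff, Finset.mem_union, not_or] at this
    exact ⟨this.1.2, this.2.imp id (fun h => ⟨h.1.1, h.2.1⟩)⟩
  have hdis : Disjoint η η' := Finset.disjoint_left.2 (fun e h1 h2 => (hE e h2).1 (hη h1))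
  have hsum : ∀ v, ¬ OnPolygon B v → mdl41Bd (mdl41Ch η) v + mdl41Bd (mdl41Ch η') v = 0 := by
    intro v hv
    have := hev v (hBF v hv)
    rwa [wb237_ch_union hdis, map_add, Finsupp.add_apply] at this
  have hWV : ∀ v, wb237Ca B η v ≠ 0 → v ∈ wb79WV B Ch := by
    intro v hv
    have hvB : ¬ OnPolygon B v := fun h => hv (wb237_ca_on h)
    have hv1 : mdl41Bd (mdl41Ch η) v ≠ 0 := by rwa [wb237_ca_in hvB] at hv
    have hv2 : mdl41Bd (mdl41Ch η') v ≠ 0 := by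
      intro h0
      have := hsum v hvB
      rw [h0, add_zero] at this
      exact hv1 this
    obtain ⟨e1, m1, k1⟩ := wb237_bd_ne hv1
    obtain ⟨e2, m2, k2⟩ := wb237_bd_ne hv2
    exact wb237_local hvB k1 (hη m1) k2 (hE e2 m2).1
  refine ⟨hWV, ?_⟩
  have hX : wb237Ca B η = mdl41Bd (mdl41Ch (η'.filter (fun e => e ∈ Oa))) := by
    ext v
    by_cases hvA : v ∈ A
    · have hvB := p3 v hvA
      have hsplit : mdl41Ch η' = mdl41Ch (η'.filter (fun e => e ∈ Oa)) + mdl41Ch (η'.filter (fun e => ¬ e ∈ Oa)) := by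
        rw [← wb237_ch_union (Finset.disjoint_filter_filter_not _ _ _), Finset.filter_union_filter_not_eq]
      have hY : mdl41Bd (mdl41Ch (η'.filter (fun e => ¬ e ∈ Oa))) v = 0 := by
        by_contra h
        obtain ⟨e, me, ke⟩ := wb237_bd_ne h
        obtain ⟨me1, me2⟩ := Finset.mem_filter.1 me
        rcases (hE e me1).2 with h' | h'
        · exact me2 h'
        · rcases ke with k | k
          · exact h'.1 (k ▸ hvA)
          · exact h'.2 (k ▸ hvA)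
      have := hsum v hvB
      rw [hsplit, map_add, Finsupp.add_apply, hY, add_zero] at this
      rw [wb237_ca_in hvB]
      exact CharTwo.add_eq_zero.1 this
    · have e2 : mdl41Bd (mdl41Ch (η'.filter (fun e => e ∈ Oa))) v = 0 := by
        by_contra h
        obtain ⟨e, me, ke⟩ := wb237_bd_ne h
        have := p1 e (Finset.mem_filter.1 me).2
        rcases ke with k | k
        · exact hvA (k ▸ this.1)
        · exact hvA (k ▸ this.2)
      rw [e2]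
      by_contra h
      exact hvA (p2 (hWV v h))
  rw [hX, mdl41_aug_bd]

/-- the condition gives a completion in the atom `(A ∪ PF, Oa)`: a chain of the inner wall (W4) and a chain of the ring (W5) -/
theorem wb237_bwd {F B Ch A : Finset (ℤ × ℤ)} {Oa : Finset ((ℤ × ℤ) × Bool)} (G : Wb79Geo F B Ch) (a : Bool) (PF : Finset (ℤ × ℤ))
    (W4 : ∀ c : (ℤ × ℤ) →₀ ZMod 2, (∀ v, c v ≠ 0 → v ∈ wb79WV B Ch) → mdl41Aug c = 0 →
      ∃ J : Finset ((ℤ × ℤ) × Bool), J ⊆ wb79W2 B Ch ∧ mdl41Bd (mdl41Ch J) = c)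
    (W5 : ∀ c : (ℤ × ℤ) →₀ ZMod 2, (∀ v, c v ≠ 0 → v ∈ cornersOf B ∧ OnPolygon B v) → mdl41Aug c = 0 →
      ∃ J : Finset ((ℤ × ℤ) × Bool), (∀ e ∈ J, ¬ (e.1 ∈ B ↔ rswCo e ∈ B)) ∧ mdl41Bd (mdl41Ch J) = c)
    (hPF : ∀ v ∈ PF, OnPolygon F v) (p3 : ∀ v ∈ A, ¬ OnPolygon B v) (p4 : wb79W2 B Ch ⊆ Oa)
    {η : Finset ((ℤ × ℤ) × Bool)} (hη : η ⊆ rswInt Ch)
    (h1 : ∀ v, wb237Ca B η v ≠ 0 → v ∈ wb79WV B Ch) (h2 : mdl41Aug (wb237Ca B η) = 0) :
    ∃ η' ⊆ (wb79Atom F Ch a (A ∪ PF) Oa).2, Mdl41Even F (η ∪ η') := by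
  classical
  have hBsub : B ⊆ F := by
    intro f hf
    have := G.inF f (wb237_mem_corners.2 (Or.inl hf))
    unfold OnPolygon at this
    rw [not_not] at this
    exact this.1
  obtain ⟨Ja, hJa, bJa⟩ := W4 (wb237Ca B η) h1 h2
  have h3 : mdl41Aug (wb237Cp B η) = 0 := by
    have := congrArg mdl41Aug (wb237_cp_add_ca B η)
    rwa [map_add, h2, add_zero, mdl41_aug_bd] at this
  obtain ⟨J, hJ, bJ⟩ := W5 (wb237Cp B η) (by
    intro v hv
    have hvB : OnPolygon B v := by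
      by_contra h
      exact hv (wb237_cp_in h)
    rw [wb237_cp_on hvB] at hv
    obtain ⟨e, me, ke⟩ := wb237_bd_ne hv
    have := wb237_edge_corners (P := B) (e := e) (Or.inl (G.sub (mdl41_mem_int.1 (hη me)).1))
    rcases ke with k | k
    · exact ⟨k ▸ this.1, hvB⟩
    · exact ⟨k ▸ this.2, hvB⟩) h3
  -- the edges of the inner wall
  have fa : ∀ e ∈ Ja, e ∈ rswInt B ∧ e ∉ rswInt Ch := by
    intro e he
    have := hJa he
    unfold wb79W2 at this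
    obtain ⟨k1, k2⟩ := mdl41_mem_disSet.1 (Finset.mem_filter.1 this).1
    refine ⟨k1, fun h => ?_⟩
    obtain ⟨k3, k4⟩ := mdl41_mem_int.1 h
    exact k2 ⟨fun _ => k4, fun _ => k3⟩
  -- the edges of the ring
  have fr : ∀ e ∈ J, e ∉ rswInt B := by
    intro e he h
    obtain ⟨k3, k4⟩ := mdl41_mem_int.1 h
    exact hJ e he ⟨fun _ => k4, fun _ => k3⟩
  have hsubInt : rswInt Ch ⊆ rswInt B := by
    intro e he
    obtain ⟨k3, k4⟩ := mdl41_mem_int.1 he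
    exact mdl41_mem_int.2 ⟨G.sub k3, G.sub k4⟩
  refine ⟨Ja ∪ J, ?_, ?_⟩
  · intro e he
    simp only [wb79Atom, Finset.mem_filter, mdl1aE, Finset.mem_sdiff, Finset.mem_union, not_or]
    rcases Finset.mem_union.1 he with he | he
    · obtain ⟨k1, k2⟩ := fa e he
      obtain ⟨k3, k4⟩ := mdl41_mem_int.1 k1
      exact ⟨⟨mdl41_mem_int.2 ⟨hBsub k3, hBsub k4⟩, k2⟩, Or.inl (p4 (hJa he))⟩
    · have k0 := hJ e he
      have k1 : e.1 ∈ B ∨ rswCo e ∈ B := by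
        by_contra h
        push Not at h
        exact k0 ⟨fun x => absurd x h.1, fun x => absurd x h.2⟩
      obtain ⟨c1, c2⟩ := wb237_edge_corners k1
      obtain ⟨q1, q2⟩ := wb237_edge_poly (P := B) (e := e) (fun h => fr e he (mdl41_mem_int.2 h))
      have i1 : e ∈ rswInt F := by
        by_contra h
        exact G.inF _ c1 (wb237_edge_poly (P := F) (e := e) (fun h' => h (mdl41_mem_int.2 h'))).1
      exact ⟨⟨i1, fun h => fr e he (hsubInt h)⟩, Or.inr ⟨⟨fun h => p3 _ h q1, fun h => G.inF _ c1 (hPF _ h)⟩,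
        ⟨fun h => p3 _ h q2, fun h => G.inF _ c2 (hPF _ h)⟩⟩⟩
  · intro v _
    have d1 : Disjoint Ja J := Finset.disjoint_left.2 (fun e x y => fr e y (fa e x).1)
    have d2 : Disjoint η (Ja ∪ J) := by
      refine Finset.disjoint_left.2 (fun e x y => ?_)
      rcases Finset.mem_union.1 y with y | y
      · exact (fa e y).2 (hη x)
      · exact fr e y (hsubInt (hη x))
    rw [wb237_ch_union d2, wb237_ch_union d1, map_add, map_add, bJa, bJ, add_comm (wb237Ca B η), wb237_cp_add_ca,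
      Finsupp.add_apply, mdl41_two]

/-! ## 4. the two atoms -/

theorem wb237_W2_WV {B Ch : Finset (ℤ × ℤ)} : ∀ e ∈ wb79W2 B Ch, e.1 ∈ wb79WV B Ch ∧ rswEnd e ∈ wb79WV B Ch := by
  classical
  intro e he
  unfold wb79W2 at he
  obtain ⟨k1, k2, k3⟩ := Finset.mem_filter.1 he
  unfold wb79WV
  exact ⟨Finset.mem_filter.2 ⟨wb237_in_corner k2, k2, e, k1, Or.inl rfl⟩,
    Finset.mem_filter.2 ⟨wb237_in_corner k3, k3, e, k1, Or.inr rfl⟩⟩

theorem wb237_WV_CG {B Ch : Finset (ℤ × ℤ)} : wb79WV B Ch ⊆ wb79CG B Ch := by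
  classical
  intro v hv
  unfold wb79WV at hv
  obtain ⟨-, k2, e, me, ke⟩ := Finset.mem_filter.1 hv
  obtain ⟨m1, m2⟩ := mdl41_mem_disSet.1 me
  obtain ⟨m3, m4⟩ := mdl41_mem_int.1 m1
  have hf : e.1 ∈ B \ Ch ∨ rswCo e ∈ B \ Ch := by
    unfold Mdl41Dis at m2
    by_cases h : e.1 ∈ Ch
    · refine Or.inr (Finset.mem_sdiff.2 ⟨m4, fun h' => m2 ⟨fun _ => h', fun _ => h⟩⟩)
    · exact Or.inl (Finset.mem_sdiff.2 ⟨m3, h⟩)
  obtain ⟨c1, c2⟩ := wb237_edge_corners hf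
  unfold wb79CG
  rcases ke with k | k
  · exact Finset.mem_filter.2 ⟨k ▸ c1, k2⟩
  · exact Finset.mem_filter.2 ⟨k ▸ c2, k2⟩

theorem wb237_W2_FE {B Ch : Finset (ℤ × ℤ)} : wb79W2 B Ch ⊆ wb79FE B Ch := by
  classical
  intro e he
  obtain ⟨k1, k2⟩ := wb237_W2_WV e he
  unfold wb79W2 at he
  obtain ⟨m1, m2⟩ := mdl41_mem_disSet.1 (Finset.mem_filter.1 he).1
  unfold wb79FE
  refine Finset.mem_filter.2 ⟨Finset.mem_sdiff.2 ⟨m1, fun h => ?_⟩, wb237_WV_CG k1, wb237_WV_CG k2⟩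
  obtain ⟨k3, k4⟩ := mdl41_mem_int.1 h
  exact m2 ⟨fun _ => k4, fun _ => k3⟩

theorem wb237_PF_on (F : Finset (ℤ × ℤ)) (b a : Bool) : ∀ v ∈ wb79PF F b a, OnPolygon F v := by
  classical
  intro v hv
  unfold wb79PF at hv
  split_ifs at hv
  · exact (Finset.mem_filter.1 hv).2
  · simp at hv

/-- **LEAF W6** = `wb79_compl_iff` verbatim; W4 = `wb79_wall_conn`, W5 = `wb79_ring_conn` verbatim as hypotheses -/
theorem wb237_compl_iff
    (W4 : ∀ {F B Ch : Finset (ℤ × ℤ)} (_ : Wb79Geo F B Ch) (c : (ℤ × ℤ) →₀ ZMod 2)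
      (_ : ∀ v, c v ≠ 0 → v ∈ wb79WV B Ch) (_ : mdl41Aug c = 0),
      ∃ J : Finset ((ℤ × ℤ) × Bool), J ⊆ wb79W2 B Ch ∧ mdl41Bd (mdl41Ch J) = c)
    (W5 : ∀ {x0 x1 y0 y1 : ℤ} (_ : x0 + 2 ≤ x1) (_ : y0 + 2 ≤ y1) (c : (ℤ × ℤ) →₀ ZMod 2)
      (_ : ∀ v, c v ≠ 0 → v ∈ cornersOf (Finset.Ico x0 x1 ×ˢ Finset.Ico y0 y1) ∧ OnPolygon (Finset.Ico x0 x1 ×ˢ Finset.Ico y0 y1) v)
      (_ : mdl41Aug c = 0),
      ∃ J : Finset ((ℤ × ℤ) × Bool), (∀ e ∈ J, ¬ (e.1 ∈ Finset.Ico x0 x1 ×ˢ Finset.Ico y0 y1 ↔ rswCo e ∈ Finset.Ico x0 x1 ×ˢ Finset.Ico y0 y1)) ∧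
        mdl41Bd (mdl41Ch J) = c)
    {F B Ch : Finset (ℤ × ℤ)} (G : Wb79Geo F B Ch) (b a : Bool) {η : Finset ((ℤ × ℤ) × Bool)} (hη : η ⊆ rswInt Ch) :
    (∃ η' ⊆ (wb79Adv F B Ch b a).2, Mdl41Even F (η ∪ η')) ↔ (∃ η' ⊆ (wb79Fil F B Ch b a).2, Mdl41Even F (η ∪ η')) := by
  classical
  have W4' := fun c h h' => W4 G c h h'
  have W5' : ∀ c : (ℤ × ℤ) →₀ ZMod 2, (∀ v, c v ≠ 0 → v ∈ cornersOf B ∧ OnPolygon B v) → mdl41Aug c = 0 →
      ∃ J : Finset ((ℤ × ℤ) × Bool), (∀ e ∈ J, ¬ (e.1 ∈ B ↔ rswCo e ∈ B)) ∧ mdl41Bd (mdl41Ch J) = c := by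
    obtain ⟨x0, x1, y0, y1, hx, hy, hB⟩ := G.rect
    rw [hB]
    exact fun c h h' => W5 hx hy c h h'
  have pWV : ∀ v ∈ wb79WV B Ch, ¬ OnPolygon B v := by
    intro v hv
    unfold wb79WV at hv
    exact (Finset.mem_filter.1 hv).2.1
  have pCG : ∀ v ∈ wb79CG B Ch, ¬ OnPolygon B v := by
    intro v hv
    unfold wb79CG at hv
    exact (Finset.mem_filter.1 hv).2
  have pFE : ∀ e ∈ wb79FE B Ch, e.1 ∈ wb79CG B Ch ∧ rswEnd e ∈ wb79CG B Ch := by
    intro e he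
    unfold wb79FE at he
    exact (Finset.mem_filter.1 he).2
  unfold wb79Adv wb79Fil
  constructor
  · rintro ⟨η', h1, h2⟩
    obtain ⟨k1, k2⟩ := wb237_fwd G a (wb79PF F b a) wb237_W2_WV (Finset.Subset.refl _) pWV hη h1 h2
    exact wb237_bwd G a (wb79PF F b a) W4' W5' (wb237_PF_on F b a) pCG wb237_W2_FE hη k1 k2
  · rintro ⟨η', h1, h2⟩
    obtain ⟨k1, k2⟩ := wb237_fwd G a (wb79PF F b a) pFE wb237_WV_CG pCG hη h1 h2
    exact wb237_bwd G a (wb79PF F b a) W4' W5' (wb237_PF_on F b a) pWV (Finset.Subset.refl _) hη k1 k2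

/-- the equation lemmas of the definitions of this file are generated HERE (RULES.md, rule 6) -/
theorem wb237_defs_eqns_cite : True := by
  have := @wb237Ca.eq_1
  have := @wb237Cp.eq_1
  trivial

end Claimed.Agent.R292
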