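import Claimed.Agent.R292.Model.WbDefs79

/-!
# Row 292 (S0540), Model/Wb62 : LEAF W3 of (WB) WALL BLOCKING = `wb79_evens_card` of `Model/Wb79` VERBATIM      (pen helper62; prefix `wb62_`; board wb_post of 79)

Linear algebra mod 2 on finite sets of edges.  `O ⊆ rswInt U` and `Oe ⊆ rswInt F \ rswInt U` are disjoint; the restriction `η ↦ η ∩ O` maps the even subgraphs of
`O ∪ Oe` onto `wb79Im F O Oe`, and every fibre is a translate (symmetric difference) of the even subgraphs of `Oe`.
-/

set_option autoImplicit false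

namespace Claimed.Agent.R292

open Claims Claims.C0468

/-- the chain of a symmetric difference is the sum of the chains -/
theorem wb62_ch_symmDiff (A B : Finset ((ℤ × ℤ) × Bool)) : mdl41Ch (symmDiff A B) = mdl41Ch A + mdl41Ch B := by
  ext e
  rw [Finsupp.add_apply, mdl41_ch_apply, mdl41_ch_apply, mdl41_ch_apply]
  by_cases hA : e ∈ A <;> by_cases hB : e ∈ B <;> simp [Finset.mem_symmDiff, hA, hB, mdl41_two]

/-- the even subgraphs are closed under symmetric differences -/
theorem wb62_even_symmDiff {F : Finset (ℤ × ℤ)} {A B : Finset ((ℤ × ℤ) × Bool)} (hA : Mdl41Even F A) (hB : Mdl41Even F B) :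
    Mdl41Even F (symmDiff A B) := by
  intro v hv
  rw [wb62_ch_symmDiff, map_add, Finsupp.add_apply, hA v hv, hB v hv, add_zero]

/-- the abstract count: `O`, `Oe` disjoint -/
theorem wb62_evens_card (F : Finset (ℤ × ℤ)) {O Oe : Finset ((ℤ × ℤ) × Bool)} (hd : Disjoint O Oe) :
    (mdl41Evens F (O ∪ Oe)).card = (mdl41Evens F Oe).card * (wb79Im F O Oe).card := by
  classical
  have hdis : ∀ e, e ∈ O → e ∉ Oe := fun e h1 h2 => Finset.disjoint_left.1 hd h1 h2
  have hmaps : ∀ η ∈ mdl41Evens F (O ∪ Oe), η ∩ O ∈ wb79Im F O Oe := by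
    intro η hη
    obtain ⟨h1, h2⟩ := mdl41_mem_evens.1 hη
    simp only [wb79Im, Finset.mem_filter, Finset.mem_powerset]
    refine ⟨Finset.inter_subset_right, η ∩ Oe, Finset.inter_subset_right, ?_⟩
    have : η ∩ O ∪ η ∩ Oe = η := by
      rw [← Finset.inter_union_distrib_left]
      exact Finset.inter_eq_left.2 h1
    rw [this]
    exact h2
  rw [Finset.card_eq_sum_card_fiberwise hmaps]
  have hfib : ∀ ζ ∈ wb79Im F O Oe, ((mdl41Evens F (O ∪ Oe)).filter fun η => η ∩ O = ζ).card = (mdl41Evens F Oe).card := by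
    intro ζ hζ
    simp only [wb79Im, Finset.mem_filter, Finset.mem_powerset] at hζ
    obtain ⟨hζO, η', hη', hev⟩ := hζ
    set η₀ := ζ ∪ η' with hη₀
    have h0sub : η₀ ⊆ O ∪ Oe := Finset.union_subset_union hζO hη'
    have h0O : ∀ e ∈ O, (e ∈ η₀ ↔ e ∈ ζ) := by
      intro e he
      rw [hη₀, Finset.mem_union]
      exact ⟨fun h => h.resolve_right fun h' => hdis e he (hη' h'), Or.inl⟩
    refine Finset.card_nbij' (fun η => symmDiff η₀ η) (fun κ => symmDiff η₀ κ) ?_ ?_ ?_ ?_
    · intro η hη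
      have hη' := Finset.mem_coe.1 hη
      rw [Finset.mem_filter] at hη'
      obtain ⟨h1, h3⟩ := hη'
      obtain ⟨h1, h2⟩ := mdl41_mem_evens.1 h1
      refine Finset.mem_coe.2 (mdl41_mem_evens.2 ⟨?_, wb62_even_symmDiff hev h2⟩)
      intro e he
      have heU : e ∈ O ∪ Oe := by
        rcases Finset.mem_symmDiff.1 he with h | h
        · exact h0sub h.1
        · exact h1 h.1
      rcases Finset.mem_union.1 heU with hO | hOe
      · exfalso
        have e1 : e ∈ η ↔ e ∈ ζ := by
          rw [← h3, Finset.mem_inter]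
          exact ⟨fun h => ⟨h, hO⟩, fun h => h.1⟩
        have e2 := h0O e hO
        rcases Finset.mem_symmDiff.1 he with h | h
        · exact h.2 (e1.2 (e2.1 h.1))
        · exact h.2 (e2.2 (e1.1 h.1))
      · exact hOe
    · intro κ hκ
      obtain ⟨h1, h2⟩ := mdl41_mem_evens.1 (Finset.mem_coe.1 hκ)
      refine Finset.mem_coe.2 (Finset.mem_filter.2 ⟨mdl41_mem_evens.2 ⟨?_, wb62_even_symmDiff hev h2⟩, ?_⟩)
      · intro e he
        rcases Finset.mem_symmDiff.1 he with h | h
        · exact h0sub h.1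
        · exact Finset.mem_union_right _ (h1 h.1)
      · ext e
        rw [Finset.mem_inter, Finset.mem_symmDiff]
        constructor
        · rintro ⟨h | h, hO⟩
          · exact (h0O e hO).1 h.1
          · exact absurd (h1 h.1) (hdis e hO)
        · intro h
          have hO := hζO h
          exact ⟨Or.inl ⟨(h0O e hO).2 h, fun h' => hdis e hO (h1 h')⟩, hO⟩
    · intro η _
      exact symmDiff_symmDiff_cancel_left η₀ η
    · intro κ _
      exact symmDiff_symmDiff_cancel_left η₀ κ
  rw [Finset.sum_congr rfl hfib, Finset.sum_const, smul_eq_mul, mul_comm]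

/-- **LEAF W3** = `wb79_evens_card` of `Model/Wb79` VERBATIM -/
theorem wb62_W3 {F U : Finset (ℤ × ℤ)} {O Oe : Finset ((ℤ × ℤ) × Bool)} (hO : O ⊆ rswInt U) (hOe : Oe ⊆ mdl1aE F U) :
    (mdl41Evens F (O ∪ Oe)).card = (mdl41Evens F Oe).card * (wb79Im F O Oe).card := by
  refine wb62_evens_card F (Finset.disjoint_left.2 fun e h1 h2 => ?_)
  have := hOe h2
  rw [mdl1aE, Finset.mem_sdiff] at this
  exact this.2 (hO h1)

end Claimed.Agent.R292
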