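import Claimed.Agent.R292.Model.WbDefs79

/-!
# Row 292 (S0540), Model/Wb63 : leaf W9 of the board `wb_post` (WALL BLOCKING, architect 79), `wb79_atom_pos` VERBATIM      (helper63; prefix `wb63_`)

Finite energy: the configuration `S = ξ.1`, `D = ∅`, `O = ξ.2` satisfies the prescriptions of the atom and has positive weight; all other terms are `≥ 0`.
-/

set_option autoImplicit false

namespace Claimed.Agent.R292

open Claims Claims.C0468 Relation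

theorem wb63_fac_nonneg {t : ℝ} (h0 : 0 ≤ t) (h1 : t ≤ 1) (ω : RswCfg) (e : (ℤ × ℤ) × Bool) :
    0 ≤ rswFac t ω e := by
  unfold rswFac
  split_ifs <;> linarith

theorem wb63_wt_nonneg {t : ℝ} (h0 : 0 ≤ t) (h1 : t ≤ 1) (F : Finset (ℤ × ℤ)) (b : Bool) (ω : RswCfg) :
    0 ≤ rswWt t F b ω := by
  unfold rswWt
  split_ifs
  · exact Finset.prod_nonneg fun e _ => wb63_fac_nonneg h0 h1 ω e
  · exact le_rfl

/-- **LEAF W9** (finite energy) -/
theorem wb63_atom_pos {t : ℝ} (ht0 : 0 < t) (ht2 : t < 1) {F U : Finset (ℤ × ℤ)} (hUF : U ⊆ F) (b a : Bool)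
    (A : Finset (ℤ × ℤ)) (Oa : Finset ((ℤ × ℤ) × Bool)) (hPF : ∀ v ∈ cornersOf F, OnPolygon F v → (v ∈ A ↔ b = a))
    (hOa : ∀ e ∈ Oa, e.1 ∈ A ∧ rswEnd e ∈ A) :
    0 < mdlSumK t F b (mdl1aK F U (wb79Atom F U a A Oa)) (fun _ => 1) := by
  classical
  have hmem1 : ∀ v, v ∈ (wb79Atom F U a A Oa).1 ↔ v ∈ mdl1aV F U ∧ (v ∈ A ↔ a = true) := fun v => by
    unfold wb79Atom
    exact Finset.mem_filter
  have hmem2 : ∀ e, e ∈ (wb79Atom F U a A Oa).2 ↔
      e ∈ mdl1aE F U ∧ (e ∈ Oa ∨ (e.1 ∉ A ∧ rswEnd e ∉ A)) := fun e => by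
    unfold wb79Atom
    exact Finset.mem_filter
  have hξ : wb79Atom F U a A Oa ∈ mdl1aT F U := wb79_atom_mem F U a A Oa
  generalize wb79Atom F U a A Oa = ξ at hmem1 hmem2 hξ ⊢
  have h1 := Finset.mem_powerset.1 (Finset.mem_product.1 hξ).1
  have h2 := Finset.mem_powerset.1 (Finset.mem_product.1 hξ).2
  have hV : mdl1aV F U ⊆ cornersOf F := fun v hv => (mdl1a_mem_V.1 hv).1
  have hE : mdl1aE F U ⊆ rswInt F := fun e he => (mdl1a_mem_E.1 he).1
  have hholds : (mdl1aK F U ξ).Holds ⟨ξ.1, ∅, ξ.2⟩ := by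
    rw [mdl1a_holds hξ]
    apply Prod.ext
    · exact (Finset.inter_eq_left.2 h1).symm
    · exact (Finset.inter_eq_left.2 h2).symm
  have hbc : RswBc F b ⟨ξ.1, ∅, ξ.2⟩ := by
    intro v hv hp
    have hpU : OnPolygon U v := fun h => hp ⟨hUF h.1, hUF h.2.1, hUF h.2.2.1, hUF h.2.2.2⟩
    show v ∈ ξ.1 ↔ b = true
    rw [hmem1, hPF v hv hp]
    have : v ∈ mdl1aV F U := mdl1a_mem_V.2 ⟨hv, hpU⟩
    cases a <;> cases b <;> simp [this]
  have hfac : ∀ e ∈ rswInt F, 0 < rswFac t ⟨ξ.1, ∅, ξ.2⟩ e := by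
    intro e _
    unfold rswFac
    by_cases heO : e ∈ ξ.2
    · rw [if_pos heO]
      obtain ⟨_, hor⟩ := (hmem2 e).1 heO
      have hok := mdl1a_ok hξ e (Finset.mem_union_left _ heO)
      rw [mdl1a_pins hξ] at hok
      have hsame : (e.1 ∈ ξ.1 ↔ rswEnd e ∈ ξ.1) := by
        rw [hmem1, hmem1]
        rcases hor with h | h
        · have := hOa e h
          simp [hok.1, hok.2, this.1, this.2]
        · simp [hok.1, hok.2, h.1, h.2]
      rw [if_pos hsame]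
      exact ht0
    · rw [if_neg heO]
      have hD : (e.1 ∈ (∅ : Finset (ℤ × ℤ)) ↔ rswCo e ∈ (∅ : Finset (ℤ × ℤ))) := by simp
      rw [if_pos hD]
      split_ifs <;> linarith
  have hwt : 0 < rswWt t F b ⟨ξ.1, ∅, ξ.2⟩ := by
    unfold rswWt
    rw [if_pos hbc]
    exact Finset.prod_pos hfac
  have hnn : ∀ ω : RswCfg, 0 ≤ rswWt t F b ω * (if (mdl1aK F U ξ).Holds ω then (1 : ℝ) else 0) := fun ω => by
    refine mul_nonneg (wb63_wt_nonneg ht0.le ht2.le F b ω) ?_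
    split_ifs <;> norm_num
  unfold mdlSumK rswSum
  refine Finset.sum_pos' (fun S _ => Finset.sum_nonneg fun D _ => Finset.sum_nonneg fun O _ => hnn _)
    ⟨ξ.1, Finset.mem_powerset.2 (h1.trans hV), ?_⟩
  refine Finset.sum_pos' (fun D _ => Finset.sum_nonneg fun O _ => hnn _)
    ⟨∅, Finset.empty_mem_powerset _, ?_⟩
  refine Finset.sum_pos' (fun O _ => hnn _) ⟨ξ.2, Finset.mem_powerset.2 (h2.trans hE), ?_⟩
  show 0 < rswWt t F b ⟨ξ.1, ∅, ξ.2⟩ * (if (mdl1aK F U ξ).Holds ⟨ξ.1, ∅, ξ.2⟩ then (1 : ℝ) else 0)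
  rw [if_pos hholds, mul_one]
  exact hwt


end Claimed.Agent.R292
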