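import Claimed.Agent.R292.Model.WbDefs79

/-!
# Row 292 (S0540), Model/Wb68 : LEAF W2 of the typed cut `Model/Wb79` (Kramers-Wannier on one atom)      (pen helper68; prefix `wb68_`)

`wb68_atom_formula` = `wb79_atom_formula` verbatim.  Road: `mdl41_rswSum_SO`; the weight `mdl41WSO` is `1[Bc] * (product of local factors) * #Evens` (`wb68_WSO`, from `mdl41_prod_fac` at `D = ∅`);
the atom fixes `S ∩ V = ξ.1`, `O ∩ E = ξ.2` (`mdl1a_holds`), so `S = S₁ ∪ ξ.1`, `O = O₁ ∪ ξ.2` (`wb68_sum_powerset`); the product splits over `rswInt U` and `mdl1aE F U`.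
-/

set_option autoImplicit false

namespace Claimed.Agent.R292

open Claims Claims.C0468 Relation

/-- reindexing of a sum over the subsets with prescribed trace on one part -/
theorem wb68_sum_powerset {α : Type} [DecidableEq α] (A A₁ A₂ S₀ : Finset α) (hA : A = A₁ ∪ A₂) (hd : Disjoint A₁ A₂)
    (h0 : S₀ ⊆ A₂) (f : Finset α → ℝ) :
    ∑ S ∈ A.powerset, (if S ∩ A₂ = S₀ then f S else 0) = ∑ S₁ ∈ A₁.powerset, f (S₁ ∪ S₀) := by
  rw [← Finset.sum_filter]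
  refine Finset.sum_nbij' (fun S => S ∩ A₁) (fun S₁ => S₁ ∪ S₀) ?_ ?_ ?_ ?_ ?_
  · intro S _
    exact Finset.mem_powerset.2 Finset.inter_subset_right
  · intro S₁ hS₁
    have h1 := Finset.mem_powerset.1 hS₁
    rw [Finset.mem_filter, Finset.mem_powerset]
    refine ⟨?_, ?_⟩
    · rw [hA]
      exact Finset.union_subset_union h1 h0
    · rw [Finset.union_inter_distrib_right, Finset.inter_eq_left.2 h0]
      have : S₁ ∩ A₂ = ∅ := Finset.disjoint_iff_inter_eq_empty.1 (hd.mono_left h1)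
      rw [this, Finset.empty_union]
  · intro S hS
    obtain ⟨h1, h2⟩ := Finset.mem_filter.1 hS
    have h1' := Finset.mem_powerset.1 h1
    rw [← h2, ← Finset.inter_union_distrib_left, ← hA]
    exact Finset.inter_eq_left.2 h1'
  · intro S₁ hS₁
    have h1 := Finset.mem_powerset.1 hS₁
    rw [Finset.union_inter_distrib_right, Finset.inter_eq_left.2 h1]
    have : S₀ ∩ A₁ = ∅ := Finset.disjoint_iff_inter_eq_empty.1 ((hd.mono_right h0).symm)
    rw [this, Finset.union_empty]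
  · intro S hS
    obtain ⟨h1, h2⟩ := Finset.mem_filter.1 hS
    have h1' := Finset.mem_powerset.1 h1
    congr 1
    rw [← h2, ← Finset.inter_union_distrib_left, ← hA]
    exact (Finset.inter_eq_left.2 h1').symm

open Classical in
/-- the local `(s,W)` factor of one edge -/
noncomputable def wb68Loc (t : ℝ) (S : Finset (ℤ × ℤ)) (O : Finset ((ℤ × ℤ) × Bool)) (e : (ℤ × ℤ) × Bool) : ℝ :=
  if e ∈ O then (if (e.1 ∈ S ↔ rswEnd e ∈ S) then t else 0) else (if (e.1 ∈ S ↔ rswEnd e ∈ S) then 1 - t else t)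

theorem wb68_W_eq (t : ℝ) (U S : Finset (ℤ × ℤ)) (O : Finset ((ℤ × ℤ) × Bool)) :
    wb79W t U S O = ∏ e ∈ rswInt U, wb68Loc t S O e := rfl

/-- the local factor only reads the two end spins and the state of the edge -/
theorem wb68_loc_congr (t : ℝ) {S S' : Finset (ℤ × ℤ)} {O O' : Finset ((ℤ × ℤ) × Bool)} {e : (ℤ × ℤ) × Bool}
    (h1 : e.1 ∈ S ↔ e.1 ∈ S') (h2 : rswEnd e ∈ S ↔ rswEnd e ∈ S') (h3 : e ∈ O ↔ e ∈ O') :
    wb68Loc t S O e = wb68Loc t S' O' e := by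
  unfold wb68Loc
  simp only [h1, h2, h3]

theorem wb68_fac_empty (t : ℝ) (S : Finset (ℤ × ℤ)) (O : Finset ((ℤ × ℤ) × Bool)) (e : (ℤ × ℤ) × Bool) :
    rswFac t ⟨S, ∅, O⟩ e = wb68Loc t S O e := by
  classical
  unfold rswFac wb68Loc
  simp

open Classical in
/-- the `(s,W)` weight as a product of local factors -/
theorem wb68_WSO (t : ℝ) (F : Finset (ℤ × ℤ)) (b : Bool) (S : Finset (ℤ × ℤ)) {O : Finset ((ℤ × ℤ) × Bool)} (hO : O ⊆ rswInt F) :
    mdl41WSO t F b S O =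
      (if RswBc F b ⟨S, ∅, ∅⟩ then (1 : ℝ) else 0) * (∏ e ∈ rswInt F, wb68Loc t S O e) * ((mdl41Evens F O).card : ℝ) := by
  have P := mdl41_prod_fac t F S ∅ hO
  have hD : mdl41DisSet F ∅ ⊆ O := by
    intro e he
    exact absurd (mdl41_mem_disSet.1 he).2 (by simp [Mdl41Dis])
  rw [Finset.prod_congr rfl (fun e _ => wb68_fac_empty t S O e)] at P
  rw [P]
  unfold mdl41WSO
  by_cases hb : RswBc F b ⟨S, ∅, ∅⟩
  · by_cases hm : O ⊆ mdl41Mono F S
    · rw [if_pos ⟨hb, hm⟩, if_pos hb, if_pos ⟨hm, hD⟩, one_mul]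
    · rw [if_neg (fun h => hm h.2), if_pos hb, if_neg (fun h => hm h.1), mul_zero, zero_mul]
  · rw [if_neg (fun h => hb h.1), if_neg hb, zero_mul, zero_mul]

theorem wb68_corners_split {F U : Finset (ℤ × ℤ)} (hUF : U ⊆ F) : cornersOf F = rskCore U ∪ mdl1aV F U := by
  ext v
  rw [Finset.mem_union, mdl1a_mem_V]
  constructor
  · intro hv
    by_cases h : OnPolygon U v
    · exact Or.inr ⟨hv, h⟩
    · exact Or.inl (rsk_mem_core.2 (not_not.1 h))
  · rintro (h | h)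
    · exact rsk_corners_mono hUF (rsk_core_sub U h)
    · exact h.1

theorem wb68_corners_disj (F U : Finset (ℤ × ℤ)) : Disjoint (rskCore U) (mdl1aV F U) := by
  rw [Finset.disjoint_left]
  intro v h1 h2
  exact (mdl1a_mem_V.1 h2).2 (rsk_mem_core.1 h1)

theorem wb68_int_split {F U : Finset (ℤ × ℤ)} (hUF : U ⊆ F) : rswInt F = rswInt U ∪ mdl1aE F U :=
  (Finset.union_sdiff_of_subset (rsk_int_mono hUF)).symm

theorem wb68_int_disj (F U : Finset (ℤ × ℤ)) : Disjoint (rswInt U) (mdl1aE F U) :=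
  Finset.disjoint_sdiff

open Classical in
/-- one term of the Kramers-Wannier sum on the atom -/
theorem wb68_term (t : ℝ) {F U : Finset (ℤ × ℤ)} (hUF : U ⊆ F) (b : Bool) {S₀ S₁ : Finset (ℤ × ℤ)}
    {O₀ O₁ : Finset ((ℤ × ℤ) × Bool)} (hO₀ : O₀ ⊆ mdl1aE F U) (hS₁ : S₁ ⊆ rskCore U) (hO₁ : O₁ ⊆ rswInt U) :
    mdl41WSO t F b (S₁ ∪ S₀) (O₁ ∪ O₀) =
      ((if RswBc F b ⟨S₀, ∅, ∅⟩ then (1 : ℝ) else 0) * ∏ e ∈ mdl1aE F U, wb68Loc t S₀ O₀ e) *
        (wb79W t U (S₁ ∪ (S₀ ∩ cornersOf U)) O₁ * ((mdl41Evens F (O₁ ∪ O₀)).card : ℝ)) := by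
  have hO : O₁ ∪ O₀ ⊆ rswInt F :=
    Finset.union_subset (hO₁.trans (rsk_int_mono hUF)) (hO₀.trans Finset.sdiff_subset)
  rw [wb68_WSO t F b _ hO]
  -- the boundary condition
  have hbc : RswBc F b ⟨S₁ ∪ S₀, ∅, ∅⟩ ↔ RswBc F b ⟨S₀, ∅, ∅⟩ := by
    have key : ∀ v, OnPolygon F v → (v ∈ S₁ ∪ S₀ ↔ v ∈ S₀) := by
      intro v hv
      rw [Finset.mem_union]
      refine ⟨fun h => h.resolve_left fun h1 => hv ?_, Or.inr⟩
      obtain ⟨a1, a2, a3, a4⟩ := rsk_mem_core.1 (hS₁ h1)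
      exact ⟨hUF a1, hUF a2, hUF a3, hUF a4⟩
    unfold RswBc
    constructor
    · intro h v hv hp
      exact (key v hp).symm.trans (h v hv hp)
    · intro h v hv hp
      exact (key v hp).trans (h v hv hp)
  -- the product
  have hprod : ∏ e ∈ rswInt F, wb68Loc t (S₁ ∪ S₀) (O₁ ∪ O₀) e =
      (∏ e ∈ mdl1aE F U, wb68Loc t S₀ O₀ e) * wb79W t U (S₁ ∪ (S₀ ∩ cornersOf U)) O₁ := by
    rw [← Finset.prod_sdiff (rsk_int_mono hUF), wb68_W_eq]
    congr 1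
    · refine Finset.prod_congr rfl fun e he => ?_
      have he' : e ∉ rswInt U := (Finset.mem_sdiff.1 he).2
      refine wb68_loc_congr t ?_ ?_ ?_
      · rw [Finset.mem_union]
        exact ⟨fun h => h.resolve_left fun h1 => he' (rsk_fst_core (hS₁ h1)), Or.inr⟩
      · rw [Finset.mem_union]
        exact ⟨fun h => h.resolve_left fun h1 => he' (rsk_end_core (hS₁ h1)), Or.inr⟩
      · rw [Finset.mem_union]
        exact ⟨fun h => h.resolve_left fun h1 => he' (hO₁ h1), Or.inr⟩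
    · refine Finset.prod_congr rfl fun e he => ?_
      refine wb68_loc_congr t ?_ ?_ ?_
      · simp only [Finset.mem_union, Finset.mem_inter, rsk_int_fst he, and_true]
      · simp only [Finset.mem_union, Finset.mem_inter, rsk_int_end he, and_true]
      · rw [Finset.mem_union]
        exact ⟨fun h => h.resolve_right fun h1 => (Finset.mem_sdiff.1 (hO₀ h1)).2 he, Or.inl⟩
  rw [hprod]
  simp only [hbc]
  ring

/-- **LEAF W2** (`wb79_atom_formula` of `Model/Wb79`, verbatim) -/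
theorem wb68_atom_formula (t : ℝ) {F U : Finset (ℤ × ℤ)} (hF : Mdl41Conn F) (hUF : U ⊆ F) (b : Bool)
    {ξ : Finset (ℤ × ℤ) × Finset ((ℤ × ℤ) × Bool)} (hξ : ξ ∈ mdl1aT F U) :
    ∃ c : ℝ, ∀ Y : RswCfg → ℝ, Wb79In U Y →
      mdlSumK t F b (mdl1aK F U ξ) Y = c * wb79Dec t F U (ξ.1 ∩ cornersOf U) ξ.2 Y := by
  classical
  obtain ⟨S₀, O₀⟩ := ξ
  have hS₀ : S₀ ⊆ mdl1aV F U := Finset.mem_powerset.1 (Finset.mem_product.1 hξ).1
  have hO₀ : O₀ ⊆ mdl1aE F U := Finset.mem_powerset.1 (Finset.mem_product.1 hξ).2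
  refine ⟨(mdl41K F : ℝ) * ((if RswBc F b ⟨S₀, ∅, ∅⟩ then (1 : ℝ) else 0) * ∏ e ∈ mdl1aE F U, wb68Loc t S₀ O₀ e),
    fun Y hY => ?_⟩
  have hYD : ∀ S D D' O, Y ⟨S, D, O⟩ = Y ⟨S, D', O⟩ := fun S D D' O =>
    hY _ _ (fun _ _ => Iff.rfl) (fun _ _ => Iff.rfl)
  unfold mdlSumK
  rw [mdl41_rswSum_SO hF t b _ (fun S D D' O => by rw [hYD S D D' O]; rfl), mul_assoc]
  congr 1
  -- the indicator of the atom
  have e1 : ∀ S O, mdl41WSO t F b S O * (if (mdl1aK F U (S₀, O₀)).Holds ⟨S, ∅, O⟩ then Y ⟨S, ∅, O⟩ else 0) =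
      if S ∩ mdl1aV F U = S₀ then (if O ∩ mdl1aE F U = O₀ then mdl41WSO t F b S O * Y ⟨S, ∅, O⟩ else 0) else 0 := by
    intro S O
    have h := mdl1a_holds hξ ⟨S, ∅, O⟩
    simp only [Prod.mk.injEq] at h
    by_cases h1 : S ∩ mdl1aV F U = S₀
    · by_cases h2 : O ∩ mdl1aE F U = O₀
      · rw [if_pos (h.2 ⟨h1.symm, h2.symm⟩), if_pos h1, if_pos h2]
      · rw [if_neg (fun hh => h2 (h.1 hh).2.symm), if_pos h1, if_neg h2, mul_zero]
    · rw [if_neg (fun hh => h1 (h.1 hh).1.symm), if_neg h1, mul_zero]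
  simp only [e1]
  have e2 : ∀ S, ∑ O ∈ (rswInt F).powerset,
      (if S ∩ mdl1aV F U = S₀ then (if O ∩ mdl1aE F U = O₀ then mdl41WSO t F b S O * Y ⟨S, ∅, O⟩ else 0) else 0) =
      if S ∩ mdl1aV F U = S₀ then ∑ O₁ ∈ (rswInt U).powerset, mdl41WSO t F b S (O₁ ∪ O₀) * Y ⟨S, ∅, O₁ ∪ O₀⟩ else 0 := by
    intro S
    by_cases h1 : S ∩ mdl1aV F U = S₀
    · simp only [if_pos h1]
      exact wb68_sum_powerset _ _ _ _ (wb68_int_split hUF) (wb68_int_disj F U) hO₀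
        (fun O => mdl41WSO t F b S O * Y ⟨S, ∅, O⟩)
    · simp only [if_neg h1, Finset.sum_const_zero]
  simp only [e2]
  rw [wb68_sum_powerset _ _ _ _ (wb68_corners_split hUF) (wb68_corners_disj F U) hS₀
    (fun S => ∑ O₁ ∈ (rswInt U).powerset, mdl41WSO t F b S (O₁ ∪ O₀) * Y ⟨S, ∅, O₁ ∪ O₀⟩)]
  unfold wb79Dec
  rw [Finset.mul_sum]
  refine Finset.sum_congr rfl fun S₁ hS₁ => ?_
  rw [Finset.mul_sum]
  refine Finset.sum_congr rfl fun O₁ hO₁ => ?_
  have hS₁' := Finset.mem_powerset.1 hS₁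
  have hO₁' := Finset.mem_powerset.1 hO₁
  rw [wb68_term t hUF b hO₀ hS₁' hO₁']
  have hYeq : Y ⟨S₁ ∪ S₀, ∅, O₁ ∪ O₀⟩ = Y ⟨S₁ ∪ (S₀ ∩ cornersOf U), ∅, O₁⟩ := by
    refine hY _ _ (fun v hv => ?_) (fun e he => ?_)
    · simp only [Finset.mem_union, Finset.mem_inter, hv, and_true]
    · simp only [Finset.mem_union]
      exact ⟨fun h => h.resolve_right fun h1 => (Finset.mem_sdiff.1 (hO₀ h1)).2 he, Or.inl⟩
  rw [hYeq]
  ring

/-- the equation lemmas of the definitions of this file are generated HERE (RULES.md, rule 6) -/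
theorem wb68_defs_eqns_cite : True := by
  have := @wb68Loc.eq_1
  trivial

end Claimed.Agent.R292
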