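import Claimed.Agent.R292.Model.WbDefs79

/-!
# Row 292 (S0540), Model/Wb72 : (WB) WALL BLOCKING, LEAF W8 of `Model/Wb79`      (pen helper72; prefix `wb72_`)

`wb72_fill_eq` = `wb79_fill_eq` VERBATIM: the filled atom of the chamber = the complete adverse exterior atom of `B` + the event `Fill`.

Termwise on `rswSum`: for a configuration of non zero weight the two prescriptions are equivalent (`wb72_iff`).
* vertices: a vertex not strictly inside `Ch` is either not strictly inside `B` (read by the base atom, never in `CG`), or a corner of `B \ Ch` strictly inside `B` (read by `Fill`);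
* edges off `rswInt B`: no endpoint is strictly inside `B`, the two rules agree;
* edges of `rswInt B \ rswInt Ch`: by thickness one endpoint is strictly inside `B`, hence in `CG`; if both are, the edge is filled; if not, the other endpoint is on the polygon of `B`,
  of colour `!a` (it is not on the polygon of `F`), the edge is mixed, and it is closed because `rswFac` vanishes on a mixed edge which is in `ω.O`.
-/

set_option autoImplicit false

namespace Claimed.Agent.R292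

open Claims Claims.C0468 Relation

/-- what an atom `wb79Atom` prescribes -/
theorem wb72_holds_iff (F U : Finset (ℤ × ℤ)) (a : Bool) (A : Finset (ℤ × ℤ)) (Oa : Finset ((ℤ × ℤ) × Bool)) (ω : RswCfg) :
    (mdl1aK F U (wb79Atom F U a A Oa)).Holds ω ↔
      (∀ v ∈ mdl1aV F U, (v ∈ ω.S ↔ (v ∈ A ↔ a = true))) ∧
        ∀ e ∈ mdl1aE F U, (e ∈ ω.O ↔ (e ∈ Oa ∨ (e.1 ∉ A ∧ rswEnd e ∉ A))) := by
  classical
  unfold MdlPin.Holds mdl1aK wb79Atom
  simp only [Finset.mem_sdiff, Finset.mem_filter]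
  constructor
  · rintro ⟨h1, h2, h3, h4⟩
    refine ⟨fun v hv => ⟨fun hS => ?_, fun hA => h1 (Finset.mem_filter.2 ⟨hv, hA⟩)⟩,
      fun e he => ⟨fun hO => ?_, fun hA => h3 (Finset.mem_filter.2 ⟨he, hA⟩)⟩⟩
    · by_contra hc
      exact h2 v ⟨hv, fun h => hc h.2⟩ hS
    · by_contra hc
      exact h4 e ⟨he, fun h => hc h.2⟩ hO
  · rintro ⟨h1, h2⟩
    refine ⟨fun v hv => ?_, fun v hv hS => ?_, fun e he => ?_, fun e he hO => ?_⟩
    · rw [Finset.mem_filter] at hv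
      exact (h1 v hv.1).2 hv.2
    · exact hv.2 ⟨hv.1, (h1 v hv.1).1 hS⟩
    · rw [Finset.mem_filter] at he
      exact (h2 e he.1).2 he.2
    · exact he.2 ⟨he.1, (h2 e he.1).1 hO⟩

theorem wb72_core_iff {U : Finset (ℤ × ℤ)} {v : ℤ × ℤ} : ¬ OnPolygon U v ↔ v ∈ rskCore U := by
  rw [rsk_mem_core]
  unfold OnPolygon
  exact not_not

theorem wb72_B_sub {F B Ch : Finset (ℤ × ℤ)} (G : Wb79Geo F B Ch) : B ⊆ F := by
  intro f hf
  exact (rsk_mem_core.1 (wb72_core_iff.1 (G.inF f (rsk_mem_corners.2 (Or.inl hf))))).1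

theorem wb72_corner_F {F B Ch : Finset (ℤ × ℤ)} (G : Wb79Geo F B Ch) {v : ℤ × ℤ} (hv : v ∈ cornersOf B) : v ∈ cornersOf F :=
  rsk_corners_mono (wb72_B_sub G) hv

theorem wb72_not_PF {F B Ch : Finset (ℤ × ℤ)} (G : Wb79Geo F B Ch) (b a : Bool) {v : ℤ × ℤ} (hv : v ∈ cornersOf B) :
    v ∉ wb79PF F b a := by
  classical
  unfold wb79PF
  split_ifs
  · intro h
    exact G.inF v hv (Finset.mem_filter.1 h).2
  · exact Finset.notMem_empty v

theorem wb72_mem_CG {B Ch : Finset (ℤ × ℤ)} {v : ℤ × ℤ} :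
    v ∈ wb79CG B Ch ↔ v ∈ cornersOf (B \ Ch) ∧ ¬ OnPolygon B v := by
  classical
  unfold wb79CG
  rw [Finset.mem_filter]

theorem wb72_mem_FE {B Ch : Finset (ℤ × ℤ)} {e : (ℤ × ℤ) × Bool} :
    e ∈ wb79FE B Ch ↔ (e ∈ rswInt B ∧ e ∉ rswInt Ch) ∧ e.1 ∈ wb79CG B Ch ∧ rswEnd e ∈ wb79CG B Ch := by
  classical
  unfold wb79FE
  rw [Finset.mem_filter, Finset.mem_sdiff]

/-- a vertex strictly inside `B` and not strictly inside `Ch` is a corner of `B \ Ch` -/
theorem wb72_CG_of {B Ch : Finset (ℤ × ℤ)} {v : ℤ × ℤ} (hB : ¬ OnPolygon B v) (hC : OnPolygon Ch v) : v ∈ wb79CG B Ch := by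
  refine wb72_mem_CG.2 ⟨?_, hB⟩
  obtain ⟨h1, h2, h3, h4⟩ := rsk_mem_core.1 (wb72_core_iff.1 hB)
  rw [rsk_mem_corners]
  simp only [Finset.mem_sdiff]
  unfold OnPolygon at hC
  by_contra hc
  push Not at hc
  exact hC ⟨hc.1 h1, hc.2.1 h2, hc.2.2.1 h3, hc.2.2.2 h4⟩

theorem wb72_CG_poly {B Ch : Finset (ℤ × ℤ)} {v : ℤ × ℤ} (hv : v ∈ wb79CG B Ch) : OnPolygon Ch v := by
  have h := (wb72_mem_CG.1 hv).1
  rw [rsk_mem_corners] at h
  simp only [Finset.mem_sdiff] at h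
  unfold OnPolygon
  rintro ⟨h1, h2, h3, h4⟩
  rcases h with h | h | h | h
  · exact h.2 h1
  · exact h.2 h2
  · exact h.2 h3
  · exact h.2 h4

theorem wb72_poly_mono {B Ch : Finset (ℤ × ℤ)} (h : Ch ⊆ B) {v : ℤ × ℤ} (hv : OnPolygon B v) : OnPolygon Ch v := by
  unfold OnPolygon at hv ⊢
  rintro ⟨h1, h2, h3, h4⟩
  exact hv ⟨h h1, h h2, h h3, h h4⟩

theorem wb72_CG_corner {B Ch : Finset (ℤ × ℤ)} {v : ℤ × ℤ} (hv : v ∈ wb79CG B Ch) : v ∈ cornersOf B :=
  rsk_corners_mono Finset.sdiff_subset (wb72_mem_CG.1 hv).1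

/-- an endpoint strictly inside `B` of an edge which is not interior to `Ch` -/
theorem wb72_fst_CG {B Ch : Finset (ℤ × ℤ)} {e : (ℤ × ℤ) × Bool} (hC : e ∉ rswInt Ch) (h : ¬ OnPolygon B e.1) :
    e.1 ∈ wb79CG B Ch :=
  wb72_CG_of h (fun hc => hC (rsk_fst_core (rsk_mem_core.2 hc)))

theorem wb72_end_CG {B Ch : Finset (ℤ × ℤ)} {e : (ℤ × ℤ) × Bool} (hC : e ∉ rswInt Ch) (h : ¬ OnPolygon B (rswEnd e)) :
    rswEnd e ∈ wb79CG B Ch :=
  wb72_CG_of h (fun hc => hC (rsk_end_core (rsk_mem_core.2 hc)))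

theorem wb72_fst_not_CG {B Ch : Finset (ℤ × ℤ)} {e : (ℤ × ℤ) × Bool} (hB : e ∉ rswInt B) : e.1 ∉ wb79CG B Ch :=
  fun h => hB (rsk_fst_core (wb72_core_iff.1 (wb72_mem_CG.1 h).2))

theorem wb72_end_not_CG {B Ch : Finset (ℤ × ℤ)} {e : (ℤ × ℤ) × Bool} (hB : e ∉ rswInt B) : rswEnd e ∉ wb79CG B Ch :=
  fun h => hB (rsk_end_core (wb72_core_iff.1 (wb72_mem_CG.1 h).2))

/-- thickness: an interior edge of a rectangle of sides `≥ 2` has an endpoint strictly inside -/
theorem wb72_thick {x0 x1 y0 y1 : ℤ} (hx : x0 + 2 ≤ x1) (hy : y0 + 2 ≤ y1) {e : (ℤ × ℤ) × Bool}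
    (he : e ∈ rswInt (Finset.Ico x0 x1 ×ˢ Finset.Ico y0 y1)) :
    ¬ OnPolygon (Finset.Ico x0 x1 ×ˢ Finset.Ico y0 y1) e.1 ∨ ¬ OnPolygon (Finset.Ico x0 x1 ×ˢ Finset.Ico y0 y1) (rswEnd e) := by
  obtain ⟨⟨x, y⟩, c⟩ := e
  rw [rsk_mem_int] at he
  cases c
  · simp only [rswCo, rswEnd, OnPolygon, Finset.mem_product, Finset.mem_Ico, not_not, Bool.false_eq_true, if_false] at he ⊢
    omega
  · simp only [rswCo, rswEnd, OnPolygon, Finset.mem_product, Finset.mem_Ico, not_not, if_true] at he ⊢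
    omega

/-- a vertex of `CG` and a vertex on the polygon of `B` have different colours under the base atom and `Fill` -/
theorem wb72_mixed {F B Ch : Finset (ℤ × ℤ)} (G : Wb79Geo F B Ch) (b a : Bool) {ω : RswCfg}
    (hV : ∀ v ∈ mdl1aV F B, (v ∈ ω.S ↔ (v ∈ wb79PF F b a ↔ a = true)))
    (hf : ∀ v ∈ wb79CG B Ch, (v ∈ ω.S ↔ a = true)) {p q : ℤ × ℤ} (hp : p ∈ wb79CG B Ch) (hq : q ∈ cornersOf B)
    (hqB : OnPolygon B q) : ¬ (p ∈ ω.S ↔ q ∈ ω.S) := by
  intro h
  have h1 := hf p hp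
  have h2 := hV q (mdl1a_mem_V.2 ⟨wb72_corner_F G hq, hqB⟩)
  have h3 := wb72_not_PF G b a hq
  rw [h1, h2] at h
  by_cases ha : a = true
  · exact h3 ((h.1 ha).2 ha)
  · exact ha (h.2 ⟨fun h4 => absurd h4 h3, fun h4 => absurd h4 ha⟩)

/-- **the two prescriptions are equivalent on a configuration of non zero weight** -/
theorem wb72_iff {t : ℝ} {F B Ch : Finset (ℤ × ℤ)} (G : Wb79Geo F B Ch) (b a : Bool) {ω : RswCfg} (hw : rswWt t F b ω ≠ 0) :
    (mdl1aK F Ch (wb79Fil F B Ch b a)).Holds ω ↔ ((mdl1aK F B (wb79Bas F B b a)).Holds ω ∧ Wb79Fill B Ch a ω) := by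
  classical
  have hBF := wb72_B_sub G
  unfold wb79Fil wb79Bas Wb79Fill
  rw [wb72_holds_iff, wb72_holds_iff]
  constructor
  · rintro ⟨hV, hE⟩
    refine ⟨⟨fun v hv => ?_, fun e he => ?_⟩, fun v hv => ?_, fun e he => ?_⟩
    · obtain ⟨hvF, hvB⟩ := mdl1a_mem_V.1 hv
      rw [hV v (mdl1a_mem_V.2 ⟨hvF, wb72_poly_mono G.sub hvB⟩), Finset.mem_union]
      have hn : v ∉ wb79CG B Ch := fun h => (wb72_mem_CG.1 h).2 hvB
      simp only [hn, false_or]
    · obtain ⟨heF, heB⟩ := mdl1a_mem_E.1 he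
      rw [hE e (mdl1a_mem_E.2 ⟨heF, fun h => heB (rsk_int_mono G.sub h)⟩), Finset.mem_union, Finset.mem_union]
      have h1 : e ∉ wb79FE B Ch := fun h => heB (wb72_mem_FE.1 h).1.1
      simp only [h1, wb72_fst_not_CG heB, wb72_end_not_CG heB, false_or, Finset.notMem_empty]
    · rw [hV v (mdl1a_mem_V.2 ⟨wb72_corner_F G (wb72_CG_corner hv), wb72_CG_poly hv⟩), Finset.mem_union]
      simp only [hv, true_or, true_iff]
    · have h1 := (wb72_mem_FE.1 he).1
      exact (hE e (mdl1a_mem_E.2 ⟨rsk_int_mono hBF h1.1, h1.2⟩)).2 (Or.inl he)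
  · rintro ⟨⟨hV, hE⟩, hfV, hfE⟩
    refine ⟨fun v hv => ?_, fun e he => ?_⟩
    · obtain ⟨hvF, hvC⟩ := mdl1a_mem_V.1 hv
      rw [Finset.mem_union]
      by_cases hvB : OnPolygon B v
      · have hn : v ∉ wb79CG B Ch := fun h => (wb72_mem_CG.1 h).2 hvB
        rw [hV v (mdl1a_mem_V.2 ⟨hvF, hvB⟩)]
        simp only [hn, false_or]
      · have hc := wb72_CG_of hvB hvC
        rw [hfV v hc]
        simp only [hc, true_or, true_iff]
    · obtain ⟨heF, heC⟩ := mdl1a_mem_E.1 he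
      rw [Finset.mem_union, Finset.mem_union]
      by_cases heB : e ∈ rswInt B
      · by_cases hFE : e ∈ wb79FE B Ch
        · exact ⟨fun _ => Or.inl hFE, fun _ => hfE e hFE⟩
        · have hwt := ((rsb_wt_ne_zero hw).2 e heF).2.1
          obtain ⟨x0, x1, y0, y1, hx, hy, rfl⟩ := G.rect
          have hth := wb72_thick hx hy heB
          constructor
          · intro hO
            exfalso
            have hSS := hwt hO
            by_cases h1 : OnPolygon (Finset.Ico x0 x1 ×ˢ Finset.Ico y0 y1) e.1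
            · have h2 : ¬ OnPolygon (Finset.Ico x0 x1 ×ˢ Finset.Ico y0 y1) (rswEnd e) := hth.resolve_left (not_not.2 h1)
              exact wb72_mixed G b a hV hfV (wb72_end_CG heC h2) (rsk_int_fst heB) h1 hSS.symm
            · by_cases h2 : OnPolygon (Finset.Ico x0 x1 ×ˢ Finset.Ico y0 y1) (rswEnd e)
              · exact wb72_mixed G b a hV hfV (wb72_fst_CG heC h1) (rsk_int_end heB) h2 hSS
              · exact hFE (wb72_mem_FE.2 ⟨⟨heB, heC⟩, wb72_fst_CG heC h1, wb72_end_CG heC h2⟩)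
          · rintro (h | ⟨h1, h2⟩)
            · exact absurd h hFE
            · exfalso
              rcases hth with h | h
              · exact h1 (Or.inl (wb72_fst_CG heC h))
              · exact h2 (Or.inl (wb72_end_CG heC h))
      · rw [hE e (mdl1a_mem_E.2 ⟨heF, heB⟩)]
        have h1 : e ∉ wb79FE B Ch := fun h => heB (wb72_mem_FE.1 h).1.1
        simp only [h1, wb72_fst_not_CG heB, wb72_end_not_CG heB, false_or, Finset.notMem_empty]

/-- **LEAF W8** = `wb79_fill_eq` VERBATIM (the filled atom = the adverse exterior atom of `B` + the event `Fill`; mixed edges are closed because the weight vanishes otherwise). -/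
theorem wb72_fill_eq (t : ℝ) {F B Ch : Finset (ℤ × ℤ)} (G : Wb79Geo F B Ch) (b a : Bool) (Y : RswCfg → ℝ) :
    mdlSumK t F b (mdl1aK F Ch (wb79Fil F B Ch b a)) Y
      = mdlSumK t F b (mdl1aK F B (wb79Bas F B b a)) (fun ω => open Classical in if Wb79Fill B Ch a ω then Y ω else 0) := by
  classical
  unfold mdlSumK
  refine rsb_sum_congr fun ω _ hw => ?_
  have h := wb72_iff G b a hw
  by_cases h1 : (mdl1aK F Ch (wb79Fil F B Ch b a)).Holds ω
  · obtain ⟨h2, h3⟩ := h.1 h1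
    rw [if_pos h1, if_pos h2]
    exact (if_pos h3).symm
  · rw [if_neg h1]
    by_cases h2 : (mdl1aK F B (wb79Bas F B b a)).Holds ω
    · rw [if_pos h2]
      exact (if_neg (fun h3 => h1 (h.2 ⟨h2, h3⟩))).symm
    · rw [if_neg h2]

end Claimed.Agent.R292
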