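import Claimed.Agent.R292.Model.WbDefs79

/-!
# Row 292 (S0540), Model/WbAdv3 : (WB) LEAF W1 of `Model/Wb79` = `wb79_adv_le` VERBATIM (`wb3_adv_le`)      (pen helper3; prefix `wb3_`)      0 sorry

The adverse atom is below every atom with a good wall.   `wb3_atom_le` (general): an atom `wb79Atom F U a A Oa` is below `ξ` in the record `Wb79Holley` as soon as the vertices of `A` have colour `a` in `ξ`
(for `ξ` with the right colour on the polygon of `F`) and the edges of `Oa` are open in `ξ`.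
INFEASIBLE `ξ` (wrong colour on the polygon of `F`, or an open edge with two colours): every configuration of the atom has weight `0`, both sides vanish (`wb3_sum_zero`).
-/

set_option autoImplicit false

namespace Claimed.Agent.R292

open Claims Claims.C0468 Relation

/-! ## 1. colours -/

theorem wb3_not_col (p : Prop) (a : Bool) : (p ↔ (!a) = true) ↔ ¬ (p ↔ a = true) := by
  cases a <;> by_cases hp : p <;> simp [hp]

theorem wb3_col_col (p : Prop) (a : Bool) : ((p ↔ a = true) ↔ a = true) ↔ p := by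
  cases a <;> by_cases hp : p <;> simp [hp]

/-- the pins of colour `a` of an atom -/
theorem wb3_mem_PA {F U : Finset (ℤ × ℤ)} {η : Finset (ℤ × ℤ) × Finset ((ℤ × ℤ) × Bool)} (hη : η ∈ mdl1aT F U) (a : Bool)
    (v : ℤ × ℤ) : v ∈ wb79PA a (mdl1aK F U η) ↔ v ∈ mdl1aV F U ∧ (v ∈ η.1 ↔ a = true) := by
  have h1 := Finset.mem_powerset.1 (Finset.mem_product.1 hη).1
  unfold wb79PA mdl1aK
  cases a
  · simp only [Bool.false_eq_true, if_false, Finset.mem_sdiff, iff_false]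
  · simp only [if_true, iff_true]
    exact ⟨fun h => ⟨h1 h, h⟩, fun h => h.2⟩

theorem wb3_atom_fst {F U : Finset (ℤ × ℤ)} {a : Bool} {A : Finset (ℤ × ℤ)} {Oa : Finset ((ℤ × ℤ) × Bool)} {v : ℤ × ℤ} :
    v ∈ (wb79Atom F U a A Oa).1 ↔ v ∈ mdl1aV F U ∧ (v ∈ A ↔ a = true) := by
  unfold wb79Atom
  simp only [Finset.mem_filter]

theorem wb3_atom_snd {F U : Finset (ℤ × ℤ)} {a : Bool} {A : Finset (ℤ × ℤ)} {Oa : Finset ((ℤ × ℤ) × Bool)}
    {e : (ℤ × ℤ) × Bool} :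
    e ∈ (wb79Atom F U a A Oa).2 ↔ e ∈ mdl1aE F U ∧ (e ∈ Oa ∨ (e.1 ∉ A ∧ rswEnd e ∉ A)) := by
  unfold wb79Atom
  simp only [Finset.mem_filter]

/-! ## 2. infeasible atoms -/

theorem wb3_sum_zero {t : ℝ} {F : Finset (ℤ × ℤ)} {b : Bool} {K : MdlPin} (h : ∀ ω, K.Holds ω → rswWt t F b ω = 0)
    (Y : RswCfg → ℝ) : mdlSumK t F b K Y = 0 := by
  classical
  unfold mdlSumK rswSum
  refine Finset.sum_eq_zero fun S _ => Finset.sum_eq_zero fun D _ => Finset.sum_eq_zero fun O _ => ?_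
  by_cases hK : K.Holds ⟨S, D, O⟩
  · rw [h _ hK, zero_mul]
  · simp only [if_neg hK, mul_zero]

theorem wb3_wt_zero_bc {t : ℝ} {F : Finset (ℤ × ℤ)} {b : Bool} {ω : RswCfg} (h : ¬ RswBc F b ω) : rswWt t F b ω = 0 := by
  unfold rswWt
  rw [if_neg h]

theorem wb3_wt_zero_edge {t : ℝ} {F : Finset (ℤ × ℤ)} {b : Bool} {ω : RswCfg} {e : (ℤ × ℤ) × Bool} (he : e ∈ rswInt F)
    (hO : e ∈ ω.O) (hne : ¬ (e.1 ∈ ω.S ↔ rswEnd e ∈ ω.S)) : rswWt t F b ω = 0 := by
  classical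
  unfold rswWt
  split_ifs
  · refine Finset.prod_eq_zero he ?_
    unfold rswFac
    rw [if_pos hO, if_neg hne]
  · rfl

/-! ## 3. the order check -/

/-- **an atom `wb79Atom F U a A Oa` is below `ξ`** -/
theorem wb3_atom_le {t : ℝ} (HH : Wb79Holley t) {F U : Finset (ℤ × ℤ)} (hF : RswJordan F) (b a : Bool) (A : Finset (ℤ × ℤ))
    (Oa : Finset ((ℤ × ℤ) × Bool)) {ξ : Finset (ℤ × ℤ) × Finset ((ℤ × ℤ) × Bool)} (hξ : ξ ∈ mdl1aT F U)
    (hPV : ∀ v ∈ cornersOf F, OnPolygon F v → OnPolygon U v)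
    (hA : (∀ v ∈ cornersOf F, OnPolygon F v → (v ∈ ξ.1 ↔ b = true)) → ∀ v ∈ A, (v ∈ ξ.1 ↔ a = true))
    (hOa : ∀ e ∈ Oa, e ∈ ξ.2) (X : RswCfg → ℝ) (hX : MdlInc a X) :
    mdlSumK t F b (mdl1aK F U (wb79Atom F U a A Oa)) X * mdlSumK t F b (mdl1aK F U ξ) (fun _ => 1)
      ≤ mdlSumK t F b (mdl1aK F U (wb79Atom F U a A Oa)) (fun _ => 1) * mdlSumK t F b (mdl1aK F U ξ) X := by
  classical
  have hξ2 := Finset.mem_powerset.1 (Finset.mem_product.1 hξ).2
  have hadv : wb79Atom F U a A Oa ∈ mdl1aT F U := wb79_atom_mem _ _ _ _ _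
  have hU2 : (mdl1aK F U ξ).Oo ∪ (mdl1aK F U ξ).Oc = mdl1aE F U := Finset.union_sdiff_of_subset hξ2
  have hU1 : (mdl1aK F U (wb79Atom F U a A Oa)).Oo ∪ (mdl1aK F U (wb79Atom F U a A Oa)).Oc = mdl1aE F U :=
    Finset.union_sdiff_of_subset (Finset.mem_powerset.1 (Finset.mem_product.1 hadv).2)
  -- the endpoints of the exterior edges are exterior vertices
  have hEV : ∀ e ∈ mdl1aE F U, e.1 ∈ mdl1aV F U ∧ rswEnd e ∈ mdl1aV F U := by
    intro e he
    have h := mdl1a_ok hξ e (by rw [hU2]; exact he)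
    rwa [mdl1a_pins hξ] at h
  by_cases hfe : (∀ v ∈ cornersOf F, OnPolygon F v → (v ∈ ξ.1 ↔ b = true)) ∧ ∀ e ∈ ξ.2, (e.1 ∈ ξ.1 ↔ rswEnd e ∈ ξ.1)
  swap
  · -- infeasible atoms
    have hz : ∀ ω, (mdl1aK F U ξ).Holds ω → rswWt t F b ω = 0 := by
      intro ω hω
      have e := (mdl1a_holds hξ ω).1 hω
      have e1 : ∀ v ∈ mdl1aV F U, (v ∈ ξ.1 ↔ v ∈ ω.S) := by
        intro v hv
        rw [e]
        simp only [Finset.mem_inter, hv, and_true]
      have e2 : ∀ x ∈ ξ.2, x ∈ ω.O := by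
        intro x hx
        rw [e] at hx
        exact (Finset.mem_inter.1 hx).1
      rw [not_and_or] at hfe
      rcases hfe with h | h
      · refine wb3_wt_zero_bc fun hbc => h fun v hv hp => ?_
        rw [e1 v (mdl1a_mem_V.2 ⟨hv, hPV v hv hp⟩)]
        exact hbc v hv hp
      · by_contra hne
        refine h fun x hx => ?_
        by_contra hx2
        have hxE := hξ2 hx
        refine hne (wb3_wt_zero_edge (mdl1a_mem_E.1 hxE).1 (e2 x hx) ?_)
        rw [← e1 _ (hEV x hxE).1, ← e1 _ (hEV x hxE).2]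
        exact hx2
    rw [wb3_sum_zero hz, wb3_sum_zero hz, mul_zero, mul_zero]
  · obtain ⟨hf1, hf2⟩ := hfe
    have hA' := hA hf1
    -- the colours of the atom
    have hcol : ∀ v ∈ mdl1aV F U, ((v ∈ (wb79Atom F U a A Oa).1 ↔ a = true) ↔ v ∈ A) := by
      intro v hv
      rw [wb3_atom_fst]
      simp only [hv, true_and]
      exact wb3_col_col _ a
    refine HH F hF b a _ _ (mdl1a_ok hadv) (mdl1a_ok hξ) (by rw [hU1, hU2]) ?_ ?_ ?_ ?_ X hX
    · intro v hv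
      rw [wb3_mem_PA hadv] at hv
      rw [wb3_mem_PA hξ]
      exact ⟨hv.1, hA' v ((hcol v hv.1).1 hv.2)⟩
    · intro v hv
      rw [wb3_mem_PA hξ] at hv
      rw [wb3_mem_PA hadv]
      refine ⟨hv.1, (wb3_not_col _ a).2 fun h => ?_⟩
      exact (wb3_not_col _ a).1 hv.2 (hA' v ((hcol v hv.1).1 h))
    · intro e he h1 _
      have he' : e ∈ (wb79Atom F U a A Oa).2 := he
      rw [wb3_mem_PA hadv] at h1
      have hA1 : e.1 ∈ A := (hcol _ h1.1).1 h1.2
      rcases (wb3_atom_snd.1 he').2 with h | h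
      · exact hOa e h
      · exact absurd hA1 h.1
    · intro e he h1 _
      have he' : e ∈ ξ.2 := he
      rw [wb3_mem_PA hξ] at h1
      have hn1 : e.1 ∉ A := fun h => (wb3_not_col _ a).1 h1.2 (hA' _ h)
      have hn2 : rswEnd e ∉ A := fun h => (wb3_not_col _ a).1 ((hf2 e he').symm.trans h1.2) (hA' _ h)
      exact (wb3_atom_snd (a := a)).2 ⟨hξ2 he', Or.inr ⟨hn1, hn2⟩⟩

/-- **LEAF W1** = `wb79_adv_le` of `Model/Wb79` VERBATIM -/
theorem wb3_adv_le {t : ℝ} (HH : Wb79Holley t) {F B Ch : Finset (ℤ × ℤ)} (hF : RswJordan F) (G : Wb79Geo F B Ch) (b a : Bool)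
    {ξ : Finset (ℤ × ℤ) × Finset ((ℤ × ℤ) × Bool)} (hξ : ξ ∈ mdl1aT F Ch) (hw : Mdl41cWall B Ch a ⟨ξ.1, ∅, ξ.2⟩)
    (X : RswCfg → ℝ) (hX : MdlInc a X) :
    mdlSumK t F b (mdl1aK F Ch (wb79Adv F B Ch b a)) X * mdlSumK t F b (mdl1aK F Ch ξ) (fun _ => 1)
      ≤ mdlSumK t F b (mdl1aK F Ch (wb79Adv F B Ch b a)) (fun _ => 1) * mdlSumK t F b (mdl1aK F Ch ξ) X := by
  classical
  refine wb3_atom_le HH hF b a (wb79WV B Ch ∪ wb79PF F b a) (wb79W2 B Ch) hξ ?_ ?_ ?_ X hX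
  · -- a vertex strictly inside `Ch` is a corner of `B`, strictly inside `F`
    intro v _ hp hc
    exact G.inF v (rsk_corners_mono G.sub (rsk_mem_corners.2 (Or.inl hc.1))) hp
  · intro hf1 v hv
    rcases Finset.mem_union.1 hv with h | h
    · unfold wb79WV at h
      rw [Finset.mem_filter] at h
      obtain ⟨_, _, e, he, h3⟩ := h
      have hg := hw e he
      rcases h3 with rfl | rfl
      · exact hg.2.1
      · exact hg.2.2
    · unfold wb79PF at h
      split_ifs at h with hba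
      · rw [Finset.mem_filter] at h
        rw [← hba]
        exact hf1 v h.1 h.2
      · exact absurd h (Finset.notMem_empty v)
  · intro e he
    unfold wb79W2 at he
    rw [Finset.mem_filter] at he
    exact (hw e he.1).1

end Claimed.Agent.R292
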