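import Claimed.Agent.R292.Model.WbDefs79
import Claimed.Agent.R292.Model.Wb201
import Claimed.Agent.R292.Model.Wb62
import Claimed.Agent.R292.Model.WbAdv3
import Claimed.Agent.R292.Model.Wb68
import Claimed.Agent.R292.Model.Wb131
import Claimed.Agent.R292.Model.Wb139
import Claimed.Agent.R292.Model.Wb237
import Claimed.Agent.R292.Model.Wb217
import Claimed.Agent.R292.Model.Wb72
import Claimed.Agent.R292.Model.Wb63
import Claimed.Agent.R292.Model.Wb220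
import Claimed.Agent.R292.Model.Wb177
import Claimed.Agent.R292.Model.Wb165

/-!
# Row 292 (S0540), Model/Wb79 : (WB) WALL BLOCKING, THE LEAVES AND THE ASSEMBLY      (architect helper79; prefix `wb79_`)

Vocabulary and the chain: `Model/WbDefs79`.  Every leaf below was a typed contract; a pen proved it in HIS file (import `Model/WbDefs79` only) under his own prefix, verbatim, and 79 wired it here.  ALL 13 LEAVES ARE FILLED: this file has 0 sorry; `wb79_wb` owes only what `Model/Count41` + `Exit` owe (the circuit estimate).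
-/

set_option autoImplicit false

namespace Claimed.Agent.R292

open Claims Claims.C0468 Relation

/-! ## 1. THE LEAVES -/

/-- **LEAF W0** HOLLEY WITH PINS.      FILLED: `wb201_pin_holley` (201, Model/Wb201). -/
theorem wb79_holley (t : ℝ) (ht1 : 1 / 2 ≤ t) (ht2 : t < 1) : Wb79Holley t :=
  fun F hF b a K1 K2 h1 h2 hE hu hd hg1 hg2 X hX =>
    wb201_pin_holley t ht1 ht2 F hF b a K1 K2 h1 h2 ⟨hE, hu, hd, hg1, hg2⟩ X hX

/-- **LEAF W1** (order check + infeasible atoms): the adverse atom is below every atom with a good wall.      FILLED: `wb3_adv_le` (3, Model/WbAdv3). -/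
theorem wb79_adv_le {t : ℝ} (HH : Wb79Holley t) {F B Ch : Finset (ℤ × ℤ)} (hF : RswJordan F) (G : Wb79Geo F B Ch) (b a : Bool)
    {ξ : Finset (ℤ × ℤ) × Finset ((ℤ × ℤ) × Bool)} (hξ : ξ ∈ mdl1aT F Ch) (hw : Mdl41cWall B Ch a ⟨ξ.1, ∅, ξ.2⟩)
    (X : RswCfg → ℝ) (hX : MdlInc a X) :
    mdlSumK t F b (mdl1aK F Ch (wb79Adv F B Ch b a)) X * mdlSumK t F b (mdl1aK F Ch ξ) (fun _ => 1)
      ≤ mdlSumK t F b (mdl1aK F Ch (wb79Adv F B Ch b a)) (fun _ => 1) * mdlSumK t F b (mdl1aK F Ch ξ) X :=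
  wb3_adv_le HH hF G b a hξ hw X hX

/-- **LEAF W2** (Kramers-Wannier on one atom): from `mdl41_rswSum_SO`; `c = K(F) * 1[Bc] * (local factors of the exterior edges)`.      FILLED: `wb68_atom_formula` (68, Model/Wb68). -/
theorem wb79_atom_formula (t : ℝ) {F U : Finset (ℤ × ℤ)} (hF : Mdl41Conn F) (hUF : U ⊆ F) (b : Bool)
    {ξ : Finset (ℤ × ℤ) × Finset ((ℤ × ℤ) × Bool)} (hξ : ξ ∈ mdl1aT F U) :
    ∃ c : ℝ, ∀ Y : RswCfg → ℝ, Wb79In U Y →
      mdlSumK t F b (mdl1aK F U ξ) Y = c * wb79Dec t F U (ξ.1 ∩ cornersOf U) ξ.2 Y :=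
  wb68_atom_formula t hF hUF b hξ

/-- **LEAF W3** (linear algebra mod 2): restriction to `O` is a homomorphism with kernel `Evens Oe`.      FILLED: `wb62_W3` (62, Model/Wb62). -/
theorem wb79_evens_card {F U : Finset (ℤ × ℤ)} {O Oe : Finset ((ℤ × ℤ) × Bool)} (hO : O ⊆ rswInt U) (hOe : Oe ⊆ mdl1aE F U) :
    (mdl41Evens F (O ∪ Oe)).card = (mdl41Evens F Oe).card * (wb79Im F O Oe).card :=
  wb62_W3 hO hOe

/-- **LEAF W4 = (D)**: the inner wall is connected (chain form).  Exactness `mdl41_exists_D` on `B` + `mdl41c_const_on`.      FILLED: `wb131_wall_conn` (131, Model/Wb131). -/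
theorem wb79_wall_conn {F B Ch : Finset (ℤ × ℤ)} (G : Wb79Geo F B Ch) (c : (ℤ × ℤ) →₀ ZMod 2)
    (hc : ∀ v, c v ≠ 0 → v ∈ wb79WV B Ch) (h0 : mdl41Aug c = 0) :
    ∃ J : Finset ((ℤ × ℤ) × Bool), J ⊆ wb79W2 B Ch ∧ mdl41Bd (mdl41Ch J) = c :=
  wb131_wall_conn G c hc h0

/-- **LEAF W5 = (R)**: the polygon of a rectangle is connected by its own edges (chain form).      FILLED: `wb139_ring_conn` (139, Model/Wb139). -/
theorem wb79_ring_conn {x0 x1 y0 y1 : ℤ} (hx : x0 + 2 ≤ x1) (hy : y0 + 2 ≤ y1) (c : (ℤ × ℤ) →₀ ZMod 2)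
    (hc : ∀ v, c v ≠ 0 → v ∈ cornersOf (Finset.Ico x0 x1 ×ˢ Finset.Ico y0 y1) ∧ OnPolygon (Finset.Ico x0 x1 ×ˢ Finset.Ico y0 y1) v)
    (h0 : mdl41Aug c = 0) :
    ∃ J : Finset ((ℤ × ℤ) × Bool), (∀ e ∈ J, ¬ (e.1 ∈ Finset.Ico x0 x1 ×ˢ Finset.Ico y0 y1 ↔ rswCo e ∈ Finset.Ico x0 x1 ×ˢ Finset.Ico y0 y1)) ∧
      mdl41Bd (mdl41Ch J) = c :=
  wb139_ring_conn hx hy c hc h0

/-- **LEAF W6** (completability is the same in both atoms), from W4 + W5.      FILLED: `wb237_compl_iff` (237, Model/Wb237). -/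
theorem wb79_compl_iff {F B Ch : Finset (ℤ × ℤ)} (G : Wb79Geo F B Ch) (b a : Bool) {η : Finset ((ℤ × ℤ) × Bool)} (hη : η ⊆ rswInt Ch) :
    (∃ η' ⊆ (wb79Adv F B Ch b a).2, Mdl41Even F (η ∪ η')) ↔ (∃ η' ⊆ (wb79Fil F B Ch b a).2, Mdl41Even F (η ∪ η')) :=
  wb237_compl_iff wb79_wall_conn wb79_ring_conn G b a hη

/-- **LEAF W7** (the two atoms have the same contact spins): a corner of `Ch` and of `B \ Ch` strictly inside `B` is a wall vertex.      FILLED: `wb217_contact` (217, Model/Wb217). -/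
theorem wb79_contact {F B Ch : Finset (ℤ × ℤ)} (G : Wb79Geo F B Ch) (b a : Bool) :
    (wb79Adv F B Ch b a).1 ∩ cornersOf Ch = (wb79Fil F B Ch b a).1 ∩ cornersOf Ch :=
  wb217_contact G b a

/-- **LEAF W8** (the filled atom = the adverse exterior atom of `B` + the event `Fill`; mixed edges are closed because the weight vanishes otherwise).      FILLED: `wb72_fill_eq` (72, Model/Wb72). -/
theorem wb79_fill_eq (t : ℝ) {F B Ch : Finset (ℤ × ℤ)} (G : Wb79Geo F B Ch) (b a : Bool) (Y : RswCfg → ℝ) :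
    mdlSumK t F b (mdl1aK F Ch (wb79Fil F B Ch b a)) Y
      = mdlSumK t F b (mdl1aK F B (wb79Bas F B b a)) (fun ω => open Classical in if Wb79Fill B Ch a ω then Y ω else 0) :=
  wb72_fill_eq t G b a Y

/-- **LEAF W9** (finite energy): the configuration `S = ξ.1`, `D = ∅`, `O = ξ.2` has positive weight.      FILLED: `wb63_atom_pos` (63, Model/Wb63). -/
theorem wb79_atom_pos {t : ℝ} (ht0 : 0 < t) (ht2 : t < 1) {F U : Finset (ℤ × ℤ)} (hUF : U ⊆ F) (b a : Bool)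
    (A : Finset (ℤ × ℤ)) (Oa : Finset ((ℤ × ℤ) × Bool)) (hPF : ∀ v ∈ cornersOf F, OnPolygon F v → (v ∈ A ↔ b = a))
    (hOa : ∀ e ∈ Oa, e.1 ∈ A ∧ rswEnd e ∈ A) :
    0 < mdlSumK t F b (mdl1aK F U (wb79Atom F U a A Oa)) (fun _ => 1) :=
  wb63_atom_pos ht0 ht2 hUF b a A Oa hPF hOa

/-- **LEAF W10** (the observables).      FILLED: the six `wb220_*` (220, Model/Wb220). -/
theorem wb79_fill_inc (B Ch : Finset (ℤ × ℤ)) (a : Bool) :
    MdlInc a (fun ω => open Classical in if Wb79Fill B Ch a ω then (1 : ℝ) else 0) :=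
  wb220_fill_inc B Ch a

theorem wb79_A_inc (P : Finset (ℤ × ℤ)) (a : Bool) (Bot Top : Finset (ℤ × ℤ)) :
    MdlInc a (fun ω => open Classical in if Wb79A P a Bot Top ω then (1 : ℝ) else 0) :=
  wb220_A_inc P a Bot Top

theorem wb79_A_in {P U : Finset (ℤ × ℤ)} (hP : P ⊆ U) (a : Bool) (Bot Top : Finset (ℤ × ℤ)) :
    Wb79In U (fun ω => open Classical in if Wb79A P a Bot Top ω then (1 : ℝ) else 0) :=
  wb220_A_in hP a Bot Top

theorem wb79_A_nox {P : Finset (ℤ × ℤ)} {a : Bool} {Bot Top : Finset (ℤ × ℤ)} {ω : RswCfg} (h : Wb79A P a Bot Top ω) :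
    Mdl41cNoX P Bot Top ω :=
  wb220_A_nox h

theorem wb79_Q_inc (F : Finset (ℤ × ℤ)) (a : Bool) (Cs : Finset (ℤ × ℤ)) (r R : ℕ) :
    MdlInc a (fun ω => open Classical in if (∀ x ∈ Cs, RswSep F a ω (rswBox x r) (F \ rswBox x R)) then (1 : ℝ) else 0) :=
  wb220_Q_inc F a Cs r R

theorem wb79_Q_A {F Rc P Bot Top Cs : Finset (ℤ × ℤ)} {r R : ℕ} (hcov : Wb79Cov Rc Bot Top Cs r R) (hP : P ⊆ Rc) (hPF : P ⊆ F)
    {a : Bool} {ω : RswCfg} (h : ∀ x ∈ Cs, RswSep F a ω (rswBox x r) (F \ rswBox x R)) : Wb79A P a Bot Top ω :=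
  wb220_Q_A hcov hP hPF h

/-- **LEAF W11** (geometry of the four frames, 1): the extended rectangle is a rectangle.      FILLED: `mdl41c_B_rect` (41, Count41 v5). -/
theorem wb79_geo_rect (z : ℤ × ℤ) {r0 r1 : ℕ} (hr : r0 + 2 ≤ r1) {w : ℕ} (hw : 1 ≤ w) (d : Fin 4) :
    ∃ x0 x1 y0 y1 : ℤ, x0 + 2 ≤ x1 ∧ y0 + 2 ≤ y1 ∧ mdl41cB z r0 r1 w d = Finset.Ico x0 x1 ×ˢ Finset.Ico y0 y1 := by
  obtain ⟨x0, x1, y0, y1, h, hx, hy, _⟩ := mdl41c_B_rect z hr hw d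
  exact ⟨x0, x1, y0, y1, hx, hy, h⟩

/-- **LEAF W12** (geometry, 2): with lateral width `n / 2` the closed rectangle is strictly inside the box of radius `(k + 2) n`.      FILLED: text of `wb177_geo_in` (177, Model/Wb177) at width `n / 2`. -/
theorem wb79_geo_in (z : ℤ × ℤ) (k n : ℕ) (hn : 1 ≤ n) (d : Fin 4) :
    ∀ v ∈ cornersOf (mdl41cB z (k * n) ((k + 1) * n) (n / 2) d), ¬ OnPolygon (rswBox z ((k + 2) * n)) v := by
  intro v hv
  have h1 : (k + 1) * n = k * n + n := by ring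
  have h2 : (k + 2) * n = k * n + 2 * n := by ring
  rw [h1] at hv
  rw [h2]
  have hw : n / 2 ≤ n - 1 := by omega
  generalize n / 2 = w at hv hw
  generalize k * n = a at hv ⊢
  unfold cornersOf at hv
  obtain ⟨f, hf, hvf⟩ := Finset.mem_biUnion.1 hv
  rw [wb177_mem_B z (by omega : a ≤ a + n)] at hf
  push_cast at hf
  have hv' : (v.1 = f.1 ∨ v.1 = f.1 + 1) ∧ (v.2 = f.2 ∨ v.2 = f.2 + 1) := by
    simp only [Finset.mem_insert, Finset.mem_singleton] at hvf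
    rcases hvf with rfl | rfl | rfl | rfl <;> simp
  unfold OnPolygon
  rw [not_not]
  unfold rswBox
  rw [mdl41c_mem_rect, mdl41c_mem_rect, mdl41c_mem_rect, mdl41c_mem_rect]
  push_cast
  omega

/-- **LEAF W13** (geometry, 3): the chain of boxes on the middle row: `r = n / (8 κ)`, `R = κ r`, centres on the middle row of `R` at distance `r`.      FILLED: `wb165_geo_cov` (165, Model/Wb165). -/
theorem wb79_geo_cov (κ k : ℕ) (hκ : 2 ≤ κ) : ∃ M : ℕ, ∀ n : ℕ, 8 * κ ≤ n → ∀ (z : ℤ × ℤ) (d : Fin 4), ∃ Cs : Finset (ℤ × ℤ), Cs.card ≤ M ∧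
    (∀ x ∈ Cs, ∀ v ∈ cornersOf (rswBox x (κ * (n / (8 * κ)))), ¬ OnPolygon (mdl41cB z (k * n) ((k + 1) * n) (n / 2) d) v) ∧
    Wb79Cov (mdl41cR z (k * n) ((k + 1) * n) d) ((Finset.range (2 * ((k + 1) * n))).image (mdl41cSeed z (k * n) ((k + 1) * n) d))
      (mdl41cTop z (k * n) ((k + 1) * n) d) Cs (n / (8 * κ)) (κ * (n / (8 * κ))) :=
  wb165_geo_cov κ k hκ

/-! ## 2. THE ASSEMBLY (79) -/

theorem wb79_sub_of_in {F B : Finset (ℤ × ℤ)} (hin : ∀ v ∈ cornersOf B, ¬ OnPolygon F v) : B ⊆ F := by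
  intro f hf
  have h := hin f (rsz_face_corner hf)
  unfold OnPolygon at h
  rw [not_not] at h
  exact h.1

open Classical in
/-- summation over the atoms on which `H` holds -/
theorem wb79_sum_atoms {t : ℝ} (F : Finset (ℤ × ℤ)) (b : Bool) {U : Finset (ℤ × ℤ)} {H : RswCfg → Prop} (hH : MdlExt U H)
    {Q : RswCfg → Prop} {p : ℝ}
    (h : ∀ ξ ∈ mdl1aT F U, H ⟨ξ.1, ∅, ξ.2⟩ → p * mdlSumK t F b (mdl1aK F U ξ) (fun _ => 1)
      ≤ mdlSumK t F b (mdl1aK F U ξ) (fun ω => if Q ω then 1 else 0)) :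
    p * rswSum t F b (fun ω => if H ω then 1 else 0) ≤ rswSum t F b (fun ω => if H ω ∧ Q ω then 1 else 0) := by
  have e : (fun ω => if H ω ∧ Q ω then (1 : ℝ) else 0) = fun ω => if H ω then (if Q ω then (1 : ℝ) else 0) else 0 := by
    funext ω
    by_cases h1 : H ω <;> by_cases h2 : Q ω <;> simp [h1, h2]
  rw [e, mdl1a_atoms t F b U, mdl1a_atoms t F b U, Finset.mul_sum]
  refine Finset.sum_le_sum fun ξ hξ => ?_
  rw [mdl1a_ext t F b hH hξ, mdl1a_ext t F b hH hξ]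
  split_ifs with hh
  · exact h ξ hξ hh
  · rw [mul_zero]

theorem wb79_evens_pos (F : Finset (ℤ × ℤ)) (Oe : Finset ((ℤ × ℤ) × Bool)) : 0 < (mdl41Evens F Oe).card := by
  refine Finset.card_pos.2 ⟨∅, mdl41_mem_evens.2 ⟨Finset.empty_subset _, fun v _ => ?_⟩⟩
  have : mdl41Ch ∅ = 0 := by
    ext e
    rw [mdl41_ch_apply]
    simp
  rw [this, map_zero]
  rfl

/-- the two inner sums are proportional -/
theorem wb79_dec_prop (t : ℝ) {F B Ch : Finset (ℤ × ℤ)} (G : Wb79Geo F B Ch) (b a : Bool) (σ : Finset (ℤ × ℤ)) (Y : RswCfg → ℝ) :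
    ((mdl41Evens F (wb79Fil F B Ch b a).2).card : ℝ) * wb79Dec t F Ch σ (wb79Adv F B Ch b a).2 Y
      = ((mdl41Evens F (wb79Adv F B Ch b a).2).card : ℝ) * wb79Dec t F Ch σ (wb79Fil F B Ch b a).2 Y := by
  classical
  have hA : (wb79Adv F B Ch b a).2 ⊆ mdl1aE F Ch :=
    Finset.mem_powerset.1 (Finset.mem_product.1 (wb79_atom_mem F Ch a _ _)).2
  have hB : (wb79Fil F B Ch b a).2 ⊆ mdl1aE F Ch :=
    Finset.mem_powerset.1 (Finset.mem_product.1 (wb79_atom_mem F Ch a _ _)).2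
  unfold wb79Dec
  rw [Finset.mul_sum, Finset.mul_sum]
  refine Finset.sum_congr rfl fun S _ => ?_
  rw [Finset.mul_sum, Finset.mul_sum]
  refine Finset.sum_congr rfl fun O hO => ?_
  have hO' := Finset.mem_powerset.1 hO
  have hIm : wb79Im F O (wb79Adv F B Ch b a).2 = wb79Im F O (wb79Fil F B Ch b a).2 := by
    unfold wb79Im
    refine Finset.filter_congr fun η hη => ?_
    exact wb79_compl_iff G b a ((Finset.mem_powerset.1 hη).trans hO')
  rw [wb79_evens_card hO' hA, wb79_evens_card hO' hB, hIm]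
  push_cast
  ring

/-- **(2) EQUALITY** of the normalised laws of the adverse and of the filled atom on the observables of the chamber -/
theorem wb79_eq (t : ℝ) {F B Ch : Finset (ℤ × ℤ)} (hF : Mdl41Conn F) (G : Wb79Geo F B Ch) (b a : Bool) (Y : RswCfg → ℝ)
    (hY : Wb79In Ch Y) :
    mdlSumK t F b (mdl1aK F Ch (wb79Adv F B Ch b a)) Y * mdlSumK t F b (mdl1aK F Ch (wb79Fil F B Ch b a)) (fun _ => 1)
      = mdlSumK t F b (mdl1aK F Ch (wb79Fil F B Ch b a)) Y * mdlSumK t F b (mdl1aK F Ch (wb79Adv F B Ch b a)) (fun _ => 1) := by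
  have hChF : Ch ⊆ F := G.sub.trans (wb79_sub_of_in G.inF)
  obtain ⟨c1, h1⟩ := wb79_atom_formula t hF hChF b (wb79_atom_mem F Ch a (wb79WV B Ch ∪ wb79PF F b a) (wb79W2 B Ch))
  obtain ⟨c2, h2⟩ := wb79_atom_formula t hF hChF b (wb79_atom_mem F Ch a (wb79CG B Ch ∪ wb79PF F b a) (wb79FE B Ch))
  have h1' : ∀ Y, Wb79In Ch Y → mdlSumK t F b (mdl1aK F Ch (wb79Adv F B Ch b a)) Y
      = c1 * wb79Dec t F Ch ((wb79Adv F B Ch b a).1 ∩ cornersOf Ch) (wb79Adv F B Ch b a).2 Y := h1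
  have h2' : ∀ Y, Wb79In Ch Y → mdlSumK t F b (mdl1aK F Ch (wb79Fil F B Ch b a)) Y
      = c2 * wb79Dec t F Ch ((wb79Fil F B Ch b a).1 ∩ cornersOf Ch) (wb79Fil F B Ch b a).2 Y := h2
  have hone : Wb79In Ch (fun _ => (1 : ℝ)) := fun _ _ _ _ => rfl
  rw [h1' Y hY, h1' _ hone, h2' Y hY, h2' _ hone, ← wb79_contact G b a]
  set σ := (wb79Adv F B Ch b a).1 ∩ cornersOf Ch
  have p1 := wb79_dec_prop t G b a σ Y
  have p2 := wb79_dec_prop t G b a σ (fun _ => 1)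
  have hn : ((mdl41Evens F (wb79Fil F B Ch b a).2).card : ℝ) ≠ 0 := by
    have := wb79_evens_pos F (wb79Fil F B Ch b a).2
    positivity
  set n2 := ((mdl41Evens F (wb79Fil F B Ch b a).2).card : ℝ)
  set n1 := ((mdl41Evens F (wb79Adv F B Ch b a).2).card : ℝ)
  apply mul_left_cancel₀ hn
  calc n2 * (c1 * wb79Dec t F Ch σ (wb79Adv F B Ch b a).2 Y * (c2 * wb79Dec t F Ch σ (wb79Fil F B Ch b a).2 fun _ => 1))
      = c1 * c2 * (n2 * wb79Dec t F Ch σ (wb79Adv F B Ch b a).2 Y) * wb79Dec t F Ch σ (wb79Fil F B Ch b a).2 (fun _ => 1) := by ring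
    _ = c1 * c2 * wb79Dec t F Ch σ (wb79Fil F B Ch b a).2 Y * (n1 * wb79Dec t F Ch σ (wb79Fil F B Ch b a).2 (fun _ => 1)) := by
        rw [p1]; ring
    _ = c1 * c2 * wb79Dec t F Ch σ (wb79Fil F B Ch b a).2 Y * (n2 * wb79Dec t F Ch σ (wb79Adv F B Ch b a).2 (fun _ => 1)) := by
        rw [p2]
    _ = _ := by ring

open Classical in
/-- **(3) + (4)**: under the filled atom the chamber is blocked with probability `≥ p ^ card Cs` -/
theorem wb79_fill_bound {t : ℝ} (ht1 : 1 / 2 ≤ t) (ht2 : t < 1) {F B Ch : Finset (ℤ × ℤ)} (hF : RswJordan F) (G : Wb79Geo F B Ch)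
    (b a : Bool) (Cs : Finset (ℤ × ℤ)) {r R : ℕ} (hrR : r ≤ R)
    (hcore : ∀ x ∈ Cs, ∀ v ∈ cornersOf (rswBox x R), ¬ OnPolygon B v) {p : ℝ} (hp : 0 ≤ p)
    (hcirc : ∀ x ∈ Cs, p ≤ rswP t (rswBox x R) (!a)
      (fun ω => RswSep (rswBox x R) a ω (rswBox x r) (rswLayer (rswBox x R))))
    {Rc Bot Top : Finset (ℤ × ℤ)} (hcov : Wb79Cov Rc Bot Top Cs r R) :
    p ^ Cs.card * mdlSumK t F b (mdl1aK F Ch (wb79Fil F B Ch b a)) (fun _ => 1)
      ≤ mdlSumK t F b (mdl1aK F Ch (wb79Fil F B Ch b a)) (fun ω => if Wb79A (Ch ∩ Rc) a Bot Top ω then 1 else 0) := by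
  have ht0 : 0 < t := by linarith
  have hBF : B ⊆ F := wb79_sub_of_in G.inF
  have hmem := wb79_atom_mem F B a (wb79PF F b a) ∅
  set K := mdl1aK F B (wb79Bas F B b a) with hKdef
  have hK : K.Ok := mdl1a_ok hmem
  have hfkg : MdlFkgAt t F b a K := fun X Y hX hY => cmp291_exit_cmp t ht1 ht2 F hF b a K hK X Y hX hY
  have h1 := mdl1_atom ht0 ht2 hBF b a hK hfkg
    (fun v hv => by
      have := mdl1a_pins hmem
      rw [hKdef] at hv
      unfold wb79Bas at hv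
      rw [this] at hv
      exact (mdl1a_mem_V.1 hv).2) Cs hrR
    (fun x hx => (wb79_sub_of_in (hcore x hx)).trans hBF) hcore hp hcirc
    (Q := fun ω => ∀ x ∈ Cs, RswSep F a ω (rswBox x r) (F \ rswBox x R)) (fun ω h => h)
  have h1 : p ^ Cs.card * mdlSumK t F b K (fun _ => 1)
      ≤ mdlSumK t F b K (fun ω => if (∀ x ∈ Cs, RswSep F a ω (rswBox x r) (F \ rswBox x R)) then (1 : ℝ) else 0) := by
    convert h1
  have key := hfkg _ _ (wb79_fill_inc B Ch a) (wb79_Q_inc F a Cs r R)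
  have hZ : 0 ≤ mdlSumK t F b K (fun _ => 1) := mdl1_sumK_nonneg ht0.le ht2.le F b K (fun _ => zero_le_one)
  have hFl : 0 ≤ mdlSumK t F b K (fun ω => if Wb79Fill B Ch a ω then (1 : ℝ) else 0) :=
    mdl1_sumK_nonneg ht0.le ht2.le F b K (fun ω => by split_ifs <;> norm_num)
  rw [wb79_fill_eq t G b a, wb79_fill_eq t G b a]
  have hmono : mdlSumK t F b K (fun ω => (if Wb79Fill B Ch a ω then (1 : ℝ) else 0) *
        (if (∀ x ∈ Cs, RswSep F a ω (rswBox x r) (F \ rswBox x R)) then (1 : ℝ) else 0))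
      ≤ mdlSumK t F b K (fun ω => if Wb79Fill B Ch a ω then (if Wb79A (Ch ∩ Rc) a Bot Top ω then (1 : ℝ) else 0) else 0) := by
    refine mdl1_sumK_mono ht0.le ht2.le F b K fun ω => ?_
    by_cases hf : Wb79Fill B Ch a ω
    · rw [if_pos hf, if_pos hf, one_mul]
      by_cases hq : ∀ x ∈ Cs, RswSep F a ω (rswBox x r) (F \ rswBox x R)
      · rw [if_pos hq, if_pos (wb79_Q_A hcov Finset.inter_subset_right
          (Finset.inter_subset_left.trans (G.sub.trans hBF)) hq)]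
      · rw [if_neg hq]
        split_ifs <;> norm_num
    · rw [if_neg hf, if_neg hf, zero_mul]
  refine le_trans ?_ hmono
  rcases hZ.eq_or_lt with h0 | h0
  · rw [mdl_sumK_zero ht0.le ht2.le h0.symm, mdl_sumK_zero ht0.le ht2.le h0.symm, mul_zero]
  · have h2 : mdlSumK t F b K (fun _ => 1) * (p ^ Cs.card * mdlSumK t F b K (fun ω => if Wb79Fill B Ch a ω then (1 : ℝ) else 0))
        ≤ mdlSumK t F b K (fun _ => 1) * mdlSumK t F b K (fun ω => (if Wb79Fill B Ch a ω then (1 : ℝ) else 0) *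
          (if (∀ x ∈ Cs, RswSep F a ω (rswBox x r) (F \ rswBox x R)) then (1 : ℝ) else 0)) := by
      calc _ = mdlSumK t F b K (fun ω => if Wb79Fill B Ch a ω then (1 : ℝ) else 0) * (p ^ Cs.card * mdlSumK t F b K (fun _ => 1)) := by ring
        _ ≤ mdlSumK t F b K (fun ω => if Wb79Fill B Ch a ω then (1 : ℝ) else 0) *
            mdlSumK t F b K (fun ω => if (∀ x ∈ Cs, RswSep F a ω (rswBox x r) (F \ rswBox x R)) then (1 : ℝ) else 0) :=
          mul_le_mul_of_nonneg_left h1 hFl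
        _ ≤ _ := key
    exact le_of_mul_le_mul_left h2 h0

theorem wb79_pf_iff {F : Finset (ℤ × ℤ)} (b a : Bool) {v : ℤ × ℤ} (hv : v ∈ cornersOf F) (hp : OnPolygon F v) :
    v ∈ wb79PF F b a ↔ b = a := by
  classical
  unfold wb79PF
  by_cases h : b = a
  · rw [if_pos h]
    exact ⟨fun _ => h, fun _ => Finset.mem_filter.2 ⟨hv, hp⟩⟩
  · rw [if_neg h]
    simp [h]

theorem wb79_adv_pos {t : ℝ} (ht0 : 0 < t) (ht2 : t < 1) {F B Ch : Finset (ℤ × ℤ)} (G : Wb79Geo F B Ch) (b a : Bool) :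
    0 < mdlSumK t F b (mdl1aK F Ch (wb79Adv F B Ch b a)) (fun _ => 1) := by
  classical
  refine wb79_atom_pos ht0 ht2 (G.sub.trans (wb79_sub_of_in G.inF)) b a _ _ (fun v hv hp => ?_) (fun e he => ?_)
  · rw [Finset.mem_union, wb79_pf_iff b a hv hp]
    refine ⟨fun h => h.resolve_left fun h' => ?_, Or.inr⟩
    exact G.inF v (Finset.mem_filter.1 h').1 hp
  · obtain ⟨h1, h2, h3⟩ := Finset.mem_filter.1 he
    have hi := (mdl41_mem_disSet.1 h1).1
    exact ⟨Finset.mem_union_left _ (Finset.mem_filter.2 ⟨rsk_int_fst hi, h2, e, h1, Or.inl rfl⟩),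
      Finset.mem_union_left _ (Finset.mem_filter.2 ⟨rsk_int_end hi, h3, e, h1, Or.inr rfl⟩)⟩

theorem wb79_corners_mono {A B : Finset (ℤ × ℤ)} (h : A ⊆ B) : cornersOf A ⊆ cornersOf B := by
  unfold cornersOf
  exact Finset.biUnion_subset_biUnion_of_subset_left _ h

theorem wb79_fil_pos {t : ℝ} (ht0 : 0 < t) (ht2 : t < 1) {F B Ch : Finset (ℤ × ℤ)} (G : Wb79Geo F B Ch) (b a : Bool) :
    0 < mdlSumK t F b (mdl1aK F Ch (wb79Fil F B Ch b a)) (fun _ => 1) := by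
  classical
  refine wb79_atom_pos ht0 ht2 (G.sub.trans (wb79_sub_of_in G.inF)) b a _ _ (fun v hv hp => ?_) (fun e he => ?_)
  · rw [Finset.mem_union, wb79_pf_iff b a hv hp]
    refine ⟨fun h => h.resolve_left fun h' => ?_, Or.inr⟩
    exact G.inF v (wb79_corners_mono Finset.sdiff_subset (Finset.mem_filter.1 h').1) hp
  · obtain ⟨_, h2, h3⟩ := Finset.mem_filter.1 he
    exact ⟨Finset.mem_union_left _ h2, Finset.mem_union_left _ h3⟩

open Classical in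
/-- **the chain on one atom** -/
theorem wb79_core_atom {t : ℝ} (ht1 : 1 / 2 ≤ t) (ht2 : t < 1) (HH : Wb79Holley t) {F B Ch : Finset (ℤ × ℤ)} (hF : RswJordan F)
    (G : Wb79Geo F B Ch) (b a : Bool) (Cs : Finset (ℤ × ℤ)) {r R : ℕ} (hrR : r ≤ R)
    (hcore : ∀ x ∈ Cs, ∀ v ∈ cornersOf (rswBox x R), ¬ OnPolygon B v) {p : ℝ} (hp : 0 ≤ p)
    (hcirc : ∀ x ∈ Cs, p ≤ rswP t (rswBox x R) (!a)
      (fun ω => RswSep (rswBox x R) a ω (rswBox x r) (rswLayer (rswBox x R))))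
    {Rc Bot Top : Finset (ℤ × ℤ)} (hcov : Wb79Cov Rc Bot Top Cs r R)
    {ξ : Finset (ℤ × ℤ) × Finset ((ℤ × ℤ) × Bool)} (hξ : ξ ∈ mdl1aT F Ch) (hw : Mdl41cWall B Ch a ⟨ξ.1, ∅, ξ.2⟩) :
    p ^ Cs.card * mdlSumK t F b (mdl1aK F Ch ξ) (fun _ => 1)
      ≤ mdlSumK t F b (mdl1aK F Ch ξ) (fun ω => if Mdl41cNoX (Ch ∩ Rc) Bot Top ω then 1 else 0) := by
  have ht0 : 0 < t := by linarith
  set X : RswCfg → ℝ := fun ω => if Wb79A (Ch ∩ Rc) a Bot Top ω then 1 else 0 with hX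
  set q := p ^ Cs.card
  have a1 := wb79_adv_le HH hF G b a hξ hw X (wb79_A_inc _ a Bot Top)
  have a2 := wb79_eq t (mdl41_conn_of_jordan hF) G b a X (wb79_A_in Finset.inter_subset_left a Bot Top)
  have a3 : q * _ ≤ _ := wb79_fill_bound ht1 ht2 hF G b a Cs hrR hcore hp hcirc hcov
  have p1 := wb79_adv_pos ht0 ht2 G b a
  have p2 := wb79_fil_pos ht0 ht2 G b a
  have hZ : 0 ≤ mdlSumK t F b (mdl1aK F Ch ξ) (fun _ => 1) := mdl1_sumK_nonneg ht0.le ht2.le F b _ (fun _ => zero_le_one)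
  set Za1 := mdlSumK t F b (mdl1aK F Ch (wb79Adv F B Ch b a)) (fun _ => 1)
  set ZaX := mdlSumK t F b (mdl1aK F Ch (wb79Adv F B Ch b a)) X
  set Zf1 := mdlSumK t F b (mdl1aK F Ch (wb79Fil F B Ch b a)) (fun _ => 1)
  set ZfX := mdlSumK t F b (mdl1aK F Ch (wb79Fil F B Ch b a)) X
  have b1 : q * Za1 ≤ ZaX := by
    have : Zf1 * (q * Za1) ≤ Zf1 * ZaX := by
      calc Zf1 * (q * Za1) = (q * Zf1) * Za1 := by ring
        _ ≤ ZfX * Za1 := mul_le_mul_of_nonneg_right a3 p1.le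
        _ = ZaX * Zf1 := a2.symm
        _ = Zf1 * ZaX := by ring
    exact le_of_mul_le_mul_left this p2
  have b2 : q * mdlSumK t F b (mdl1aK F Ch ξ) (fun _ => 1) ≤ mdlSumK t F b (mdl1aK F Ch ξ) X := by
    have : Za1 * (q * mdlSumK t F b (mdl1aK F Ch ξ) (fun _ => 1)) ≤ Za1 * mdlSumK t F b (mdl1aK F Ch ξ) X := by
      calc Za1 * (q * mdlSumK t F b (mdl1aK F Ch ξ) (fun _ => 1)) = (q * Za1) * mdlSumK t F b (mdl1aK F Ch ξ) (fun _ => 1) := by ring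
        _ ≤ ZaX * mdlSumK t F b (mdl1aK F Ch ξ) (fun _ => 1) := mul_le_mul_of_nonneg_right b1 hZ
        _ ≤ _ := a1
    exact le_of_mul_le_mul_left this p1
  refine le_trans b2 (mdl1_sumK_mono ht0.le ht2.le F b _ fun ω => ?_)
  rw [hX]
  by_cases h : Wb79A (Ch ∩ Rc) a Bot Top ω
  · simp only [if_pos h, if_pos (wb79_A_nox h), le_refl]
  · simp only [if_neg h]
    split_ifs <;> norm_num

/-- **(WB) AT ONE PROBLEM** -/
theorem wb79_core {t : ℝ} (ht1 : 1 / 2 ≤ t) (ht2 : t < 1) (HH : Wb79Holley t) {F B Bf Rc LE RE Bot Top : Finset (ℤ × ℤ)} (hF : RswJordan F)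
    (b : Bool) (hBf : B ⊆ Bf) (hrect : ∃ x0 x1 y0 y1 : ℤ, x0 + 2 ≤ x1 ∧ y0 + 2 ≤ y1 ∧ B = Finset.Ico x0 x1 ×ˢ Finset.Ico y0 y1)
    (hconn : Mdl41Conn B) (hin : ∀ v ∈ cornersOf B, ¬ OnPolygon F v)
    (Cs : Finset (ℤ × ℤ)) {r R : ℕ} (hrR : r ≤ R)
    (hcore : ∀ x ∈ Cs, ∀ v ∈ cornersOf (rswBox x R), ¬ OnPolygon B v) {p : ℝ} (hp : 0 ≤ p)
    (hcirc : ∀ x ∈ Cs, ∀ a : Bool, p ≤ rswP t (rswBox x R) (!a)
      (fun ω => RswSep (rswBox x R) a ω (rswBox x r) (rswLayer (rswBox x R))))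
    (hcov : Wb79Cov Rc Bot Top Cs r R) :
    Mdl41cWBat t F b (p ^ Cs.card) Rc B Bf LE RE Bot Top := by
  classical
  have ht0 : 0 < t := by linarith
  intro Ch a H _ hChB _ hcC hcG hH0 hwall
  have hH : MdlExt Ch H := mdl41c_ext_mono (fun f hf => Finset.mem_sdiff.2 ⟨hBf (hChB hf), fun h => (Finset.mem_sdiff.1 h).2 hf⟩) hH0
  have G : Wb79Geo F B Ch := ⟨hrect, hconn, hin, hChB, hcC, hcG⟩
  have hfin := wb79_sum_atoms (t := t) F b hH (Q := fun ω => Mdl41cNoX (Ch ∩ Rc) Bot Top ω) (p := p ^ Cs.card)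
    (fun ξ hξ hh => wb79_core_atom ht1 ht2 HH hF G b a Cs hrR hcore hp (fun x hx => hcirc x hx a) hcov hξ (hwall _ hh))
  unfold rswP rswE
  rw [← mul_div_assoc]
  refine div_le_div_of_nonneg_right (le_trans hfin (le_of_eq ?_)) (rsk_sum_one_pos ht0 ht2.le F b).le
  congr 1
  funext ω
  congr

/-- **(WB)** from Holley with pins, (PL0) and the circuit estimate -/
theorem wb79_wb_of {t : ℝ} (ht1 : 1 / 2 ≤ t) (ht2 : t < 1) (HH : Wb79Holley t) (hM : Mdl41cMeet)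
    (hcirc : ∃ (κ n0 : ℕ) (p : ℝ), 2 ≤ κ ∧ 0 < p ∧ ∀ n : ℕ, n0 ≤ n → ∀ (x : ℤ × ℤ) (a : Bool),
      p ≤ rswP t (rswBox x (κ * n)) (!a)
        (fun ω => RswSep (rswBox x (κ * n)) a ω (rswBox x n) (rswLayer (rswBox x (κ * n))))) : Mdl41cWB t := by
  have ht0 : 0 < t := by linarith
  intro k
  obtain ⟨κ, n0', p0, hκ, hp0, hc⟩ := hcirc
  obtain ⟨M, hMc⟩ := wb79_geo_cov κ k hκ
  have hp1 : 0 < min p0 1 := lt_min hp0 one_pos
  refine ⟨(min p0 1) ^ M, pow_pos hp1 _, 8 * κ * (n0' + 1), ?_⟩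
  intro n hn F z b d hF hbox
  have h8κ : 0 < 8 * κ := by omega
  have hn8 : 8 * κ ≤ n := le_trans (Nat.le_mul_of_pos_right _ (by omega)) hn
  have hn16 : 16 ≤ n := by omega
  have hr1 : n0' + 1 ≤ n / (8 * κ) := (Nat.le_div_iff_mul_le h8κ).2 (by rw [mul_comm]; exact hn)
  obtain ⟨Cs, hcard, hcore, hcov⟩ := hMc n hn8 z d
  have e1 : (k + 1) * n = k * n + n := by ring
  have hr : k * n < (k + 1) * n := by omega
  have hBsub : mdl41cB z (k * n) ((k + 1) * n) (n / 2) d ⊆ rswBox z ((k + 2) * n) :=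
    wb79_sub_of_in (wb79_geo_in z k n (by omega) d)
  have hcoreW := wb79_core ht1 ht2 HH (LE := mdl41cLE z (k * n) ((k + 1) * n) (n / 2) d)
    (RE := mdl41cRE z (k * n) ((k + 1) * n) (n / 2) d) hF b hBsub
    (wb79_geo_rect z (r0 := k * n) (r1 := (k + 1) * n) (by omega) (w := n / 2) (by omega) d)
    (mdl41c_geo_shell hM z hr (w := n / 2) (by omega) d).conn
    (fun v hv => mdl1_poly_mono hbox (wb79_geo_in z k n (by omega) d v hv))
    Cs (r := n / (8 * κ)) (R := κ * (n / (8 * κ))) (Nat.le_mul_of_pos_left _ (by omega)) hcore hp1.le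
    (fun x _ a => le_trans (min_le_left _ _) (hc (n / (8 * κ)) (by omega) x a)) hcov
  exact mdl41c_wbat_mono ht0.le ht2.le (pow_le_pow_of_le_one hp1.le (min_le_right _ _) hcard) hcoreW

/-- **(WB)** = the record `Mdl41cWB t` of `Model/Count41` v5 VERBATIM: closure = the leaves above + `exit_rsw_circuit` -/
theorem wb79_wb (t : ℝ) (ht1 : 1 / 2 ≤ t) (ht2 : t < 1) : Mdl41cWB t :=
  wb79_wb_of ht1 ht2 (wb79_holley t ht1 ht2)
    (fun _ _ _ _ _ _ hP hP' _ _ _ _ hf hf0 hg h hf' hf0' hg' h' => cnt101_meet hP hP' hf hf0 hg h hf' hf0' hg' h')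
    (mdl1t_circuit t ht1 ht2)

end Claimed.Agent.R292
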