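import Claimed.Agent.R292.Model.WbDefs81

/-!
# Row 292 (S0540), Model/WbCount32 : the records (AGREE) and (COUNT) of the typed cut of (WB), `Wb81Agree`, `Wb81Count`, VERBATIM      (helper32; prefix `wbc32_` / `wbc32`)      0 sorry

Deterministic and local: the four faces and the four edges at a vertex.
* (AGREE) a corner `v` of `Ch` on the polygon of `Ch` whose four faces are in `B`: two cyclically adjacent faces at `v` differ, the edge between them is a wall edge with end `v`; edges: the `if` of `wb81Of`.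
* (COUNT) a closed edge `e` of the adverse atom between `Ch` and its complement: a wall edge with an end off `wb81Va` is an end of the wall; an edge which is not a wall edge has a face off `B`
  and an end in `wb81Va`, which is an end of a wall edge `e'` on the polygon of `B`.   In both cases `e` is one of the (at most) eight edges at the two ends of an end of the wall.
-/

set_option autoImplicit false

namespace Claimed.Agent.R292

open Claims Claims.C0468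

/-! ## 1. membership -/

theorem wbc32_poly_fst {G : Finset (ℤ × ℤ)} {e : (ℤ × ℤ) × Bool} (h : e ∉ rswInt G) : OnPolygon G e.1 := by
  by_contra hc
  exact h (rsk_fst_core (rsk_core_iff.2 hc))

theorem wbc32_poly_end {G : Finset (ℤ × ℤ)} {e : (ℤ × ℤ) × Bool} (h : e ∉ rswInt G) : OnPolygon G (rswEnd e) := by
  by_contra hc
  exact h (rsk_end_core (rsk_core_iff.2 hc))

theorem wbc32_mem_Va {F B Ch : Finset (ℤ × ℤ)} {v : ℤ × ℤ} :
    v ∈ wb81Va F B Ch ↔ v ∈ mdl1aV F Ch ∧ ¬ OnPolygon F v ∧ ∃ e ∈ mdl41DisSet B Ch, v = e.1 ∨ v = rswEnd e := by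
  classical
  unfold wb81Va
  rw [Finset.mem_filter]

theorem wbc32_mem_Vf {F B Ch : Finset (ℤ × ℤ)} {v : ℤ × ℤ} :
    v ∈ wb81Vf F B Ch ↔ v ∈ wb81Va F B Ch ∨ (v ∈ mdl1aV F Ch ∧ v ∈ rskCore B) := by
  unfold wb81Vf
  rw [Finset.mem_union, Finset.mem_filter]

theorem wbc32_mem_Oa {F B Ch : Finset (ℤ × ℤ)} {e : (ℤ × ℤ) × Bool} :
    e ∈ wb81Oa F B Ch ↔ e ∈ mdl1aE F Ch ∧ ((e.1 ∉ wb81Va F B Ch ∧ rswEnd e ∉ wb81Va F B Ch) ∨
      (e ∈ mdl41DisSet B Ch ∧ e.1 ∈ wb81Va F B Ch ∧ rswEnd e ∈ wb81Va F B Ch)) := by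
  unfold wb81Oa
  rw [Finset.mem_filter]

theorem wbc32_mem_Of_dis {F B Ch : Finset (ℤ × ℤ)} {e : (ℤ × ℤ) × Bool} (he : e ∈ mdl41DisSet F Ch) :
    e ∈ wb81Of F B Ch ↔ e ∈ wb81Oa F B Ch := by
  unfold wb81Of
  rw [Finset.mem_filter, if_pos he]
  exact ⟨fun h => h.2, fun h => ⟨(wbc32_mem_Oa.1 h).1, h⟩⟩

/-- an edge between `Ch` and its complement is an exterior edge, and its two ends are exterior vertices -/
theorem wbc32_dis_ext {F Ch : Finset (ℤ × ℤ)} {e : (ℤ × ℤ) × Bool} (he : e ∈ mdl41DisSet F Ch) :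
    e ∈ mdl1aE F Ch ∧ e.1 ∈ mdl1aV F Ch ∧ rswEnd e ∈ mdl1aV F Ch := by
  obtain ⟨h1, h2⟩ := mdl41_mem_disSet.1 he
  have h3 : e ∉ rswInt Ch := by
    intro h
    obtain ⟨a, b⟩ := rsk_mem_int.1 h
    exact h2 ⟨fun _ => b, fun _ => a⟩
  exact ⟨mdl1a_mem_E.2 ⟨h1, h3⟩, mdl1a_mem_V.2 ⟨rsk_int_fst h1, wbc32_poly_fst h3⟩, mdl1a_mem_V.2 ⟨rsk_int_end h1, wbc32_poly_end h3⟩⟩

/-! ## 2. (AGREE) -/

/-- a corner of `Ch`, exterior, in the core of `B`, is an end of a wall edge -/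
theorem wbc32_core_Va {F B Ch : Finset (ℤ × ℤ)} (hBF : B ⊆ F) {v : ℤ × ℤ} (hc : v ∈ cornersOf Ch) (hV : v ∈ mdl1aV F Ch)
    (hB : v ∈ rskCore B) : v ∈ wb81Va F B Ch := by
  rw [wbc32_mem_Va]
  refine ⟨hV, mdl1_poly_mono hBF (rsk_core_iff.1 hB), ?_⟩
  obtain ⟨x, y⟩ := v
  have hP := (mdl1a_mem_V.1 hV).2
  rw [rsk_mem_core] at hB
  rw [rsk_mem_corners] at hc
  unfold OnPolygon at hP
  simp only at hB hP hc
  by_cases h1 : ((x, y) ∈ Ch ↔ (x - 1, y) ∈ Ch)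
  swap
  · exact ⟨((x, y), true), mdl41_mem_disSet.2 ⟨rsk_mem_int.2 ⟨hB.1, by simpa [rswCo] using hB.2.1⟩,
      by unfold Mdl41Dis; simpa [rswCo] using h1⟩, Or.inl rfl⟩
  by_cases h2 : ((x, y) ∈ Ch ↔ (x, y - 1) ∈ Ch)
  swap
  · exact ⟨((x, y), false), mdl41_mem_disSet.2 ⟨rsk_mem_int.2 ⟨hB.1, by simpa [rswCo] using hB.2.2.1⟩,
      by unfold Mdl41Dis; simpa [rswCo] using h2⟩, Or.inl rfl⟩
  by_cases h3 : ((x, y - 1) ∈ Ch ↔ (x - 1, y - 1) ∈ Ch)
  swap
  · exact ⟨((x, y - 1), true), mdl41_mem_disSet.2 ⟨rsk_mem_int.2 ⟨hB.2.2.1, by simpa [rswCo] using hB.2.2.2⟩,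
      by unfold Mdl41Dis; simpa [rswCo] using h3⟩, Or.inr (by simp [rswEnd])⟩
  exfalso
  by_cases h0 : (x, y) ∈ Ch
  · exact hP ⟨h0, h1.1 h0, h2.1 h0, h3.1 (h2.1 h0)⟩
  · rcases hc with h | h | h | h
    · exact h0 h
    · exact h0 (h1.2 h)
    · exact h0 (h2.2 h)
    · exact h0 (h2.2 (h3.2 h))

theorem wbc32_Va_iff_Vf {F B Ch : Finset (ℤ × ℤ)} (hBF : B ⊆ F) {v : ℤ × ℤ} (hc : v ∈ cornersOf Ch) :
    v ∈ wb81Va F B Ch ↔ v ∈ wb81Vf F B Ch := by
  rw [wbc32_mem_Vf]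
  exact ⟨Or.inl, fun h => h.elim id fun h => wbc32_core_Va hBF hc h.1 h.2⟩

/-- **(AGREE)** of `Model/WbDefs81`, verbatim -/
theorem wbc32_agree : Wb81Agree := by
  intro F B Ch a hBF _
  refine ⟨fun v hv => ?_, fun e he => ?_⟩
  · unfold wb81AdvA wb81FillA wb81At
    cases a with
    | true =>
      simp only [if_true]
      exact wbc32_Va_iff_Vf hBF hv
    | false =>
      simp only [Bool.false_eq_true, if_false, Finset.mem_sdiff]
      rw [wbc32_Va_iff_Vf hBF hv]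
  · unfold wb81AdvA wb81FillA wb81At
    exact (wbc32_mem_Of_dis he).symm

/-! ## 3. (COUNT) -/

/-- the four edges at a vertex -/
def wbc32Star (v : ℤ × ℤ) : Finset ((ℤ × ℤ) × Bool) :=
  {(v, true), (v, false), ((v.1, v.2 - 1), true), ((v.1 - 1, v.2), false)}

theorem wbc32_star_card (v : ℤ × ℤ) : (wbc32Star v).card ≤ 4 := by
  unfold wbc32Star
  exact Finset.card_le_four

theorem wbc32_star_fst (e : (ℤ × ℤ) × Bool) : e ∈ wbc32Star e.1 := by
  obtain ⟨⟨x, y⟩, c⟩ := e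
  unfold wbc32Star
  cases c <;> simp

theorem wbc32_star_end (e : (ℤ × ℤ) × Bool) : e ∈ wbc32Star (rswEnd e) := by
  obtain ⟨⟨x, y⟩, c⟩ := e
  unfold wbc32Star
  cases c <;> simp [rswEnd]

theorem wbc32_mem_ends {B Ch : Finset (ℤ × ℤ)} {e : (ℤ × ℤ) × Bool} :
    e ∈ wb81Ends B Ch ↔ e ∈ mdl41DisSet B Ch ∧ (OnPolygon B e.1 ∨ OnPolygon B (rswEnd e)) := by
  classical
  unfold wb81Ends
  rw [Finset.mem_filter]

/-- the closed edges of the adverse atom between `Ch` and its complement sit at the ends of the ends of the wall -/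
theorem wbc32_closed_sub {F B Ch : Finset (ℤ × ℤ)} (hBF : B ⊆ F) :
    mdl41DisSet F Ch \ wb81Oa F B Ch ⊆ (wb81Ends B Ch).biUnion fun e' => wbc32Star e'.1 ∪ wbc32Star (rswEnd e') := by
  intro e he
  obtain ⟨he1, he2⟩ := Finset.mem_sdiff.1 he
  obtain ⟨hE, hV1, hV2⟩ := wbc32_dis_ext he1
  rw [wbc32_mem_Oa] at he2
  rw [Finset.mem_biUnion]
  by_cases hw : e ∈ mdl41DisSet B Ch
  · -- a wall edge with an end off `Va`
    refine ⟨e, wbc32_mem_ends.2 ⟨hw, ?_⟩, Finset.mem_union_left _ (wbc32_star_fst e)⟩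
    by_contra hc
    rw [not_or] at hc
    refine he2 ⟨hE, Or.inr ⟨hw, wbc32_mem_Va.2 ⟨hV1, mdl1_poly_mono hBF hc.1, e, hw, Or.inl rfl⟩,
      wbc32_mem_Va.2 ⟨hV2, mdl1_poly_mono hBF hc.2, e, hw, Or.inr rfl⟩⟩⟩
  · -- not a wall edge: a face off `B`
    have hB : e ∉ rswInt B := fun h => hw (mdl41_mem_disSet.2 ⟨h, (mdl41_mem_disSet.1 he1).2⟩)
    have hend : e.1 ∈ wb81Va F B Ch ∨ rswEnd e ∈ wb81Va F B Ch := by
      by_contra hc
      rw [not_or] at hc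
      exact he2 ⟨hE, Or.inl hc⟩
    rcases hend with h | h
    · obtain ⟨_, _, e', he', hv⟩ := wbc32_mem_Va.1 h
      have hp := wbc32_poly_fst hB
      rcases hv with hv | hv
      · exact ⟨e', wbc32_mem_ends.2 ⟨he', Or.inl (hv ▸ hp)⟩, Finset.mem_union_left _ (hv ▸ wbc32_star_fst e)⟩
      · exact ⟨e', wbc32_mem_ends.2 ⟨he', Or.inr (hv ▸ hp)⟩, Finset.mem_union_right _ (hv ▸ wbc32_star_fst e)⟩
    · obtain ⟨_, _, e', he', hv⟩ := wbc32_mem_Va.1 h
      have hp := wbc32_poly_end hB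
      rcases hv with hv | hv
      · exact ⟨e', wbc32_mem_ends.2 ⟨he', Or.inl (hv ▸ hp)⟩, Finset.mem_union_left _ (hv ▸ wbc32_star_end e)⟩
      · exact ⟨e', wbc32_mem_ends.2 ⟨he', Or.inr (hv ▸ hp)⟩, Finset.mem_union_right _ (hv ▸ wbc32_star_end e)⟩

/-- **(COUNT)** of `Model/WbDefs81`, verbatim -/
theorem wbc32_count : Wb81Count := by
  intro F B Ch a hBF _
  have h0 : (wb81AdvA F B Ch a).2 = wb81Oa F B Ch := rfl
  rw [h0]
  calc (mdl41DisSet F Ch \ wb81Oa F B Ch).card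
      ≤ ((wb81Ends B Ch).biUnion fun e' => wbc32Star e'.1 ∪ wbc32Star (rswEnd e')).card :=
        Finset.card_le_card (wbc32_closed_sub hBF)
    _ ≤ (wb81Ends B Ch).card * 8 := by
        refine Finset.card_biUnion_le_card_mul _ _ _ fun e' _ => ?_
        calc (wbc32Star e'.1 ∪ wbc32Star (rswEnd e')).card ≤ (wbc32Star e'.1).card + (wbc32Star (rswEnd e')).card :=
              Finset.card_union_le _ _
          _ ≤ 4 + 4 := Nat.add_le_add (wbc32_star_card _) (wbc32_star_card _)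
    _ ≤ 9 * (wb81Ends B Ch).card := by omega

/-- the equation lemmas of the definition of this file are generated HERE (RULES.md, rule 6) -/
theorem wbc32_eqns_cite : True := by
  have := @wbc32Star.eq_1
  trivial

end Claimed.Agent.R292
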