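import Claimed.Agent.R292.Model.WbDefs81

/-!
# Row 292 (S0540), Model/WbCutPos142 : THE RECORDS (CUT) AND (POS) OF (WB)      (helper142, post 33 of c1_post, chief helper81; prefix `wb142_`)      0 sorry

* **`wb142_pos_gen`**  an atom off `Q` (`wb81At F Q a Va O`) whose vertices of colour `a` avoid the polygon of `F` and whose open edges are monochromatic is feasible on `(F, !a)`
                       (explicit configuration: the pinned spins, `!a` elsewhere, only the pinned open edges, `D = ∅`)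
* **`wb142_pos : Wb81Pos t`** (`0 < t < 1`)
* **`wb142_cut_eq : Wb81CutEq t`** (`0 < t ≤ 1`): `rsk_cut` of 91 with `Y` = the indicator of the atom
-/

set_option autoImplicit false

namespace Claimed.Agent.R292

open Claims Claims.C0468

/-! ## 1. (POS) -/

theorem wb142_V_sub (F Q : Finset (ℤ × ℤ)) : mdl1aV F Q ⊆ cornersOf F := fun _ hv => (mdl1a_mem_V.1 hv).1

theorem wb142_E_sub (F Q : Finset (ℤ × ℤ)) : mdl1aE F Q ⊆ rswInt F := fun _ he => (mdl1a_mem_E.1 he).1

/-- a configuration of positive weight which satisfies the prescriptions makes them feasible. -/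
theorem wb142_pos_of_cfg {t : ℝ} (h0 : 0 ≤ t) (h1 : t ≤ 1) {F : Finset (ℤ × ℤ)} {b : Bool} {K : MdlPin} {ω : RswCfg}
    (hin : ω ∈ rsxCfgs F) (hw : 0 < rswWt t F b ω) (hK : K.Holds ω) : 0 < mdlSumK t F b K (fun _ => 1) := by
  classical
  unfold mdlSumK
  rw [rsx_sum_eq]
  refine lt_of_lt_of_le ?_ (Finset.single_le_sum (f := fun ω => rswWt t F b ω * (if K.Holds ω then (1 : ℝ) else 0))
    (fun η _ => mul_nonneg (rsx_wt_nonneg h0 h1 F b η) (by split_ifs <;> norm_num)) hin)
  simp only [if_pos hK, mul_one]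
  exact hw

/-- **the general feasibility lemma.** -/
theorem wb142_pos_gen {t : ℝ} (h0 : 0 < t) (h1 : t < 1) (F Q : Finset (ℤ × ℤ)) (a : Bool) {Va : Finset (ℤ × ℤ)}
    {O : Finset ((ℤ × ℤ) × Bool)} (hVa : Va ⊆ mdl1aV F Q) (hO : O ⊆ mdl1aE F Q) (hpol : ∀ v ∈ Va, ¬ OnPolygon F v)
    (hmono : ∀ e ∈ O, (e.1 ∈ Va ↔ rswEnd e ∈ Va)) :
    0 < mdlSumK t F (!a) (mdl1aK F Q (wb81At F Q a Va O)) (fun _ => 1) := by
  classical
  have hVc : Va ⊆ cornersOf F := hVa.trans (wb142_V_sub F Q)
  have hOi : O ⊆ rswInt F := hO.trans (wb142_E_sub F Q)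
  -- the configuration
  set S : Finset (ℤ × ℤ) := if a = true then Va else cornersOf F \ Va with hS
  have hSmem : ∀ v ∈ cornersOf F, (v ∈ S ↔ (v ∈ Va ↔ a = true)) := by
    intro v hv
    cases a
    · simp [hS, hv]
    · simp [hS]
  have hSc : S ⊆ cornersOf F := by
    cases a
    · simp only [hS, Bool.false_eq_true, if_false]; exact Finset.sdiff_subset
    · simp only [hS, if_true]; exact hVc
  refine wb142_pos_of_cfg (ω := ⟨S, ∅, O⟩) h0.le h1.le (rsx_mem_cfgs.2 ⟨hSc, Finset.empty_subset _, hOi⟩) ?_ ?_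
  · -- the weight
    have hbc : RswBc F (!a) ⟨S, ∅, O⟩ := by
      intro v hv hp
      show v ∈ S ↔ (!a) = true
      rw [hSmem v hv]
      have : v ∉ Va := fun h => hpol v h hp
      cases a <;> simp [this]
    unfold rswWt
    rw [if_pos hbc]
    refine Finset.prod_pos fun e he => ?_
    have c1 := rsk_int_fst he
    have c2 := rsk_int_end he
    unfold rswFac
    by_cases heO : e ∈ O
    · have hm : (e.1 ∈ S ↔ rswEnd e ∈ S) := by rw [hSmem _ c1, hSmem _ c2, hmono e heO]
      simp only [heO, if_true, hm]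
      exact h0
    · simp only [heO, if_false, Finset.notMem_empty, if_true]
      split_ifs
      · linarith
      · exact h0
  · -- the prescriptions
    refine ⟨?_, ?_, ?_, ?_⟩
    · intro v hv
      show v ∈ S
      cases a
      · simp only [mdl1aK, wb81At, Bool.false_eq_true, if_false, Finset.mem_sdiff] at hv
        simp only [hS, Bool.false_eq_true, if_false, Finset.mem_sdiff]
        exact ⟨wb142_V_sub F Q hv.1, hv.2⟩
      · simpa [mdl1aK, wb81At, hS] using hv
    · intro v hv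
      show v ∉ S
      cases a
      · simp only [mdl1aK, wb81At, Bool.false_eq_true, if_false, Finset.mem_sdiff, not_and, not_not] at hv
        simp only [hS, Bool.false_eq_true, if_false, Finset.mem_sdiff, not_and, not_not]
        exact fun _ => hv.2 hv.1
      · simp only [mdl1aK, wb81At, if_true, Finset.mem_sdiff] at hv
        simp only [hS, if_true]
        exact hv.2
    · intro e he
      exact he
    · intro e he
      simp only [mdl1aK, wb81At, Finset.mem_sdiff] at he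
      exact he.2

theorem wb142_Va_sub (F B Ch : Finset (ℤ × ℤ)) : wb81Va F B Ch ⊆ mdl1aV F Ch := by
  classical
  exact Finset.filter_subset _ _

theorem wb142_mem_Va {F B Ch : Finset (ℤ × ℤ)} {v : ℤ × ℤ} : v ∈ wb81Va F B Ch ↔
    v ∈ mdl1aV F Ch ∧ ¬ OnPolygon F v ∧ ∃ e ∈ mdl41DisSet B Ch, v = e.1 ∨ v = rswEnd e := by
  classical
  unfold wb81Va
  rw [Finset.mem_filter]

theorem wb142_mem_Vf {F B Ch : Finset (ℤ × ℤ)} {v : ℤ × ℤ} : v ∈ wb81Vf F B Ch ↔
    v ∈ wb81Va F B Ch ∨ (v ∈ mdl1aV F Ch ∧ v ∈ rskCore B) := by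
  classical
  unfold wb81Vf
  rw [Finset.mem_union, Finset.mem_filter]

theorem wb142_mem_Oa {F B Ch : Finset (ℤ × ℤ)} {e : (ℤ × ℤ) × Bool} : e ∈ wb81Oa F B Ch ↔
    e ∈ mdl1aE F Ch ∧ ((e.1 ∉ wb81Va F B Ch ∧ rswEnd e ∉ wb81Va F B Ch) ∨
      (e ∈ mdl41DisSet B Ch ∧ e.1 ∈ wb81Va F B Ch ∧ rswEnd e ∈ wb81Va F B Ch)) := by
  classical
  unfold wb81Oa
  rw [Finset.mem_filter]

theorem wb142_mem_Of {F B Ch : Finset (ℤ × ℤ)} {e : (ℤ × ℤ) × Bool} : e ∈ wb81Of F B Ch ↔
    e ∈ mdl1aE F Ch ∧ (if e ∈ mdl41DisSet F Ch then e ∈ wb81Oa F B Ch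
      else (e.1 ∈ wb81Vf F B Ch ↔ rswEnd e ∈ wb81Vf F B Ch)) := by
  classical
  unfold wb81Of
  rw [Finset.mem_filter]

theorem wb142_core_mono {B F : Finset (ℤ × ℤ)} (h : B ⊆ F) {v : ℤ × ℤ} (hv : v ∈ rskCore B) : ¬ OnPolygon F v := by
  rw [rsk_mem_core] at hv
  unfold OnPolygon
  rw [not_not]
  exact ⟨h hv.1, h hv.2.1, h hv.2.2.1, h hv.2.2.2⟩

/-- an edge between `Ch` and its complement with an end in the core of `B` is a wall edge, and that end is kept at the colour of the wall. -/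
theorem wb142_end_Va {F B Ch : Finset (ℤ × ℤ)} (hB : B ⊆ F) {e : (ℤ × ℤ) × Bool} (he : e ∈ mdl41DisSet F Ch) {v : ℤ × ℤ}
    (hv : v = e.1 ∨ v = rswEnd e) (hvV : v ∈ mdl1aV F Ch) (hc : v ∈ rskCore B) : v ∈ wb81Va F B Ch := by
  have heB : e ∈ rswInt B := by
    rcases hv with rfl | rfl
    · exact rsk_fst_core hc
    · exact rsk_end_core hc
  exact wb142_mem_Va.2 ⟨hvV, wb142_core_mono hB hc, e, mdl41_mem_disSet.2 ⟨heB, (mdl41_mem_disSet.1 he).2⟩, hv⟩

/-- **(POS)** -/
theorem wb142_pos {t : ℝ} (h0 : 0 < t) (h1 : t < 1) : Wb81Pos t := by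
  classical
  intro F B Ch a hB _
  refine ⟨?_, ?_, ?_⟩
  · -- the adverse atom
    refine wb142_pos_gen h0 h1 F Ch a (wb142_Va_sub F B Ch) (fun e he => (wb142_mem_Oa.1 he).1)
      (fun v hv => (wb142_mem_Va.1 hv).2.1) (fun e he => ?_)
    rcases (wb142_mem_Oa.1 he).2 with h | h
    · exact ⟨fun h' => absurd h' h.1, fun h' => absurd h' h.2⟩
    · exact ⟨fun _ => h.2.2, fun _ => h.2.1⟩
  · -- the filled atom
    refine wb142_pos_gen h0 h1 F Ch a (fun v hv => ?_) (fun e he => (wb142_mem_Of.1 he).1) (fun v hv => ?_) (fun e he => ?_)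
    · rcases wb142_mem_Vf.1 hv with h | h
      · exact wb142_Va_sub F B Ch h
      · exact h.1
    · rcases wb142_mem_Vf.1 hv with h | h
      · exact (wb142_mem_Va.1 h).2.1
      · exact wb142_core_mono hB h.2
    · have h2 := (wb142_mem_Of.1 he).2
      by_cases hd : e ∈ mdl41DisSet F Ch
      · rw [if_pos hd] at h2
        rcases (wb142_mem_Oa.1 h2).2 with h | h
        · constructor
          · intro h'
            rcases wb142_mem_Vf.1 h' with h'' | h''
            · exact absurd h'' h.1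
            · exact absurd (wb142_end_Va hB hd (Or.inl rfl) h''.1 h''.2) h.1
          · intro h'
            rcases wb142_mem_Vf.1 h' with h'' | h''
            · exact absurd h'' h.2
            · exact absurd (wb142_end_Va hB hd (Or.inr rfl) h''.1 h''.2) h.2
        · exact ⟨fun _ => wb142_mem_Vf.2 (Or.inl h.2.2), fun _ => wb142_mem_Vf.2 (Or.inl h.2.1)⟩
      · rw [if_neg hd] at h2
        exact h2
  · -- the cut atom
    exact wb142_pos_gen h0 h1 F Ch a (Finset.empty_subset _) (Finset.Subset.refl _) (fun v hv => absurd hv (Finset.notMem_empty v))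
      (fun e _ => ⟨fun h => absurd h (Finset.notMem_empty _), fun h => absurd h (Finset.notMem_empty _)⟩)

/-! ## 2. (CUT) -/

/-- the cut atom: every exterior vertex has the colour `!a`, every exterior edge is open. -/
theorem wb142_cut_holds (F Λ : Finset (ℤ × ℤ)) (a : Bool) (ω : RswCfg) : (wb81Cut F Λ a).Holds ω ↔
    (∀ v ∈ mdl1aV F Λ, (v ∈ ω.S ↔ (!a) = true)) ∧ mdl1aE F Λ ⊆ ω.O := by
  classical
  unfold MdlPin.Holds wb81Cut wb81CutA wb81At mdl1aK
  cases a
  · simp only [Bool.false_eq_true, if_false, Finset.sdiff_empty, Finset.sdiff_self, Finset.notMem_empty, false_imp_iff,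
      implies_true, true_and, and_true, Bool.not_false, iff_true]
    exact Iff.rfl
  · simp only [if_true, Finset.sdiff_empty, Finset.sdiff_self, Finset.notMem_empty, false_imp_iff,
      implies_true, true_and, and_true, Bool.not_true, Bool.false_eq_true, iff_false, Finset.empty_subset]

/-- **(CUT)** -/
theorem wb142_cut_eq {t : ℝ} (h0 : 0 < t) (h1 : t ≤ 1) : Wb81CutEq t := by
  classical
  intro F Λ a hΛ hin X hX
  have hY : RskOutside Λ (fun ω => if (wb81Cut F Λ a).Holds ω then (1 : ℝ) else 0) := by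
    intro ω
    have : (wb81Cut F Λ a).Holds (rskOut Λ ω) ↔ (wb81Cut F Λ a).Holds ω := by
      rw [wb142_cut_holds, wb142_cut_holds]
      refine and_congr (forall₂_congr fun v hv => ?_) ?_
      · have hnc : v ∉ rskCore Λ := fun h => (rsk_core_iff.1 h) (mdl1a_mem_V.1 hv).2
        simp only [rskOut, Finset.mem_sdiff, hnc, not_false_eq_true, and_true]
      · constructor
        · intro h e he
          exact (Finset.mem_sdiff.1 (h he)).1
        · intro h e he
          exact Finset.mem_sdiff.2 ⟨h he, (mdl1a_mem_E.1 he).2⟩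
    simp only [this]
  have hcut : ∀ ω, (wb81Cut F Λ a).Holds ω → RswCut Λ (!a) ω := by
    intro ω hω e he
    obtain ⟨hS, hO⟩ := (wb142_cut_holds F Λ a ω).1 hω
    have hface : e.1 ∈ Λ ∨ rswCo e ∈ Λ := by
      rcases he with h | h
      · exact Or.inl h.1
      · exact Or.inr h.2
    have hnI : e ∉ rswInt Λ := by
      intro h
      have := rsk_mem_int.1 h
      rcases he with h' | h'
      · exact h'.2 this.2
      · exact h'.1 this.1
    have c1 : e.1 ∈ cornersOf Λ := rsx_end_corner1 hface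
    have c2 : rswEnd e ∈ cornersOf Λ := rsx_end_corner2 hface
    have k1 : e.1 ∈ rskCore F := rsk_core_iff.2 (hin _ c1)
    have k2 : rswEnd e ∈ rskCore F := rsk_core_iff.2 (hin _ c2)
    have v1 : e.1 ∈ mdl1aV F Λ := mdl1a_mem_V.2 ⟨rsk_core_sub F k1, fun h => hnI (rsk_fst_core (rsk_mem_core.2 h))⟩
    have v2 : rswEnd e ∈ mdl1aV F Λ := mdl1a_mem_V.2 ⟨rsk_core_sub F k2, fun h => hnI (rsk_end_core (rsk_mem_core.2 h))⟩
    exact ⟨hO (mdl1a_mem_E.2 ⟨rsk_fst_core k1, hnI⟩), hS _ v1, hS _ v2⟩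
  have e1 : ∀ Z : RswCfg → ℝ, mdlSumK t F (!a) (wb81Cut F Λ a) Z =
      rswSum t F (!a) (fun ω => rskInd Λ (!a) ω * Z ω * (if (wb81Cut F Λ a).Holds ω then (1 : ℝ) else 0)) := by
    intro Z
    unfold mdlSumK
    refine rsx_sum_congr t F (!a) fun ω => ?_
    by_cases h : (wb81Cut F Λ a).Holds ω
    · have : rskInd Λ (!a) ω = 1 := by unfold rskInd; rw [if_pos (hcut ω h)]
      rw [if_pos h, if_pos h, this]; ring
    · rw [if_neg h, if_neg h, mul_zero]
  rw [e1 X, e1 (fun _ => 1), rsk_cut h0 h1 hΛ (!a) (!a) hX hY]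
  simp only [mul_one]

end Claimed.Agent.R292
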