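import Claimed.Agent.R292.Model.WbDefs81

/-!
# Row 292 (S0540), Model/WbEnds81 : (ENDS) = `Wb81EndsLe`, THE WALL HAS AT MOST TWO ENDS      (pen helper81; prefix `wbe81_`)      0 sorry

No Jordan curve.  `η = mdl41DisSet B Ch`.  (1) `wbe81_minimal`: an even subset of `η` is `∅` or `η` (exactness of `Kw41`, both sides connected).
(2) `wbe81_card_le`: pigeonhole on the parity map `powerset η → powerset I` (`I` = the touched vertices off the polygon): `|η| ≤ |I| + 1`.
(3) `wbe81_handshake`: `2 |I| + |ends| ≤ 2 |η|`.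
-/

set_option autoImplicit false

namespace Claimed.Agent.R292

open Claims Claims.C0468

/-- (1) minimality of the wall among the even subgraphs -/
theorem wbe81_minimal {B Ch : Finset (ℤ × ℤ)} (hB : Mdl41Conn B) (hCh : Ch ⊆ B)
    (hc : ∀ f ∈ Ch, ∀ g ∈ Ch, Mdl41cJoin Ch f g) (hx : ∀ f ∈ B \ Ch, ∀ g ∈ B \ Ch, Mdl41cJoin (B \ Ch) f g)
    {η : Finset ((ℤ × ℤ) × Bool)} (hηsub : η ⊆ mdl41DisSet B Ch) (hev : Mdl41Even B η) :
    η = ∅ ∨ η = mdl41DisSet B Ch := by
  classical
  obtain ⟨D, -, hD⟩ := mdl41_exists_D hB hev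
  have c1 : ∀ f ∈ Ch, ∀ g ∈ Ch, (f ∈ D ↔ g ∈ D) := fun f hf g hg =>
    mdl41c_const_on hηsub hD hCh (fun a ha b hb => ⟨fun _ => hb, fun _ => ha⟩) (hc f hf g hg)
  have c2 : ∀ f ∈ B \ Ch, ∀ g ∈ B \ Ch, (f ∈ D ↔ g ∈ D) := fun f hf g hg =>
    mdl41c_const_on hηsub hD Finset.sdiff_subset
      (fun a ha b hb => ⟨fun h => absurd h (Finset.mem_sdiff.1 ha).2, fun h => absurd h (Finset.mem_sdiff.1 hb).2⟩) (hx f hf g hg)
  have hfaces : ∀ e ∈ mdl41DisSet B Ch, ∃ f ∈ Ch, ∃ g ∈ B \ Ch, (Mdl41Dis D e ↔ ¬ (f ∈ D ↔ g ∈ D)) := by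
    intro e he
    obtain ⟨h1, h2⟩ := mdl41_mem_disSet.1 he
    obtain ⟨h3, h4⟩ := mdl41_mem_int.1 h1
    unfold Mdl41Dis at h2 ⊢
    by_cases h5 : e.1 ∈ Ch
    · have h6 : rswCo e ∉ Ch := fun h6 => h2 ⟨fun _ => h6, fun _ => h5⟩
      exact ⟨e.1, h5, rswCo e, Finset.mem_sdiff.2 ⟨h4, h6⟩, Iff.rfl⟩
    · have h6 : rswCo e ∈ Ch := by
        by_contra h6
        exact h2 ⟨fun h => absurd h h5, fun h => absurd h h6⟩
      exact ⟨rswCo e, h6, e.1, Finset.mem_sdiff.2 ⟨h3, h5⟩, by tauto⟩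
  by_cases hne : ∃ e₀, e₀ ∈ η
  · right
    obtain ⟨e₀, he₀⟩ := hne
    obtain ⟨f₀, hf₀, g₀, hg₀, hi₀⟩ := hfaces e₀ (hηsub he₀)
    have hd₀ := hi₀.1 ((hD e₀ (mdl41_mem_disSet.1 (hηsub he₀)).1).1 he₀)
    refine Finset.Subset.antisymm hηsub (fun e he => ?_)
    obtain ⟨f, hf, g, hg, hi⟩ := hfaces e he
    have h1 := c1 f hf f₀ hf₀
    have h2 := c2 g hg g₀ hg₀
    exact (hD e (mdl41_mem_disSet.1 he).1).2 (hi.2 (by rw [h1, h2]; exact hd₀))
  · left
    exact Finset.eq_empty_of_forall_notMem (fun e he => hne ⟨e, he⟩)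

theorem wbe81_ch_symmDiff (η₁ η₂ : Finset ((ℤ × ℤ) × Bool)) :
    mdl41Ch (symmDiff η₁ η₂) = mdl41Ch η₁ + mdl41Ch η₂ := by
  classical
  ext e
  rw [Finsupp.add_apply, mdl41_ch_apply, mdl41_ch_apply, mdl41_ch_apply]
  by_cases h1 : e ∈ η₁ <;> by_cases h2 : e ∈ η₂ <;> simp [Finset.mem_symmDiff, h1, h2]
  rfl

theorem wbe81_zmod2_eq : ∀ a b : ZMod 2, (a = 1 ↔ b = 1) → a + b = 0 := by decide

open Classical in
/-- the touched vertices off the polygon -/
noncomputable def wbe81I (B : Finset (ℤ × ℤ)) (η : Finset ((ℤ × ℤ) × Bool)) : Finset (ℤ × ℤ) :=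
  (η.image (fun e => e.1) ∪ η.image rswEnd).filter fun v => ¬ OnPolygon B v

open Classical in
/-- (2) pigeonhole -/
theorem wbe81_card_le {B : Finset (ℤ × ℤ)} {η : Finset ((ℤ × ℤ) × Bool)}
    (hmin : ∀ η' ⊆ η, Mdl41Even B η' → η' = ∅ ∨ η' = η) : η.card ≤ (wbe81I B η).card + 1 := by
  set I := wbe81I B η with hI
  set φ : Finset ((ℤ × ℤ) × Bool) → Finset (ℤ × ℤ) := fun η' => I.filter (fun v => mdl41Bd (mdl41Ch η') v = 1) with hφ
  have hfib : ∀ s ∈ η.powerset.image φ, (η.powerset.filter (fun x => φ x = s)).card ≤ 2 := by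
    intro s hs
    obtain ⟨η₀, hη₀, rfl⟩ := Finset.mem_image.1 hs
    have hη₀' := Finset.mem_powerset.1 hη₀
    have hmaps : ∀ x ∈ η.powerset.filter (fun x => φ x = φ η₀), symmDiff x η₀ ∈ ({∅, η} : Finset (Finset ((ℤ × ℤ) × Bool))) := by
      intro x hx
      obtain ⟨hx1, hx2⟩ := Finset.mem_filter.1 hx
      have hx1' := Finset.mem_powerset.1 hx1
      have hsub : symmDiff x η₀ ⊆ η := by
        intro e he
        rcases Finset.mem_symmDiff.1 he with h | h
        · exact hx1' h.1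
        · exact hη₀' h.1
      have hev : Mdl41Even B (symmDiff x η₀) := by
        intro v hv
        rw [wbe81_ch_symmDiff, map_add, Finsupp.add_apply]
        by_cases hvI : v ∈ I
        · apply wbe81_zmod2_eq
          have h1 : v ∈ φ x ↔ v ∈ φ η₀ := by rw [hx2]
          simp only [hφ, Finset.mem_filter, hvI, true_and] at h1
          exact h1
        · have hz : ∀ y ⊆ η, mdl41Bd (mdl41Ch y) v = 0 := by
            intro y hy
            rw [mdl41_bd_ch]
            have : y.filter (fun e => e.1 = v ∨ rswEnd e = v) = ∅ := by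
              refine Finset.eq_empty_of_forall_notMem (fun e he => ?_)
              obtain ⟨he1, he2⟩ := Finset.mem_filter.1 he
              apply hvI
              rw [hI]
              unfold wbe81I
              refine Finset.mem_filter.2 ⟨?_, hv⟩
              rcases he2 with h | h
              · exact Finset.mem_union_left _ (Finset.mem_image.2 ⟨e, hy he1, h⟩)
              · exact Finset.mem_union_right _ (Finset.mem_image.2 ⟨e, hy he1, h⟩)
            rw [this, Finset.card_empty, Nat.cast_zero]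
          rw [hz x hx1', hz η₀ hη₀', add_zero]
      rcases hmin _ hsub hev with h | h
      · rw [h]; exact Finset.mem_insert_self _ _
      · rw [h]; exact Finset.mem_insert_of_mem (Finset.mem_singleton_self _)
    have hinj : Set.InjOn (fun x => symmDiff x η₀) (η.powerset.filter (fun x => φ x = φ η₀) : Set (Finset ((ℤ × ℤ) × Bool))) := by
      intro x _ y _ hxy
      exact symmDiff_left_injective η₀ hxy
    calc (η.powerset.filter (fun x => φ x = φ η₀)).card ≤ ({∅, η} : Finset (Finset ((ℤ × ℤ) × Bool))).card :=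
          Finset.card_le_card_of_injOn _ hmaps hinj
      _ ≤ 2 := Finset.card_le_two
  have h1 := Finset.card_le_mul_card_image (f := φ) η.powerset 2 hfib
  have h2 : (η.powerset.image φ).card ≤ 2 ^ I.card := by
    rw [← Finset.card_powerset]
    refine Finset.card_le_card (fun s hs => ?_)
    obtain ⟨y, _, rfl⟩ := Finset.mem_image.1 hs
    exact Finset.mem_powerset.2 (Finset.filter_subset _ _)
  rw [Finset.card_powerset] at h1
  have h3 : 2 ^ η.card ≤ 2 ^ (I.card + 1) := by
    calc 2 ^ η.card ≤ 2 * (η.powerset.image φ).card := h1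
      _ ≤ 2 * 2 ^ I.card := Nat.mul_le_mul_left _ h2
      _ = 2 ^ (I.card + 1) := by rw [pow_succ]; ring
  exact (Nat.pow_le_pow_iff_right (by norm_num)).1 h3

open Classical in
/-- (3) handshake -/
theorem wbe81_handshake {B : Finset (ℤ × ℤ)} {η : Finset ((ℤ × ℤ) × Bool)} (hev : Mdl41Even B η) :
    2 * (wbe81I B η).card + (η.filter fun e => OnPolygon B e.1 ∨ OnPolygon B (rswEnd e)).card ≤ 2 * η.card := by
  set I := wbe81I B η with hI
  have hdeg : ∀ v ∈ I, 2 ≤ (η.filter (fun e => e.1 = v ∨ rswEnd e = v)).card := by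
    intro v hv
    rw [hI] at hv
    unfold wbe81I at hv
    obtain ⟨hv1, hv2⟩ := Finset.mem_filter.1 hv
    have he := (mdl41_even_iff B η).1 hev v hv2
    have hpos : 0 < (η.filter (fun e => e.1 = v ∨ rswEnd e = v)).card := by
      rw [Finset.card_pos]
      rcases Finset.mem_union.1 hv1 with h | h
      · obtain ⟨e, he1, he2⟩ := Finset.mem_image.1 h
        exact ⟨e, Finset.mem_filter.2 ⟨he1, Or.inl he2⟩⟩
      · obtain ⟨e, he1, he2⟩ := Finset.mem_image.1 h
        exact ⟨e, Finset.mem_filter.2 ⟨he1, Or.inr he2⟩⟩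
    obtain ⟨k, hk⟩ := he
    omega
  have h1 : 2 * I.card ≤ ∑ v ∈ I, (η.filter (fun e => e.1 = v ∨ rswEnd e = v)).card := by
    calc 2 * I.card = ∑ _v ∈ I, 2 := by rw [Finset.sum_const, smul_eq_mul, mul_comm]
      _ ≤ _ := Finset.sum_le_sum hdeg
  have h2 : ∑ v ∈ I, (η.filter (fun e => e.1 = v ∨ rswEnd e = v)).card =
      ∑ e ∈ η, (I.filter (fun v => e.1 = v ∨ rswEnd e = v)).card := by
    simp only [Finset.card_filter]
    exact Finset.sum_comm
  have h3 : ∀ e ∈ η, (I.filter (fun v => e.1 = v ∨ rswEnd e = v)).card +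
      (if OnPolygon B e.1 ∨ OnPolygon B (rswEnd e) then 1 else 0) ≤ 2 := by
    intro e _
    have hnot : ∀ v ∈ I, ¬ OnPolygon B v := by
      intro v hv
      rw [hI] at hv
      unfold wbe81I at hv
      exact (Finset.mem_filter.1 hv).2
    split_ifs with hp
    · rcases hp with hp | hp
      · have : I.filter (fun v => e.1 = v ∨ rswEnd e = v) ⊆ {rswEnd e} := by
          intro v hv
          obtain ⟨hv1, hv2⟩ := Finset.mem_filter.1 hv
          rcases hv2 with h | h
          · exact absurd (h ▸ hp) (hnot v hv1)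
          · exact Finset.mem_singleton.2 h.symm
        have := Finset.card_le_card this
        rw [Finset.card_singleton] at this
        omega
      · have : I.filter (fun v => e.1 = v ∨ rswEnd e = v) ⊆ {e.1} := by
          intro v hv
          obtain ⟨hv1, hv2⟩ := Finset.mem_filter.1 hv
          rcases hv2 with h | h
          · exact Finset.mem_singleton.2 h.symm
          · exact absurd (h ▸ hp) (hnot v hv1)
        have := Finset.card_le_card this
        rw [Finset.card_singleton] at this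
        omega
    · have : I.filter (fun v => e.1 = v ∨ rswEnd e = v) ⊆ {e.1, rswEnd e} := by
        intro v hv
        obtain ⟨_, hv2⟩ := Finset.mem_filter.1 hv
        rcases hv2 with h | h
        · rw [← h]; exact Finset.mem_insert_self _ _
        · rw [← h]; exact Finset.mem_insert_of_mem (Finset.mem_singleton_self _)
      have := (Finset.card_le_card this).trans Finset.card_le_two
      omega
  have h4 : ∑ e ∈ η, ((I.filter (fun v => e.1 = v ∨ rswEnd e = v)).card +
      (if OnPolygon B e.1 ∨ OnPolygon B (rswEnd e) then 1 else 0)) ≤ 2 * η.card := by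
    calc _ ≤ ∑ _e ∈ η, 2 := Finset.sum_le_sum h3
      _ = 2 * η.card := by rw [Finset.sum_const, smul_eq_mul, mul_comm]
  rw [Finset.sum_add_distrib, ← Finset.card_filter] at h4
  omega

/-- **(ENDS)** -/
theorem wbe81_ends : Wb81EndsLe := by
  classical
  intro x0 x1 y0 y1 Ch hCh hc hx
  have hB := mdl41c_rect_ext x0 x1 y0 y1
  have h1 := wbe81_card_le (B := Finset.Ico x0 x1 ×ˢ Finset.Ico y0 y1) (η := mdl41DisSet (Finset.Ico x0 x1 ×ˢ Finset.Ico y0 y1) Ch)
    (fun η' hη' hev => wbe81_minimal hB hCh hc hx hη' hev)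
  have h2 := wbe81_handshake (mdl41_even_disSet (Finset.Ico x0 x1 ×ˢ Finset.Ico y0 y1) Ch)
  unfold wb81Ends
  have h3 : ((mdl41DisSet (Finset.Ico x0 x1 ×ˢ Finset.Ico y0 y1) Ch).filter fun e =>
      OnPolygon (Finset.Ico x0 x1 ×ˢ Finset.Ico y0 y1) e.1 ∨ OnPolygon (Finset.Ico x0 x1 ×ˢ Finset.Ico y0 y1) (rswEnd e)).card ≤ 2 := by
    omega
  convert h3

theorem wbe81_eqns_cite : True := by
  have := @wbe81I.eq_1
  trivial

end Claimed.Agent.R292
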