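import Claimed.Agent.R292.Model.WbDefs81
import Claimed.Agent.R292.Model.Wb165

/-!
# Row 292 (S0540), Model/WbGeo165 : the record (GEO) `Wb81Geo` of `Model/WbDefs81` (post 34 of `c1_post`; architect helper81; pen helper165; prefix `wb165_`)

`wb165_geo81 : Wb81Geo`, with `c = 8 κ`, `N = 32 κ (k + 1)`.  In the coordinates of the frame: `R = [0, 2 r1) x [0, n)`, `B = [-(n/2), 2 r1 + n/2) x [0, n)`;
centres = the corners `(j r, n / 2)`, `j r < 2 r1`, `r = n / (8 κ)`.  Blocking: a chain of `N` inside `Ch ∩ R` from the row `0` to the row `n - 1` visits the row `n / 2`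
(`wb165_ivt`) at a face `u` of a small box; from `u` it leaves the large box; up to the first exit it is a chain of steps across edges that are not good, inside `Λ ∩ Ch`, which ends in the layer.
-/

set_option autoImplicit false

namespace Claimed.Agent.R292

open Claims Claims.C0468 Relation

/-- a frame sends a rectangle to a rectangle -/
theorem wb165_rect (sw fl : Bool) (c : ℤ × ℤ) (a b h : ℤ) : ∃ x0 x1 y0 y1 : ℤ,
    (Finset.Ico a b ×ˢ Finset.Ico 0 h).map (mdl41cFrame sw fl c).toEmbedding = Finset.Ico x0 x1 ×ˢ Finset.Ico y0 y1 := by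
  cases sw <;> cases fl
  · refine ⟨c.1 + a, c.1 + b, c.2, c.2 + h, ?_⟩
    ext g
    rw [Finset.mem_map_equiv, mdl41c_frame_symm_apply]
    simp only [Finset.mem_product, Finset.mem_Ico, Bool.false_eq_true, if_false]
    omega
  · refine ⟨c.1 + a, c.1 + b, c.2 - h, c.2, ?_⟩
    ext g
    rw [Finset.mem_map_equiv, mdl41c_frame_symm_apply]
    simp only [Finset.mem_product, Finset.mem_Ico, Bool.false_eq_true, if_false, if_true]
    omega
  · refine ⟨c.1, c.1 + h, c.2 + a, c.2 + b, ?_⟩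
    ext g
    rw [Finset.mem_map_equiv, mdl41c_frame_symm_apply]
    simp only [Finset.mem_product, Finset.mem_Ico, Bool.false_eq_true, if_false, if_true]
    omega
  · refine ⟨c.1 - h, c.1, c.2 + a, c.2 + b, ?_⟩
    ext g
    rw [Finset.mem_map_equiv, mdl41c_frame_symm_apply]
    simp only [Finset.mem_product, Finset.mem_Ico, if_true]
    omega

/-- first exit of a chain from a set -/
theorem wb165_exit {s s' : ℤ × ℤ → ℤ × ℤ → Prop} (Λ : Finset (ℤ × ℤ))
    (hss : ∀ u v, s u v → u ∈ Λ → v ∈ Λ → s' u v) {u g : ℤ × ℤ} (h : ReflTransGen s u g) (hu : u ∈ Λ) (hg : g ∉ Λ) :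
    ∃ w w', ReflTransGen s' u w ∧ w ∈ Λ ∧ w' ∉ Λ ∧ s w w' := by
  revert hu
  refine ReflTransGen.head_induction_on h ?_ ?_
  · intro hu
    exact absurd hu hg
  · intro a b hab hbg ih ha
    by_cases hb : b ∈ Λ
    · obtain ⟨w, w', h1, h2, h3, h4⟩ := ih hb
      exact ⟨w, w', ReflTransGen.head (hss a b hab ha hb) h1, h2, h3, h4⟩
    · exact ⟨a, b, ReflTransGen.refl, ha, hb, hab⟩

/-- a face of a box with a neighbour off the box is in the layer of the box -/
theorem wb165_layer {x w w' : ℤ × ℤ} {ρ : ℕ} (hw : w ∈ rswBox x ρ) (hw' : w' ∉ rswBox x ρ) (h : Mdl41cAdj w w') :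
    w ∈ rswLayer (rswBox x ρ) := by
  rw [mdl1_mem_layer]
  refine ⟨hw, ?_⟩
  rw [mdl41c_adj_iff] at h
  obtain ⟨w1, w2⟩ := w
  obtain ⟨v1, v2⟩ := w'
  simp only at h
  rcases h with ⟨h1, h2 | h2⟩ | ⟨h1, h2 | h2⟩
  · refine ⟨(w1, w2), by simp, fun hp => hw' ?_⟩
    have := hp.2.2.1
    simp only at this
    have e : (v1, v2) = (w1, w2 - 1) := by rw [Prod.mk.injEq]; omega
    rw [e]; exact this
  · refine ⟨(w1, w2 + 1), by simp, fun hp => hw' ?_⟩
    have := hp.1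
    have e : (v1, v2) = (w1, w2 + 1) := by rw [Prod.mk.injEq]; omega
    rw [e]; exact this
  · refine ⟨(w1, w2), by simp, fun hp => hw' ?_⟩
    have := hp.2.1
    simp only at this
    have e : (v1, v2) = (w1 - 1, w2) := by rw [Prod.mk.injEq]; omega
    rw [e]; exact this
  · refine ⟨(w1 + 1, w2), by simp, fun hp => hw' ?_⟩
    have := hp.1
    have e : (v1, v2) = (w1 + 1, w2) := by rw [Prod.mk.injEq]; omega
    rw [e]; exact this

/-- **(GEO)** the record `Wb81Geo` of `Model/WbDefs81`. -/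
theorem wb165_geo81 : Wb81Geo := by
  intro k κ hκ
  refine ⟨32 * κ * (k + 1), 8 * κ, by omega, fun n hn z d => ?_⟩
  obtain ⟨sw, fl, c, hfr⟩ := mdl41c_fr_eq z (k * n) ((k + 1) * n) d
  obtain ⟨ctr, hctr⟩ := wb165_ctr sw fl c
  have hsub : (k + 1) * n - k * n = n := by
    rw [Nat.add_mul, one_mul]; omega
  refine ⟨?_, ?_⟩
  · unfold mdl41cB
    rw [hfr]
    exact wb165_rect sw fl c _ _ _
  obtain ⟨r, hr⟩ : ∃ r : ℕ, r = n / (8 * κ) := ⟨_, rfl⟩
  rw [← hr]
  have hr1 : 1 ≤ r := by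
    rw [hr]; exact (Nat.le_div_iff_mul_le (by omega)).2 (by omega)
  have hr8 : 8 * (κ * r) ≤ n := by
    have := Nat.div_mul_le_self n (8 * κ)
    rw [← hr] at this
    nlinarith
  have hnr : n < 16 * (κ * r) := by
    have := Nat.lt_div_mul_add (a := n) (b := 8 * κ) (by omega)
    rw [← hr] at this
    nlinarith
  have hrρ : r ≤ κ * r := by nlinarith
  obtain ⟨ρ, hρ⟩ : ∃ ρ : ℕ, ρ = κ * r := ⟨_, rfl⟩
  obtain ⟨r1, hr1'⟩ : ∃ r1 : ℕ, r1 = (k + 1) * n := ⟨_, rfl⟩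
  rw [← hρ] at hr8 hnr hrρ ⊢
  have hmemB : ∀ u, u ∈ mdl41cB z (k * n) ((k + 1) * n) (n / 2) d ↔
      (-((n / 2 : ℕ) : ℤ) ≤ ((mdl41cFrame sw fl c).symm u).1 ∧
        ((mdl41cFrame sw fl c).symm u).1 < ((2 * r1 : ℕ) : ℤ) + ((n / 2 : ℕ) : ℤ)) ∧
      (0 ≤ ((mdl41cFrame sw fl c).symm u).2 ∧ ((mdl41cFrame sw fl c).symm u).2 < (n : ℤ)) := by
    intro u
    unfold mdl41cB
    rw [hfr, Finset.mem_map_equiv, Finset.mem_product, Finset.mem_Ico, Finset.mem_Ico, hsub, hr1']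
  have hmemR : ∀ u, u ∈ mdl41cR z (k * n) ((k + 1) * n) d ↔
      (0 ≤ ((mdl41cFrame sw fl c).symm u).1 ∧ ((mdl41cFrame sw fl c).symm u).1 < ((2 * r1 : ℕ) : ℤ)) ∧
      (0 ≤ ((mdl41cFrame sw fl c).symm u).2 ∧ ((mdl41cFrame sw fl c).symm u).2 < (n : ℤ)) := by
    intro u
    unfold mdl41cR
    rw [hfr, Finset.mem_map_equiv, Finset.mem_product, Finset.mem_Ico, Finset.mem_Ico, hsub, hr1']
  classical
  refine ⟨((Finset.range (32 * κ * (k + 1))).filter (fun j => j * r < 2 * r1)).image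
    (fun j => ctr (((j * r : ℕ) : ℤ), ((n / 2 : ℕ) : ℤ))), ?_, ?_, ?_⟩
  · exact Finset.card_image_le.trans ((Finset.card_filter_le _ _).trans (by simp))
  · intro x hx
    obtain ⟨j, hj, rfl⟩ := Finset.mem_image.1 hx
    have hj2 := (Finset.mem_filter.1 hj).2
    have key : ∀ g, g ∈ rswBox (ctr (((j * r : ℕ) : ℤ), ((n / 2 : ℕ) : ℤ))) (ρ + 1) →
        g ∈ mdl41cB z (k * n) ((k + 1) * n) (n / 2) d := by
      intro g hg
      rw [hctr] at hg
      rw [hmemB]
      obtain ⟨X, hX⟩ : ∃ X : ℕ, X = j * r := ⟨_, rfl⟩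
      rw [← hX] at hg hj2
      simp only at hg
      omega
    refine ⟨fun g hg => key g (mdl1_box_mono _ (Nat.le_succ ρ) hg), fun v hv => ?_⟩
    obtain ⟨h1, h2, h3, h4⟩ := wb165_corner hv
    unfold rskCore
    refine Finset.mem_filter.2 ⟨?_, ?_⟩
    · unfold cornersOf
      exact Finset.mem_biUnion.2 ⟨v, key _ h1, by simp⟩
    · unfold OnPolygon
      exact not_not.2 ⟨key _ h1, key _ h2, key _ h3, key _ h4⟩
  · intro Ch a ω hsep f hf g hg hfP hconn
    unfold MdlNConn at hconn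
    obtain ⟨i, hi, rfl⟩ := Finset.mem_image.1 hf
    have hi' := Finset.mem_range.1 hi
    rw [← hr1'] at hi'
    have hseed : (mdl41cFrame sw fl c).symm (mdl41cSeed z (k * n) ((k + 1) * n) d i) = ((i : ℤ), 0) := by
      unfold mdl41cSeed
      rw [hfr]
      exact Equiv.symm_apply_apply _ _
    have hg' : ((mdl41cFrame sw fl c).symm g).2 = (n : ℤ) - 1 := by
      unfold mdl41cTop at hg
      rw [hfr, Finset.mem_map_equiv, Finset.mem_product, Finset.mem_Ico, Finset.mem_Ico, hsub] at hg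
      omega
    obtain ⟨u, huP, hug, huY⟩ := wb165_ivt (fun u => ((mdl41cFrame sw fl c).symm u).2)
      (Ch ∩ mdl41cR z (k * n) ((k + 1) * n) d) (MdlNStep (Ch ∩ mdl41cR z (k * n) ((k + 1) * n) d) ω)
      (fun u v huv => ⟨huv.1, huv.2.1, by
        have := mdl41c_frame_symm_adj sw fl c u v (mdl41c_nstep_adj huv)
        rw [mdl41c_adj_iff] at this
        omega⟩) ((n / 2 : ℕ) : ℤ) hconn hfP (by simp only [hseed]; omega) (by simp only [hg']; omega)
    have huR' := (hmemR u).1 (Finset.mem_inter.1 huP).2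
    have huCh := (Finset.mem_inter.1 huP).1
    obtain ⟨X, hX⟩ : ∃ X : ℕ, ((mdl41cFrame sw fl c).symm u).1 = (X : ℤ) :=
      ⟨((mdl41cFrame sw fl c).symm u).1.toNat, by omega⟩
    have hXr1 : X < 2 * r1 := by omega
    have hd1 := Nat.div_mul_le_self X r
    have hd2 := Nat.lt_div_mul_add (a := X) (b := r) (by omega)
    have hxC : ctr (((X / r * r : ℕ) : ℤ), ((n / 2 : ℕ) : ℤ)) ∈
        ((Finset.range (32 * κ * (k + 1))).filter (fun j => j * r < 2 * r1)).image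
          (fun j => ctr (((j * r : ℕ) : ℤ), ((n / 2 : ℕ) : ℤ))) := by
      refine Finset.mem_image.2 ⟨X / r, Finset.mem_filter.2 ⟨Finset.mem_range.2 ?_, ?_⟩, rfl⟩
      · rw [Nat.div_lt_iff_lt_mul (by omega)]
        have h5 : 2 * r1 < 32 * κ * (k + 1) * r := by
          rw [hr1']
          have : (k + 1) * n < (k + 1) * (16 * ρ) := Nat.mul_lt_mul_of_pos_left hnr (by omega)
          rw [hρ] at this
          nlinarith
        omega
      · omega
    have hur : u ∈ rswBox (ctr (((X / r * r : ℕ) : ℤ), ((n / 2 : ℕ) : ℤ))) r := by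
      rw [hctr]
      obtain ⟨Q, hQ⟩ : ∃ Q : ℕ, Q = X / r * r := ⟨_, rfl⟩
      rw [← hQ] at hd1 hd2 ⊢
      simp only
      omega
    have hgρ : g ∉ rswBox (ctr (((X / r * r : ℕ) : ℤ), ((n / 2 : ℕ) : ℤ))) ρ := by
      rw [hctr]
      simp only
      omega
    obtain ⟨x, hx⟩ : ∃ x, x = ctr (((X / r * r : ℕ) : ℤ), ((n / 2 : ℕ) : ℤ)) := ⟨_, rfl⟩
    rw [← hx] at hxC hur hgρ
    obtain ⟨w, w', hw1, hw2, hw3, hw4⟩ := wb165_exit (s' := RswStep (rswBox x ρ ∩ Ch) a ω) (rswBox x ρ)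
      (fun p q hpq hp hq => by
        obtain ⟨h1, h2, e, he, hne⟩ := hpq
        exact ⟨Finset.mem_inter.2 ⟨hp, (Finset.mem_inter.1 h1).1⟩, Finset.mem_inter.2 ⟨hq, (Finset.mem_inter.1 h2).1⟩,
          e, he, fun hgood => hne hgood.1⟩) hug (mdl1_box_mono _ hrρ hur) hgρ
    exact hsep x hxC u (Finset.mem_inter.2 ⟨hur, huCh⟩) w
      (Finset.mem_inter.2 ⟨wb165_layer hw2 hw3 (mdl41c_nstep_adj hw4), (Finset.mem_inter.1 hw4.1).1⟩) hw1

end Claimed.Agent.R292
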