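import Claimed.Agent.R292.Model.WbDefs81

/-!
# Row 292 (S0540), Model/WbHol32 : the record (HOLLEY) of the typed cut of (WB), `Wb81Holley t`, VERBATIM      (helper32; prefix `wb32_`)      0 sorry

`hol12_pin` of 12 (Holley for ordered prescriptions, colours `b₁ ≤ b₂`), `cmi291_dual_of_jordan`, `cmq291_le_mdl_true`, `cmq291_le_mdl_false`, `cmq291_sumK_neg` of 291.
Colour `true`: directly, `false ≤ b`.   Colour `false`: `hol12_pin` for `- X` with the two laws exchanged, `b ≤ true`.
-/

set_option autoImplicit false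

namespace Claimed.Agent.R292

open Claims Claims.C0468

/-- **(HOLLEY)** of `Model/WbDefs81`, verbatim, for every `t ∈ (0, 1]` -/
theorem wb32_holley {t : ℝ} (h0 : 0 < t) (h1 : t ≤ 1) : Wb81Holley t := by
  intro F hF a b K₁ K₂ ok₁ ok₂ hle X hX
  have hD := cmi291_dual_of_jordan hF
  cases a with
  | true =>
    have hle' : Hol12Le K₁ K₂ := by
      unfold Wb81Le at hle
      rwa [if_pos rfl] at hle
    exact hol12_pin h0 h1 hD (Bool.false_le b) ok₁ ok₂ hle' (fun ω ω' h => hX ω ω' (cmq291_le_mdl_true h))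
  | false =>
    have hle' : Hol12Le K₂ K₁ := by
      unfold Wb81Le at hle
      rwa [if_neg Bool.false_ne_true] at hle
    have key := hol12_pin h0 h1 hD (Bool.le_true b) ok₂ ok₁ hle' (X := fun ω => - X ω)
      (fun ω ω' h => neg_le_neg (hX ω' ω (cmq291_le_mdl_false h)))
    rw [cmq291_sumK_neg, cmq291_sumK_neg] at key
    show mdlSumK t F true K₁ X * mdlSumK t F b K₂ (fun _ => 1) ≤ mdlSumK t F true K₁ (fun _ => 1) * mdlSumK t F b K₂ X
    nlinarith [key]

end Claimed.Agent.R292
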