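import Claimed.Agent.R292.Model.WbDefs81

/-!
# Row 292 (S0540), Model/WbLeAdv12 : leaves (LE-ADV), (MEM) of the typed cut of (WB) (`Model/WbDefs81`)      (owner helper12; prefix `wbl12`)      0 sorry

`wbl12_mem : Wb81Mem`, `wbl12_le_adv : Wb81LeAdv`, VERBATIM the records of `WbDefs81`.   Deterministic set logic.
-/

set_option autoImplicit false
set_option linter.unusedVariables false

namespace Claimed.Agent.R292

open Claims Claims.C0468

theorem wbl12_ends {F Q : Finset (ℤ × ℤ)} {e : (ℤ × ℤ) × Bool} (he : e ∈ mdl1aE F Q) : e.1 ∈ mdl1aV F Q ∧ rswEnd e ∈ mdl1aV F Q := by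
  rw [mdl1a_mem_E] at he
  exact ⟨mdl1a_mem_V.2 ⟨rsk_int_fst he.1, fun h => he.2 (rsk_fst_core (rsk_mem_core.2 h))⟩,
    mdl1a_mem_V.2 ⟨rsk_int_end he.1, fun h => he.2 (rsk_end_core (rsk_mem_core.2 h))⟩⟩

theorem wbl12_Va_sub (F B Ch : Finset (ℤ × ℤ)) : wb81Va F B Ch ⊆ mdl1aV F Ch := by
  classical
  unfold wb81Va
  exact Finset.filter_subset _ _

theorem wbl12_Vf_sub (F B Ch : Finset (ℤ × ℤ)) : wb81Vf F B Ch ⊆ mdl1aV F Ch := by
  classical
  unfold wb81Vf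
  exact Finset.union_subset (wbl12_Va_sub F B Ch) (Finset.filter_subset _ _)

theorem wbl12_Oa_sub (F B Ch : Finset (ℤ × ℤ)) : wb81Oa F B Ch ⊆ mdl1aE F Ch := by
  classical
  unfold wb81Oa
  exact Finset.filter_subset _ _

theorem wbl12_Of_sub (F B Ch : Finset (ℤ × ℤ)) : wb81Of F B Ch ⊆ mdl1aE F Ch := by
  classical
  unfold wb81Of
  exact Finset.filter_subset _ _

theorem wbl12_mem_Va {F B Ch : Finset (ℤ × ℤ)} {v : ℤ × ℤ} :
    v ∈ wb81Va F B Ch ↔ v ∈ mdl1aV F Ch ∧ ¬ OnPolygon F v ∧ ∃ e ∈ mdl41DisSet B Ch, v = e.1 ∨ v = rswEnd e := by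
  classical
  unfold wb81Va
  rw [Finset.mem_filter]

theorem wbl12_mem_Oa {F B Ch : Finset (ℤ × ℤ)} {e : (ℤ × ℤ) × Bool} :
    e ∈ wb81Oa F B Ch ↔ e ∈ mdl1aE F Ch ∧ ((e.1 ∉ wb81Va F B Ch ∧ rswEnd e ∉ wb81Va F B Ch) ∨
      (e ∈ mdl41DisSet B Ch ∧ e.1 ∈ wb81Va F B Ch ∧ rswEnd e ∈ wb81Va F B Ch)) := by
  classical
  unfold wb81Oa
  rw [Finset.mem_filter]

theorem wbl12_at_mem {F Q : Finset (ℤ × ℤ)} (a : Bool) {Va : Finset (ℤ × ℤ)} {O : Finset ((ℤ × ℤ) × Bool)} (hV : Va ⊆ mdl1aV F Q)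
    (hO : O ⊆ mdl1aE F Q) : wb81At F Q a Va O ∈ mdl1aT F Q := by
  unfold wb81At mdl1aT
  refine Finset.mem_product.2 ⟨Finset.mem_powerset.2 ?_, Finset.mem_powerset.2 hO⟩
  show (if a = true then Va else mdl1aV F Q \ Va) ⊆ _
  split_ifs
  · exact hV
  · exact Finset.sdiff_subset

/-- **(MEM)**, verbatim -/
theorem wbl12_mem : Wb81Mem := fun F B Ch a =>
  ⟨wbl12_at_mem a (wbl12_Va_sub F B Ch) (wbl12_Oa_sub F B Ch), wbl12_at_mem a (wbl12_Vf_sub F B Ch) (wbl12_Of_sub F B Ch),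
    wbl12_at_mem a (Finset.empty_subset _) (Finset.Subset.refl _)⟩

/-- **(LE-ADV)**, verbatim -/
theorem wbl12_le_adv : Wb81LeAdv := by
  classical
  intro F B Ch a ξ hBF hCh hξ hW
  have hξ1 : ξ.1 ⊆ mdl1aV F Ch := Finset.mem_powerset.1 (Finset.mem_product.1 hξ).1
  have hξ2 : ξ.2 ⊆ mdl1aE F Ch := Finset.mem_powerset.1 (Finset.mem_product.1 hξ).2
  -- the ends of the wall have the colour `a`
  have hcol : ∀ v ∈ wb81Va F B Ch, (v ∈ ξ.1 ↔ a = true) := by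
    intro v hv
    obtain ⟨_, _, e, he, h | h⟩ := wbl12_mem_Va.1 hv
    · rw [h]; exact (hW e he).2.1
    · rw [h]; exact (hW e he).2.2
  have hopen : ∀ e ∈ mdl41DisSet B Ch, e ∈ ξ.2 := fun e he => (hW e he).1
  have inE : ∀ (O : Finset ((ℤ × ℤ) × Bool)) (e : (ℤ × ℤ) × Bool), e ∈ mdl1aE F Ch → e ∈ O ∪ (mdl1aE F Ch \ O) := fun O e he => by
    by_cases h : e ∈ O
    · exact Finset.mem_union_left _ h
    · exact Finset.mem_union_right _ (Finset.mem_sdiff.2 ⟨he, h⟩)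
  unfold Wb81Le
  cases a
  · -- colour minus: `ξ ≤ adv`
    rw [if_neg (by simp)]
    have hcol' : ∀ v ∈ wb81Va F B Ch, v ∉ ξ.1 := fun v hv h => absurd ((hcol v hv).1 h) (by simp)
    have eSp : (wb81Adv F B Ch false).Sp = mdl1aV F Ch \ wb81Va F B Ch := by
      show (wb81At F Ch false (wb81Va F B Ch) (wb81Oa F B Ch)).1 = _
      unfold wb81At
      simp
    have eSm : (wb81Adv F B Ch false).Sm = mdl1aV F Ch \ (mdl1aV F Ch \ wb81Va F B Ch) := by
      show mdl1aV F Ch \ (wb81Adv F B Ch false).Sp = _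
      rw [eSp]
    have eOo : (wb81Adv F B Ch false).Oo = wb81Oa F B Ch := rfl
    have eOc : (wb81Adv F B Ch false).Oc = mdl1aE F Ch \ wb81Oa F B Ch := rfl
    refine ⟨?_, ?_, ?_, ?_, ?_, ?_⟩
    · intro v hv
      rw [eSp]
      exact Finset.mem_sdiff.2 ⟨hξ1 hv, fun h => hcol' v h hv⟩
    · intro v hv
      rw [eSm] at hv
      obtain ⟨h1, h2⟩ := Finset.mem_sdiff.1 hv
      have h3 : v ∈ wb81Va F B Ch := by
        by_contra hc
        exact h2 (Finset.mem_sdiff.2 ⟨h1, hc⟩)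
      exact Finset.mem_sdiff.2 ⟨h1, hcol' v h3⟩
    · intro e he
      have he' : e ∈ ξ.2 := he
      obtain ⟨v1, v2⟩ := wbl12_ends (hξ2 he')
      by_cases c1 : e.1 ∈ ξ.1
      · by_cases c2 : rswEnd e ∈ ξ.1
        · refine Or.inr ?_
          rw [eOo]
          exact wbl12_mem_Oa.2 ⟨hξ2 he', Or.inl ⟨fun h => hcol' _ h c1, fun h => hcol' _ h c2⟩⟩
        · exact Or.inl (Or.inr (Finset.mem_sdiff.2 ⟨v2, c2⟩))
      · exact Or.inl (Or.inl (Finset.mem_sdiff.2 ⟨v1, c1⟩))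
    · intro e he
      rw [eOc] at he
      exact Or.inr (inE ξ.2 e (Finset.mem_sdiff.1 he).1)
    · intro e he
      rw [eOo] at he
      obtain ⟨hE, h | h⟩ := wbl12_mem_Oa.1 he
      · refine Or.inl (Or.inl ?_)
        rw [eSp]
        exact Finset.mem_sdiff.2 ⟨(wbl12_ends hE).1, h.1⟩
      · exact Or.inr (hopen e h.1)
    · intro e he
      have he' : e ∈ mdl1aE F Ch \ ξ.2 := he
      refine Or.inr ?_
      rw [eOo, eOc]
      exact inE _ e (Finset.mem_sdiff.1 he').1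
  · -- colour plus: `adv ≤ ξ`
    rw [if_pos rfl]
    have hcol' : ∀ v ∈ wb81Va F B Ch, v ∈ ξ.1 := fun v hv => (hcol v hv).2 rfl
    have eSp : (wb81Adv F B Ch true).Sp = wb81Va F B Ch := by
      show (wb81At F Ch true (wb81Va F B Ch) (wb81Oa F B Ch)).1 = _
      unfold wb81At
      simp
    have eSm : (wb81Adv F B Ch true).Sm = mdl1aV F Ch \ wb81Va F B Ch := by
      show mdl1aV F Ch \ (wb81Adv F B Ch true).Sp = _
      rw [eSp]
    have eOo : (wb81Adv F B Ch true).Oo = wb81Oa F B Ch := rfl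
    have eOc : (wb81Adv F B Ch true).Oc = mdl1aE F Ch \ wb81Oa F B Ch := rfl
    refine ⟨?_, ?_, ?_, ?_, ?_, ?_⟩
    · intro v hv
      rw [eSp] at hv
      exact hcol' v hv
    · intro v hv
      have hv' : v ∈ mdl1aV F Ch \ ξ.1 := hv
      obtain ⟨h1, h2⟩ := Finset.mem_sdiff.1 hv'
      rw [eSm]
      exact Finset.mem_sdiff.2 ⟨h1, fun h => h2 (hcol' v h)⟩
    · intro e he
      rw [eOo] at he
      obtain ⟨hE, h | h⟩ := wbl12_mem_Oa.1 he
      · refine Or.inl (Or.inl ?_)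
        rw [eSm]
        exact Finset.mem_sdiff.2 ⟨(wbl12_ends hE).1, h.1⟩
      · exact Or.inr (hopen e h.1)
    · intro e he
      have he' : e ∈ mdl1aE F Ch \ ξ.2 := he
      refine Or.inr ?_
      rw [eOo, eOc]
      exact inE _ e (Finset.mem_sdiff.1 he').1
    · intro e he
      have he' : e ∈ ξ.2 := he
      by_cases c1 : e.1 ∈ ξ.1
      · exact Or.inl (Or.inl c1)
      · by_cases c2 : rswEnd e ∈ ξ.1
        · exact Or.inl (Or.inr c2)
        · refine Or.inr ?_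
          rw [eOo]
          exact wbl12_mem_Oa.2 ⟨hξ2 he', Or.inl ⟨fun h => c1 (hcol' _ h), fun h => c2 (hcol' _ h)⟩⟩
    · intro e he
      rw [eOc] at he
      exact Or.inr (inE ξ.2 e (Finset.mem_sdiff.1 he).1)

end Claimed.Agent.R292
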