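import Claimed.Agent.R292.Model.WbDefs81

/-!
# Row 292 (S0540), Model/WbLeCut109 : (WB), LEAF (LE-CUT) = `Wb81LeCut`      (helper109; prefix `wlc109_`)      0 sorry

Record of helper81 (`Model/WbDefs81`), verbatim: the cut atom of a box `Λ ⊆ B` whose corners are in the core of `B` is below the filled atom off `Ch`, in the order of prescriptions read in the colour `a`.
Four colour free facts `wlc109_f1 .. f4`, then the two colours.      **`wlc109_leCut : Wb81LeCut`**.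
-/

set_option autoImplicit false
set_option linter.unusedVariables false

namespace Claimed.Agent.R292

open Claims Claims.C0468

theorem wlc109_core_iff {G : Finset (ℤ × ℤ)} {v : ℤ × ℤ} : v ∈ rskCore G ↔ ¬ OnPolygon G v := by
  rw [rsk_mem_core, rsx_onPoly, not_not]

/-- an exterior edge has its two ends among the exterior vertices -/
theorem wlc109_ends {F Q : Finset (ℤ × ℤ)} {e : (ℤ × ℤ) × Bool} (he : e ∈ mdl1aE F Q) : e.1 ∈ mdl1aV F Q ∧ rswEnd e ∈ mdl1aV F Q := by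
  obtain ⟨h1, h2⟩ := mdl1a_mem_E.1 he
  have hf := (rsx_mem_int.1 h1).1
  refine ⟨mdl1a_mem_V.2 ⟨rsx_end_corner1 (Or.inl hf), ?_⟩, mdl1a_mem_V.2 ⟨rsx_end_corner2 (Or.inl hf), ?_⟩⟩
  · by_contra hn
    exact h2 (rsk_fst_core (wlc109_core_iff.2 hn))
  · by_contra hn
    exact h2 (rsk_end_core (wlc109_core_iff.2 hn))

theorem wlc109_mem_Vf {F B Ch : Finset (ℤ × ℤ)} {v : ℤ × ℤ} (h1 : v ∈ mdl1aV F Ch) (h2 : v ∈ rskCore B) : v ∈ wb81Vf F B Ch := by
  classical
  exact Finset.mem_union_right _ (Finset.mem_filter.2 ⟨h1, h2⟩)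

theorem wlc109_Vf_sub (F B Ch : Finset (ℤ × ℤ)) : wb81Vf F B Ch ⊆ mdl1aV F Ch := by
  classical
  intro v hv
  rcases Finset.mem_union.1 hv with h | h
  · exact (Finset.mem_filter.1 h).1
  · exact (Finset.mem_filter.1 h).1

section facts

variable {F B Ch Λ : Finset (ℤ × ℤ)} (hBF : B ⊆ F) (hΛB : Λ ⊆ B) (hc : ∀ v ∈ cornersOf Λ, v ∈ rskCore B)

include hc in
/-- (F1) a vertex of the filled atom which has not the colour of the wall is exterior to `Λ` -/
theorem wlc109_f1 {v : ℤ × ℤ} (h1 : v ∈ mdl1aV F Ch) (h2 : v ∉ wb81Vf F B Ch) : v ∈ mdl1aV F Λ := by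
  refine mdl1a_mem_V.2 ⟨(mdl1a_mem_V.1 h1).1, ?_⟩
  by_contra hn
  have hin : v ∈ rsxIn Λ := rsx_in_iff.2 hn
  exact h2 (wlc109_mem_Vf h1 (hc v (rsx_in_sub_corners Λ hin)))

include hc in
/-- the ends of an edge inside `Λ`, exterior to `Ch`, have the colour of the wall in the filled atom -/
theorem wlc109_in_Vf {e : (ℤ × ℤ) × Bool} (h1 : e ∈ mdl1aE F Ch) (h2 : e ∈ rswInt Λ) : e.1 ∈ wb81Vf F B Ch ∧ rswEnd e ∈ wb81Vf F B Ch := by
  have hf := (rsx_mem_int.1 h2).1
  exact ⟨wlc109_mem_Vf (wlc109_ends h1).1 (hc _ (rsx_end_corner1 (Or.inl hf))), wlc109_mem_Vf (wlc109_ends h1).2 (hc _ (rsx_end_corner2 (Or.inl hf)))⟩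

include hBF hΛB hc in
/-- (F3) an edge closed in the filled atom is exterior to `Λ` -/
theorem wlc109_f3 {e : (ℤ × ℤ) × Bool} (h1 : e ∈ mdl1aE F Ch) (h2 : e ∉ wb81Of F B Ch) : e ∈ mdl1aE F Λ := by
  classical
  refine mdl1a_mem_E.2 ⟨(mdl1a_mem_E.1 h1).1, fun hin => h2 ?_⟩
  obtain ⟨v0, v1⟩ := wlc109_in_Vf hc h1 hin
  have hf := (rsx_mem_int.1 hin).1
  refine Finset.mem_filter.2 ⟨h1, ?_⟩
  by_cases hd : e ∈ mdl41DisSet F Ch
  · rw [if_pos hd]
    have hdB : e ∈ mdl41DisSet B Ch := mdl41_mem_disSet.2 ⟨rsx_int_mono hΛB hin, (mdl41_mem_disSet.1 hd).2⟩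
    have a0 : e.1 ∈ wb81Va F B Ch := Finset.mem_filter.2 ⟨(wlc109_ends h1).1,
      mdl1_poly_mono hBF (wlc109_core_iff.1 (hc _ (rsx_end_corner1 (Or.inl hf)))), e, hdB, Or.inl rfl⟩
    have a1 : rswEnd e ∈ wb81Va F B Ch := Finset.mem_filter.2 ⟨(wlc109_ends h1).2,
      mdl1_poly_mono hBF (wlc109_core_iff.1 (hc _ (rsx_end_corner2 (Or.inl hf)))), e, hdB, Or.inr rfl⟩
    exact Finset.mem_filter.2 ⟨h1, Or.inr ⟨hdB, a0, a1⟩⟩
  · rw [if_neg hd]
    exact iff_of_true v0 v1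

include hc in
/-- (F4) an edge open in the filled atom has an end of the colour of the wall or is exterior to `Λ` -/
theorem wlc109_f4 {e : (ℤ × ℤ) × Bool} (h : e ∈ wb81Of F B Ch) : e.1 ∈ wb81Vf F B Ch ∨ e ∈ mdl1aE F Λ := by
  classical
  have h1 : e ∈ mdl1aE F Ch := (Finset.mem_filter.1 h).1
  by_cases hin : e ∈ rswInt Λ
  · exact Or.inl (wlc109_in_Vf hc h1 hin).1
  · exact Or.inr (mdl1a_mem_E.2 ⟨(mdl1a_mem_E.1 h1).1, hin⟩)

end facts

/-- **(LE-CUT)** -/
theorem wlc109_leCut : Wb81LeCut := by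
  classical
  intro F B Ch Λ a hBF hChB hΛB hc
  unfold Wb81Le
  cases a
  · -- colour `false`: the filled atom is below the cut atom
    rw [if_neg (by simp)]
    refine ⟨?_, ?_, ?_, ?_, ?_, ?_⟩
    · intro v hv
      have hv' : v ∈ mdl1aV F Ch \ wb81Vf F B Ch := by simpa [wb81Fill, wb81FillA, wb81At, mdl1aK] using hv
      obtain ⟨x1, x2⟩ := Finset.mem_sdiff.1 hv'
      have := wlc109_f1 hc x1 x2
      simpa [wb81Cut, wb81CutA, wb81At, mdl1aK] using this
    · intro v hv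
      simp [wb81Cut, wb81CutA, wb81At, mdl1aK] at hv
    · intro e he
      have he' : e ∈ wb81Of F B Ch := by simpa [wb81Fill, wb81FillA, wb81At, mdl1aK] using he
      rcases wlc109_f4 (Λ := Λ) hc he' with h | h
      · refine Or.inl (Or.inl ?_)
        have : e.1 ∈ mdl1aV F Ch \ (mdl1aV F Ch \ wb81Vf F B Ch) :=
          Finset.mem_sdiff.2 ⟨wlc109_Vf_sub F B Ch h, fun hh => (Finset.mem_sdiff.1 hh).2 h⟩
        simpa [wb81Fill, wb81FillA, wb81At, mdl1aK] using this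
      · refine Or.inr ?_
        simpa [wb81Cut, wb81CutA, wb81At, mdl1aK] using h
    · intro e he
      simp [wb81Cut, wb81CutA, wb81At, mdl1aK] at he
    · intro e he
      have he' : e ∈ mdl1aE F Λ := by simpa [wb81Cut, wb81CutA, wb81At, mdl1aK] using he
      refine Or.inl (Or.inl ?_)
      simpa [wb81Cut, wb81CutA, wb81At, mdl1aK] using (wlc109_ends he').1
    · intro e he
      have he' : e ∈ mdl1aE F Ch \ wb81Of F B Ch := by simpa [wb81Fill, wb81FillA, wb81At, mdl1aK] using he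
      obtain ⟨x1, x2⟩ := Finset.mem_sdiff.1 he'
      refine Or.inr (Finset.mem_union_left _ ?_)
      simpa [wb81Cut, wb81CutA, wb81At, mdl1aK] using wlc109_f3 hBF hΛB hc x1 x2
  · -- colour `true`: the cut atom is below the filled atom
    rw [if_pos rfl]
    refine ⟨?_, ?_, ?_, ?_, ?_, ?_⟩
    · intro v hv
      simp [wb81Cut, wb81CutA, wb81At, mdl1aK] at hv
    · intro v hv
      have hv' : v ∈ mdl1aV F Ch \ wb81Vf F B Ch := by simpa [wb81Fill, wb81FillA, wb81At, mdl1aK] using hv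
      obtain ⟨x1, x2⟩ := Finset.mem_sdiff.1 hv'
      simpa [wb81Cut, wb81CutA, wb81At, mdl1aK] using wlc109_f1 hc x1 x2
    · intro e he
      have he' : e ∈ mdl1aE F Λ := by simpa [wb81Cut, wb81CutA, wb81At, mdl1aK] using he
      refine Or.inl (Or.inl ?_)
      simpa [wb81Cut, wb81CutA, wb81At, mdl1aK] using (wlc109_ends he').1
    · intro e he
      have he' : e ∈ mdl1aE F Ch \ wb81Of F B Ch := by simpa [wb81Fill, wb81FillA, wb81At, mdl1aK] using he
      obtain ⟨x1, x2⟩ := Finset.mem_sdiff.1 he'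
      refine Or.inr (Finset.mem_union_left _ ?_)
      simpa [wb81Cut, wb81CutA, wb81At, mdl1aK] using wlc109_f3 hBF hΛB hc x1 x2
    · intro e he
      have he' : e ∈ wb81Of F B Ch := by simpa [wb81Fill, wb81FillA, wb81At, mdl1aK] using he
      rcases wlc109_f4 (Λ := Λ) hc he' with h | h
      · refine Or.inl (Or.inl ?_)
        simpa [wb81Fill, wb81FillA, wb81At, mdl1aK] using h
      · refine Or.inr ?_
        simpa [wb81Cut, wb81CutA, wb81At, mdl1aK] using h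
    · intro e he
      simp [wb81Cut, wb81CutA, wb81At, mdl1aK] at he

end Claimed.Agent.R292
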