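import Claimed.Agent.R292.Model.Count41
import Claimed.Agent.R292.Model.Circ1
import Claimed.Agent.R292.Rsw.Holley12

/-!
# Row 292 (S0540), Model/WbDefs81 : THE TYPED CUT OF (WB) = `mdl41c_wb` (WALL BLOCKING, TEX 03-spatial l.917-985)      (typed by helper81; prefix `wb81`, `Wb81`)      0 sorry: definitions and records only

`K` = an atom of the `(s,W)` data off the chamber `Ch` (`mdl1aK F Ch ξ`, `ξ ∈ mdl1aT F Ch`) on which the wall `mdl41DisSet B Ch` is good of colour `a`;   `Z_K(X) = mdlSumK t F b K X`.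
Three auxiliary prescriptions, all on the problem `(F, !a)` :
* `wb81Adv`  ADVERSE atom off `Ch`: colour `a` only on the ends of the wall edges (off the polygon of `F`), every other exterior vertex `!a`; an exterior edge is open iff both ends are `!a`, or it is a wall edge with both ends `a`;
* `wb81Fill` FILLED atom off `Ch`: moreover colour `a` on every exterior vertex in the core of `B`; the edges between `Ch` and its complement as in `wb81Adv`, the other exterior edges open iff monochromatic;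
* `wb81Cut Λ` atom off the box `Λ`: everything `!a` and open (= the flat law of `Λ` of colour `!a`, by `rsk_cut`).
CHAIN for `X = 1[A_x]`, `A_x` = no chain of faces inside `Λ_ρ(x) ∩ Ch` from `Λ_r(x)` to the layer of `Λ_ρ(x)` across edges that are not good `a`   (`⊇ Sep_x` = the event of `mdl1t_circuit`) :
  `P_K(A_x) ≥ P_adv(A_x)`  (HOLLEY + LE-ADV)   `≥ 4^{-18} P_fill(A_x)`  (MARKOV + AGREE + COUNT + ENDS)   `≥ 4^{-18} P_fill(Sep_x) ≥ 4^{-18} P_cut(Sep_x)`  (HOLLEY + LE-CUT)   `= 4^{-18} P_{Λ,!a}(Sep_x)`  (CUT)   `≥ 4^{-18} p₀`;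
then FKG over the boxes under `K` (`mdl1_fkg_iter`, (S0)), the deterministic blocking (GEO), the sum over the atoms (`mdl1a_atoms`, `mdl1a_ext`).   Assembly: `Model/Wb81.lean` (helper81).
-/

set_option autoImplicit false

namespace Claimed.Agent.R292

open Claims Claims.C0468

/-! ## 1. the three prescriptions -/

open Classical in
/-- the exterior vertices kept at the colour of the wall: the ends of the wall edges, off the polygon of `F` -/
noncomputable def wb81Va (F B Ch : Finset (ℤ × ℤ)) : Finset (ℤ × ℤ) :=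
  (mdl1aV F Ch).filter fun v => ¬ OnPolygon F v ∧ ∃ e ∈ mdl41DisSet B Ch, v = e.1 ∨ v = rswEnd e

open Classical in
/-- the vertices of colour `a` of the filled atom -/
noncomputable def wb81Vf (F B Ch : Finset (ℤ × ℤ)) : Finset (ℤ × ℤ) :=
  wb81Va F B Ch ∪ (mdl1aV F Ch).filter fun v => v ∈ rskCore B

open Classical in
/-- the open edges of the adverse atom -/
noncomputable def wb81Oa (F B Ch : Finset (ℤ × ℤ)) : Finset ((ℤ × ℤ) × Bool) :=
  (mdl1aE F Ch).filter fun e => (e.1 ∉ wb81Va F B Ch ∧ rswEnd e ∉ wb81Va F B Ch) ∨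
    (e ∈ mdl41DisSet B Ch ∧ e.1 ∈ wb81Va F B Ch ∧ rswEnd e ∈ wb81Va F B Ch)

open Classical in
/-- the open edges of the filled atom -/
noncomputable def wb81Of (F B Ch : Finset (ℤ × ℤ)) : Finset ((ℤ × ℤ) × Bool) :=
  (mdl1aE F Ch).filter fun e => if e ∈ mdl41DisSet F Ch then e ∈ wb81Oa F B Ch
    else (e.1 ∈ wb81Vf F B Ch ↔ rswEnd e ∈ wb81Vf F B Ch)

/-- the atom off `Q` with the set `Va` of vertices of colour `a` and the set `O` of open edges -/
noncomputable def wb81At (F Q : Finset (ℤ × ℤ)) (a : Bool) (Va : Finset (ℤ × ℤ)) (O : Finset ((ℤ × ℤ) × Bool)) :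
    Finset (ℤ × ℤ) × Finset ((ℤ × ℤ) × Bool) :=
  (if a = true then Va else mdl1aV F Q \ Va, O)

/-- the adverse atom -/
noncomputable def wb81AdvA (F B Ch : Finset (ℤ × ℤ)) (a : Bool) : Finset (ℤ × ℤ) × Finset ((ℤ × ℤ) × Bool) :=
  wb81At F Ch a (wb81Va F B Ch) (wb81Oa F B Ch)

/-- the filled atom -/
noncomputable def wb81FillA (F B Ch : Finset (ℤ × ℤ)) (a : Bool) : Finset (ℤ × ℤ) × Finset ((ℤ × ℤ) × Bool) :=
  wb81At F Ch a (wb81Vf F B Ch) (wb81Of F B Ch)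

/-- the cut atom of `Λ` -/
noncomputable def wb81CutA (F Λ : Finset (ℤ × ℤ)) (a : Bool) : Finset (ℤ × ℤ) × Finset ((ℤ × ℤ) × Bool) :=
  wb81At F Λ a ∅ (mdl1aE F Λ)

noncomputable def wb81Adv (F B Ch : Finset (ℤ × ℤ)) (a : Bool) : MdlPin := mdl1aK F Ch (wb81AdvA F B Ch a)
noncomputable def wb81Fill (F B Ch : Finset (ℤ × ℤ)) (a : Bool) : MdlPin := mdl1aK F Ch (wb81FillA F B Ch a)
noncomputable def wb81Cut (F Λ : Finset (ℤ × ℤ)) (a : Bool) : MdlPin := mdl1aK F Λ (wb81CutA F Λ a)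

open Classical in
/-- the indicator of a separation -/
noncomputable def wb81X (G : Finset (ℤ × ℤ)) (a : Bool) (A E : Finset (ℤ × ℤ)) (ω : RswCfg) : ℝ :=
  if RswSep G a ω A E then 1 else 0

/-- the order of prescriptions read in the colour `a` -/
def Wb81Le (a : Bool) (K₁ K₂ : MdlPin) : Prop := if a = true then Hol12Le K₁ K₂ else Hol12Le K₂ K₁

/-! ## 2. the records -/

/-- **(HOLLEY)** both colours; the lower law lives on `(F, !a)`.   [`hol12_pin` of 12; colour `false`: apply it to `c - X` with the roles exchanged; `MdlInc true X → Cmi291Inc X`] -/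
def Wb81Holley (t : ℝ) : Prop :=
  ∀ (F : Finset (ℤ × ℤ)), RswJordan F → ∀ (a b : Bool) (K₁ K₂ : MdlPin), K₁.Ok → K₂.Ok → Wb81Le a K₁ K₂ →
    ∀ X : RswCfg → ℝ, MdlInc a X →
      mdlSumK t F (!a) K₁ X * mdlSumK t F b K₂ (fun _ => 1) ≤ mdlSumK t F (!a) K₁ (fun _ => 1) * mdlSumK t F b K₂ X

/-- **(LE-ADV)** deterministic: the adverse atom is below every atom on which the wall is good. -/
def Wb81LeAdv : Prop :=
  ∀ (F B Ch : Finset (ℤ × ℤ)) (a : Bool) (ξ : Finset (ℤ × ℤ) × Finset ((ℤ × ℤ) × Bool)), B ⊆ F → Ch ⊆ B → ξ ∈ mdl1aT F Ch →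
    Mdl41cWall B Ch a ⟨ξ.1, ∅, ξ.2⟩ → Wb81Le a (wb81Adv F B Ch a) (mdl1aK F Ch ξ)

/-- **(LE-CUT)** deterministic: the cut atom of a box whose corners are in the core of `B` is below the filled atom. -/
def Wb81LeCut : Prop :=
  ∀ (F B Ch Λ : Finset (ℤ × ℤ)) (a : Bool), B ⊆ F → Ch ⊆ B → Λ ⊆ B → (∀ v ∈ cornersOf Λ, v ∈ rskCore B) →
    Wb81Le a (wb81Cut F Λ a) (wb81Fill F B Ch a)

/-- **(MEM)** deterministic: the three atoms are atoms. -/
def Wb81Mem : Prop :=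
  ∀ (F B Ch : Finset (ℤ × ℤ)) (a : Bool), wb81AdvA F B Ch a ∈ mdl1aT F Ch ∧ wb81FillA F B Ch a ∈ mdl1aT F Ch ∧ wb81CutA F Ch a ∈ mdl1aT F Ch

/-- **(MARKOV)** two atoms off `Ch` with the same spins on the corners of `Ch` and the same states of the edges between `Ch` and its complement, at most `m` of which are closed:
the laws inside `Ch` differ by the factor `4 ^ m` at most.   [`Z_ξ(X) = C_ξ ∑_in X w #{D}`; `#{D ⊆ F admissible} ≤ #{D_in} #{D_out} ≤ 2 ^ m #{D ⊆ F admissible}` : the admissible `D` are the kernel of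
`(D_in, D_out) ↦ (D(f_in e) xor D(f_out e))_e`, fibres by symmetric difference, `Finset.card_le_mul_card_image`] -/
def Wb81Markov (t : ℝ) : Prop :=
  ∀ (F Ch : Finset (ℤ × ℤ)) (b : Bool) (ξ ξ' : Finset (ℤ × ℤ) × Finset ((ℤ × ℤ) × Bool)) (m : ℕ), Ch ⊆ F →
    ξ ∈ mdl1aT F Ch → ξ' ∈ mdl1aT F Ch → (∀ v ∈ cornersOf Ch, (v ∈ ξ.1 ↔ v ∈ ξ'.1)) → (∀ e ∈ mdl41DisSet F Ch, (e ∈ ξ.2 ↔ e ∈ ξ'.2)) →
    (mdl41DisSet F Ch \ ξ.2).card ≤ m →
    ∀ X : RswCfg → ℝ, (∀ ω, 0 ≤ X ω) → RskInside Ch X → (∀ S D O, X ⟨S, D, O⟩ = X ⟨S, ∅, O⟩) →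
      mdlSumK t F b (mdl1aK F Ch ξ') X * mdlSumK t F b (mdl1aK F Ch ξ) (fun _ => 1) ≤
        4 ^ m * (mdlSumK t F b (mdl1aK F Ch ξ) X * mdlSumK t F b (mdl1aK F Ch ξ') (fun _ => 1))

/-- **(AGREE)** deterministic: the adverse and the filled atom agree next to `Ch`. -/
def Wb81Agree : Prop :=
  ∀ (F B Ch : Finset (ℤ × ℤ)) (a : Bool), B ⊆ F → Ch ⊆ B →
    (∀ v ∈ cornersOf Ch, (v ∈ (wb81AdvA F B Ch a).1 ↔ v ∈ (wb81FillA F B Ch a).1)) ∧
    ∀ e ∈ mdl41DisSet F Ch, (e ∈ (wb81AdvA F B Ch a).2 ↔ e ∈ (wb81FillA F B Ch a).2)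

open Classical in
/-- the wall edges which touch the polygon of `B` -/
noncomputable def wb81Ends (B Ch : Finset (ℤ × ℤ)) : Finset ((ℤ × ℤ) × Bool) :=
  (mdl41DisSet B Ch).filter fun e => OnPolygon B e.1 ∨ OnPolygon B (rswEnd e)

/-- **(COUNT)** deterministic: a closed edge between `Ch` and its complement, in the adverse atom, is an end of the wall or shares a vertex with one. -/
def Wb81Count : Prop :=
  ∀ (F B Ch : Finset (ℤ × ℤ)) (a : Bool), B ⊆ F → Ch ⊆ B → (mdl41DisSet F Ch \ (wb81AdvA F B Ch a).2).card ≤ 9 * (wb81Ends B Ch).card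

/-- **(ENDS)** planar fact: in a rectangle of faces, the wall between a connected set and its connected complement has at most two ends on the polygon. -/
def Wb81EndsLe : Prop :=
  ∀ (x0 x1 y0 y1 : ℤ) (Ch : Finset (ℤ × ℤ)), Ch ⊆ Finset.Ico x0 x1 ×ˢ Finset.Ico y0 y1 →
    (∀ f ∈ Ch, ∀ g ∈ Ch, Mdl41cJoin Ch f g) →
    (∀ f ∈ (Finset.Ico x0 x1 ×ˢ Finset.Ico y0 y1) \ Ch, ∀ g ∈ (Finset.Ico x0 x1 ×ˢ Finset.Ico y0 y1) \ Ch,
      Mdl41cJoin ((Finset.Ico x0 x1 ×ˢ Finset.Ico y0 y1) \ Ch) f g) →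
    (wb81Ends (Finset.Ico x0 x1 ×ˢ Finset.Ico y0 y1) Ch).card ≤ 2

/-- **(CUT)** the cut atom = the flat law of `Λ` of colour `!a`.   [`rsk_cut` with `Y` = the indicator of the atom] -/
def Wb81CutEq (t : ℝ) : Prop :=
  ∀ (F Λ : Finset (ℤ × ℤ)) (a : Bool), Λ ⊆ F → (∀ v ∈ cornersOf Λ, ¬ OnPolygon F v) → ∀ X : RswCfg → ℝ, RskInside Λ X →
    mdlSumK t F (!a) (wb81Cut F Λ a) X = rswE t Λ (!a) X * mdlSumK t F (!a) (wb81Cut F Λ a) (fun _ => 1)

/-- **(POS)** the three prescriptions are feasible on `(F, !a)`.   [explicit configuration: the pinned spins, `!a` elsewhere, only the pinned open edges, `D = ∅`] -/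
def Wb81Pos (t : ℝ) : Prop :=
  ∀ (F B Ch : Finset (ℤ × ℤ)) (a : Bool), B ⊆ F → Ch ⊆ B →
    0 < mdlSumK t F (!a) (wb81Adv F B Ch a) (fun _ => 1) ∧ 0 < mdlSumK t F (!a) (wb81Fill F B Ch a) (fun _ => 1) ∧
    0 < mdlSumK t F (!a) (wb81Cut F Ch a) (fun _ => 1)

/-- **(GEO)** the chain of boxes on the middle row of the rectangle `d` of the shell, and the deterministic blocking; `B` is a rectangle (lateral width `n / 2`, as in `Mdl41cWB` of Count41 v5). -/
def Wb81Geo : Prop :=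
  ∀ k κ : ℕ, 2 ≤ κ → ∃ N c : ℕ, 0 < c ∧ ∀ n : ℕ, c ≤ n → ∀ (z : ℤ × ℤ) (d : Fin 4),
    (∃ x0 x1 y0 y1 : ℤ, mdl41cB z (k * n) ((k + 1) * n) (n / 2) d = Finset.Ico x0 x1 ×ˢ Finset.Ico y0 y1) ∧
    ∃ Cs : Finset (ℤ × ℤ), Cs.card ≤ N ∧
      (∀ x ∈ Cs, rswBox x (κ * (n / c)) ⊆ mdl41cB z (k * n) ((k + 1) * n) (n / 2) d ∧
        ∀ v ∈ cornersOf (rswBox x (κ * (n / c))), v ∈ rskCore (mdl41cB z (k * n) ((k + 1) * n) (n / 2) d)) ∧
      ∀ (Ch : Finset (ℤ × ℤ)) (a : Bool) (ω : RswCfg),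
        (∀ x ∈ Cs, RswSep (rswBox x (κ * (n / c)) ∩ Ch) a ω (rswBox x (n / c) ∩ Ch) (rswLayer (rswBox x (κ * (n / c))) ∩ Ch)) →
        Mdl41cNoX (Ch ∩ mdl41cR z (k * n) ((k + 1) * n) d)
          ((Finset.range (2 * ((k + 1) * n))).image (mdl41cSeed z (k * n) ((k + 1) * n) d)) (mdl41cTop z (k * n) ((k + 1) * n) d) ω

/-- the equation lemmas of the definitions of this file are generated HERE (RULES.md, rule 6) -/
theorem wb81_defs_eqns_cite : True := by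
  have := @wb81Va.eq_1; have := @wb81Vf.eq_1; have := @wb81Oa.eq_1; have := @wb81Of.eq_1; have := @wb81At.eq_1
  have := @wb81AdvA.eq_1; have := @wb81FillA.eq_1; have := @wb81CutA.eq_1; have := @wb81Adv.eq_1; have := @wb81Fill.eq_1
  have := @wb81Cut.eq_1; have := @wb81X.eq_1; have := @Wb81Le.eq_1; have := @Wb81Holley.eq_1; have := @Wb81LeAdv.eq_1
  have := @Wb81LeCut.eq_1; have := @Wb81Mem.eq_1; have := @Wb81Markov.eq_1; have := @Wb81Agree.eq_1; have := @wb81Ends.eq_1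
  have := @Wb81Count.eq_1; have := @Wb81EndsLe.eq_1; have := @Wb81CutEq.eq_1; have := @Wb81Pos.eq_1; have := @Wb81Geo.eq_1
  trivial

end Claimed.Agent.R292
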