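import Claimed.Agent.R292.Rsw.Cut91
import Claimed.Agent.R292.Rsw.Expl107
import Claimed.Agent.R292.Rsw.CmpInst291
import Claimed.Agent.R292.Defs.MODEL
import Claimed.Agent.R292.Model.WbDefs81

/-!
# Row 292 (S0540), Model/WbSwap91 : (WB) THE STEP "ADVERSE ATOM vs FILLED ATOM"      (pen helper91; prefix `wbs91_`, `Wbs91`)

TEX 03-spatial l.917-985, step (2): two full exterior atoms `η`, `η'` of a region `U ⊆ F` which show the same spins on the polygon of `U` and the same states of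
the edges between `U` and its complement give the same law of the `(s, W)` data of `U` up to the factor `4 ^ #T`, `T` ∋ one face of every CLOSED edge of the polygon of `U`.
* `wbs91_card`   the face colourings which are constant across the closed edges: at most `2 ^ #T` times those which vanish on `T` (translation by one element of a fibre)
* `wbs91_flip`   `rswSum Y ≤ 2 ^ #T * rswSum (1[D ∩ T = ∅] * Y)` for `Y ≥ 0` which does not read the face spins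
* **`wbs91_swap`** from `rsk_seal_prod` of `Rsw/Cut91` (exact separation on the seal "the colours of `T` are `0`")
-/

set_option autoImplicit false
set_option linter.unusedSectionVars false
set_option linter.unusedVariables false
set_option linter.unusedSimpArgs false

namespace Claimed.Agent.R292

open Claims Claims.C0468

/-! ## §A the count of the colourings -/

theorem wbs91_closed_symmDiff {F : Finset (ℤ × ℤ)} {O : Finset ((ℤ × ℤ) × Bool)} {D D' : Finset (ℤ × ℤ)}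
    (h : RskClosed F O D) (h' : RskClosed F O D') : RskClosed F O (symmDiff D D') := by
  intro e he hO
  have a := h e he hO
  have a' := h' e he hO
  simp only [Finset.mem_symmDiff, a, a']

open Classical in
theorem wbs91_card (F T : Finset (ℤ × ℤ)) (O : Finset ((ℤ × ℤ) × Bool)) :
    (F.powerset.filter (fun D => RskClosed F O D)).card ≤
      (F.powerset.filter (fun D => RskClosed F O D ∧ D ∩ T = ∅)).card * 2 ^ T.card := by
  have h := Finset.card_le_mul_card_image_of_maps_to (f := fun D : Finset (ℤ × ℤ) => D ∩ T)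
    (s := F.powerset.filter (fun D => RskClosed F O D)) (t := T.powerset)
    (fun D _ => Finset.mem_powerset.2 Finset.inter_subset_right)
    (F.powerset.filter (fun D => RskClosed F O D ∧ D ∩ T = ∅)).card ?_
  · rwa [Finset.card_powerset] at h
  intro A _
  by_cases hne : ((F.powerset.filter (fun D => RskClosed F O D)).filter (fun D => D ∩ T = A)).Nonempty
  swap
  · rw [Finset.not_nonempty_iff_eq_empty.1 hne]
    simp
  obtain ⟨D₀, hD₀⟩ := hne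
  rw [Finset.mem_filter, Finset.mem_filter, Finset.mem_powerset] at hD₀
  obtain ⟨⟨hD₀F, hD₀c⟩, hD₀A⟩ := hD₀
  refine Finset.card_le_card_of_injOn (fun D => symmDiff D D₀) ?_ ?_
  · intro D hD
    have hD' := hD
    simp only [Finset.coe_filter, Finset.mem_filter, Finset.mem_powerset, Set.mem_ofPred_eq] at hD'
    obtain ⟨⟨hDF, hDc⟩, hDA⟩ := hD'
    simp only [Finset.coe_filter, Finset.mem_powerset, Set.mem_ofPred_eq]
    refine ⟨?_, wbs91_closed_symmDiff hDc hD₀c, ?_⟩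
    · intro x hx
      rcases Finset.mem_symmDiff.1 hx with hx | hx
      · exact hDF hx.1
      · exact hD₀F hx.1
    · rw [Finset.eq_empty_iff_forall_notMem]
      intro x hx
      rw [Finset.mem_inter, Finset.mem_symmDiff] at hx
      obtain ⟨hx1, hxT⟩ := hx
      have e1 : x ∈ D ∩ T ↔ x ∈ D₀ ∩ T := by rw [hDA, hD₀A]
      simp only [Finset.mem_inter, hxT, and_true] at e1
      rcases hx1 with hx1 | hx1
      · exact hx1.2 (e1.1 hx1.1)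
      · exact hx1.2 (e1.2 hx1.1)
  · intro D _ D' _ hh
    exact symmDiff_left_injective D₀ hh

/-! ## §B the weights -/

theorem wbs91_CB_nonneg {t : ℝ} (h0 : 0 ≤ t) (h1 : t ≤ 1) (S : Finset (ℤ × ℤ)) (O : Finset ((ℤ × ℤ) × Bool))
    (e : (ℤ × ℤ) × Bool) : 0 ≤ cmi291CB t S O e := by
  unfold cmi291CB
  split_ifs <;> linarith

open Classical in
theorem wbs91_wt (t : ℝ) (F : Finset (ℤ × ℤ)) (b : Bool) (S D : Finset (ℤ × ℤ)) (O : Finset ((ℤ × ℤ) × Bool))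
    (hbc : RswBc F b ⟨S, ∅, O⟩) :
    rswWt t F b ⟨S, D, O⟩ = (∏ e ∈ rswInt F, cmi291CB t S O e) * (if RskClosed F O D then 1 else 0) := by
  have hbc' : RswBc F b ⟨S, D, O⟩ := hbc
  rw [rsz_wt_of_bc hbc']
  simp_rw [cmi291_fac]
  rw [Finset.prod_mul_distrib, Finset.prod_ite_zero, Finset.prod_const_one]
  unfold RskClosed
  congr 1
  by_cases hh : ∀ i ∈ rswInt F, i ∉ O → (i.1 ∈ D ↔ rswCo i ∈ D)
  · rw [if_pos hh, if_pos hh]
  · rw [if_neg hh, if_neg hh]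

open Classical in
theorem wbs91_sum_D {t : ℝ} (h0 : 0 ≤ t) (h1 : t ≤ 1) (F T : Finset (ℤ × ℤ)) (b : Bool) (S : Finset (ℤ × ℤ))
    (O : Finset ((ℤ × ℤ) × Bool)) :
    ∑ D ∈ F.powerset, rswWt t F b ⟨S, D, O⟩ ≤
      2 ^ T.card * ∑ D ∈ F.powerset, rswWt t F b ⟨S, D, O⟩ * rsxInd (D ∩ T = ∅) := by
  by_cases hbc : RswBc F b ⟨S, ∅, O⟩
  · have hc : 0 ≤ ∏ e ∈ rswInt F, cmi291CB t S O e := Finset.prod_nonneg fun e _ => wbs91_CB_nonneg h0 h1 S O e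
    have e1 : ∑ D ∈ F.powerset, rswWt t F b ⟨S, D, O⟩
        = (∏ e ∈ rswInt F, cmi291CB t S O e) * ((F.powerset.filter (fun D => RskClosed F O D)).card : ℝ) := by
      simp_rw [wbs91_wt t F b S _ O hbc]
      rw [← Finset.mul_sum, Finset.sum_boole]
    have e2 : ∑ D ∈ F.powerset, rswWt t F b ⟨S, D, O⟩ * rsxInd (D ∩ T = ∅)
        = (∏ e ∈ rswInt F, cmi291CB t S O e)
          * ((F.powerset.filter (fun D => RskClosed F O D ∧ D ∩ T = ∅)).card : ℝ) := by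
      simp_rw [wbs91_wt t F b S _ O hbc]
      rw [← Finset.sum_boole, Finset.mul_sum]
      refine Finset.sum_congr rfl fun D _ => ?_
      unfold rsxInd
      by_cases a1 : RskClosed F O D <;> by_cases a2 : D ∩ T = ∅ <;> simp [a1, a2]
    rw [e1, e2]
    have hcard : ((F.powerset.filter (fun D => RskClosed F O D)).card : ℝ) ≤
        ((F.powerset.filter (fun D => RskClosed F O D ∧ D ∩ T = ∅)).card : ℝ) * 2 ^ T.card := by
      exact_mod_cast wbs91_card F T O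
    calc _ ≤ (∏ e ∈ rswInt F, cmi291CB t S O e) *
          (((F.powerset.filter (fun D => RskClosed F O D ∧ D ∩ T = ∅)).card : ℝ) * 2 ^ T.card) :=
          mul_le_mul_of_nonneg_left hcard hc
      _ = _ := by ring
  · have z : ∀ D, rswWt t F b ⟨S, D, O⟩ = 0 := fun D => rsz_wt_eq_zero (fun h => hbc h)
    simp only [z, zero_mul, Finset.sum_const_zero, mul_zero, le_refl]

/-- the colours of `T` may be put to `0` at the price `2 ^ #T` -/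
theorem wbs91_flip {t : ℝ} (h0 : 0 ≤ t) (h1 : t ≤ 1) (F T : Finset (ℤ × ℤ)) (b : Bool) {Y : RswCfg → ℝ}
    (hY0 : ∀ ω, 0 ≤ Y ω) (hY : ∀ S D O, Y ⟨S, D, O⟩ = Y ⟨S, ∅, O⟩) :
    rswSum t F b Y ≤ 2 ^ T.card * rswSum t F b (fun ω => rsxInd (ω.D ∩ T = ∅) * Y ω) := by
  unfold rswSum
  rw [Finset.mul_sum]
  refine Finset.sum_le_sum fun S _ => ?_
  rw [Finset.sum_comm]
  conv_rhs => rw [Finset.sum_comm]
  rw [Finset.mul_sum]
  refine Finset.sum_le_sum fun O _ => ?_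
  have e1 : ∑ D ∈ F.powerset, rswWt t F b ⟨S, D, O⟩ * Y ⟨S, D, O⟩
      = (∑ D ∈ F.powerset, rswWt t F b ⟨S, D, O⟩) * Y ⟨S, ∅, O⟩ := by
    rw [Finset.sum_mul]
    exact Finset.sum_congr rfl fun D _ => by rw [hY S D O]
  have e2 : ∑ D ∈ F.powerset, rswWt t F b ⟨S, D, O⟩ * (rsxInd (D ∩ T = ∅) * Y ⟨S, D, O⟩)
      = (∑ D ∈ F.powerset, rswWt t F b ⟨S, D, O⟩ * rsxInd (D ∩ T = ∅)) * Y ⟨S, ∅, O⟩ := by
    rw [Finset.sum_mul]
    exact Finset.sum_congr rfl fun D _ => by rw [hY S D O]; ring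
  rw [e1, e2, ← mul_assoc]
  exact mul_le_mul_of_nonneg_right (wbs91_sum_D h0 h1 F T b S O) (hY0 _)

/-! ## §C full exterior atoms and the seal "the colours of `T` are `0`" -/

/-- `ω` shows the full exterior `(s, W)` atom `η` of `U` in `F` -/
def Wbs91Ext (F U : Finset (ℤ × ℤ)) (η ω : RswCfg) : Prop :=
  (∀ v ∈ cornersOf F, OnPolygon U v → (v ∈ ω.S ↔ v ∈ η.S)) ∧ ∀ e ∈ rswInt F, e ∉ rswInt U → (e ∈ ω.O ↔ e ∈ η.O)

theorem wbs91_ext_outside (F U : Finset (ℤ × ℤ)) (η : RswCfg) :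
    RskOutside U (fun ω => rsxInd (Wbs91Ext F U η ω)) := by
  intro ω
  refine rsx_ind_congr (and_congr (forall_congr' fun v => imp_congr_right fun _ => imp_congr_right fun hp => ?_)
    (forall_congr' fun e => imp_congr_right fun _ => imp_congr_right fun he => ?_))
  · rw [rsk_out_S (fun hc => (rsk_core_iff.1 hc) hp)]
  · rw [rsk_out_O he]

theorem wbs91_inside {U : Finset (ℤ × ℤ)} {X : RswCfg → ℝ}
    (hX : ∀ ω ω' : RswCfg, (∀ v ∈ cornersOf U, (v ∈ ω.S ↔ v ∈ ω'.S)) → (∀ e ∈ rswInt U, (e ∈ ω.O ↔ e ∈ ω'.O)) → X ω = X ω') :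
    RskInside U X := by
  intro ω
  refine hX _ _ (fun v hv => ?_) (fun e he => ?_)
  · simp only [rskIn, Finset.mem_inter]
    exact ⟨fun h => h.1, fun h => ⟨h, hv⟩⟩
  · simp only [rskIn, Finset.mem_inter]
    exact ⟨fun h => h.1, fun h => ⟨h, he⟩⟩

theorem wbs91_sum_mono_wt {t : ℝ} (h0 : 0 ≤ t) (h1 : t ≤ 1) (F : Finset (ℤ × ℤ)) (b : Bool) {X Y : RswCfg → ℝ}
    (h : ∀ ω : RswCfg, rswWt t F b ω ≠ 0 → X ω ≤ Y ω) : rswSum t F b X ≤ rswSum t F b Y := by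
  unfold rswSum
  refine Finset.sum_le_sum fun S _ => Finset.sum_le_sum fun D _ => Finset.sum_le_sum fun O _ => ?_
  by_cases hw : rswWt t F b ⟨S, D, O⟩ = 0
  · rw [hw, zero_mul, zero_mul]
  · exact mul_le_mul_of_nonneg_left (h _ hw) (rsk_wt_nonneg h0 h1 F b _)

/-- on the support of the weight the face spins are constant across the closed edges -/
theorem wbs91_wt_closed {t : ℝ} {F : Finset (ℤ × ℤ)} {b : Bool} {ω : RswCfg} (hw : rswWt t F b ω ≠ 0) :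
    RskClosed F ω.O ω.D := by
  classical
  intro e he hO
  by_contra hD
  apply hw
  unfold rswWt
  split_ifs
  · refine Finset.prod_eq_zero he ?_
    unfold rswFac
    rw [if_neg hO, if_neg hD]
  · rfl

theorem wbs91_seal {F U T : Finset (ℤ × ℤ)} (hU : U ⊆ F) {η ω : RswCfg}
    (hT : ∀ e ∈ rswInt F, RskBd U e → e ∉ η.O → e.1 ∈ T ∨ rswCo e ∈ T)
    (hω : Wbs91Ext F U η ω) (hD : ω.D ∩ T = ∅) (hc : RskClosed F ω.O ω.D) : RskSeal F U ⟨η.S, ∅, η.O⟩ ω := by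
  have hn : ∀ f ∈ T, f ∉ ω.D := by
    intro f hf h
    have : f ∈ ω.D ∩ T := Finset.mem_inter.2 ⟨h, hf⟩
    rw [hD] at this
    exact absurd this (Finset.notMem_empty f)
  have hboth : ∀ e ∈ rswInt F, RskBd U e → e ∉ η.O →
      (e.1 ∈ ω.D ↔ e.1 ∈ (∅ : Finset (ℤ × ℤ))) ∧ (rswCo e ∈ ω.D ↔ rswCo e ∈ (∅ : Finset (ℤ × ℤ))) := by
    intro e he hb ho
    have hoω : e ∉ ω.O := fun h => ho ((hω.2 e he (rsk_bd_not_int hb)).1 h)
    have hiff := hc e he hoω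
    have h2 : e.1 ∉ ω.D ∧ rswCo e ∉ ω.D := by
      rcases hT e he hb ho with h | h
      · exact ⟨hn _ h, fun h' => hn _ h (hiff.2 h')⟩
      · exact ⟨fun h' => hn _ h (hiff.1 h'), hn _ h⟩
    exact ⟨⟨fun h => absurd h h2.1, fun h => absurd h (Finset.notMem_empty _)⟩,
      ⟨fun h => absurd h h2.2, fun h => absurd h (Finset.notMem_empty _)⟩⟩
  refine ⟨fun e he hb ho => ⟨fun _ => (hboth e he hb ho).1, fun _ => (hboth e he hb ho).2⟩,
    fun v hv hc' => hω.1 v (rsk_corners_mono hU hv) (fun hp => hc' (rsk_core_iff.2 (not_not.2 hp))), ?_⟩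
  intro e he hb
  exact ⟨hω.2 e he (rsk_bd_not_int hb), fun ho => ⟨fun _ => (hboth e he hb ho).1, fun _ => (hboth e he hb ho).2⟩⟩

theorem wbs91_sealInd_le_one (F U : Finset (ℤ × ℤ)) (β ω : RswCfg) : rskSealInd F U β ω ≤ 1 := by
  unfold rskSealInd
  split_ifs <;> norm_num

theorem wbs91_sealInd_nonneg (F U : Finset (ℤ × ℤ)) (β ω : RswCfg) : 0 ≤ rskSealInd F U β ω := by
  unfold rskSealInd
  split_ifs <;> norm_num

/-- the inside functional reads `η` only on the polygon of `U` -/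
theorem wbs91_I_congr (t : ℝ) (F U : Finset (ℤ × ℤ)) {η η' : RswCfg}
    (hS : ∀ v ∈ cornersOf U, OnPolygon U v → (v ∈ η.S ↔ v ∈ η'.S)) (hO : ∀ e, RskBd U e → (e ∈ η.O ↔ e ∈ η'.O))
    (X : RswCfg → ℝ) : rskI t F U ⟨η.S, ∅, η.O⟩ X = rskI t F U ⟨η'.S, ∅, η'.O⟩ X := by
  classical
  have hset : η.S ∩ (cornersOf U \ rskCore U) = η'.S ∩ (cornersOf U \ rskCore U) := by
    ext v
    simp only [Finset.mem_inter, Finset.mem_sdiff]
    constructor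
    · rintro ⟨h1, h2, h3⟩
      exact ⟨(hS v h2 (fun hp => h3 (rsk_core_iff.2 (not_not.2 hp)))).1 h1, h2, h3⟩
    · rintro ⟨h1, h2, h3⟩
      exact ⟨(hS v h2 (fun hp => h3 (rsk_core_iff.2 (not_not.2 hp)))).2 h1, h2, h3⟩
  have hA : ∀ ξ, RskSealA F U ⟨η.S, ∅, η.O⟩ ξ ↔ RskSealA F U ⟨η'.S, ∅, η'.O⟩ ξ := by
    intro ξ
    unfold RskSealA
    refine forall_congr' fun e => imp_congr_right fun _ => forall_congr' fun hb => ?_
    simp only [hO e hb]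
  unfold rskI
  simp only
  rw [hset]
  refine Finset.sum_congr rfl fun S _ => Finset.sum_congr rfl fun D _ => Finset.sum_congr rfl fun O _ => ?_
  congr 2
  by_cases h : RskSealA F U ⟨η.S, ∅, η.O⟩ ⟨S ∪ η'.S ∩ (cornersOf U \ rskCore U), D, O⟩
  · rw [if_pos h, if_pos ((hA _).1 h)]
  · rw [if_neg h, if_neg (fun h' => h ((hA _).2 h'))]

/-- the sum under an atom against the sum on the seal -/
theorem wbs91_two_sided {t : ℝ} (h0 : 0 ≤ t) (h1 : t ≤ 1) {F U T : Finset (ℤ × ℤ)} (hU : U ⊆ F) (b : Bool) {η : RswCfg}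
    (hT : ∀ e ∈ rswInt F, RskBd U e → e ∉ η.O → e.1 ∈ T ∨ rswCo e ∈ T)
    {X : RswCfg → ℝ} (hX0 : ∀ ω, 0 ≤ X ω)
    (hX : ∀ ω ω' : RswCfg, (∀ v ∈ cornersOf U, (v ∈ ω.S ↔ v ∈ ω'.S)) → (∀ e ∈ rswInt U, (e ∈ ω.O ↔ e ∈ ω'.O)) → X ω = X ω') :
    rswSum t F b (fun ω => rskSealInd F U ⟨η.S, ∅, η.O⟩ ω * X ω * rsxInd (Wbs91Ext F U η ω)) ≤
        rswSum t F b (fun ω => rsxInd (Wbs91Ext F U η ω) * X ω) ∧
      rswSum t F b (fun ω => rsxInd (Wbs91Ext F U η ω) * X ω) ≤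
        2 ^ T.card * rswSum t F b (fun ω => rskSealInd F U ⟨η.S, ∅, η.O⟩ ω * X ω * rsxInd (Wbs91Ext F U η ω)) := by
  constructor
  · refine rsx_sum_mono h0 h1 F b (fun ω => ?_)
    have a1 := wbs91_sealInd_le_one F U ⟨η.S, ∅, η.O⟩ ω
    have a2 : 0 ≤ X ω * rsxInd (Wbs91Ext F U η ω) := mul_nonneg (hX0 ω) (rsx_ind_nonneg _)
    nlinarith
  · refine (wbs91_flip h0 h1 F T b (Y := fun ω => rsxInd (Wbs91Ext F U η ω) * X ω)
      (fun ω => mul_nonneg (rsx_ind_nonneg _) (hX0 ω)) (fun S D O => ?_)).trans ?_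
    · rw [hX ⟨S, D, O⟩ ⟨S, ∅, O⟩ (fun _ _ => Iff.rfl) (fun _ _ => Iff.rfl)]
      rfl
    · refine mul_le_mul_of_nonneg_left (wbs91_sum_mono_wt h0 h1 F b (fun ω hw => ?_)) (by positivity)
      by_cases hD : ω.D ∩ T = ∅
      · by_cases hE : Wbs91Ext F U η ω
        · have hs := wbs91_seal hU hT hE hD (wbs91_wt_closed hw)
          unfold rskSealInd
          rw [if_pos hs, rsx_ind_pos hD, rsx_ind_pos hE]
          linarith
        · rw [rsx_ind_neg hE]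
          simp
      · rw [rsx_ind_neg hD, zero_mul]
        exact mul_nonneg (mul_nonneg (wbs91_sealInd_nonneg _ _ _ _) (hX0 ω)) (rsx_ind_nonneg _)

/-- **ADVERSE ATOM vs FILLED ATOM**: two full exterior atoms of `U` with the same spins on the polygon of `U` and the same states of the edges of the polygon of `U`;
`T` contains ONE face of every closed edge of the polygon.  Unnormalised; the boundary colours of `F` may differ. -/
theorem wbs91_swap {t : ℝ} (h0 : 0 ≤ t) (h1 : t ≤ 1) {F U T : Finset (ℤ × ℤ)} (hU : U ⊆ F) (b b' : Bool) {η η' : RswCfg}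
    (hS : ∀ v ∈ cornersOf U, OnPolygon U v → (v ∈ η.S ↔ v ∈ η'.S)) (hO : ∀ e, RskBd U e → (e ∈ η.O ↔ e ∈ η'.O))
    (hT : ∀ e ∈ rswInt F, RskBd U e → e ∉ η.O → e.1 ∈ T ∨ rswCo e ∈ T)
    {X : RswCfg → ℝ} (hX0 : ∀ ω, 0 ≤ X ω)
    (hX : ∀ ω ω' : RswCfg, (∀ v ∈ cornersOf U, (v ∈ ω.S ↔ v ∈ ω'.S)) → (∀ e ∈ rswInt U, (e ∈ ω.O ↔ e ∈ ω'.O)) → X ω = X ω') :
    rswSum t F b' (fun ω => rsxInd (Wbs91Ext F U η' ω) * X ω) * rswSum t F b (fun ω => rsxInd (Wbs91Ext F U η ω) * 1) ≤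
      4 ^ T.card * (rswSum t F b (fun ω => rsxInd (Wbs91Ext F U η ω) * X ω) *
        rswSum t F b' (fun ω => rsxInd (Wbs91Ext F U η' ω) * 1)) := by
  have hT' : ∀ e ∈ rswInt F, RskBd U e → e ∉ η'.O → e.1 ∈ T ∨ rswCo e ∈ T :=
    fun e he hb ho => hT e he hb (fun h => ho ((hO e hb).1 h))
  have h1X : ∀ ω ω' : RswCfg, (∀ v ∈ cornersOf U, (v ∈ ω.S ↔ v ∈ ω'.S)) → (∀ e ∈ rswInt U, (e ∈ ω.O ↔ e ∈ ω'.O)) →
      (fun _ : RswCfg => (1 : ℝ)) ω = (fun _ : RswCfg => (1 : ℝ)) ω' := fun _ _ _ _ => rfl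
  obtain ⟨lX, uX⟩ := wbs91_two_sided h0 h1 hU b hT hX0 hX
  obtain ⟨l1, u1⟩ := wbs91_two_sided h0 h1 hU b hT (X := fun _ => 1) (fun _ => zero_le_one) h1X
  obtain ⟨lX', uX'⟩ := wbs91_two_sided h0 h1 hU b' hT' hX0 hX
  obtain ⟨l1', u1'⟩ := wbs91_two_sided h0 h1 hU b' hT' (X := fun _ => 1) (fun _ => zero_le_one) h1X
  have pr : ∀ (c : Bool) (ζ : RswCfg) (Z : RswCfg → ℝ), RskInside U Z →
      rswSum t F c (fun ω => rskSealInd F U ⟨ζ.S, ∅, ζ.O⟩ ω * Z ω * rsxInd (Wbs91Ext F U ζ ω)) =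
        rskI t F U ⟨ζ.S, ∅, ζ.O⟩ Z * rskJ t F U c ⟨ζ.S, ∅, ζ.O⟩ (fun ω => rsxInd (Wbs91Ext F U ζ ω)) := by
    intro c ζ Z hZ
    have h := rsk_seal_prod t hU c ⟨ζ.S, ∅, ζ.O⟩ Z (fun ω => rsxInd (Wbs91Ext F U ζ ω))
    simp only [hZ _, wbs91_ext_outside F U ζ _] at h
    exact h
  have hXi := wbs91_inside hX
  have h1i : RskInside U (fun _ : RswCfg => (1 : ℝ)) := rsk_inside_const U 1
  have nn : ∀ (c : Bool) (ζ : RswCfg) (Z : RswCfg → ℝ), (∀ ω, 0 ≤ Z ω) →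
      0 ≤ rswSum t F c (fun ω => rskSealInd F U ⟨ζ.S, ∅, ζ.O⟩ ω * Z ω * rsxInd (Wbs91Ext F U ζ ω)) :=
    fun c ζ Z hZ => rsx_sum_nonneg h0 h1 F c
      (fun ω => mul_nonneg (mul_nonneg (wbs91_sealInd_nonneg _ _ _ _) (hZ ω)) (rsx_ind_nonneg _))
  have nz : ∀ (c : Bool) (ζ : RswCfg) (Z : RswCfg → ℝ), (∀ ω, 0 ≤ Z ω) →
      0 ≤ rswSum t F c (fun ω => rsxInd (Wbs91Ext F U ζ ω) * Z ω) :=
    fun c ζ Z hZ => rsx_sum_nonneg h0 h1 F c (fun ω => mul_nonneg (rsx_ind_nonneg _) (hZ ω))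
  -- the four sums on the seals
  have key : rswSum t F b' (fun ω => rskSealInd F U ⟨η'.S, ∅, η'.O⟩ ω * X ω * rsxInd (Wbs91Ext F U η' ω)) *
        rswSum t F b (fun ω => rskSealInd F U ⟨η.S, ∅, η.O⟩ ω * (fun _ => (1 : ℝ)) ω * rsxInd (Wbs91Ext F U η ω)) =
      rswSum t F b (fun ω => rskSealInd F U ⟨η.S, ∅, η.O⟩ ω * X ω * rsxInd (Wbs91Ext F U η ω)) *
        rswSum t F b' (fun ω => rskSealInd F U ⟨η'.S, ∅, η'.O⟩ ω * (fun _ => (1 : ℝ)) ω * rsxInd (Wbs91Ext F U η' ω)) := by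
    rw [pr b' η' X hXi, pr b η _ h1i, pr b η X hXi, pr b' η' _ h1i, wbs91_I_congr t F U hS hO X,
      wbs91_I_congr t F U hS hO (fun _ => 1)]
    ring
  have c0 : (0 : ℝ) ≤ 2 ^ T.card := by positivity
  have c4 : (4 : ℝ) ^ T.card = 2 ^ T.card * 2 ^ T.card := by
    rw [← mul_pow]; norm_num
  calc _ ≤ (2 ^ T.card * rswSum t F b' (fun ω => rskSealInd F U ⟨η'.S, ∅, η'.O⟩ ω * X ω * rsxInd (Wbs91Ext F U η' ω))) *
        (2 ^ T.card * rswSum t F b (fun ω => rskSealInd F U ⟨η.S, ∅, η.O⟩ ω * (fun _ => (1 : ℝ)) ω * rsxInd (Wbs91Ext F U η ω))) :=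
        mul_le_mul uX' u1 (nz b η _ (fun _ => zero_le_one)) (mul_nonneg c0 (nn b' η' X hX0))
    _ = 4 ^ T.card * (rswSum t F b (fun ω => rskSealInd F U ⟨η.S, ∅, η.O⟩ ω * X ω * rsxInd (Wbs91Ext F U η ω)) *
        rswSum t F b' (fun ω => rskSealInd F U ⟨η'.S, ∅, η'.O⟩ ω * (fun _ => (1 : ℝ)) ω * rsxInd (Wbs91Ext F U η' ω))) := by
        rw [c4, ← key]; ring
    _ ≤ _ := mul_le_mul_of_nonneg_left
        (mul_le_mul lX l1' (nn b' η' _ (fun _ => zero_le_one)) (nz b η X hX0)) (by positivity)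

/-! ## §D the same for prescriptions `MdlPin` -/

theorem wbs91_sumK (t : ℝ) (F U : Finset (ℤ × ℤ)) (b : Bool) {η : RswCfg} {K : MdlPin}
    (hK : ∀ ω, K.Holds ω ↔ Wbs91Ext F U η ω) (X : RswCfg → ℝ) :
    mdlSumK t F b K X = rswSum t F b (fun ω => rsxInd (Wbs91Ext F U η ω) * X ω) := by
  classical
  unfold mdlSumK
  refine rsx_sum_congr t F b (fun ω => ?_)
  by_cases h : K.Holds ω
  · rw [if_pos h, rsx_ind_pos ((hK ω).1 h), one_mul]
  · rw [if_neg h, rsx_ind_neg (fun h' => h ((hK ω).2 h')), zero_mul]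

/-- **ADVERSE ATOM vs FILLED ATOM**, prescriptions -/
theorem wbs91_swap_pin {t : ℝ} (h0 : 0 ≤ t) (h1 : t ≤ 1) {F U T : Finset (ℤ × ℤ)} (hU : U ⊆ F) (b b' : Bool) {η η' : RswCfg}
    (hS : ∀ v ∈ cornersOf U, OnPolygon U v → (v ∈ η.S ↔ v ∈ η'.S)) (hO : ∀ e, RskBd U e → (e ∈ η.O ↔ e ∈ η'.O))
    (hT : ∀ e ∈ rswInt F, RskBd U e → e ∉ η.O → e.1 ∈ T ∨ rswCo e ∈ T)
    {K K' : MdlPin} (hK : ∀ ω, K.Holds ω ↔ Wbs91Ext F U η ω) (hK' : ∀ ω, K'.Holds ω ↔ Wbs91Ext F U η' ω)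
    {X : RswCfg → ℝ} (hX0 : ∀ ω, 0 ≤ X ω)
    (hX : ∀ ω ω' : RswCfg, (∀ v ∈ cornersOf U, (v ∈ ω.S ↔ v ∈ ω'.S)) → (∀ e ∈ rswInt U, (e ∈ ω.O ↔ e ∈ ω'.O)) → X ω = X ω') :
    mdlSumK t F b' K' X * mdlSumK t F b K (fun _ => 1) ≤
      4 ^ T.card * (mdlSumK t F b K X * mdlSumK t F b' K' (fun _ => 1)) := by
  rw [wbs91_sumK t F U b' hK', wbs91_sumK t F U b hK, wbs91_sumK t F U b hK, wbs91_sumK t F U b' hK']
  exact wbs91_swap h0 h1 hU b b' hS hO hT hX0 hX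

/-- the atoms `⟨S₀, V \ S₀, O₀, E \ O₀⟩` (`mdl1aK` of `Model/Circ1`, with `mdl1a_mem_V`, `mdl1a_mem_E`) are full exterior atoms -/
theorem wbs91_atom_holds {F U : Finset (ℤ × ℤ)} {V S₀ : Finset (ℤ × ℤ)} {E O₀ : Finset ((ℤ × ℤ) × Bool)}
    (hV : ∀ v, v ∈ V ↔ v ∈ cornersOf F ∧ OnPolygon U v) (hE : ∀ e, e ∈ E ↔ e ∈ rswInt F ∧ e ∉ rswInt U)
    (hS₀ : S₀ ⊆ V) (hO₀ : O₀ ⊆ E) (ω : RswCfg) :
    (⟨S₀, V \ S₀, O₀, E \ O₀⟩ : MdlPin).Holds ω ↔ Wbs91Ext F U ⟨S₀, ∅, O₀⟩ ω := by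
  unfold MdlPin.Holds Wbs91Ext
  simp only [Finset.mem_sdiff]
  constructor
  · rintro ⟨a1, a2, a3, a4⟩
    refine ⟨fun v hv hp => ⟨fun h => ?_, fun h => a1 h⟩, fun e he hn => ⟨fun h => ?_, fun h => a3 h⟩⟩
    · by_contra hc
      exact a2 v ⟨(hV v).2 ⟨hv, hp⟩, hc⟩ h
    · by_contra hc
      exact a4 e ⟨(hE e).2 ⟨he, hn⟩, hc⟩ h
  · rintro ⟨a1, a2⟩
    refine ⟨fun v hv => ?_, fun v hv h => ?_, fun e he => ?_, fun e he h => ?_⟩
    · obtain ⟨c1, c2⟩ := (hV v).1 (hS₀ hv)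
      exact (a1 v c1 c2).2 hv
    · obtain ⟨c1, c2⟩ := (hV v).1 hv.1
      exact hv.2 ((a1 v c1 c2).1 h)
    · obtain ⟨c1, c2⟩ := (hE e).1 (hO₀ he)
      exact (a2 e c1 c2).2 he
    · obtain ⟨c1, c2⟩ := (hE e).1 he.1
      exact he.2 ((a2 e c1 c2).1 h)

/-! ## §E the record (MARKOV) of `Model/WbDefs81`, VERBATIM -/

theorem wbs91_reads {U : Finset (ℤ × ℤ)} {X : RswCfg → ℝ} (hXin : RskInside U X)
    (hXD : ∀ S D O, X ⟨S, D, O⟩ = X ⟨S, ∅, O⟩) (ω ω' : RswCfg)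
    (hS : ∀ v ∈ cornersOf U, (v ∈ ω.S ↔ v ∈ ω'.S)) (hO : ∀ e ∈ rswInt U, (e ∈ ω.O ↔ e ∈ ω'.O)) : X ω = X ω' := by
  rw [← hXin ω, ← hXin ω']
  unfold rskIn
  rw [hXD, hXD (ω'.S ∩ cornersOf U)]
  have e1 : ω.S ∩ cornersOf U = ω'.S ∩ cornersOf U := by
    ext v
    simp only [Finset.mem_inter]
    exact ⟨fun h => ⟨(hS v h.2).1 h.1, h.2⟩, fun h => ⟨(hS v h.2).2 h.1, h.2⟩⟩
  have e2 : ω.O ∩ rswInt U = ω'.O ∩ rswInt U := by
    ext e
    simp only [Finset.mem_inter]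
    exact ⟨fun h => ⟨(hO e h.2).1 h.1, h.2⟩, fun h => ⟨(hO e h.2).2 h.1, h.2⟩⟩
  rw [e1, e2]

theorem wbs91_bd_dis {U : Finset (ℤ × ℤ)} {e : (ℤ × ℤ) × Bool} : RskBd U e ↔ Mdl41Dis U e := by
  unfold RskBd Mdl41Dis
  by_cases h1 : e.1 ∈ U <;> by_cases h2 : rswCo e ∈ U <;> simp [h1, h2]

theorem wbs91_K_holds {F U : Finset (ℤ × ℤ)} {ξ : Finset (ℤ × ℤ) × Finset ((ℤ × ℤ) × Bool)} (hξ : ξ ∈ mdl1aT F U)
    (ω : RswCfg) : (mdl1aK F U ξ).Holds ω ↔ Wbs91Ext F U ⟨ξ.1, ∅, ξ.2⟩ ω :=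
  wbs91_atom_holds (fun _ => mdl1a_mem_V) (fun _ => mdl1a_mem_E)
    (Finset.mem_powerset.1 (Finset.mem_product.1 hξ).1) (Finset.mem_powerset.1 (Finset.mem_product.1 hξ).2) ω

/-- **(MARKOV)** -/
theorem wbs91_markov {t : ℝ} (h0 : 0 ≤ t) (h1 : t ≤ 1) : Wb81Markov t := by
  classical
  intro F Ch b ξ ξ' m hCh hξ hξ' hS hO hm X hX0 hXin hXD
  have hξ2 : ξ.2 ⊆ mdl1aE F Ch := Finset.mem_powerset.1 (Finset.mem_product.1 hξ).2
  have hξ2' : ξ'.2 ⊆ mdl1aE F Ch := Finset.mem_powerset.1 (Finset.mem_product.1 hξ').2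
  have key := wbs91_swap_pin h0 h1 hCh b b (η := ⟨ξ.1, ∅, ξ.2⟩) (η' := ⟨ξ'.1, ∅, ξ'.2⟩)
    (T := (mdl41DisSet F Ch \ ξ.2).image (fun e => e.1))
    (fun v hv _ => hS v hv)
    (fun e hb => by
      by_cases he : e ∈ rswInt F
      · exact hO e (mdl41_mem_disSet.2 ⟨he, wbs91_bd_dis.1 hb⟩)
      · exact ⟨fun h => absurd (mdl1a_mem_E.1 (hξ2 h)).1 he, fun h => absurd (mdl1a_mem_E.1 (hξ2' h)).1 he⟩)
    (fun e he hb ho => Or.inl (Finset.mem_image_of_mem _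
      (Finset.mem_sdiff.2 ⟨mdl41_mem_disSet.2 ⟨he, wbs91_bd_dis.1 hb⟩, ho⟩)))
    (wbs91_K_holds hξ) (wbs91_K_holds hξ') hX0 (wbs91_reads hXin hXD)
  refine key.trans (mul_le_mul_of_nonneg_right ?_ ?_)
  · exact pow_le_pow_right₀ (by norm_num) (Finset.card_image_le.trans hm)
  · exact mul_nonneg (mdl1_sumK_nonneg h0 h1 F b _ hX0) (mdl1_sumK_nonneg h0 h1 F b _ (fun _ => zero_le_one))

end Claimed.Agent.R292
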