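import Claimed.Agent.R292.Model.WbDefs81
import Claimed.Agent.R292.Model.WbHol32
import Claimed.Agent.R292.Model.WbLeAdv12
import Claimed.Agent.R292.Model.WbLeCut109
import Claimed.Agent.R292.Model.WbSwap91
import Claimed.Agent.R292.Model.WbCount32
import Claimed.Agent.R292.Model.WbCutPos142
import Claimed.Agent.R292.Model.WbEnds81
import Claimed.Agent.R292.Model.WbGeo165
import Claimed.Agent.R292.Model.CircShift101

/-!
# Row 292 (S0540), Model/Wb81 : ASSEMBLY OF (WB) = `Mdl41cWB t` FROM THE RECORDS OF `Model/WbDefs81`      (pen helper81; prefix `wb81_`)      0 sorry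

* `wb81_box`   one box, one atom: `p₀ Z_K ≤ 4 ^ 18 Z_K(A_x)`      (HOLLEY, LE-ADV, MARKOV, AGREE, COUNT, ENDS, LE-CUT, CUT, POS, MEM)
* `wb81_atom`  all the boxes, one atom: FKG (`mdl1_fkg_iter`, (S0) = `cmp291_exit_cmp`)
* `wb81_at`    `Mdl41cWBat` for an abstract family of boxes
* **`wb81_wb`** `Mdl41cWB t` from the records and the conclusion of `mdl1t_circuit`
* **`wb81_wb_of`** all eleven records discharged (pens 32 12 109 91 142 81 165): `Mdl41cWB t` from the conclusion of `mdl1t_circuit` alone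
  (an independent proof of (WB), next to `par41_wb` / `wbc101_wb` / `wb79_wb`); `wb81_wb_closed`, `wb81_trans` owe `exit_rsw_circuit` only
-/

set_option autoImplicit false

namespace Claimed.Agent.R292

open Claims Claims.C0468

/-! ## 1. the indicator of a separation -/

theorem wb81_X_nonneg (G : Finset (ℤ × ℤ)) (a : Bool) (A E : Finset (ℤ × ℤ)) (ω : RswCfg) : 0 ≤ wb81X G a A E ω := by
  unfold wb81X
  split_ifs <;> norm_num

theorem wb81_X_le_one (G : Finset (ℤ × ℤ)) (a : Bool) (A E : Finset (ℤ × ℤ)) (ω : RswCfg) : wb81X G a A E ω ≤ 1 := by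
  unfold wb81X
  split_ifs <;> norm_num

theorem wb81_X_inc (G : Finset (ℤ × ℤ)) (a : Bool) (A E : Finset (ℤ × ℤ)) : MdlInc a (wb81X G a A E) := by
  intro ω ω' hle
  unfold wb81X
  by_cases h : RswSep G a ω A E
  · rw [if_pos h, if_pos (mdl1_sep_mono hle.2.1 h)]
  · rw [if_neg h]
    split_ifs <;> norm_num

theorem wb81_int_mono {G Q : Finset (ℤ × ℤ)} (h : G ⊆ Q) : rswInt G ⊆ rswInt Q := by
  intro e he
  rw [rsk_mem_int] at he ⊢
  exact ⟨h he.1, h he.2⟩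

theorem wb81_step_in {G Q : Finset (ℤ × ℤ)} (hGQ : G ⊆ Q) {a : Bool} {ω : RswCfg} {f g : ℤ × ℤ} :
    RswStep G a (rskIn Q ω) f g ↔ RswStep G a ω f g := by
  unfold RswStep
  constructor
  · rintro ⟨h1, h2, e, h3, h4⟩
    have he : e ∈ rswInt Q := by
      rw [rsk_mem_int]
      rcases h3 with ⟨rfl, rfl⟩ | ⟨rfl, rfl⟩
      · exact ⟨hGQ h1, hGQ h2⟩
      · exact ⟨hGQ h2, hGQ h1⟩
    exact ⟨h1, h2, e, h3, fun h5 => h4 ((mdl1_good_in he).2 h5)⟩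
  · rintro ⟨h1, h2, e, h3, h4⟩
    have he : e ∈ rswInt Q := by
      rw [rsk_mem_int]
      rcases h3 with ⟨rfl, rfl⟩ | ⟨rfl, rfl⟩
      · exact ⟨hGQ h1, hGQ h2⟩
      · exact ⟨hGQ h2, hGQ h1⟩
    exact ⟨h1, h2, e, h3, fun h5 => h4 ((mdl1_good_in he).1 h5)⟩

theorem wb81_X_inside {G Q : Finset (ℤ × ℤ)} (hGQ : G ⊆ Q) (a : Bool) (A E : Finset (ℤ × ℤ)) : RskInside Q (wb81X G a A E) := by
  intro ω
  have : RswStep G a (rskIn Q ω) = RswStep G a ω := by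
    funext f g
    exact propext (wb81_step_in hGQ)
  unfold wb81X RswSep
  rw [this]

theorem wb81_X_noD (G : Finset (ℤ × ℤ)) (a : Bool) (A E : Finset (ℤ × ℤ)) (S D : Finset (ℤ × ℤ)) (O : Finset ((ℤ × ℤ) × Bool)) :
    wb81X G a A E ⟨S, D, O⟩ = wb81X G a A E ⟨S, ∅, O⟩ := rfl

theorem wb81_X_mono {G G' : Finset (ℤ × ℤ)} (hG : G' ⊆ G) (a : Bool) {A A' E E' : Finset (ℤ × ℤ)} (hA : A' ⊆ A) (hE : E' ⊆ E)
    (ω : RswCfg) : wb81X G a A E ω ≤ wb81X G' a A' E' ω := by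
  unfold wb81X
  by_cases h : RswSep G a ω A E
  · rw [if_pos h, if_pos (mdl1_sep_sub hG hA hE h)]
  · rw [if_neg h]
    split_ifs <;> norm_num

/-! ## 2. one box, one atom -/

theorem wb81_core_poly {B F : Finset (ℤ × ℤ)} (h : B ⊆ F) {v : ℤ × ℤ} (hv : v ∈ rskCore B) : ¬ OnPolygon F v := by
  classical
  unfold rskCore at hv
  exact mdl1_poly_mono h (Finset.mem_filter.1 hv).2

/-- **one box, one atom** -/
theorem wb81_box {t : ℝ} (ht0 : 0 < t) (ht2 : t < 1)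
    (HH : Wb81Holley t) (HA : Wb81LeAdv) (HC : Wb81LeCut) (HM : Wb81Mem) (HK : Wb81Markov t) (HG : Wb81Agree) (HN : Wb81Count)
    (HQ : Wb81CutEq t) (HP : Wb81Pos t)
    {F B Ch Λ A : Finset (ℤ × ℤ)} (hF : RswJordan F) (hBF : B ⊆ F) (hCh : Ch ⊆ B) (hΛ : Λ ⊆ B)
    (hcore : ∀ v ∈ cornersOf Λ, v ∈ rskCore B) (hends : (wb81Ends B Ch).card ≤ 2) (a b : Bool)
    {ξ : Finset (ℤ × ℤ) × Finset ((ℤ × ℤ) × Bool)} (hξ : ξ ∈ mdl1aT F Ch) (hwall : Mdl41cWall B Ch a ⟨ξ.1, ∅, ξ.2⟩)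
    {p₀ : ℝ} (hp : p₀ ≤ rswP t Λ (!a) (fun ω => RswSep Λ a ω A (rswLayer Λ))) :
    p₀ * mdlSumK t F b (mdl1aK F Ch ξ) (fun _ => 1) ≤
      4 ^ 18 * mdlSumK t F b (mdl1aK F Ch ξ) (wb81X (Λ ∩ Ch) a (A ∩ Ch) (rswLayer Λ ∩ Ch)) := by
  classical
  set X := wb81X (Λ ∩ Ch) a (A ∩ Ch) (rswLayer Λ ∩ Ch) with hX
  set X' := wb81X Λ a A (rswLayer Λ) with hX'
  set K := mdl1aK F Ch ξ with hK
  obtain ⟨mA, mF, -⟩ := HM F B Ch a
  obtain ⟨-, -, mC⟩ := HM F B Λ a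
  obtain ⟨pA, pF, -⟩ := HP F B Ch a hBF hCh
  obtain ⟨-, -, pC⟩ := HP F B Λ a hBF hΛ
  have hZK : 0 ≤ mdlSumK t F b K (fun _ => 1) := mdl1_sumK_nonneg ht0.le ht2.le F b K (fun _ => zero_le_one)
  -- (4) the cut atom
  have h4 : p₀ * mdlSumK t F (!a) (wb81Cut F Λ a) (fun _ => 1) ≤ mdlSumK t F (!a) (wb81Cut F Λ a) X' := by
    rw [HQ F Λ a (hΛ.trans hBF) (fun v hv => wb81_core_poly hBF (hcore v hv)) X' (wb81_X_inside (Finset.Subset.refl _) a _ _)]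
    refine mul_le_mul_of_nonneg_right ?_ pC.le
    refine hp.trans (le_of_eq ?_)
    unfold rswP
    congr 1
  -- (3) cut ≤ fill
  have h3 := HH F hF a (!a) (wb81Cut F Λ a) (wb81Fill F B Ch a) (mdl1a_ok mC) (mdl1a_ok mF) (HC F B Ch Λ a hBF hCh hΛ hcore)
    X' (wb81_X_inc _ a _ _)
  have h3' : mdlSumK t F (!a) (wb81Fill F B Ch a) X' ≤ mdlSumK t F (!a) (wb81Fill F B Ch a) X :=
    mdl1_sumK_mono ht0.le ht2.le F (!a) _ (fun ω => wb81_X_mono Finset.inter_subset_left a Finset.inter_subset_left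
      Finset.inter_subset_left ω)
  have s3 : p₀ * mdlSumK t F (!a) (wb81Fill F B Ch a) (fun _ => 1) ≤ mdlSumK t F (!a) (wb81Fill F B Ch a) X := by
    have e1 : mdlSumK t F (!a) (wb81Cut F Λ a) (fun _ => 1) * (p₀ * mdlSumK t F (!a) (wb81Fill F B Ch a) (fun _ => 1)) ≤
        mdlSumK t F (!a) (wb81Cut F Λ a) (fun _ => 1) * mdlSumK t F (!a) (wb81Fill F B Ch a) X := by
      calc mdlSumK t F (!a) (wb81Cut F Λ a) (fun _ => 1) * (p₀ * mdlSumK t F (!a) (wb81Fill F B Ch a) (fun _ => 1))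
          = (p₀ * mdlSumK t F (!a) (wb81Cut F Λ a) (fun _ => 1)) * mdlSumK t F (!a) (wb81Fill F B Ch a) (fun _ => 1) := by ring
        _ ≤ mdlSumK t F (!a) (wb81Cut F Λ a) X' * mdlSumK t F (!a) (wb81Fill F B Ch a) (fun _ => 1) :=
            mul_le_mul_of_nonneg_right h4 pF.le
        _ ≤ mdlSumK t F (!a) (wb81Cut F Λ a) (fun _ => 1) * mdlSumK t F (!a) (wb81Fill F B Ch a) X' := h3
        _ ≤ mdlSumK t F (!a) (wb81Cut F Λ a) (fun _ => 1) * mdlSumK t F (!a) (wb81Fill F B Ch a) X :=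
            mul_le_mul_of_nonneg_left h3' pC.le
    exact le_of_mul_le_mul_left e1 pC
  -- (2) Markov
  obtain ⟨g1, g2⟩ := HG F B Ch a hBF hCh
  have hcount : (mdl41DisSet F Ch \ (wb81AdvA F B Ch a).2).card ≤ 18 :=
    (HN F B Ch a hBF hCh).trans (by omega)
  have h2 := HK F Ch (!a) (wb81AdvA F B Ch a) (wb81FillA F B Ch a) 18 (hCh.trans hBF) mA mF g1 g2 hcount X
    (wb81_X_nonneg _ a _ _) (wb81_X_inside Finset.inter_subset_right a _ _) (wb81_X_noD _ a _ _)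
  have s2 : p₀ * mdlSumK t F (!a) (wb81Adv F B Ch a) (fun _ => 1) ≤ 4 ^ 18 * mdlSumK t F (!a) (wb81Adv F B Ch a) X := by
    have e1 : mdlSumK t F (!a) (wb81Fill F B Ch a) (fun _ => 1) * (p₀ * mdlSumK t F (!a) (wb81Adv F B Ch a) (fun _ => 1)) ≤
        mdlSumK t F (!a) (wb81Fill F B Ch a) (fun _ => 1) * (4 ^ 18 * mdlSumK t F (!a) (wb81Adv F B Ch a) X) := by
      calc mdlSumK t F (!a) (wb81Fill F B Ch a) (fun _ => 1) * (p₀ * mdlSumK t F (!a) (wb81Adv F B Ch a) (fun _ => 1))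
          = (p₀ * mdlSumK t F (!a) (wb81Fill F B Ch a) (fun _ => 1)) * mdlSumK t F (!a) (wb81Adv F B Ch a) (fun _ => 1) := by ring
        _ ≤ mdlSumK t F (!a) (wb81Fill F B Ch a) X * mdlSumK t F (!a) (wb81Adv F B Ch a) (fun _ => 1) :=
            mul_le_mul_of_nonneg_right s3 pA.le
        _ ≤ 4 ^ 18 * (mdlSumK t F (!a) (wb81Adv F B Ch a) X * mdlSumK t F (!a) (wb81Fill F B Ch a) (fun _ => 1)) := h2
        _ = mdlSumK t F (!a) (wb81Fill F B Ch a) (fun _ => 1) * (4 ^ 18 * mdlSumK t F (!a) (wb81Adv F B Ch a) X) := by ring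
    exact le_of_mul_le_mul_left e1 pF
  -- (1) adv ≤ K
  have h1 := HH F hF a b (wb81Adv F B Ch a) K (mdl1a_ok mA) (mdl1a_ok hξ) (HA F B Ch a ξ hBF hCh hξ hwall) X (wb81_X_inc _ a _ _)
  have e1 : mdlSumK t F (!a) (wb81Adv F B Ch a) (fun _ => 1) * (p₀ * mdlSumK t F b K (fun _ => 1)) ≤
      mdlSumK t F (!a) (wb81Adv F B Ch a) (fun _ => 1) * (4 ^ 18 * mdlSumK t F b K X) := by
    calc mdlSumK t F (!a) (wb81Adv F B Ch a) (fun _ => 1) * (p₀ * mdlSumK t F b K (fun _ => 1))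
        = (p₀ * mdlSumK t F (!a) (wb81Adv F B Ch a) (fun _ => 1)) * mdlSumK t F b K (fun _ => 1) := by ring
      _ ≤ (4 ^ 18 * mdlSumK t F (!a) (wb81Adv F B Ch a) X) * mdlSumK t F b K (fun _ => 1) :=
          mul_le_mul_of_nonneg_right s2 hZK
      _ = 4 ^ 18 * (mdlSumK t F (!a) (wb81Adv F B Ch a) X * mdlSumK t F b K (fun _ => 1)) := by ring
      _ ≤ 4 ^ 18 * (mdlSumK t F (!a) (wb81Adv F B Ch a) (fun _ => 1) * mdlSumK t F b K X) :=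
          mul_le_mul_of_nonneg_left h1 (by positivity)
      _ = mdlSumK t F (!a) (wb81Adv F B Ch a) (fun _ => 1) * (4 ^ 18 * mdlSumK t F b K X) := by ring
  exact le_of_mul_le_mul_left e1 pA

/-! ## 3. all the boxes, all the atoms -/

open Classical in
/-- summation over the atoms on which `L` holds -/
theorem wb81_sum_atoms {t : ℝ} (F : Finset (ℤ × ℤ)) (b : Bool) {Q : Finset (ℤ × ℤ)} {L : RswCfg → Prop} (hL : MdlExt Q L)
    {P : RswCfg → Prop} {p : ℝ}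
    (h : ∀ ξ ∈ mdl1aT F Q, L ⟨ξ.1, ∅, ξ.2⟩ → p * mdlSumK t F b (mdl1aK F Q ξ) (fun _ => 1)
      ≤ mdlSumK t F b (mdl1aK F Q ξ) (fun ω => if P ω then 1 else 0)) :
    p * rswSum t F b (fun ω => if L ω then 1 else 0) ≤ rswSum t F b (fun ω => if L ω ∧ P ω then 1 else 0) := by
  have e : (fun ω => if L ω ∧ P ω then (1 : ℝ) else 0) = fun ω => if L ω then (if P ω then (1 : ℝ) else 0) else 0 := by
    funext ω
    by_cases h1 : L ω <;> by_cases h2 : P ω <;> simp [h1, h2]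
  rw [e, mdl1a_atoms t F b Q, mdl1a_atoms t F b Q, Finset.mul_sum]
  refine Finset.sum_le_sum fun ξ hξ => ?_
  rw [mdl1a_ext t F b hL hξ, mdl1a_ext t F b hL hξ]
  split_ifs with hLξ
  · exact h ξ hξ hLξ
  · rw [mul_zero]

/-- **`Mdl41cWBat`** for an abstract family of boxes in a rectangle `B` -/
theorem wb81_at {t : ℝ} (ht1 : 1 / 2 ≤ t) (ht2 : t < 1)
    (HH : Wb81Holley t) (HA : Wb81LeAdv) (HC : Wb81LeCut) (HM : Wb81Mem) (HK : Wb81Markov t) (HG : Wb81Agree) (HN : Wb81Count)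
    (HQ : Wb81CutEq t) (HP : Wb81Pos t) (HE : Wb81EndsLe)
    {F B Bf R LE RE Bot Top : Finset (ℤ × ℤ)} (hF : RswJordan F) (hBF : B ⊆ F) (hBBf : B ⊆ Bf) (b : Bool)
    (hrect : ∃ x0 x1 y0 y1 : ℤ, B = Finset.Ico x0 x1 ×ˢ Finset.Ico y0 y1)
    (Cs : Finset (ℤ × ℤ)) (r ρ N : ℕ) (hN : Cs.card ≤ N)
    (hbox : ∀ x ∈ Cs, rswBox x ρ ⊆ B ∧ ∀ v ∈ cornersOf (rswBox x ρ), v ∈ rskCore B)
    (hblock : ∀ (Ch : Finset (ℤ × ℤ)) (a : Bool) (ω : RswCfg),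
      (∀ x ∈ Cs, RswSep (rswBox x ρ ∩ Ch) a ω (rswBox x r ∩ Ch) (rswLayer (rswBox x ρ) ∩ Ch)) → Mdl41cNoX (Ch ∩ R) Bot Top ω)
    {p₀ : ℝ} (hp0 : 0 < p₀)
    (hcirc : ∀ x ∈ Cs, ∀ a : Bool, p₀ ≤ rswP t (rswBox x ρ) (!a)
      (fun ω => RswSep (rswBox x ρ) a ω (rswBox x r) (rswLayer (rswBox x ρ)))) :
    Mdl41cWBat t F b ((min (p₀ / 4 ^ 18) 1) ^ N) R B Bf LE RE Bot Top := by
  classical
  have ht0 : 0 < t := by linarith
  intro Ch a H _ hChB _ hc1 hc2 hH' hwall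
  have hH : MdlExt Ch H := mdl41c_ext_mono
    (fun f hf => Finset.mem_sdiff.2 ⟨hBBf (hChB hf), fun h => (Finset.mem_sdiff.1 h).2 hf⟩) hH'
  have hends : (wb81Ends B Ch).card ≤ 2 := by
    obtain ⟨x0, x1, y0, y1, rfl⟩ := hrect
    exact HE x0 x1 y0 y1 Ch hChB hc1 hc2
  set q : ℝ := min (p₀ / 4 ^ 18) 1 with hq
  have hq0 : 0 < q := lt_min (by positivity) one_pos
  have hq1 : q ≤ 1 := min_le_right _ _
  have key : ∀ ξ ∈ mdl1aT F Ch, H ⟨ξ.1, ∅, ξ.2⟩ → q ^ N * mdlSumK t F b (mdl1aK F Ch ξ) (fun _ => 1)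
      ≤ mdlSumK t F b (mdl1aK F Ch ξ) (fun ω => if Mdl41cNoX (Ch ∩ R) Bot Top ω then 1 else 0) := by
    intro ξ hξ hHξ
    have hZ : 0 ≤ mdlSumK t F b (mdl1aK F Ch ξ) (fun _ => 1) :=
      mdl1_sumK_nonneg ht0.le ht2.le F b _ (fun _ => zero_le_one)
    have hfkg : MdlFkgAt t F b a (mdl1aK F Ch ξ) :=
      fun X Y hX hY => cmp291_exit_cmp t ht1 ht2 F hF b a _ (mdl1a_ok hξ) X Y hX hY
    have h1 := mdl1_fkg_iter ht0.le ht2.le hfkg Cs
      (fun x => wb81X (rswBox x ρ ∩ Ch) a (rswBox x r ∩ Ch) (rswLayer (rswBox x ρ) ∩ Ch))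
      (fun x _ => wb81_X_inc _ a _ _) (fun x _ ω => wb81_X_nonneg _ a _ _ ω) hq0.le (fun x hx => by
        have h2 := wb81_box ht0 ht2 HH HA HC HM HK HG HN HQ HP hF hBF hChB (hbox x hx).1 (hbox x hx).2 hends a b hξ
          (hwall _ hHξ) (hcirc x hx a)
        have h3 : p₀ / 4 ^ 18 * mdlSumK t F b (mdl1aK F Ch ξ) (fun _ => 1) ≤
            mdlSumK t F b (mdl1aK F Ch ξ) (wb81X (rswBox x ρ ∩ Ch) a (rswBox x r ∩ Ch) (rswLayer (rswBox x ρ) ∩ Ch)) := by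
          rw [div_mul_eq_mul_div, div_le_iff₀ (by positivity)]
          linarith
        exact le_trans (mul_le_mul_of_nonneg_right (min_le_left _ _) hZ) h3)
    have h4 : q ^ N * mdlSumK t F b (mdl1aK F Ch ξ) (fun _ => 1) ≤ q ^ Cs.card * mdlSumK t F b (mdl1aK F Ch ξ) (fun _ => 1) :=
      mul_le_mul_of_nonneg_right (pow_le_pow_of_le_one hq0.le hq1 hN) hZ
    refine le_trans h4 (le_trans h1 (mdl1_sumK_mono ht0.le ht2.le F b _ fun ω => ?_))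
    by_cases hall : ∀ x ∈ Cs, RswSep (rswBox x ρ ∩ Ch) a ω (rswBox x r ∩ Ch) (rswLayer (rswBox x ρ) ∩ Ch)
    · rw [if_pos (hblock Ch a ω hall)]
      exact Finset.prod_le_one (fun x _ => wb81_X_nonneg _ a _ _ ω) (fun x _ => wb81_X_le_one _ a _ _ ω)
    · push Not at hall
      obtain ⟨x, hx, hns⟩ := hall
      have : ∏ x ∈ Cs, wb81X (rswBox x ρ ∩ Ch) a (rswBox x r ∩ Ch) (rswLayer (rswBox x ρ) ∩ Ch) ω = 0 :=
        Finset.prod_eq_zero hx (by unfold wb81X; rw [if_neg hns])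
      rw [this]
      split_ifs <;> norm_num
  have hfin := wb81_sum_atoms F b hH key
  unfold rswP rswE
  rw [← mul_div_assoc]
  refine div_le_div_of_nonneg_right (le_trans hfin (le_of_eq ?_)) (rsk_sum_one_pos ht0 ht2.le F b).le
  congr 1
  funext ω
  congr

/-- **(WB)** from the records of `Model/WbDefs81` and the conclusion of `mdl1t_circuit` -/
theorem wb81_wb (t : ℝ) (ht1 : 1 / 2 ≤ t) (ht2 : t < 1)
    (HH : Wb81Holley t) (HA : Wb81LeAdv) (HC : Wb81LeCut) (HM : Wb81Mem) (HK : Wb81Markov t) (HG : Wb81Agree) (HN : Wb81Count)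
    (HQ : Wb81CutEq t) (HP : Wb81Pos t) (HE : Wb81EndsLe) (HGeo : Wb81Geo)
    (hcirc : ∃ (κ n0 : ℕ) (p : ℝ), 2 ≤ κ ∧ 0 < p ∧ ∀ n : ℕ, n0 ≤ n → ∀ (x : ℤ × ℤ) (a : Bool),
      p ≤ rswP t (rswBox x (κ * n)) (!a)
        (fun ω => RswSep (rswBox x (κ * n)) a ω (rswBox x n) (rswLayer (rswBox x (κ * n))))) : Mdl41cWB t := by
  intro k
  obtain ⟨κ, n0', p0, hκ, hp0, hc⟩ := hcirc
  obtain ⟨N, c, hc0, hgeo⟩ := HGeo k κ hκ
  refine ⟨(min (p0 / 4 ^ 18) 1) ^ N, pow_pos (lt_min (by positivity) one_pos) _, max c (n0' * c), ?_⟩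
  intro n hn F z b d hF hsub
  have hn1 : c ≤ n := le_trans (le_max_left _ _) hn
  have hn2 : n0' ≤ n / c := (Nat.le_div_iff_mul_le hc0).2 (le_trans (le_max_right _ _) hn)
  obtain ⟨hrect, Cs, hN, hbox, hblock⟩ := hgeo n hn1 z d
  have hr : k * n < (k + 1) * n := by
    have : 0 < n := by omega
    nlinarith
  have hBBf : mdl41cB z (k * n) ((k + 1) * n) (n / 2) d ⊆ rswBox z ((k + 2) * n) := by
    refine (mdl41c_B_sub z hr (n / 2) d).trans (mdl1_box_mono z ?_)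
    have h1 : n / 2 ≤ n := Nat.div_le_self n 2
    have h2 : (k + 2) * n = (k + 1) * n + n := by ring
    omega
  exact wb81_at ht1 ht2 HH HA HC HM HK HG HN HQ HP HE hF (hBBf.trans hsub) hBBf b hrect Cs (n / c) (κ * (n / c)) N hN hbox hblock hp0
    (fun x _ a => hc (n / c) hn2 x a)

/-! ## 6. all the records are proved: (WB) and (S2) from the circuit estimate alone -/

/-- (WB) from the conclusion of `mdl1t_circuit`; no other hypothesis. -/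
theorem wb81_wb_of (t : ℝ) (ht1 : 1 / 2 ≤ t) (ht2 : t < 1)
    (hcirc : ∃ (κ n0 : ℕ) (p : ℝ), 2 ≤ κ ∧ 0 < p ∧ ∀ n : ℕ, n0 ≤ n → ∀ (x : ℤ × ℤ) (a : Bool),
      p ≤ rswP t (rswBox x (κ * n)) (!a)
        (fun ω => RswSep (rswBox x (κ * n)) a ω (rswBox x n) (rswLayer (rswBox x (κ * n))))) : Mdl41cWB t :=
  have h0 : 0 < t := by linarith
  wb81_wb t ht1 ht2 (wb32_holley h0 ht2.le) wbl12_le_adv wlc109_leCut wbl12_mem (wbs91_markov h0.le ht2.le) wbc32_agree wbc32_count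
    (wb142_cut_eq h0 ht2.le) (wb142_pos h0 ht2) wbe81_ends wb165_geo81 hcirc

theorem wb81_wb_closed (t : ℝ) (ht1 : 1 / 2 ≤ t) (ht2 : t < 1) : Mdl41cWB t :=
  wb81_wb_of t ht1 ht2 (mdl1t_circuit t ht1 ht2)

theorem wb81_trans (t : ℝ) (ht1 : 1 / 2 ≤ t) (ht2 : t < 1) (k : ℕ) : Mdl41cTrans t k :=
  mdl41c_trans_of_wb mdl41c_meet t ht1 ht2 (wb81_wb_closed t ht1 ht2) k

end Claimed.Agent.R292
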