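import Claimed.Agent.R292.Model.WbDefs81

/-!
# Row 292 (S0540), Model/WbCount232 : the leaves (AGREE) `Wb81Agree` and (COUNT) `Wb81Count` of (WB) (cut of helper81, Model/WbDefs81)      (helper232; prefix `wb232`)      0 sorry

Deterministic, local: the four faces / the four edges at a vertex.
-/

set_option autoImplicit false
set_option linter.unusedTactic false
set_option linter.unreachableTactic false

namespace Claimed.Agent.R292

open Claims Claims.C0468

/-- the four edges at a vertex -/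
def wb232Star (v : ℤ × ℤ) : Finset ((ℤ × ℤ) × Bool) :=
  {(v, true), (v, false), ((v.1, v.2 - 1), true), ((v.1 - 1, v.2), false)}

theorem wb232_mem_star {e : (ℤ × ℤ) × Bool} {v : ℤ × ℤ} (h : v = e.1 ∨ v = rswEnd e) : e ∈ wb232Star v := by
  obtain ⟨⟨x, y⟩, c⟩ := e
  unfold wb232Star
  rcases h with rfl | rfl
  · cases c <;> simp
  · cases c <;> simp [rswEnd]

theorem wb232_star_card (v : ℤ × ℤ) : (wb232Star v).card ≤ 4 := Finset.card_le_four

/-- both faces of an edge are among the four faces at each of its ends -/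
theorem wb232_poly_of_face {Q : Finset (ℤ × ℤ)} {e : (ℤ × ℤ) × Bool} {v : ℤ × ℤ} (h : v = e.1 ∨ v = rswEnd e)
    (hf : e.1 ∉ Q ∨ rswCo e ∉ Q) : OnPolygon Q v := by
  obtain ⟨⟨x, y⟩, c⟩ := e
  unfold OnPolygon
  rintro ⟨h1, h2, h3, h4⟩
  rcases h with rfl | rfl
  · cases c
    · simp only [rswCo] at hf
      rcases hf with hf | hf
      · exact hf h1
      · exact hf (by simpa using h3)
    · simp only [rswCo] at hf
      rcases hf with hf | hf
      · exact hf h1
      · exact hf (by simpa using h2)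
  · cases c
    · simp only [rswCo, rswEnd] at hf h1 h2 h3 h4
      rcases hf with hf | hf
      · exact hf (by simpa using h2)
      · exact hf (by simpa using h4)
    · simp only [rswCo, rswEnd] at hf h1 h2 h3 h4
      rcases hf with hf | hf
      · exact hf (by simpa using h3)
      · exact hf (by simpa using h4)

/-- the ends of an interior edge are corners -/
theorem wb232_end_corner {F : Finset (ℤ × ℤ)} {e : (ℤ × ℤ) × Bool} (he : e ∈ rswInt F) {v : ℤ × ℤ} (h : v = e.1 ∨ v = rswEnd e) :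
    v ∈ cornersOf F := by
  obtain ⟨⟨x, y⟩, c⟩ := e
  have h1 := (rsb_mem_int.1 he).1
  unfold cornersOf
  rw [Finset.mem_biUnion]
  refine ⟨(x, y), h1, ?_⟩
  rcases h with rfl | rfl
  · simp
  · cases c <;> simp [rswEnd]

/-- a vertex whose four faces are in `B`, one in `Ch`, one not: an end of a wall edge -/
theorem wb232_wall_at {B Ch : Finset (ℤ × ℤ)} {v : ℤ × ℤ} (hB : v ∈ rskCore B) (hc : v ∈ cornersOf Ch) (hp : OnPolygon Ch v) :
    ∃ e ∈ mdl41DisSet B Ch, v = e.1 ∨ v = rswEnd e := by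
  obtain ⟨x, y⟩ := v
  rw [rsk_mem_core] at hB
  obtain ⟨b1, b2, b3, b4⟩ := hB
  rw [rsk_mem_corners] at hc
  unfold OnPolygon at hp
  simp only at b1 b2 b3 b4 hc hp
  by_cases c1 : (x, y) ∈ Ch <;> by_cases c2 : (x - 1, y) ∈ Ch <;> by_cases c3 : (x, y - 1) ∈ Ch <;> by_cases c4 : (x - 1, y - 1) ∈ Ch
  all_goals first
    | (exfalso; exact hp ⟨c1, c2, c3, c4⟩)
    | (exfalso; rcases hc with h | h | h | h <;> contradiction)
    | (refine ⟨((x, y), true), mdl41_mem_disSet.2 ⟨rsb_mem_int.2 ⟨b1, by simpa [rswCo] using b2⟩, ?_⟩, Or.inl rfl⟩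
       simp [Mdl41Dis, rswCo, c1, c2]; done)
    | (refine ⟨((x, y), false), mdl41_mem_disSet.2 ⟨rsb_mem_int.2 ⟨b1, by simpa [rswCo] using b3⟩, ?_⟩, Or.inl rfl⟩
       simp [Mdl41Dis, rswCo, c1, c3]; done)
    | (refine ⟨((x, y - 1), true), mdl41_mem_disSet.2 ⟨rsb_mem_int.2 ⟨b3, by simpa [rswCo] using b4⟩, ?_⟩, Or.inr (by simp [rswEnd])⟩
       simp [Mdl41Dis, rswCo, c3, c4]; done)
    | (refine ⟨((x - 1, y), false), mdl41_mem_disSet.2 ⟨rsb_mem_int.2 ⟨b2, by simpa [rswCo] using b4⟩, ?_⟩, Or.inr (by simp [rswEnd])⟩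
       simp [Mdl41Dis, rswCo, c2, c4]; done)

theorem wb232_mem_Va {F B Ch : Finset (ℤ × ℤ)} {v : ℤ × ℤ} :
    v ∈ wb81Va F B Ch ↔ v ∈ mdl1aV F Ch ∧ ¬ OnPolygon F v ∧ ∃ e ∈ mdl41DisSet B Ch, v = e.1 ∨ v = rswEnd e := by
  classical
  unfold wb81Va
  rw [Finset.mem_filter]

theorem wb232_mem_Vf {F B Ch : Finset (ℤ × ℤ)} {v : ℤ × ℤ} :
    v ∈ wb81Vf F B Ch ↔ v ∈ wb81Va F B Ch ∨ (v ∈ mdl1aV F Ch ∧ v ∈ rskCore B) := by
  classical
  unfold wb81Vf
  rw [Finset.mem_union, Finset.mem_filter]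

theorem wb232_mem_Oa {F B Ch : Finset (ℤ × ℤ)} {e : (ℤ × ℤ) × Bool} :
    e ∈ wb81Oa F B Ch ↔ e ∈ mdl1aE F Ch ∧ ((e.1 ∉ wb81Va F B Ch ∧ rswEnd e ∉ wb81Va F B Ch) ∨
      (e ∈ mdl41DisSet B Ch ∧ e.1 ∈ wb81Va F B Ch ∧ rswEnd e ∈ wb81Va F B Ch)) := by
  classical
  unfold wb81Oa
  rw [Finset.mem_filter]

theorem wb232_mem_Of {F B Ch : Finset (ℤ × ℤ)} {e : (ℤ × ℤ) × Bool} :
    e ∈ wb81Of F B Ch ↔ e ∈ mdl1aE F Ch ∧ (if e ∈ mdl41DisSet F Ch then e ∈ wb81Oa F B Ch
      else (e.1 ∈ wb81Vf F B Ch ↔ rswEnd e ∈ wb81Vf F B Ch)) := by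
  classical
  unfold wb81Of
  rw [Finset.mem_filter]

/-- **(AGREE)** -/
theorem wb232_agree : Wb81Agree := by
  classical
  intro F B Ch a hBF hCh
  have key : ∀ v ∈ cornersOf Ch, (v ∈ wb81Va F B Ch ↔ v ∈ wb81Vf F B Ch) := by
    intro v hv
    rw [wb232_mem_Vf]
    refine ⟨Or.inl, ?_⟩
    rintro (h | ⟨h1, h2⟩)
    · exact h
    · rw [wb232_mem_Va]
      have hp := (mdl1a_mem_V.1 h1).2
      refine ⟨h1, mdl1_poly_mono hBF ?_, wb232_wall_at h2 hv hp⟩
      rw [rsk_mem_core] at h2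
      unfold OnPolygon
      rw [not_not]
      exact h2
  refine ⟨fun v hv => ?_, fun e he => ?_⟩
  · cases a
    · simp only [wb81AdvA, wb81FillA, wb81At, Bool.false_eq_true, if_false, Finset.mem_sdiff]
      rw [key v hv]
    · simp only [wb81AdvA, wb81FillA, wb81At, if_true]
      exact key v hv
  · simp only [wb81AdvA, wb81FillA, wb81At]
    rw [wb232_mem_Of, if_pos he]
    exact ⟨fun h => ⟨(wb232_mem_Oa.1 h).1, h⟩, fun h => h.2⟩

/-- **(COUNT)** -/
theorem wb232_count : Wb81Count := by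
  classical
  intro F B Ch a hBF hCh
  have hsub : mdl41DisSet F Ch \ (wb81AdvA F B Ch a).2 ⊆
      (wb81Ends B Ch).biUnion fun e' => insert e' (wb232Star e'.1 ∪ wb232Star (rswEnd e')) := by
    intro e he
    rw [Finset.mem_sdiff] at he
    obtain ⟨he1, he2⟩ := he
    have he2' : e ∉ wb81Oa F B Ch := he2
    obtain ⟨hint, hdis⟩ := mdl41_mem_disSet.1 he1
    have hface : e.1 ∉ Ch ∨ rswCo e ∉ Ch := by
      unfold Mdl41Dis at hdis
      by_contra hc
      push Not at hc
      exact hdis ⟨fun _ => hc.2, fun _ => hc.1⟩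
    have hE : e ∈ mdl1aE F Ch := mdl1a_mem_E.2 ⟨hint, fun h => by
      have := rsb_mem_int.1 h
      rcases hface with h' | h'
      · exact h' this.1
      · exact h' this.2⟩
    rw [wb232_mem_Oa] at he2'
    have hV : ∀ u, (u = e.1 ∨ u = rswEnd e) → u ∈ mdl1aV F Ch := fun u hu =>
      mdl1a_mem_V.2 ⟨wb232_end_corner hint hu, wb232_poly_of_face hu hface⟩
    rw [Finset.mem_biUnion]
    by_cases hw : e ∈ mdl41DisSet B Ch
    · refine ⟨e, ?_, Finset.mem_insert_self _ _⟩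
      unfold wb81Ends
      rw [Finset.mem_filter]
      refine ⟨hw, ?_⟩
      have hnot : ¬ (e.1 ∈ wb81Va F B Ch ∧ rswEnd e ∈ wb81Va F B Ch) := fun h => he2' ⟨hE, Or.inr ⟨hw, h.1, h.2⟩⟩
      have hpoly : ∀ u, (u = e.1 ∨ u = rswEnd e) → u ∉ wb81Va F B Ch → OnPolygon B u := by
        intro u hu hn
        by_contra hc
        exact hn (wb232_mem_Va.2 ⟨hV u hu, mdl1_poly_mono hBF hc, e, hw, hu⟩)
      by_cases h1 : e.1 ∈ wb81Va F B Ch
      · exact Or.inr (hpoly _ (Or.inr rfl) fun h2 => hnot ⟨h1, h2⟩)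
      · exact Or.inl (hpoly _ (Or.inl rfl) h1)
    · have hB : e.1 ∉ B ∨ rswCo e ∉ B := by
        by_contra hc
        push Not at hc
        exact hw (mdl41_mem_disSet.2 ⟨rsb_mem_int.2 hc, hdis⟩)
      have hsome : ∃ v, (v = e.1 ∨ v = rswEnd e) ∧ v ∈ wb81Va F B Ch := by
        by_contra hc
        push Not at hc
        exact he2' ⟨hE, Or.inl ⟨hc _ (Or.inl rfl), hc _ (Or.inr rfl)⟩⟩
      obtain ⟨v, hv, hva⟩ := hsome
      obtain ⟨_, _, e', he', hve'⟩ := wb232_mem_Va.1 hva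
      have hpB : OnPolygon B v := wb232_poly_of_face hv hB
      refine ⟨e', ?_, ?_⟩
      · unfold wb81Ends
        rw [Finset.mem_filter]
        refine ⟨he', ?_⟩
        rcases hve' with h | h
        · exact Or.inl (h ▸ hpB)
        · exact Or.inr (h ▸ hpB)
      · rw [Finset.mem_insert, Finset.mem_union]
        right
        rcases hve' with h | h
        · left
          rw [← h]
          exact wb232_mem_star hv
        · right
          rw [← h]
          exact wb232_mem_star hv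
  calc (mdl41DisSet F Ch \ (wb81AdvA F B Ch a).2).card
      ≤ ((wb81Ends B Ch).biUnion fun e' => insert e' (wb232Star e'.1 ∪ wb232Star (rswEnd e'))).card := Finset.card_le_card hsub
    _ ≤ (wb81Ends B Ch).card * 9 := Finset.card_biUnion_le_card_mul _ _ _ fun e' _ => by
        have h1 := Finset.card_insert_le e' (wb232Star e'.1 ∪ wb232Star (rswEnd e'))
        have h2 := Finset.card_union_le (wb232Star e'.1) (wb232Star (rswEnd e'))
        have h3 := wb232_star_card e'.1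
        have h4 := wb232_star_card (rswEnd e')
        omega
    _ = 9 * (wb81Ends B Ch).card := mul_comm _ _

/-- the equation lemma of the definition of this file is generated HERE (RULES.md, rule 6) -/
theorem wb232_defs_eqns_cite : True := by
  have := @wb232Star.eq_1
  trivial

end Claimed.Agent.R292
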