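import Claimed.Agent.R292.Model.Count41
import Claimed.Agent.R292.Model.Circ1

/-!
# Row 292 (S0540), Model/WbDefs79 : (WB) WALL BLOCKING, VOCABULARY OF THE TYPED CUT `Model/Wb79`      (architect helper79; prefix `wb79_`, `Wb79`, `wb79`)

TEX 03-spatial l.917-985.  Target: the record `Mdl41cWB` of `Model/Count41` (v5) with lateral width `n / 2` (`wb79_wb`).      STATUS 22:45Z Oct 15: CLOSED, `Model/Wb79` has 0 sorry (`wb79_wb_of`: the 3 standard axioms; `wb79_wb` owes the circuit estimate `exit_rsw_circuit` only).  `Exit/MODEL` uses the twin proof of 41 / 101 / 191; this one is a spare.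

CHAIN on one exterior atom `ξ` of the chamber `Ch` (wall good of colour `a`), `Z_K(X) = mdlSumK t F b K X`, `A` = no chain of NOT `a`-good edges crosses `Ch ∩ R`:
  (1) HOLLEY     `Z_adv(A) Z_ξ(1) ≤ Z_adv(1) Z_ξ(A)`          adv = colour `a` at the wall vertices STRICTLY INSIDE `B`, inner wall edges open, every other exterior vertex `!a`, every exterior `!a-!a` edge open
  (2) EQUALITY   `Z_adv(Y) Z_fill(1) = Z_fill(Y) Z_adv(1)`     fill = colour `a` at ALL corners of `B \ Ch` strictly inside `B`, edges between them open, the rest as adv;  `Y` reads `(s,W)` in `Ch`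
                 Kramers-Wannier (`mdl41_rswSum_SO`): weight = local factors * number of even subgraphs of `O_int ∪ O_ext` = `|Evens O_ext| * #{η_int completable in O_ext}`;
                 completable in adv ⇔ completable in fill: (D) the inner wall is connected (exactness), (R) the polygon of `B` is a cycle of open `!a` edges in both atoms
  (3) FILL       `Z_fill(Y) = Z_base(1_Fill Y)`                 base = the complete adverse exterior atom of `B`
  (4) FKG + `mdl1_atom` under base: `p ^ card Cs * Z_base(1_Fill) ≤ Z_base(1_Fill 1_Q)`,  `Q` = all small separations;   `Q ⟹ A ⟹ NoX` (deterministic)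
  (5) positivity of `Z_adv(1)`, `Z_fill(1)`.
-/

set_option autoImplicit false

namespace Claimed.Agent.R292

open Claims Claims.C0468 Relation

/-! ## 0. vocabulary -/

/-- the vertices pinned in the colour `a` -/
def wb79PA (a : Bool) (K : MdlPin) : Finset (ℤ × ℤ) := if a = true then K.Sp else K.Sm

/-- **RECORD (pen 201, `Model/Wb201`)**: HOLLEY WITH PINS = prop:comparison, second sentence -/
def Wb79Holley (t : ℝ) : Prop :=
  ∀ (F : Finset (ℤ × ℤ)), RswJordan F → ∀ (b a : Bool) (K1 K2 : MdlPin), K1.Ok → K2.Ok →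
    K1.Oo ∪ K1.Oc = K2.Oo ∪ K2.Oc → wb79PA a K1 ⊆ wb79PA a K2 → wb79PA (!a) K2 ⊆ wb79PA (!a) K1 →
    (∀ e ∈ K1.Oo, e.1 ∈ wb79PA a K1 → rswEnd e ∈ wb79PA a K1 → e ∈ K2.Oo) →
    (∀ e ∈ K2.Oo, e.1 ∈ wb79PA (!a) K2 → rswEnd e ∈ wb79PA (!a) K2 → e ∈ K1.Oo) →
    ∀ X : RswCfg → ℝ, MdlInc a X →
      mdlSumK t F b K1 X * mdlSumK t F b K2 (fun _ => 1) ≤ mdlSumK t F b K1 (fun _ => 1) * mdlSumK t F b K2 X

open Classical in
/-- the exterior atom of `U`: colour `a` exactly on `A`, open edges = `Oa` and all the edges between two vertices off `A` -/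
noncomputable def wb79Atom (F U : Finset (ℤ × ℤ)) (a : Bool) (A : Finset (ℤ × ℤ)) (Oa : Finset ((ℤ × ℤ) × Bool)) :
    Finset (ℤ × ℤ) × Finset ((ℤ × ℤ) × Bool) :=
  ((mdl1aV F U).filter (fun v => (v ∈ A ↔ a = true)),
    (mdl1aE F U).filter (fun e => e ∈ Oa ∨ (e.1 ∉ A ∧ rswEnd e ∉ A)))

open Classical in
/-- the polygon of `F` when its colour `b` is `a` -/
noncomputable def wb79PF (F : Finset (ℤ × ℤ)) (b a : Bool) : Finset (ℤ × ℤ) :=
  if b = a then (cornersOf F).filter (fun v => OnPolygon F v) else ∅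

open Classical in
/-- the wall vertices strictly inside `B` -/
noncomputable def wb79WV (B Ch : Finset (ℤ × ℤ)) : Finset (ℤ × ℤ) :=
  (cornersOf B).filter (fun v => ¬ OnPolygon B v ∧ ∃ e ∈ mdl41DisSet B Ch, e.1 = v ∨ rswEnd e = v)

open Classical in
/-- the wall edges with both endpoints strictly inside `B` -/
noncomputable def wb79W2 (B Ch : Finset (ℤ × ℤ)) : Finset ((ℤ × ℤ) × Bool) :=
  (mdl41DisSet B Ch).filter (fun e => ¬ OnPolygon B e.1 ∧ ¬ OnPolygon B (rswEnd e))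

open Classical in
/-- the corners of `B \ Ch` strictly inside `B` -/
noncomputable def wb79CG (B Ch : Finset (ℤ × ℤ)) : Finset (ℤ × ℤ) :=
  (cornersOf (B \ Ch)).filter (fun v => ¬ OnPolygon B v)

open Classical in
/-- the filled edges -/
noncomputable def wb79FE (B Ch : Finset (ℤ × ℤ)) : Finset ((ℤ × ℤ) × Bool) :=
  (rswInt B \ rswInt Ch).filter (fun e => e.1 ∈ wb79CG B Ch ∧ rswEnd e ∈ wb79CG B Ch)

/-- the adverse atom -/
noncomputable def wb79Adv (F B Ch : Finset (ℤ × ℤ)) (b a : Bool) : Finset (ℤ × ℤ) × Finset ((ℤ × ℤ) × Bool) :=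
  wb79Atom F Ch a (wb79WV B Ch ∪ wb79PF F b a) (wb79W2 B Ch)

/-- the filled atom -/
noncomputable def wb79Fil (F B Ch : Finset (ℤ × ℤ)) (b a : Bool) : Finset (ℤ × ℤ) × Finset ((ℤ × ℤ) × Bool) :=
  wb79Atom F Ch a (wb79CG B Ch ∪ wb79PF F b a) (wb79FE B Ch)

/-- the complete adverse exterior atom of `B` -/
noncomputable def wb79Bas (F B : Finset (ℤ × ℤ)) (b a : Bool) : Finset (ℤ × ℤ) × Finset ((ℤ × ℤ) × Bool) :=
  wb79Atom F B a (wb79PF F b a) ∅

/-- the fill as an (increasing) event strictly inside `B` -/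
def Wb79Fill (B Ch : Finset (ℤ × ℤ)) (a : Bool) (ω : RswCfg) : Prop :=
  (∀ v ∈ wb79CG B Ch, (v ∈ ω.S ↔ a = true)) ∧ ∀ e ∈ wb79FE B Ch, e ∈ ω.O

/-- no chain of faces of `P` from `Bot` to `Top` across edges which are NOT good of colour `a` -/
def Wb79A (P : Finset (ℤ × ℤ)) (a : Bool) (Bot Top : Finset (ℤ × ℤ)) (ω : RswCfg) : Prop :=
  ∀ f ∈ Bot, ∀ g ∈ Top, f ∈ P → ¬ ReflTransGen (RswStep P a ω) f g

/-- `Y` reads the primal spins on the closed `U` and the interior edges of `U` only -/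
def Wb79In (U : Finset (ℤ × ℤ)) (Y : RswCfg → ℝ) : Prop :=
  ∀ ω ω' : RswCfg, (∀ v ∈ cornersOf U, (v ∈ ω.S ↔ v ∈ ω'.S)) → (∀ e ∈ rswInt U, (e ∈ ω.O ↔ e ∈ ω'.O)) → Y ω = Y ω'

/-- the geometry of one problem -/
structure Wb79Geo (F B Ch : Finset (ℤ × ℤ)) : Prop where
  rect : ∃ x0 x1 y0 y1 : ℤ, x0 + 2 ≤ x1 ∧ y0 + 2 ≤ y1 ∧ B = Finset.Ico x0 x1 ×ˢ Finset.Ico y0 y1
  conn : Mdl41Conn B
  inF : ∀ v ∈ cornersOf B, ¬ OnPolygon F v
  sub : Ch ⊆ B
  cC : ∀ f ∈ Ch, ∀ g ∈ Ch, Mdl41cJoin Ch f g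
  cG : ∀ f ∈ B \ Ch, ∀ g ∈ B \ Ch, Mdl41cJoin (B \ Ch) f g

open Classical in
/-- the local `(s,W)` factors of the interior edges of `U` -/
noncomputable def wb79W (t : ℝ) (U S : Finset (ℤ × ℤ)) (O : Finset ((ℤ × ℤ) × Bool)) : ℝ :=
  ∏ e ∈ rswInt U, if e ∈ O then (if (e.1 ∈ S ↔ rswEnd e ∈ S) then t else 0) else (if (e.1 ∈ S ↔ rswEnd e ∈ S) then 1 - t else t)

/-- the sum over the inside of `U`: contact spins `σ`, exterior open edges `Oe` -/
noncomputable def wb79Dec (t : ℝ) (F U σ : Finset (ℤ × ℤ)) (Oe : Finset ((ℤ × ℤ) × Bool)) (Y : RswCfg → ℝ) : ℝ :=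
  ∑ S ∈ (rskCore U).powerset, ∑ O ∈ (rswInt U).powerset,
    wb79W t U (S ∪ σ) O * ((mdl41Evens F (O ∪ Oe)).card : ℝ) * Y ⟨S ∪ σ, ∅, O⟩

open Classical in
/-- the subgraphs of `O` which can be completed to an even subgraph inside `Oe` -/
noncomputable def wb79Im (F : Finset (ℤ × ℤ)) (O Oe : Finset ((ℤ × ℤ) × Bool)) : Finset (Finset ((ℤ × ℤ) × Bool)) :=
  O.powerset.filter (fun η => ∃ η' ⊆ Oe, Mdl41Even F (η ∪ η'))

/-- the covering hypothesis: a chain of adjacent faces of `Rc` from `Bot` to `Top` visits a small box whose large box does not contain its end -/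
def Wb79Cov (Rc Bot Top Cs : Finset (ℤ × ℤ)) (r R : ℕ) : Prop :=
  ∀ f ∈ Bot, ∀ g ∈ Top, ∀ s : ℤ × ℤ → ℤ × ℤ → Prop, (∀ u v, s u v → u ∈ Rc ∧ v ∈ Rc ∧ Mdl41cAdj u v) → ReflTransGen s f g →
    ∃ x ∈ Cs, ∃ u ∈ rswBox x r, ReflTransGen s u g ∧ g ∉ rswBox x R

theorem wb79_atom_mem (F U : Finset (ℤ × ℤ)) (a : Bool) (A : Finset (ℤ × ℤ)) (Oa : Finset ((ℤ × ℤ) × Bool)) :
    wb79Atom F U a A Oa ∈ mdl1aT F U := by
  classical
  unfold wb79Atom mdl1aT
  exact Finset.mem_product.2 ⟨Finset.mem_powerset.2 (Finset.filter_subset _ _), Finset.mem_powerset.2 (Finset.filter_subset _ _)⟩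

/-- the equation lemmas of the definitions of this file are generated HERE (RULES.md, rule 6) -/
theorem wb79_defs_eqns_cite : True := by
  have := @wb79PA.eq_1
  have := @Wb79Holley.eq_1
  have := @wb79Atom.eq_1
  have := @wb79PF.eq_1
  have := @wb79WV.eq_1
  have := @wb79W2.eq_1
  have := @wb79CG.eq_1
  have := @wb79FE.eq_1
  have := @wb79Adv.eq_1
  have := @wb79Fil.eq_1
  have := @wb79Bas.eq_1
  have := @Wb79Fill.eq_1
  have := @Wb79A.eq_1
  have := @Wb79In.eq_1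
  have := @wb79W.eq_1
  have := @wb79Dec.eq_1
  have := @wb79Im.eq_1
  have := @Wb79Cov.eq_1
  trivial

end Claimed.Agent.R292
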