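import Claimed.Agent.R292.Model.WbDefs81

/-!
# Row 292 (S0540), Model/WbEnds151 : LEAF (ENDS) of (WB) = `Wb81EndsLe` of `Model/WbDefs81` VERBATIM      (pen helper151; prefix `wbe151_`; c1_post row 32, head 81)

PLANAR FACT: in a rectangle of faces, the wall between a joined set `Ch` and its joined complement has at most two edges which touch the polygon.   0 sorry.

Proof WITHOUT curves, by counting mod 2 (valid for every `B` with `Mdl41Conn B`):
* (IRR) `wbe151_irred`: an even subgraph `η` of the wall `W = mdl41DisSet B Ch` is empty or all of `W`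
  (exactness `mdl41_exists_D`: `η = Dis D`; `D` is constant on `Ch` and on `B \ Ch`, `mdl41c_const_on`);
* (COUNT) `wbe151_count`: `V` = the inner vertices touched by `W`; every one has degree `≥ 2` in `W` (even, positive); an edge has two ends, an edge
  of `wb81Ends` at most one inner end: `2 |V| + |Ends| ≤ 2 |W|`;
* (PIGEON) if `|Ends| ≥ 3` then `|V| + 2 ≤ |W|`; the boundary map `T ↦ {v ∈ V | deg_T v odd}` from the `2^{|W|}` subsets of `W` to the `2^{|V|}` subsets of `V` has a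
  fibre with three elements `T₀ T₁ T₂`; `T₀ ∆ T₁`, `T₀ ∆ T₂` are non-empty even subgraphs of `W`, so both are `W`, so `T₁ = T₂`.
-/

set_option autoImplicit false

namespace Claimed.Agent.R292

open Claims Claims.C0468

/-- the chain of a symmetric difference is the sum of the chains -/
theorem wbe151_ch_symmDiff (A B : Finset ((ℤ × ℤ) × Bool)) : mdl41Ch (symmDiff A B) = mdl41Ch A + mdl41Ch B := by
  ext e
  rw [Finsupp.add_apply, mdl41_ch_apply, mdl41_ch_apply, mdl41_ch_apply]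
  by_cases hA : e ∈ A <;> by_cases hB : e ∈ B <;> simp [Finset.mem_symmDiff, hA, hB]
  decide

/-- **(IRR)** an even subgraph of the wall between two joined pieces of `B` is empty or the whole wall -/
theorem wbe151_irred {B Ch : Finset (ℤ × ℤ)} (hB : Mdl41Conn B) (hCh : Ch ⊆ B)
    (hc : ∀ f ∈ Ch, ∀ g ∈ Ch, Mdl41cJoin Ch f g) (hx : ∀ f ∈ B \ Ch, ∀ g ∈ B \ Ch, Mdl41cJoin (B \ Ch) f g)
    {η : Finset ((ℤ × ℤ) × Bool)} (hηsub : η ⊆ mdl41DisSet B Ch) (hev : Mdl41Even B η) :
    ∀ e ∈ mdl41DisSet B Ch, ∀ e' ∈ mdl41DisSet B Ch, (e ∈ η ↔ e' ∈ η) := by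
  classical
  obtain ⟨D, -, hD⟩ := mdl41_exists_D hB hev
  have c1 : ∀ f ∈ Ch, ∀ g ∈ Ch, (f ∈ D ↔ g ∈ D) := fun f hf g hg =>
    mdl41c_const_on hηsub hD hCh (fun a ha b hb => ⟨fun _ => hb, fun _ => ha⟩) (hc f hf g hg)
  have c2 : ∀ f ∈ B \ Ch, ∀ g ∈ B \ Ch, (f ∈ D ↔ g ∈ D) := fun f hf g hg =>
    mdl41c_const_on hηsub hD Finset.sdiff_subset
      (fun a ha b hb => ⟨fun h => absurd h (Finset.mem_sdiff.1 ha).2, fun h => absurd h (Finset.mem_sdiff.1 hb).2⟩) (hx f hf g hg)
  have hfaces : ∀ e ∈ mdl41DisSet B Ch, ∃ f ∈ Ch, ∃ g ∈ B \ Ch, (Mdl41Dis D e ↔ ¬ (f ∈ D ↔ g ∈ D)) := by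
    intro e he
    obtain ⟨h1, h2⟩ := mdl41_mem_disSet.1 he
    obtain ⟨h3, h4⟩ := mdl41_mem_int.1 h1
    unfold Mdl41Dis at h2 ⊢
    by_cases h5 : e.1 ∈ Ch
    · have h6 : rswCo e ∉ Ch := fun h6 => h2 ⟨fun _ => h6, fun _ => h5⟩
      exact ⟨e.1, h5, rswCo e, Finset.mem_sdiff.2 ⟨h4, h6⟩, Iff.rfl⟩
    · have h6 : rswCo e ∈ Ch := by
        by_contra h6
        exact h2 ⟨fun h => absurd h h5, fun h => absurd h h6⟩
      exact ⟨rswCo e, h6, e.1, Finset.mem_sdiff.2 ⟨h3, h5⟩, by tauto⟩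
  intro e he e' he'
  obtain ⟨f, hf, g, hg, hi⟩ := hfaces e he
  obtain ⟨f', hf', g', hg', hi'⟩ := hfaces e' he'
  have k1 := c1 f hf f' hf'
  have k2 := c2 g hg g' hg'
  have d1 := hD e (mdl41_mem_disSet.1 he).1
  have d2 := hD e' (mdl41_mem_disSet.1 he').1
  rw [d1, d2, hi, hi', k1, k2]

open Classical in
/-- the inner vertices touched by `W` -/
noncomputable def wbe151V (B : Finset (ℤ × ℤ)) (W : Finset ((ℤ × ℤ) × Bool)) : Finset (ℤ × ℤ) :=
  (W.image (fun e => e.1) ∪ W.image rswEnd).filter fun v => ¬ OnPolygon B v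

open Classical in
/-- **(COUNT)** `2 |V| + |Ends| ≤ 2 |W|` for an even `W` -/
theorem wbe151_count {B : Finset (ℤ × ℤ)} {W : Finset ((ℤ × ℤ) × Bool)} (hW : Mdl41Even B W) :
    2 * (wbe151V B W).card + (W.filter fun e => OnPolygon B e.1 ∨ OnPolygon B (rswEnd e)).card ≤ 2 * W.card := by
  rw [mdl41_even_iff] at hW
  have h1 : ∀ v ∈ wbe151V B W, 2 ≤ (W.filter (fun e => e.1 = v ∨ rswEnd e = v)).card := by
    intro v hv
    obtain ⟨hv1, hv2⟩ := Finset.mem_filter.1 hv
    have hpos : 0 < (W.filter (fun e => e.1 = v ∨ rswEnd e = v)).card := by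
      rw [Finset.card_pos]
      rcases Finset.mem_union.1 hv1 with h | h
      · obtain ⟨e, he, rfl⟩ := Finset.mem_image.1 h
        exact ⟨e, Finset.mem_filter.2 ⟨he, Or.inl rfl⟩⟩
      · obtain ⟨e, he, rfl⟩ := Finset.mem_image.1 h
        exact ⟨e, Finset.mem_filter.2 ⟨he, Or.inr rfl⟩⟩
    obtain ⟨r, hr⟩ := hW v hv2
    omega
  have h2 : 2 * (wbe151V B W).card ≤ ∑ v ∈ wbe151V B W, (W.filter (fun e => e.1 = v ∨ rswEnd e = v)).card := by
    rw [mul_comm, ← smul_eq_mul]
    exact Finset.card_nsmul_le_sum _ _ _ h1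
  have h3 : ∑ v ∈ wbe151V B W, (W.filter (fun e => e.1 = v ∨ rswEnd e = v)).card =
      ∑ e ∈ W, ((wbe151V B W).filter (fun v => e.1 = v ∨ rswEnd e = v)).card :=
    Finset.sum_card_bipartiteAbove_eq_sum_card_bipartiteBelow (fun v e => e.1 = v ∨ rswEnd e = v)
  have h4 : ∀ e ∈ W, ((wbe151V B W).filter (fun v => e.1 = v ∨ rswEnd e = v)).card +
      (if OnPolygon B e.1 ∨ OnPolygon B (rswEnd e) then 1 else 0) ≤ 2 := by
    intro e _
    split_ifs with hp
    · have hsub : (wbe151V B W).filter (fun v => e.1 = v ∨ rswEnd e = v) ⊆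
          if OnPolygon B e.1 then {rswEnd e} else {e.1} := by
        intro v hv
        obtain ⟨hv1, hv2⟩ := Finset.mem_filter.1 hv
        have hv3 := (Finset.mem_filter.1 hv1).2
        split_ifs with hq
        · rcases hv2 with rfl | rfl
          · exact absurd hq hv3
          · exact Finset.mem_singleton_self _
        · rcases hv2 with rfl | rfl
          · exact Finset.mem_singleton_self _
          · exact absurd (hp.resolve_left hq) hv3
      have := Finset.card_le_card hsub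
      have h5 : (if OnPolygon B e.1 then ({rswEnd e} : Finset (ℤ × ℤ)) else {e.1}).card = 1 := by
        split_ifs <;> simp
      omega
    · have hsub : (wbe151V B W).filter (fun v => e.1 = v ∨ rswEnd e = v) ⊆ {e.1, rswEnd e} := by
        intro v hv
        rcases (Finset.mem_filter.1 hv).2 with rfl | rfl <;> simp
      have := Finset.card_le_card hsub
      have h5 : ({e.1, rswEnd e} : Finset (ℤ × ℤ)).card ≤ 2 := Finset.card_le_two
      omega
  have h6 : ∑ e ∈ W, ((wbe151V B W).filter (fun v => e.1 = v ∨ rswEnd e = v)).card +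
      (W.filter fun e => OnPolygon B e.1 ∨ OnPolygon B (rswEnd e)).card ≤ 2 * W.card := by
    rw [Finset.card_filter, ← Finset.sum_add_distrib, mul_comm, ← smul_eq_mul]
    exact Finset.sum_le_card_nsmul _ _ _ h4
  omega

open Classical in
/-- the boundary map on the subgraphs of `W` -/
noncomputable def wbe151Bd (B : Finset (ℤ × ℤ)) (W T : Finset ((ℤ × ℤ) × Bool)) : Finset (ℤ × ℤ) :=
  (wbe151V B W).filter fun v => mdl41Bd (mdl41Ch T) v = 1

theorem wbe151_zmod2 : ∀ a b : ZMod 2, (a = 1 ↔ b = 1) → a + b = 0 := by decide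

/-- two subgraphs of `W` with the same boundary differ by an even subgraph -/
theorem wbe151_even_of_bd_eq {B : Finset (ℤ × ℤ)} {W T T' : Finset ((ℤ × ℤ) × Bool)} (hT : T ⊆ W) (hT' : T' ⊆ W)
    (h : wbe151Bd B W T = wbe151Bd B W T') : Mdl41Even B (symmDiff T T') := by
  classical
  intro v hv
  rw [wbe151_ch_symmDiff, map_add, Finsupp.add_apply]
  by_cases hvV : v ∈ wbe151V B W
  · have h1 : (mdl41Bd (mdl41Ch T) v = 1 ↔ mdl41Bd (mdl41Ch T') v = 1) := by
      have := Finset.ext_iff.1 h v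
      simpa [wbe151Bd, hvV] using this
    exact wbe151_zmod2 _ _ h1
  · have hz : ∀ T ⊆ W, mdl41Bd (mdl41Ch T) v = 0 := by
      intro T hT
      rw [mdl41_bd_ch]
      have : T.filter (fun e => e.1 = v ∨ rswEnd e = v) = ∅ := by
        ext e
        simp only [Finset.mem_filter, Finset.notMem_empty, iff_false]
        rintro ⟨he, hi⟩
        apply hvV
        refine Finset.mem_filter.2 ⟨?_, hv⟩
        rcases hi with rfl | rfl
        · exact Finset.mem_union_left _ (Finset.mem_image_of_mem _ (hT he))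
        · exact Finset.mem_union_right _ (Finset.mem_image_of_mem _ (hT he))
      rw [this]; simp
    rw [hz T hT, hz T' hT', add_zero]

/-- **(ENDS), general form**: `B` with connected exterior, `Ch` and `B \ Ch` joined: at most two wall edges touch the polygon of `B` -/
theorem wbe151_ends_le {B Ch : Finset (ℤ × ℤ)} (hB : Mdl41Conn B) (hCh : Ch ⊆ B)
    (hc : ∀ f ∈ Ch, ∀ g ∈ Ch, Mdl41cJoin Ch f g) (hx : ∀ f ∈ B \ Ch, ∀ g ∈ B \ Ch, Mdl41cJoin (B \ Ch) f g) :
    (wb81Ends B Ch).card ≤ 2 := by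
  classical
  by_contra hlt
  push Not at hlt
  have hcount := wbe151_count (mdl41_even_disSet B Ch)
  have hE : ((mdl41DisSet B Ch).filter fun e => OnPolygon B e.1 ∨ OnPolygon B (rswEnd e)) = wb81Ends B Ch := by
    unfold wb81Ends
    congr
  rw [hE] at hcount
  set W := mdl41DisSet B Ch with hW
  have hVW : (wbe151V B W).card + 2 ≤ W.card := by omega
  have hpig : (wbe151V B W).powerset.card * 2 < W.powerset.card := by
    rw [Finset.card_powerset, Finset.card_powerset]
    calc 2 ^ (wbe151V B W).card * 2 = 2 ^ ((wbe151V B W).card + 1) := (pow_succ _ _).symm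
      _ < 2 ^ ((wbe151V B W).card + 2) := Nat.pow_lt_pow_right (by norm_num) (by omega)
      _ ≤ 2 ^ W.card := Nat.pow_le_pow_right (by norm_num) hVW
  obtain ⟨y, -, hy⟩ := Finset.exists_lt_card_fiber_of_mul_lt_card_of_maps_to (f := wbe151Bd B W)
    (fun T _ => Finset.mem_powerset.2 (Finset.filter_subset _ _)) hpig
  obtain ⟨T0, T1, T2, h0, h1, h2, h01, h02, h12⟩ := Finset.two_lt_card_iff.1 hy
  obtain ⟨s0, b0⟩ := Finset.mem_filter.1 h0
  obtain ⟨s1, b1⟩ := Finset.mem_filter.1 h1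
  obtain ⟨s2, b2⟩ := Finset.mem_filter.1 h2
  rw [Finset.mem_powerset] at s0 s1 s2
  have full : ∀ T T' : Finset ((ℤ × ℤ) × Bool), T ⊆ W → T' ⊆ W → wbe151Bd B W T = wbe151Bd B W T' → T ≠ T' →
      symmDiff T T' = W := by
    intro T T' hT hT' hb hne
    have hsub : symmDiff T T' ⊆ W := by
      intro e he
      rcases Finset.mem_symmDiff.1 he with h | h
      · exact hT h.1
      · exact hT' h.1
    obtain ⟨e0, he0⟩ := Finset.symmDiff_nonempty.2 hne
    refine Finset.Subset.antisymm hsub fun e he => ?_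
    exact (wbe151_irred hB hCh hc hx hsub (wbe151_even_of_bd_eq hT hT' hb) e he e0 (hsub he0)).2 he0
  have e1 := full T0 T1 s0 s1 (b0.trans b1.symm) h01
  have e2 := full T0 T2 s0 s2 (b0.trans b2.symm) h02
  exact h12 (symmDiff_right_injective T0 (e1.trans e2.symm))

/-- **LEAF (ENDS)** = `Wb81EndsLe` VERBATIM -/
theorem wbe151_endsLe : Wb81EndsLe := fun x0 x1 y0 y1 _ hCh hc hx =>
  wbe151_ends_le (mdl41c_rect_ext x0 x1 y0 y1) hCh hc hx

end Claimed.Agent.R292
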