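import Claimed.Agent.R292.Model.WbDefs81

/-!
# Row 292 (S0540), Model/WbEnds165 : the record (ENDS) `Wb81EndsLe` of `Model/WbDefs81` (post 32 of `c1_post`; architect helper81; pen helper165; prefix `wbe165_`)

`wbe165_ends : Wb81EndsLe`.  No interleaved chains: counting mod 2.  `W` = the wall.
(1) `wbe165_min`: an even subgraph of `W` is `∅` or `W` (exactness `mdl41_exists_D` + `mdl41c_const_on`);
(2) the map `η ↦` (odd inner vertices of `η`) on the subsets of `W` has fibres of at most two elements, so `|W| ≤ |Vin| + 1`;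
(3) every inner vertex touched by `W` has degree at least two, so `2 |Vin| + |Ends| ≤ 2 |W|`.
-/

set_option autoImplicit false

namespace Claimed.Agent.R292

open Claims Claims.C0468 Relation

theorem wbe165_ch_symmDiff (A B : Finset ((ℤ × ℤ) × Bool)) : mdl41Ch (symmDiff A B) = mdl41Ch A + mdl41Ch B := by
  ext e
  rw [Finsupp.add_apply, mdl41_ch_apply, mdl41_ch_apply, mdl41_ch_apply]
  by_cases hA : e ∈ A <;> by_cases hB : e ∈ B <;> simp [Finset.mem_symmDiff, hA, hB, mdl41_two]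

/-- **minimality of the wall**: an even subgraph of the wall between two connected pieces is empty or the whole wall -/
theorem wbe165_min {B Ch : Finset (ℤ × ℤ)} (hB : Mdl41Conn B) (hCh : Ch ⊆ B)
    (hc : ∀ f ∈ Ch, ∀ g ∈ Ch, Mdl41cJoin Ch f g) (hx : ∀ f ∈ B \ Ch, ∀ g ∈ B \ Ch, Mdl41cJoin (B \ Ch) f g)
    {η : Finset ((ℤ × ℤ) × Bool)} (hηsub : η ⊆ mdl41DisSet B Ch) (hev : Mdl41Even B η) :
    η = ∅ ∨ η = mdl41DisSet B Ch := by
  classical
  obtain ⟨D, -, hD⟩ := mdl41_exists_D hB hev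
  have c1 : ∀ f ∈ Ch, ∀ g ∈ Ch, (f ∈ D ↔ g ∈ D) := fun f hf g hg =>
    mdl41c_const_on hηsub hD hCh (fun a ha b hb => ⟨fun _ => hb, fun _ => ha⟩) (hc f hf g hg)
  have c2 : ∀ f ∈ B \ Ch, ∀ g ∈ B \ Ch, (f ∈ D ↔ g ∈ D) := fun f hf g hg =>
    mdl41c_const_on hηsub hD Finset.sdiff_subset
      (fun a ha b hb => ⟨fun h => absurd h (Finset.mem_sdiff.1 ha).2, fun h => absurd h (Finset.mem_sdiff.1 hb).2⟩) (hx f hf g hg)
  have hfaces : ∀ e ∈ mdl41DisSet B Ch, ∃ f ∈ Ch, ∃ g ∈ B \ Ch, (Mdl41Dis D e ↔ ¬ (f ∈ D ↔ g ∈ D)) := by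
    intro e he
    obtain ⟨h1, h2⟩ := mdl41_mem_disSet.1 he
    obtain ⟨h3, h4⟩ := mdl41_mem_int.1 h1
    unfold Mdl41Dis at h2 ⊢
    by_cases h5 : e.1 ∈ Ch
    · have h6 : rswCo e ∉ Ch := fun h6 => h2 ⟨fun _ => h6, fun _ => h5⟩
      exact ⟨e.1, h5, rswCo e, Finset.mem_sdiff.2 ⟨h4, h6⟩, Iff.rfl⟩
    · have h6 : rswCo e ∈ Ch := by
        by_contra h6
        exact h2 ⟨fun h => absurd h h5, fun h => absurd h h6⟩
      exact ⟨rswCo e, h6, e.1, Finset.mem_sdiff.2 ⟨h3, h5⟩, by tauto⟩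
  by_cases hne : ∃ e₀, e₀ ∈ η
  · right
    obtain ⟨e₀, he₀⟩ := hne
    obtain ⟨f₀, hf₀, g₀, hg₀, hi₀⟩ := hfaces e₀ (hηsub he₀)
    have hd₀ := hi₀.1 ((hD e₀ (mdl41_mem_disSet.1 (hηsub he₀)).1).1 he₀)
    refine Finset.Subset.antisymm hηsub fun e he => ?_
    obtain ⟨f, hf, g, hg, hi⟩ := hfaces e he
    have h1 := c1 f hf f₀ hf₀
    have h2 := c2 g hg g₀ hg₀
    exact (hD e (mdl41_mem_disSet.1 he).1).2 (hi.2 (by rw [h1, h2]; exact hd₀))
  · left
    exact Finset.eq_empty_of_forall_notMem fun e he => hne ⟨e, he⟩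

open Classical in
/-- **counting mod 2**: an even graph `W` whose only even subgraphs are `∅` and `W` has at most two edges which touch the polygon -/
theorem wbe165_count (B : Finset (ℤ × ℤ)) (W : Finset ((ℤ × ℤ) × Bool)) (hW : Mdl41Even B W)
    (hmin : ∀ η ⊆ W, Mdl41Even B η → η = ∅ ∨ η = W) :
    (W.filter fun e => OnPolygon B e.1 ∨ OnPolygon B (rswEnd e)).card ≤ 2 := by
  set Vin : Finset (ℤ × ℤ) := (W.image (fun e => e.1) ∪ W.image rswEnd).filter (fun v => ¬ OnPolygon B v) with hVin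
  -- (2) the fibres
  set Φ : Finset ((ℤ × ℤ) × Bool) → Finset (ℤ × ℤ) := fun η => Vin.filter (fun v => mdl41Bd (mdl41Ch η) v ≠ 0) with hΦ
  have hzero : ∀ η ⊆ W, ∀ v, ¬ OnPolygon B v → v ∉ Vin → mdl41Bd (mdl41Ch η) v = 0 := by
    intro η hη v hv hvV
    rw [mdl41_bd_ch]
    have : η.filter (fun e => e.1 = v ∨ rswEnd e = v) = ∅ := by
      refine Finset.eq_empty_of_forall_notMem fun e he => hvV ?_
      obtain ⟨h1, h2⟩ := Finset.mem_filter.1 he
      refine Finset.mem_filter.2 ⟨Finset.mem_union.2 ?_, hv⟩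
      rcases h2 with h2 | h2
      · exact Or.inl (Finset.mem_image.2 ⟨e, hη h1, h2⟩)
      · exact Or.inr (Finset.mem_image.2 ⟨e, hη h1, h2⟩)
    simp [this]
  have hfib : ∀ a ∈ W.powerset.image Φ, (W.powerset.filter fun η => Φ η = a).card ≤ 2 := by
    intro a ha
    obtain ⟨η₀, hη₀, rfl⟩ := Finset.mem_image.1 ha
    have hη₀' := Finset.mem_powerset.1 hη₀
    have hsub : (W.powerset.filter fun η => Φ η = Φ η₀) ⊆ {η₀, symmDiff η₀ W} := by
      intro η hη
      obtain ⟨h1, h2⟩ := Finset.mem_filter.1 hη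
      have h1' := Finset.mem_powerset.1 h1
      have hs : symmDiff η₀ η ⊆ W := by
        intro e he
        rcases Finset.mem_symmDiff.1 he with h | h
        · exact hη₀' h.1
        · exact h1' h.1
      have hev : Mdl41Even B (symmDiff η₀ η) := by
        intro v hv
        rw [wbe165_ch_symmDiff, map_add, Finsupp.add_apply]
        by_cases hvV : v ∈ Vin
        · have h3 : (v ∈ Φ η ↔ v ∈ Φ η₀) := by rw [h2]
          simp only [hΦ, Finset.mem_filter, hvV, true_and] at h3
          have key : ∀ x y : ZMod 2, (x ≠ 0 ↔ y ≠ 0) → y + x = 0 := by decide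
          exact key _ _ h3
        · rw [hzero η₀ hη₀' v hv hvV, hzero η h1' v hv hvV, add_zero]
      rcases hmin _ hs hev with h | h
      · have : η = η₀ := (symmDiff_eq_bot.1 h).symm
        simp [this]
      · have : η = symmDiff η₀ W := by
          rw [← h, symmDiff_symmDiff_cancel_left]
        simp [this]
    exact (Finset.card_le_card hsub).trans Finset.card_le_two
  have hcard1 : W.card ≤ Vin.card + 1 := by
    have h1 := Finset.card_le_mul_card_image (f := Φ) W.powerset 2 hfib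
    have h2 : (W.powerset.image Φ).card ≤ 2 ^ Vin.card := by
      rw [← Finset.card_powerset]
      refine Finset.card_le_card fun a ha => ?_
      obtain ⟨η, -, rfl⟩ := Finset.mem_image.1 ha
      exact Finset.mem_powerset.2 (Finset.filter_subset _ _)
    rw [Finset.card_powerset] at h1
    have h3 : 2 ^ W.card ≤ 2 ^ (Vin.card + 1) := by
      rw [pow_succ]; omega
    exact (Nat.pow_le_pow_iff_right (by norm_num)).1 h3
  -- (3) double counting
  have hdeg : ∀ v ∈ Vin, 2 ≤ (W.filter (fun e => e.1 = v ∨ rswEnd e = v)).card := by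
    intro v hv
    obtain ⟨h1, h2⟩ := Finset.mem_filter.1 hv
    have hev := (mdl41_even_iff B W).1 hW v h2
    have hpos : 0 < (W.filter (fun e => e.1 = v ∨ rswEnd e = v)).card := by
      rw [Finset.card_pos]
      rcases Finset.mem_union.1 h1 with h | h
      · obtain ⟨e, he, rfl⟩ := Finset.mem_image.1 h
        exact ⟨e, Finset.mem_filter.2 ⟨he, Or.inl rfl⟩⟩
      · obtain ⟨e, he, rfl⟩ := Finset.mem_image.1 h
        exact ⟨e, Finset.mem_filter.2 ⟨he, Or.inr rfl⟩⟩
    obtain ⟨m, hm⟩ := hev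
    have hm' : (W.filter (fun e => e.1 = v ∨ rswEnd e = v)).card = m + m := by convert hm using 2
    omega
  have hdc : ∑ v ∈ Vin, (W.filter (fun e => e.1 = v ∨ rswEnd e = v)).card
      = ∑ e ∈ W, (Vin.filter (fun v => e.1 = v ∨ rswEnd e = v)).card :=
    Finset.sum_card_bipartiteAbove_eq_sum_card_bipartiteBelow (fun v e => e.1 = v ∨ rswEnd e = v)
  have hle : ∀ e ∈ W, (Vin.filter (fun v => e.1 = v ∨ rswEnd e = v)).card
      + (if OnPolygon B e.1 ∨ OnPolygon B (rswEnd e) then 1 else 0) ≤ 2 := by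
    intro e he
    split_ifs with h
    · have : Vin.filter (fun v => e.1 = v ∨ rswEnd e = v) ⊆ (if OnPolygon B e.1 then {rswEnd e} else {e.1}) := by
        intro v hv
        obtain ⟨h1, h2⟩ := Finset.mem_filter.1 hv
        have h3 := (Finset.mem_filter.1 h1).2
        split_ifs with h4
        · rcases h2 with rfl | rfl
          · exact absurd h4 h3
          · simp
        · rcases h2 with rfl | rfl
          · simp
          · exact absurd (h.resolve_left h4) h3
      have h5 := Finset.card_le_card this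
      have h6 : (if OnPolygon B e.1 then ({rswEnd e} : Finset (ℤ × ℤ)) else {e.1}).card = 1 := by
        split_ifs <;> simp
      omega
    · have : Vin.filter (fun v => e.1 = v ∨ rswEnd e = v) ⊆ {e.1, rswEnd e} := by
        intro v hv
        rcases (Finset.mem_filter.1 hv).2 with rfl | rfl <;> simp
      have h5 := (Finset.card_le_card this).trans Finset.card_le_two
      omega
  have hsum1 : 2 * Vin.card ≤ ∑ v ∈ Vin, (W.filter (fun e => e.1 = v ∨ rswEnd e = v)).card := by
    have := Finset.card_nsmul_le_sum Vin _ 2 hdeg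
    simpa [mul_comm] using this
  have hsum2 : ∑ e ∈ W, ((Vin.filter (fun v => e.1 = v ∨ rswEnd e = v)).card
      + (if OnPolygon B e.1 ∨ OnPolygon B (rswEnd e) then 1 else 0)) ≤ 2 * W.card := by
    have := Finset.sum_le_card_nsmul W _ 2 hle
    simpa [mul_comm] using this
  rw [Finset.sum_add_distrib, ← Finset.card_filter] at hsum2
  omega

/-- **(ENDS)** the record `Wb81EndsLe` of `Model/WbDefs81`. -/
theorem wbe165_ends : Wb81EndsLe := by
  intro x0 x1 y0 y1 Ch hCh hc hx
  unfold wb81Ends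
  have := wbe165_count (Finset.Ico x0 x1 ×ˢ Finset.Ico y0 y1) (mdl41DisSet (Finset.Ico x0 x1 ×ˢ Finset.Ico y0 y1) Ch)
    (mdl41_even_disSet _ _) (fun η hη hev => wbe165_min (mdl41c_rect_ext x0 x1 y0 y1) hCh hc hx hη hev)
  convert this using 2

end Claimed.Agent.R292
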