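import Claimed.Agent.R292.Model.WbDefs81

/-!
# Row 292 (S0540), Model/WbEnds251 : (ENDS) = `Wb81EndsLe`, the planar fact of the cut of (WB)      (helper251; prefix `wbe251`)

METHOD: an EULER COUNT, no path is traced.
* (E) `wbe251_euler`: a finite 4-connected set `S` of faces has `|S| + #{full vertices of S} ≤ |rswInt S| + 1`.
  [delete the edge `(v, true)` of every full vertex `v`: the graph of faces stays connected (detour through the two faces below `v`,
  induction downwards); a connected graph on `n` vertices has at least `n - 1` edges]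
* (C) the rectangle `B` has `|B| + #{inner vertices} = |rswInt B| + 1`; adding (E) for `Ch` and `B \ Ch`: `|W| ≤ M + 1`, `W` = the wall, `M` = the number of mixed inner vertices.
* (H) handshake: `2 |W| ≥ 2 M + |Ends|`: a mixed inner vertex has at least two wall edges, an end edge has an end which is not an inner vertex.
-/

set_option autoImplicit false

namespace Claimed.Agent.R292

open Claims Claims.C0468 Relation

/-! ## 1. a connected multigraph on `n` vertices has at least `n - 1` edges -/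

theorem wbe251_tree {α ε : Type} (S : Finset α) (K : Finset ε) (s t : ε → α)
    (hs : ∀ e ∈ K, s e ∈ S) (ht : ∀ e ∈ K, t e ∈ S)
    (hconn : ∀ a ∈ S, ∀ b ∈ S, ReflTransGen (fun a b => ∃ e ∈ K, (a = s e ∧ b = t e) ∨ (b = s e ∧ a = t e)) a b) :
    S.card ≤ K.card + 1 := by
  classical
  rcases S.eq_empty_or_nonempty with rfl | ⟨a0, ha0⟩
  · simp
  let G : SimpleGraph S := SimpleGraph.fromRel (fun a b => ∃ e ∈ K, a.1 = s e ∧ b.1 = t e)
  have hreach : ∀ a (ha : a ∈ S) b, ReflTransGen (fun a b => ∃ e ∈ K, (a = s e ∧ b = t e) ∨ (b = s e ∧ a = t e)) a b →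
      ∀ hb : b ∈ S, G.Reachable ⟨a, ha⟩ ⟨b, hb⟩ := by
    intro a ha b h
    induction h with
    | refl => intro hb; exact SimpleGraph.Reachable.refl _
    | @tail c d _ hcd ih =>
      intro hd
      obtain ⟨e, he, h⟩ := hcd
      have hc : c ∈ S := by
        rcases h with ⟨h1, _⟩ | ⟨_, h1⟩
        · rw [h1]; exact hs e he
        · rw [h1]; exact ht e he
      refine (ih hc).trans ?_
      by_cases hcd : c = d
      · subst hcd; exact SimpleGraph.Reachable.refl _
      · refine SimpleGraph.Adj.reachable ?_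
        rw [SimpleGraph.fromRel_adj]
        refine ⟨fun h' => hcd (congrArg Subtype.val h'), ?_⟩
        rcases h with ⟨h1, h2⟩ | ⟨h1, h2⟩
        · exact Or.inl ⟨e, he, h1, h2⟩
        · exact Or.inr ⟨e, he, h1, h2⟩
  have hG : G.Connected := by
    have : Nonempty S := ⟨⟨a0, ha0⟩⟩
    refine ⟨fun a b => hreach a.1 a.2 b.1 (hconn _ a.2 _ b.2) b.2⟩
  have h1 := hG.card_vert_le_card_edgeSet_add_one
  have h2 : Nat.card S = S.card := by simp
  have h3 : G.edgeSet ⊆ ↑(K.attach.image (fun e => s(⟨s e.1, hs e.1 e.2⟩, (⟨t e.1, ht e.1 e.2⟩ : S)))) := by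
    intro z hz
    induction z using Sym2.ind with
    | _ a b =>
      rw [SimpleGraph.mem_edgeSet, SimpleGraph.fromRel_adj] at hz
      simp only [Finset.coe_image, Set.mem_image, Finset.mem_coe, Finset.mem_attach, true_and]
      rcases hz.2 with ⟨e, he, h1, h2⟩ | ⟨e, he, h1, h2⟩
      · exact ⟨⟨e, he⟩, by rw [Sym2.eq_iff]; exact Or.inl ⟨Subtype.ext h1.symm, Subtype.ext h2.symm⟩⟩
      · exact ⟨⟨e, he⟩, by rw [Sym2.eq_iff]; exact Or.inr ⟨Subtype.ext h1.symm, Subtype.ext h2.symm⟩⟩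
  have h4 : Nat.card G.edgeSet ≤ K.card := by
    rw [Nat.card_coe_set_eq]
    refine (Set.ncard_le_ncard h3 (Finset.finite_toSet _)).trans ?_
    rw [Set.ncard_coe_finset]
    exact Finset.card_image_le.trans (by simp)
  omega

/-! ## 2. (E) the Euler inequality of a 4-connected set of faces -/

open Classical in
/-- the full vertices of `S`: the four faces at `v` are in `S` -/
noncomputable def wbe251Q (S : Finset (ℤ × ℤ)) : Finset (ℤ × ℤ) := S.filter fun v => ¬ OnPolygon S v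

open Classical in
/-- the edges which are kept: all but the edges `(v, true)`, `v` full -/
noncomputable def wbe251K (S : Finset (ℤ × ℤ)) : Finset ((ℤ × ℤ) × Bool) :=
  (rswInt S).filter fun e => ¬ (e.2 = true ∧ ¬ OnPolygon S e.1)

theorem wbe251_mem_int {G : Finset (ℤ × ℤ)} {e : (ℤ × ℤ) × Bool} : e ∈ rswInt G ↔ e.1 ∈ G ∧ rswCo e ∈ G := by
  simp [rswInt]

theorem wbe251_card_int (S : Finset (ℤ × ℤ)) : (rswInt S).card = (wbe251K S).card + (wbe251Q S).card := by
  classical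
  have h : ((rswInt S).filter fun e => (e.2 = true ∧ ¬ OnPolygon S e.1)) = (wbe251Q S).image (fun v => (v, true)) := by
    ext ⟨v, b⟩
    simp only [Finset.mem_filter, Finset.mem_image, wbe251Q, Prod.mk.injEq, wbe251_mem_int]
    constructor
    · rintro ⟨⟨h1, _⟩, h2, h3⟩
      exact ⟨v, ⟨h1, h3⟩, rfl, h2.symm⟩
    · rintro ⟨w, ⟨h1, h3⟩, rfl, rfl⟩
      refine ⟨⟨h1, ?_⟩, rfl, h3⟩
      rw [OnPolygon, not_not] at h3
      simpa [rswCo] using h3.2.1
  have h2 := Finset.card_filter_add_card_filter_not (s := rswInt S) (fun e => (e.2 = true ∧ ¬ OnPolygon S e.1))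
  rw [h, Finset.card_image_of_injective _ (fun a b hab => (Prod.mk.inj hab).1)] at h2
  unfold wbe251K
  omega

/-- the step along a kept edge -/
def wbe251Step (S : Finset (ℤ × ℤ)) (a b : ℤ × ℤ) : Prop :=
  ∃ e ∈ wbe251K S, (a = e.1 ∧ b = rswCo e) ∨ (b = e.1 ∧ a = rswCo e)

theorem wbe251_mem_K {S : Finset (ℤ × ℤ)} {e : (ℤ × ℤ) × Bool} :
    e ∈ wbe251K S ↔ (e.1 ∈ S ∧ rswCo e ∈ S) ∧ ¬ (e.2 = true ∧ ¬ OnPolygon S e.1) := by
  classical
  simp only [wbe251K, Finset.mem_filter, wbe251_mem_int]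

/-- the detour: two horizontal neighbours in `S` are joined by kept edges -/
theorem wbe251_detour (S : Finset (ℤ × ℤ)) (m : ℤ) (hm : ∀ f ∈ S, m ≤ f.2) (n : ℕ) :
    ∀ x y : ℤ, y < m + n → (x, y) ∈ S → (x - 1, y) ∈ S → ReflTransGen (wbe251Step S) (x, y) (x - 1, y) := by
  induction n with
  | zero =>
    intro x y hy h1 _
    have := hm _ h1
    simp only at this
    push_cast at hy
    omega
  | succ n ih =>
    intro x y hy h1 h2
    by_cases hK : ((x, y), true) ∈ wbe251K S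
    · exact ReflTransGen.single ⟨_, hK, Or.inl ⟨rfl, by simp [rswCo]⟩⟩
    · rw [wbe251_mem_K] at hK
      have hfull : ¬ OnPolygon S (x, y) := by
        by_contra hp
        exact hK ⟨⟨h1, by simpa [rswCo] using h2⟩, fun h => h.2 hp⟩
      rw [OnPolygon, not_not] at hfull
      obtain ⟨_, _, h3, h4⟩ := hfull
      simp only at h3 h4
      have s1 : wbe251Step S (x, y) (x, y - 1) :=
        ⟨((x, y), false), wbe251_mem_K.2 ⟨⟨h1, by simpa [rswCo] using h3⟩, by simp⟩, Or.inl ⟨rfl, by simp [rswCo]⟩⟩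
      have s2 : wbe251Step S (x - 1, y - 1) (x - 1, y) :=
        ⟨((x - 1, y), false), wbe251_mem_K.2 ⟨⟨h2, by simpa [rswCo] using h4⟩, by simp⟩, Or.inr ⟨rfl, by simp [rswCo]⟩⟩
      exact (ReflTransGen.head s1 (ih x (y - 1) (by push_cast at hy; omega) h3 h4)).tail s2

theorem wbe251_step_symm {S : Finset (ℤ × ℤ)} {a b : ℤ × ℤ} (h : wbe251Step S a b) : wbe251Step S b a := by
  obtain ⟨e, he, h⟩ := h
  exact ⟨e, he, h.symm⟩

theorem wbe251_chain_symm {S : Finset (ℤ × ℤ)} {a b : ℤ × ℤ} (h : ReflTransGen (wbe251Step S) a b) :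
    ReflTransGen (wbe251Step S) b a := by
  induction h with
  | refl => exact ReflTransGen.refl
  | tail _ hbc ih => exact ReflTransGen.head (wbe251_step_symm hbc) ih

/-- **(E)** -/
theorem wbe251_euler (S : Finset (ℤ × ℤ)) (hS : ∀ f ∈ S, ∀ g ∈ S, Mdl41cJoin S f g) :
    S.card + (wbe251Q S).card ≤ (rswInt S).card + 1 := by
  classical
  obtain ⟨m, hm⟩ : ∃ m : ℤ, ∀ f ∈ S, m ≤ f.2 := by
    rcases S.eq_empty_or_nonempty with rfl | hne
    · exact ⟨0, by simp⟩
    · exact ⟨(S.image Prod.snd).min' (hne.image _), fun f hf => Finset.min'_le _ _ (Finset.mem_image_of_mem _ hf)⟩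
  have hdet : ∀ x y : ℤ, (x, y) ∈ S → (x - 1, y) ∈ S → ReflTransGen (wbe251Step S) (x, y) (x - 1, y) := by
    intro x y h1 h2
    refine wbe251_detour S m hm (y - m + 1).toNat x y ?_ h1 h2
    have := hm _ h1
    simp only at this
    omega
  have hedge : ∀ e : (ℤ × ℤ) × Bool, e.1 ∈ S → rswCo e ∈ S → ReflTransGen (wbe251Step S) e.1 (rswCo e) := by
    rintro ⟨⟨x, y⟩, b⟩ h1 h2
    cases b
    · exact ReflTransGen.single ⟨_, wbe251_mem_K.2 ⟨⟨h1, h2⟩, by simp⟩, Or.inl ⟨rfl, rfl⟩⟩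
    · have := hdet x y h1 (by simpa [rswCo] using h2)
      simpa [rswCo] using this
  have hconn : ∀ a ∈ S, ∀ b ∈ S, ReflTransGen (wbe251Step S) a b := by
    intro a ha b hb
    have h := hS a ha b hb
    unfold Mdl41cJoin at h
    induction h with
    | refl => exact ReflTransGen.refl
    | @tail c d _ hcd ih =>
      obtain ⟨hc, hd, e, he⟩ := hcd
      refine (ih hc).trans ?_
      rcases he with ⟨rfl, rfl⟩ | ⟨rfl, rfl⟩
      · exact hedge e hc hd
      · exact wbe251_chain_symm (hedge e hd hc)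
  have h := wbe251_tree S (wbe251K S) (fun e => e.1) rswCo (fun e he => (wbe251_mem_K.1 he).1.1)
    (fun e he => (wbe251_mem_K.1 he).1.2) hconn
  rw [wbe251_card_int]
  omega

/-! ## 3. (H) the handshake -/

theorem wbe251_mem_Q {S : Finset (ℤ × ℤ)} {v : ℤ × ℤ} : v ∈ wbe251Q S ↔ ¬ OnPolygon S v := by
  classical
  simp only [wbe251Q, Finset.mem_filter, and_iff_right_iff_imp]
  intro h
  rw [OnPolygon, not_not] at h
  exact h.1

theorem wbe251_mem_Q' {S : Finset (ℤ × ℤ)} {x y : ℤ} :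
    (x, y) ∈ wbe251Q S ↔ (x, y) ∈ S ∧ (x - 1, y) ∈ S ∧ (x, y - 1) ∈ S ∧ (x - 1, y - 1) ∈ S := by
  rw [wbe251_mem_Q, OnPolygon, not_not]

theorem wbe251_mem_W {B Ch : Finset (ℤ × ℤ)} {e : (ℤ × ℤ) × Bool} :
    e ∈ mdl41DisSet B Ch ↔ (e.1 ∈ B ∧ rswCo e ∈ B) ∧ ¬ (e.1 ∈ Ch ↔ rswCo e ∈ Ch) := by
  rw [mdl41_mem_disSet, wbe251_mem_int]; rfl

theorem wbe251_hand (B Ch : Finset (ℤ × ℤ)) :
    2 * (wbe251Q B \ (wbe251Q Ch ∪ wbe251Q (B \ Ch))).card + (wb81Ends B Ch).card ≤ 2 * (mdl41DisSet B Ch).card := by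
  classical
  set W := mdl41DisSet B Ch with hW
  set Vi := wbe251Q B with hVi
  have c1 := Finset.card_filter_add_card_filter_not (s := W) (fun e => e.1 ∈ Vi)
  have c2 := Finset.card_filter_add_card_filter_not (s := W) (fun e => rswEnd e ∈ Vi)
  have c3 : (wb81Ends B Ch).card ≤ (W.filter (fun e => ¬ e.1 ∈ Vi)).card + (W.filter (fun e => ¬ rswEnd e ∈ Vi)).card := by
    refine le_trans (Finset.card_le_card ?_) (Finset.card_union_le _ _)
    intro e he
    simp only [wb81Ends, Finset.mem_filter] at he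
    simp only [Finset.mem_union, Finset.mem_filter, hVi, wbe251_mem_Q, not_not]
    rcases he.2 with h | h
    · exact Or.inl ⟨he.1, h⟩
    · exact Or.inr ⟨he.1, h⟩
  have c4 : (Vi.filter (fun v => (v, true) ∈ W)).card + (Vi.filter (fun v => (v, false) ∈ W)).card ≤
      (W.filter (fun e => e.1 ∈ Vi)).card := by
    rw [← Finset.card_image_of_injective (Vi.filter (fun v => (v, true) ∈ W)) (f := fun v => (v, true))
        (fun a b hab => (Prod.mk.inj hab).1),
      ← Finset.card_image_of_injective (Vi.filter (fun v => (v, false) ∈ W)) (f := fun v => (v, false))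
        (fun a b hab => (Prod.mk.inj hab).1), ← Finset.card_union_of_disjoint]
    · refine Finset.card_le_card ?_
      intro e he
      simp only [Finset.mem_union, Finset.mem_image, Finset.mem_filter] at he ⊢
      rcases he with ⟨v, ⟨h1, h2⟩, rfl⟩ | ⟨v, ⟨h1, h2⟩, rfl⟩
      · exact ⟨h2, h1⟩
      · exact ⟨h2, h1⟩
    · rw [Finset.disjoint_left]
      intro e h1 h2
      simp only [Finset.mem_image] at h1 h2
      obtain ⟨v, _, rfl⟩ := h1
      obtain ⟨w, _, h⟩ := h2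
      simp at h
  have c5 : (Vi.filter (fun v => ((v.1, v.2 - 1), true) ∈ W)).card + (Vi.filter (fun v => ((v.1 - 1, v.2), false) ∈ W)).card ≤
      (W.filter (fun e => rswEnd e ∈ Vi)).card := by
    rw [← Finset.card_image_of_injective (Vi.filter (fun v => ((v.1, v.2 - 1), true) ∈ W))
        (f := fun v : ℤ × ℤ => ((v.1, v.2 - 1), true))
        (fun a b hab => by
          simp only [Prod.mk.injEq, and_true] at hab
          exact Prod.ext hab.1 (by omega)),
      ← Finset.card_image_of_injective (Vi.filter (fun v => ((v.1 - 1, v.2), false) ∈ W))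
        (f := fun v : ℤ × ℤ => ((v.1 - 1, v.2), false))
        (fun a b hab => by
          simp only [Prod.mk.injEq, and_true] at hab
          exact Prod.ext (by omega) hab.2), ← Finset.card_union_of_disjoint]
    · refine Finset.card_le_card ?_
      intro e he
      simp only [Finset.mem_union, Finset.mem_image, Finset.mem_filter] at he ⊢
      rcases he with ⟨v, ⟨h1, h2⟩, rfl⟩ | ⟨v, ⟨h1, h2⟩, rfl⟩
      · exact ⟨h2, by simpa [rswEnd] using h1⟩
      · exact ⟨h2, by simpa [rswEnd] using h1⟩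
    · rw [Finset.disjoint_left]
      intro e h1 h2
      simp only [Finset.mem_image] at h1 h2
      obtain ⟨v, _, rfl⟩ := h1
      obtain ⟨w, _, h⟩ := h2
      simp at h
  have c6 : 2 * (Vi \ (wbe251Q Ch ∪ wbe251Q (B \ Ch))).card ≤
      (Vi.filter (fun v => (v, true) ∈ W)).card + (Vi.filter (fun v => (v, false) ∈ W)).card +
      ((Vi.filter (fun v => ((v.1, v.2 - 1), true) ∈ W)).card + (Vi.filter (fun v => ((v.1 - 1, v.2), false) ∈ W)).card) := by
    rw [Finset.sdiff_eq_filter]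
    simp only [Finset.card_filter]
    rw [Finset.mul_sum, ← Finset.sum_add_distrib, ← Finset.sum_add_distrib, ← Finset.sum_add_distrib]
    refine Finset.sum_le_sum ?_
    rintro ⟨x, y⟩ hv
    obtain ⟨b1, b2, b3, b4⟩ := wbe251_mem_Q'.1 hv
    have e1 : (((x, y), true) ∈ W) ↔ ¬ ((x, y) ∈ Ch ↔ (x - 1, y) ∈ Ch) := by
      rw [hW, wbe251_mem_W]; simp [rswCo, b1, b2]
    have e2 : (((x, y), false) ∈ W) ↔ ¬ ((x, y) ∈ Ch ↔ (x, y - 1) ∈ Ch) := by
      rw [hW, wbe251_mem_W]; simp [rswCo, b1, b3]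
    have e3 : (((x, y - 1), true) ∈ W) ↔ ¬ ((x, y - 1) ∈ Ch ↔ (x - 1, y - 1) ∈ Ch) := by
      rw [hW, wbe251_mem_W]; simp [rswCo, b3, b4]
    have e4 : (((x - 1, y), false) ∈ W) ↔ ¬ ((x - 1, y) ∈ Ch ↔ (x - 1, y - 1) ∈ Ch) := by
      rw [hW, wbe251_mem_W]; simp [rswCo, b2, b4]
    have e5 : ((x, y) ∉ wbe251Q Ch ∪ wbe251Q (B \ Ch)) ↔
        ¬ ((x, y) ∈ Ch ∧ (x - 1, y) ∈ Ch ∧ (x, y - 1) ∈ Ch ∧ (x - 1, y - 1) ∈ Ch) ∧
        ¬ ((x, y) ∉ Ch ∧ (x - 1, y) ∉ Ch ∧ (x, y - 1) ∉ Ch ∧ (x - 1, y - 1) ∉ Ch) := by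
      rw [Finset.mem_union, wbe251_mem_Q', wbe251_mem_Q', not_or]
      simp [b1, b2, b3, b4]
    simp only [e1, e2, e3, e4, e5]
    by_cases a : (x, y) ∈ Ch <;> by_cases b : (x - 1, y) ∈ Ch <;> by_cases c : (x, y - 1) ∈ Ch <;>
      by_cases d : (x - 1, y - 1) ∈ Ch <;> simp [a, b, c, d]
  omega

/-! ## 4. (C) the counts -/

/-- the interior edges of `B` are those of `Ch`, those of `B \ Ch` and the wall -/
theorem wbe251_card_split (B Ch : Finset (ℤ × ℤ)) (hCh : Ch ⊆ B) :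
    (rswInt B).card = (rswInt Ch).card + (rswInt (B \ Ch)).card + (mdl41DisSet B Ch).card := by
  classical
  have h1 : rswInt B = (rswInt Ch ∪ rswInt (B \ Ch)) ∪ mdl41DisSet B Ch := by
    ext e
    simp only [Finset.mem_union, wbe251_mem_int, wbe251_mem_W, Finset.mem_sdiff]
    constructor
    · rintro ⟨h1, h2⟩
      by_cases a : e.1 ∈ Ch <;> by_cases b : rswCo e ∈ Ch <;> simp [a, b, h1, h2]
    · rintro ((⟨h1, h2⟩ | ⟨h1, h2⟩) | h)
      · exact ⟨hCh h1, hCh h2⟩
      · exact ⟨h1.1, h2.1⟩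
      · exact h.1
  rw [h1, Finset.card_union_of_disjoint, Finset.card_union_of_disjoint]
  · rw [Finset.disjoint_left]
    intro e h1 h2
    rw [wbe251_mem_int] at h1 h2
    exact (Finset.mem_sdiff.1 h2.1).2 h1.1
  · rw [Finset.disjoint_left]
    intro e h1 h2
    rw [wbe251_mem_W] at h2
    rw [Finset.mem_union, wbe251_mem_int, wbe251_mem_int] at h1
    rcases h1 with h1 | h1
    · exact h2.2 ⟨fun _ => h1.2, fun _ => h1.1⟩
    · exact h2.2 ⟨fun h => absurd h (Finset.mem_sdiff.1 h1.1).2, fun h => absurd h (Finset.mem_sdiff.1 h1.2).2⟩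

/-- the full vertices of `B`: those of `Ch`, those of `B \ Ch`, the mixed ones -/
theorem wbe251_card_Q (B Ch : Finset (ℤ × ℤ)) (hCh : Ch ⊆ B) :
    (wbe251Q B).card = (wbe251Q Ch).card + (wbe251Q (B \ Ch)).card +
      (wbe251Q B \ (wbe251Q Ch ∪ wbe251Q (B \ Ch))).card := by
  classical
  have hsub : wbe251Q Ch ∪ wbe251Q (B \ Ch) ⊆ wbe251Q B := by
    rintro ⟨x, y⟩ h
    rw [Finset.mem_union, wbe251_mem_Q', wbe251_mem_Q'] at h
    rw [wbe251_mem_Q']
    rcases h with ⟨h1, h2, h3, h4⟩ | ⟨h1, h2, h3, h4⟩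
    · exact ⟨hCh h1, hCh h2, hCh h3, hCh h4⟩
    · exact ⟨(Finset.mem_sdiff.1 h1).1, (Finset.mem_sdiff.1 h2).1, (Finset.mem_sdiff.1 h3).1, (Finset.mem_sdiff.1 h4).1⟩
  have hdis : Disjoint (wbe251Q Ch) (wbe251Q (B \ Ch)) := by
    rw [Finset.disjoint_left]
    rintro ⟨x, y⟩ h1 h2
    rw [wbe251_mem_Q'] at h1 h2
    exact (Finset.mem_sdiff.1 h2.1).2 h1.1
  have h1 := Finset.card_sdiff_add_card_eq_card hsub
  rw [Finset.card_union_of_disjoint hdis] at h1
  omega

/-- the Euler characteristic of a rectangle is `1` -/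
theorem wbe251_rect (x0 y0 : ℤ) (w h : ℕ) :
    (Finset.Ico x0 (x0 + w + 1) ×ˢ Finset.Ico y0 (y0 + h + 1)).card +
      (wbe251Q (Finset.Ico x0 (x0 + w + 1) ×ˢ Finset.Ico y0 (y0 + h + 1))).card =
      (rswInt (Finset.Ico x0 (x0 + w + 1) ×ˢ Finset.Ico y0 (y0 + h + 1))).card + 1 := by
  classical
  have hQ : wbe251Q (Finset.Ico x0 (x0 + w + 1) ×ˢ Finset.Ico y0 (y0 + h + 1)) =
      Finset.Ico (x0 + 1) (x0 + w + 1) ×ˢ Finset.Ico (y0 + 1) (y0 + h + 1) := by
    ext ⟨x, y⟩
    rw [wbe251_mem_Q']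
    simp only [Finset.mem_product, Finset.mem_Ico]
    omega
  have hI : rswInt (Finset.Ico x0 (x0 + w + 1) ×ˢ Finset.Ico y0 (y0 + h + 1)) =
      (Finset.Ico (x0 + 1) (x0 + w + 1) ×ˢ Finset.Ico y0 (y0 + h + 1)).image (fun v => (v, true)) ∪
      (Finset.Ico x0 (x0 + w + 1) ×ˢ Finset.Ico (y0 + 1) (y0 + h + 1)).image (fun v => (v, false)) := by
    ext ⟨⟨x, y⟩, b⟩
    rw [wbe251_mem_int]
    cases b
    · simp only [rswCo, Finset.mem_union, Finset.mem_image, Finset.mem_product, Finset.mem_Ico, Prod.mk.injEq,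
        Prod.exists, Bool.false_eq_true, if_false, and_true]
      constructor
      · intro hh; exact Or.inr ⟨x, y, by omega, rfl, rfl⟩
      · rintro (⟨a, b, _, _, hf⟩ | ⟨a, b, hh, rfl, rfl⟩)
        · exact absurd hf (by simp)
        · omega
    · simp only [rswCo, Finset.mem_union, Finset.mem_image, Finset.mem_product, Finset.mem_Ico, Prod.mk.injEq,
        Prod.exists, if_true, and_true]
      constructor
      · intro hh; exact Or.inl ⟨x, y, by omega, rfl, rfl⟩
      · rintro (⟨a, b, hh, rfl, rfl⟩ | ⟨a, b, _, _, hf⟩)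
        · omega
        · exact absurd hf (by simp)
  rw [hQ, hI, Finset.card_union_of_disjoint, Finset.card_image_of_injective _ (fun a b hab => (Prod.mk.inj hab).1),
    Finset.card_image_of_injective _ (fun a b hab => (Prod.mk.inj hab).1)]
  · simp only [Finset.card_product, Int.card_Ico]
    have a1 : (x0 + w + 1 - x0).toNat = w + 1 := by omega
    have a2 : (y0 + h + 1 - y0).toNat = h + 1 := by omega
    have a3 : (x0 + w + 1 - (x0 + 1)).toNat = w := by omega
    have a4 : (y0 + h + 1 - (y0 + 1)).toNat = h := by omega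
    rw [a1, a2, a3, a4]
    ring
  · rw [Finset.disjoint_left]
    intro e h1 h2
    simp only [Finset.mem_image] at h1 h2
    obtain ⟨v, _, rfl⟩ := h1
    obtain ⟨w, _, h⟩ := h2
    simp at h

/-! ## 5. (ENDS) -/

/-- **(ENDS)** `Wb81EndsLe`, verbatim -/
theorem wbe251_ends_le : Wb81EndsLe := by
  classical
  intro x0 x1 y0 y1 Ch hCh hc hn
  by_cases hx : x0 < x1
  swap
  · have hB : Finset.Ico x0 x1 ×ˢ Finset.Ico y0 y1 = (∅ : Finset (ℤ × ℤ)) := by
      rw [Finset.Ico_eq_empty (by omega), Finset.empty_product]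
    rw [hB]
    simp [wb81Ends, mdl41DisSet, rswInt]
  by_cases hy : y0 < y1
  swap
  · have hB : Finset.Ico x0 x1 ×ˢ Finset.Ico y0 y1 = (∅ : Finset (ℤ × ℤ)) := by
      rw [Finset.Ico_eq_empty (a := y0) (by omega), Finset.product_empty]
    rw [hB]
    simp [wb81Ends, mdl41DisSet, rswInt]
  obtain ⟨w, rfl⟩ : ∃ w : ℕ, x1 = x0 + w + 1 := ⟨(x1 - x0 - 1).toNat, by omega⟩
  obtain ⟨h, rfl⟩ : ∃ h : ℕ, y1 = y0 + h + 1 := ⟨(y1 - y0 - 1).toNat, by omega⟩
  set B := Finset.Ico x0 (x0 + w + 1) ×ˢ Finset.Ico y0 (y0 + h + 1) with hB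
  have k1 := wbe251_euler Ch hc
  have k2 := wbe251_euler (B \ Ch) hn
  have k3 := wbe251_rect x0 y0 w h
  rw [← hB] at k3
  have k4 := wbe251_card_split B Ch hCh
  have k5 := wbe251_card_Q B Ch hCh
  have k6 := wbe251_hand B Ch
  have k7 := Finset.card_sdiff_add_card_eq_card hCh
  omega

end Claimed.Agent.R292
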