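import Claimed.Agent.R292.Model.WbDefs81

/-!
# Row 292 (S0540), Model/WbMarkov99 : (MARKOV) of the typed cut of (WB) = `Wb81Markov t` VERBATIM      (pen helper99; c1_post row 30; typed by helper81; prefix `wbm99`, `Wbm99`)      0 sorry

`wbm99_markov (h0 : 0 < t) (h1 : t < 1) : Wb81Markov t`.
PROOF.  `Z_ξ(Y) = C_ξ ∑_{(U,P)} a(U,P) Y(U,P) N(ξ.2 ∪ P)` for `D`-blind `Y` (`wbm99_Z'`): `U` = spins on the core of `Ch`, `P` = edges of `rswInt Ch`, `C_ξ` = boundary condition and factors of the exterior edges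
(`wbm99C`), `a` = factors of the edges of `rswInt Ch`, `N(O)` = number of face spins constant along the closed edges (`wbm99N`).   `a` and `X` are the same for the two atoms (`wbm99_in_a`, `wbm99_in_x`).
COUNTING: `A(O)` = face spins admissible off the edges between `Ch` and its complement; `N ≤ A` (`wbm99_N_le_A`); `A ≤ 2 ^ m N` (`wbm99_A_le`: fibres of the disagreement map by symmetric difference,
`Finset.card_le_mul_card_image`); exchange of the outsides `A(O₁') A(O₂) ≤ A(O₁) A(O₂')` (`wbm99_exch`, gluing `wbm99G`);  hence the cross inequality `N(ξ'∪P) N(ξ∪Q) ≤ 4 ^ m N(ξ∪P) N(ξ'∪Q)` (`wbm99_cross'`), summed by `wbm99_sum_ineq`.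
-/

set_option autoImplicit false

namespace Claimed.Agent.R292

open Claims Claims.C0468

/-! ## 0. the weight and the face spins (own copies of three small lemmas of Model/Jump61, which is not in the closure of WbDefs81) -/

/-- the face spins are constant along the closed edges -/
def Wbm99Const (F : Finset (ℤ × ℤ)) (O : Finset ((ℤ × ℤ) × Bool)) (D : Finset (ℤ × ℤ)) : Prop :=
  ∀ e ∈ rswInt F, e ∉ O → (e.1 ∈ D ↔ rswCo e ∈ D)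

theorem wbm99_fac_const (t : ℝ) (S D : Finset (ℤ × ℤ)) (O : Finset ((ℤ × ℤ) × Bool)) (e : (ℤ × ℤ) × Bool) :
    rswFac t ⟨S, D, O⟩ e =
      open Classical in if (e ∉ O → (e.1 ∈ D ↔ rswCo e ∈ D)) then rswFac t ⟨S, ∅, O⟩ e else 0 := by
  classical
  unfold rswFac
  by_cases he : e ∈ O
  · simp [he]
  · by_cases hd : (e.1 ∈ D ↔ rswCo e ∈ D)
    · simp [he, hd]
    · simp [he, hd]

theorem wbm99_wt_const (t : ℝ) (F : Finset (ℤ × ℤ)) (b : Bool) (S D : Finset (ℤ × ℤ)) (O : Finset ((ℤ × ℤ) × Bool)) :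
    rswWt t F b ⟨S, D, O⟩ = open Classical in if Wbm99Const F O D then rswWt t F b ⟨S, ∅, O⟩ else 0 := by
  classical
  unfold rswWt
  have hbc : RswBc F b ⟨S, D, O⟩ ↔ RswBc F b ⟨S, ∅, O⟩ := Iff.rfl
  by_cases hB : RswBc F b ⟨S, ∅, O⟩
  · rw [if_pos (hbc.2 hB), if_pos hB]
    by_cases hc : Wbm99Const F O D
    · rw [if_pos hc]
      refine Finset.prod_congr rfl fun e he => ?_
      rw [wbm99_fac_const, if_pos (hc e he)]
    · rw [if_neg hc]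
      unfold Wbm99Const at hc
      push Not at hc
      obtain ⟨e, he, heO, hne⟩ := hc
      refine Finset.prod_eq_zero he ?_
      rw [wbm99_fac_const, if_neg]
      intro h
      have := h heO
      tauto
  · rw [if_neg (fun h => hB (hbc.1 h)), if_neg hB]
    simp

theorem wbm99_sum_swap (t : ℝ) (F : Finset (ℤ × ℤ)) (b : Bool) (X : RswCfg → ℝ) :
    rswSum t F b X = ∑ S ∈ (cornersOf F).powerset, ∑ O ∈ (rswInt F).powerset, ∑ D ∈ F.powerset,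
      rswWt t F b ⟨S, D, O⟩ * X ⟨S, D, O⟩ := by
  unfold rswSum
  exact Finset.sum_congr rfl fun S _ => Finset.sum_comm

/-! ## 1. counting the admissible face spins -/

open Classical in
/-- the admissible face spins of `(F, O)` -/
noncomputable def wbm99N (F : Finset (ℤ × ℤ)) (O : Finset ((ℤ × ℤ) × Bool)) : Finset (Finset (ℤ × ℤ)) :=
  F.powerset.filter fun D => Wbm99Const F O D

open Classical in
/-- the face spins which are admissible off the edges between `Ch` and its complement -/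
noncomputable def wbm99A (F Ch : Finset (ℤ × ℤ)) (O : Finset ((ℤ × ℤ) × Bool)) : Finset (Finset (ℤ × ℤ)) :=
  F.powerset.filter fun D => ∀ e ∈ rswInt F, e ∉ O → e ∉ mdl41DisSet F Ch → (e.1 ∈ D ↔ rswCo e ∈ D)

theorem wbm99_defs_cite : True := by
  have := @Wbm99Const.eq_1
  have := @wbm99N.eq_1
  have := @wbm99A.eq_1
  trivial

theorem wbm99_N_le_A (F Ch : Finset (ℤ × ℤ)) (O : Finset ((ℤ × ℤ) × Bool)) : (wbm99N F O).card ≤ (wbm99A F Ch O).card := by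
  classical
  refine Finset.card_le_card fun D hD => ?_
  unfold wbm99N at hD
  unfold wbm99A
  rw [Finset.mem_filter] at hD ⊢
  exact ⟨hD.1, fun e he heO _ => hD.2 e he heO⟩

theorem wbm99_A_le {F Ch : Finset (ℤ × ℤ)} {O : Finset ((ℤ × ℤ) × Bool)} {m : ℕ} (hm : (mdl41DisSet F Ch \ O).card ≤ m) :
    (wbm99A F Ch O).card ≤ 2 ^ m * (wbm99N F O).card := by
  classical
  obtain ⟨ψ, hψ⟩ : ∃ ψ : Finset (ℤ × ℤ) → Finset ((ℤ × ℤ) × Bool),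
      ψ = fun D => (mdl41DisSet F Ch \ O).filter fun e => ¬ (e.1 ∈ D ↔ rswCo e ∈ D) := ⟨_, rfl⟩
  have h1 : (wbm99A F Ch O).card ≤ (wbm99N F O).card * ((wbm99A F Ch O).image ψ).card := by
    refine Finset.card_le_mul_card_image (f := ψ) (wbm99A F Ch O) (wbm99N F O).card ?_
    intro s hs
    obtain ⟨D₁, hD₁, rfl⟩ := Finset.mem_image.1 hs
    refine Finset.card_le_card_of_injOn (fun D => symmDiff D D₁) ?_ ?_
    · intro D hD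
      have hD' := Finset.mem_filter.1 (Finset.mem_coe.1 hD)
      obtain ⟨hDA, hDψ⟩ := hD'
      unfold wbm99A at hDA hD₁
      rw [Finset.mem_filter, Finset.mem_powerset] at hDA hD₁
      unfold wbm99N
      rw [Finset.mem_coe, Finset.mem_filter, Finset.mem_powerset]
      refine ⟨fun x hx => ?_, fun e he heO => ?_⟩
      · rw [Finset.mem_symmDiff] at hx
        rcases hx with h | h
        · exact hDA.1 h.1
        · exact hD₁.1 h.1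
      · by_cases hdis : e ∈ mdl41DisSet F Ch
        · have hmem : e ∈ ψ D ↔ e ∈ ψ D₁ := by rw [hDψ]
          rw [hψ] at hmem
          simp only [Finset.mem_filter, Finset.mem_sdiff] at hmem
          simp only [Finset.mem_symmDiff]
          tauto
        · have a1 := hDA.2 e he heO hdis
          have a2 := hD₁.2 e he heO hdis
          simp only [Finset.mem_symmDiff]
          tauto
    · intro D _ D' _ h
      exact symmDiff_left_injective D₁ h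
  have h2 : ((wbm99A F Ch O).image ψ).card ≤ 2 ^ m := by
    calc ((wbm99A F Ch O).image ψ).card ≤ ((mdl41DisSet F Ch \ O).powerset).card := by
          refine Finset.card_le_card fun s hs => ?_
          obtain ⟨D, _, rfl⟩ := Finset.mem_image.1 hs
          rw [hψ]
          exact Finset.mem_powerset.2 (Finset.filter_subset _ _)
      _ = 2 ^ (mdl41DisSet F Ch \ O).card := Finset.card_powerset _
      _ ≤ 2 ^ m := Nat.pow_le_pow_right (by norm_num) hm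
  calc (wbm99A F Ch O).card ≤ (wbm99N F O).card * ((wbm99A F Ch O).image ψ).card := h1
    _ ≤ (wbm99N F O).card * 2 ^ m := Nat.mul_le_mul_left _ h2
    _ = 2 ^ m * (wbm99N F O).card := Nat.mul_comm _ _

/-- outside from `D`, inside from `D'` -/
def wbm99G (Ch D D' : Finset (ℤ × ℤ)) : Finset (ℤ × ℤ) := (D \ Ch) ∪ (D' ∩ Ch)

theorem wbm99_mem_G {Ch D D' : Finset (ℤ × ℤ)} {x : ℤ × ℤ} : x ∈ wbm99G Ch D D' ↔ (x ∈ D ∧ x ∉ Ch) ∨ (x ∈ D' ∧ x ∈ Ch) := by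
  unfold wbm99G
  rw [Finset.mem_union, Finset.mem_sdiff, Finset.mem_inter]

theorem wbm99_G_G (Ch D D' : Finset (ℤ × ℤ)) : wbm99G Ch (wbm99G Ch D D') (wbm99G Ch D' D) = D := by
  ext x
  simp only [wbm99_mem_G]
  tauto

theorem wbm99_G_mem {F Ch : Finset (ℤ × ℤ)} {O Oo Oi : Finset ((ℤ × ℤ) × Bool)} {D D' : Finset (ℤ × ℤ)}
    (hi : ∀ e ∈ rswInt Ch, (e ∈ O ↔ e ∈ Oi)) (ho : ∀ e ∈ rswInt F, e ∉ rswInt Ch → (e ∈ O ↔ e ∈ Oo))
    (hD : D ∈ wbm99A F Ch Oo) (hD' : D' ∈ wbm99A F Ch Oi) : wbm99G Ch D D' ∈ wbm99A F Ch O := by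
  classical
  unfold wbm99A at hD hD' ⊢
  rw [Finset.mem_filter, Finset.mem_powerset] at hD hD' ⊢
  refine ⟨fun x hx => ?_, fun e he heO hdis => ?_⟩
  · rw [wbm99_mem_G] at hx
    rcases hx with h | h
    · exact hD.1 h.1
    · exact hD'.1 h.1
  · have hnd : (e.1 ∈ Ch ↔ rswCo e ∈ Ch) := by
      by_contra hc
      exact hdis (mdl41_mem_disSet.2 ⟨he, hc⟩)
    simp only [wbm99_mem_G]
    by_cases h1 : e.1 ∈ Ch
    · have h2 := hnd.1 h1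
      have hint : e ∈ rswInt Ch := rsk_mem_int.2 ⟨h1, h2⟩
      have := hD'.2 e he (fun h => heO ((hi e hint).2 h)) hdis
      tauto
    · have h2 : rswCo e ∉ Ch := fun h => h1 (hnd.2 h)
      have hint : e ∉ rswInt Ch := fun h => h1 (rsk_mem_int.1 h).1
      have := hD.2 e he (fun h => heO ((ho e he hint).2 h)) hdis
      tauto

/-- exchange of the outsides -/
theorem wbm99_exch {F Ch : Finset (ℤ × ℤ)} {O1 O1' O2 O2' : Finset ((ℤ × ℤ) × Bool)}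
    (hi1 : ∀ e ∈ rswInt Ch, (e ∈ O1 ↔ e ∈ O1')) (hi2 : ∀ e ∈ rswInt Ch, (e ∈ O2' ↔ e ∈ O2))
    (ho1 : ∀ e ∈ rswInt F, e ∉ rswInt Ch → (e ∈ O1 ↔ e ∈ O2)) (ho2 : ∀ e ∈ rswInt F, e ∉ rswInt Ch → (e ∈ O2' ↔ e ∈ O1')) :
    (wbm99A F Ch O1').card * (wbm99A F Ch O2).card ≤ (wbm99A F Ch O1).card * (wbm99A F Ch O2').card := by
  classical
  rw [← Finset.card_product, ← Finset.card_product]
  refine Finset.card_le_card_of_injOn (fun p => (wbm99G Ch p.2 p.1, wbm99G Ch p.1 p.2)) ?_ ?_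
  · intro p hp
    have hp' := Finset.mem_product.1 (Finset.mem_coe.1 hp)
    exact Finset.mem_coe.2 (Finset.mem_product.2 ⟨wbm99_G_mem hi1 ho1 hp'.2 hp'.1, wbm99_G_mem hi2 ho2 hp'.1 hp'.2⟩)
  · intro p _ q _ h
    have h1 : wbm99G Ch p.2 p.1 = wbm99G Ch q.2 q.1 := congrArg Prod.fst h
    have h2 : wbm99G Ch p.1 p.2 = wbm99G Ch q.1 q.2 := congrArg Prod.snd h
    refine Prod.ext ?_ ?_
    · rw [← wbm99_G_G Ch p.1 p.2, h1, h2, wbm99_G_G]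
    · rw [← wbm99_G_G Ch p.2 p.1, h1, h2, wbm99_G_G]

/-- **the cross inequality** -/
theorem wbm99_cross {F Ch : Finset (ℤ × ℤ)} {O1 O1' O2 O2' : Finset ((ℤ × ℤ) × Bool)} {m : ℕ}
    (hi1 : ∀ e ∈ rswInt Ch, (e ∈ O1 ↔ e ∈ O1')) (hi2 : ∀ e ∈ rswInt Ch, (e ∈ O2' ↔ e ∈ O2))
    (ho1 : ∀ e ∈ rswInt F, e ∉ rswInt Ch → (e ∈ O1 ↔ e ∈ O2)) (ho2 : ∀ e ∈ rswInt F, e ∉ rswInt Ch → (e ∈ O2' ↔ e ∈ O1'))
    (hm1 : (mdl41DisSet F Ch \ O1).card ≤ m) (hm2 : (mdl41DisSet F Ch \ O2').card ≤ m) :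
    (wbm99N F O1').card * (wbm99N F O2).card ≤ 4 ^ m * ((wbm99N F O1).card * (wbm99N F O2').card) := by
  calc (wbm99N F O1').card * (wbm99N F O2).card ≤ (wbm99A F Ch O1').card * (wbm99A F Ch O2).card :=
        Nat.mul_le_mul (wbm99_N_le_A F Ch O1') (wbm99_N_le_A F Ch O2)
    _ ≤ (wbm99A F Ch O1).card * (wbm99A F Ch O2').card := wbm99_exch hi1 hi2 ho1 ho2
    _ ≤ (2 ^ m * (wbm99N F O1).card) * (2 ^ m * (wbm99N F O2').card) := Nat.mul_le_mul (wbm99_A_le hm1) (wbm99_A_le hm2)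
    _ = 4 ^ m * ((wbm99N F O1).card * (wbm99N F O2').card) := by
        have : (4 : ℕ) ^ m = 2 ^ m * 2 ^ m := by rw [← Nat.mul_pow]
        rw [this]; ring

/-! ## 2. a sum over a powerset with a prescribed trace -/

theorem wbm99_pow_split {α : Type*} [DecidableEq α] {B V S₀ : Finset α} (hS : S₀ ⊆ V) (hV : V ⊆ B) (g : Finset α → ℝ) :
    ∑ S ∈ B.powerset, (if S ∩ V = S₀ then g S else 0) = ∑ U ∈ (B \ V).powerset, g (S₀ ∪ U) := by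
  rw [← Finset.sum_filter]
  refine Finset.sum_nbij' (fun S => S \ V) (fun U => S₀ ∪ U) ?_ ?_ ?_ ?_ ?_
  · intro S hS'
    rw [Finset.mem_filter, Finset.mem_powerset] at hS'
    exact Finset.mem_powerset.2 (Finset.sdiff_subset_sdiff hS'.1 (le_refl _))
  · intro U hU
    rw [Finset.mem_powerset] at hU
    rw [Finset.mem_filter, Finset.mem_powerset]
    refine ⟨Finset.union_subset (hS.trans hV) (hU.trans Finset.sdiff_subset), ?_⟩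
    ext x
    have := @hU x
    have := @hS x
    simp only [Finset.mem_inter, Finset.mem_union, Finset.mem_sdiff] at *
    tauto
  · intro S hS'
    rw [Finset.mem_filter] at hS'
    have h := hS'.2
    ext x
    have hx : x ∈ S ∩ V ↔ x ∈ S₀ := by rw [h]
    simp only [Finset.mem_inter, Finset.mem_union, Finset.mem_sdiff] at *
    tauto
  · intro U hU
    rw [Finset.mem_powerset] at hU
    ext x
    have := @hU x
    have := @hS x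
    simp only [Finset.mem_union, Finset.mem_sdiff] at *
    tauto
  · intro S hS'
    rw [Finset.mem_filter] at hS'
    have h := hS'.2
    congr 1
    ext x
    have hx : x ∈ S ∩ V ↔ x ∈ S₀ := by rw [h]
    simp only [Finset.mem_inter, Finset.mem_union, Finset.mem_sdiff] at *
    tauto

/-! ## 3. the sum under an atom -/

theorem wbm99_fac_congr (t : ℝ) {S S' D : Finset (ℤ × ℤ)} {O O' : Finset ((ℤ × ℤ) × Bool)} {e : (ℤ × ℤ) × Bool}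
    (h1 : e ∈ O ↔ e ∈ O') (h2 : e.1 ∈ S ↔ e.1 ∈ S') (h3 : rswEnd e ∈ S ↔ rswEnd e ∈ S') :
    rswFac t ⟨S, D, O⟩ e = rswFac t ⟨S', D, O'⟩ e := by
  unfold rswFac
  simp only [h1, h2, h3]

theorem wbm99_fac_nonneg {t : ℝ} (h0 : 0 ≤ t) (h1 : t ≤ 1) (ω : RswCfg) (e : (ℤ × ℤ) × Bool) : 0 ≤ rswFac t ω e := by
  unfold rswFac
  split_ifs <;> linarith

/-- the sum over the face spins -/
theorem wbm99_sumD (t : ℝ) (F : Finset (ℤ × ℤ)) (b : Bool) (S : Finset (ℤ × ℤ)) (O : Finset ((ℤ × ℤ) × Bool)) (y : ℝ) :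
    ∑ D ∈ F.powerset, rswWt t F b ⟨S, D, O⟩ * y = rswWt t F b ⟨S, ∅, O⟩ * y * ((wbm99N F O).card : ℝ) := by
  classical
  have : ∀ D ∈ F.powerset, rswWt t F b ⟨S, D, O⟩ * y = if Wbm99Const F O D then rswWt t F b ⟨S, ∅, O⟩ * y else 0 := by
    intro D _
    rw [wbm99_wt_const]
    split_ifs <;> simp
  rw [Finset.sum_congr rfl this, ← Finset.sum_filter, Finset.sum_const, nsmul_eq_mul]
  unfold wbm99N
  ring

theorem wbm99_Z (t : ℝ) {F Ch : Finset (ℤ × ℤ)} (b : Bool) {ξ : Finset (ℤ × ℤ) × Finset ((ℤ × ℤ) × Bool)}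
    (hξ : ξ ∈ mdl1aT F Ch) (Y : RswCfg → ℝ) (hY : ∀ S D O, Y ⟨S, D, O⟩ = Y ⟨S, ∅, O⟩) :
    mdlSumK t F b (mdl1aK F Ch ξ) Y =
      ∑ U ∈ (cornersOf F \ mdl1aV F Ch).powerset, ∑ P ∈ (rswInt F \ mdl1aE F Ch).powerset,
        rswWt t F b ⟨ξ.1 ∪ U, ∅, ξ.2 ∪ P⟩ * Y ⟨ξ.1 ∪ U, ∅, ξ.2 ∪ P⟩ * ((wbm99N F (ξ.2 ∪ P)).card : ℝ) := by
  classical
  have h1 := Finset.mem_powerset.1 (Finset.mem_product.1 hξ).1
  have h2 := Finset.mem_powerset.1 (Finset.mem_product.1 hξ).2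
  have hV : mdl1aV F Ch ⊆ cornersOf F := fun v hv => (mdl1a_mem_V.1 hv).1
  have hE : mdl1aE F Ch ⊆ rswInt F := fun e he => (mdl1a_mem_E.1 he).1
  unfold mdlSumK
  rw [wbm99_sum_swap]
  have key : ∀ S O, ∑ D ∈ F.powerset, rswWt t F b ⟨S, D, O⟩ * (if (mdl1aK F Ch ξ).Holds ⟨S, D, O⟩ then Y ⟨S, D, O⟩ else 0) =
      if S ∩ mdl1aV F Ch = ξ.1 then (if O ∩ mdl1aE F Ch = ξ.2 then
        rswWt t F b ⟨S, ∅, O⟩ * Y ⟨S, ∅, O⟩ * ((wbm99N F O).card : ℝ) else 0) else 0 := by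
    intro S O
    have hh : ∀ D, (mdl1aK F Ch ξ).Holds ⟨S, D, O⟩ ↔ (S ∩ mdl1aV F Ch = ξ.1 ∧ O ∩ mdl1aE F Ch = ξ.2) := by
      intro D
      rw [mdl1a_holds hξ]
      constructor
      · intro h
        rw [h]
        exact ⟨rfl, rfl⟩
      · rintro ⟨a1, a2⟩
        exact Prod.ext a1.symm a2.symm
    by_cases hc : S ∩ mdl1aV F Ch = ξ.1 ∧ O ∩ mdl1aE F Ch = ξ.2
    · rw [if_pos hc.1, if_pos hc.2, ← wbm99_sumD]
      refine Finset.sum_congr rfl fun D _ => ?_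
      rw [if_pos ((hh D).2 hc), hY]
    · have : ∀ D ∈ F.powerset, rswWt t F b ⟨S, D, O⟩ * (if (mdl1aK F Ch ξ).Holds ⟨S, D, O⟩ then Y ⟨S, D, O⟩ else 0) = 0 := by
        intro D _
        rw [if_neg (fun h => hc ((hh D).1 h)), mul_zero]
      rw [Finset.sum_eq_zero this]
      by_cases hc1 : S ∩ mdl1aV F Ch = ξ.1
      · rw [if_pos hc1, if_neg (fun h => hc ⟨hc1, h⟩)]
      · rw [if_neg hc1]
  simp only [key]
  have s1 : ∀ S ∈ (cornersOf F).powerset, (∑ O ∈ (rswInt F).powerset, if S ∩ mdl1aV F Ch = ξ.1 then (if O ∩ mdl1aE F Ch = ξ.2 then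
        rswWt t F b ⟨S, ∅, O⟩ * Y ⟨S, ∅, O⟩ * ((wbm99N F O).card : ℝ) else 0) else 0) =
      if S ∩ mdl1aV F Ch = ξ.1 then ∑ P ∈ (rswInt F \ mdl1aE F Ch).powerset,
        rswWt t F b ⟨S, ∅, ξ.2 ∪ P⟩ * Y ⟨S, ∅, ξ.2 ∪ P⟩ * ((wbm99N F (ξ.2 ∪ P)).card : ℝ) else 0 := by
    intro S _
    by_cases hc1 : S ∩ mdl1aV F Ch = ξ.1
    · simp only [if_pos hc1]
      exact wbm99_pow_split h2 hE (fun O => rswWt t F b ⟨S, ∅, O⟩ * Y ⟨S, ∅, O⟩ * ((wbm99N F O).card : ℝ))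
    · simp only [if_neg hc1, Finset.sum_const_zero]
  rw [Finset.sum_congr rfl s1]
  exact wbm99_pow_split h1 hV (fun S => ∑ P ∈ (rswInt F \ mdl1aE F Ch).powerset,
        rswWt t F b ⟨S, ∅, ξ.2 ∪ P⟩ * Y ⟨S, ∅, ξ.2 ∪ P⟩ * ((wbm99N F (ξ.2 ∪ P)).card : ℝ))

/-! ## 4. the weight splits -/

open Classical in
/-- the exterior constant of an atom -/
noncomputable def wbm99C (t : ℝ) (F Ch : Finset (ℤ × ℤ)) (b : Bool) (ξ : Finset (ℤ × ℤ) × Finset ((ℤ × ℤ) × Bool)) : ℝ :=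
  (if RswBc F b ⟨ξ.1, ∅, ξ.2⟩ then 1 else 0) * ∏ e ∈ mdl1aE F Ch, rswFac t ⟨ξ.1, ∅, ξ.2⟩ e

theorem wbm99_C_cite : True := by
  have := @wbm99C.eq_1
  trivial

theorem wbm99_C_nonneg {t : ℝ} (h0 : 0 ≤ t) (h1 : t ≤ 1) (F Ch : Finset (ℤ × ℤ)) (b : Bool)
    (ξ : Finset (ℤ × ℤ) × Finset ((ℤ × ℤ) × Bool)) : 0 ≤ wbm99C t F Ch b ξ := by
  unfold wbm99C
  refine mul_nonneg (by split_ifs <;> norm_num) (Finset.prod_nonneg fun e _ => wbm99_fac_nonneg h0 h1 _ e)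

theorem wbm99_sdiff_E {F Ch : Finset (ℤ × ℤ)} (hCh : Ch ⊆ F) : rswInt F \ mdl1aE F Ch = rswInt Ch := by
  ext e
  have := @rsk_int_mono Ch F hCh e
  rw [Finset.mem_sdiff, mdl1a_mem_E]
  tauto

theorem wbm99_wt (t : ℝ) {F Ch : Finset (ℤ × ℤ)} (hCh : Ch ⊆ F) (b : Bool) {ξ : Finset (ℤ × ℤ) × Finset ((ℤ × ℤ) × Bool)}
    (hξ : ξ ∈ mdl1aT F Ch) {U : Finset (ℤ × ℤ)} {P : Finset ((ℤ × ℤ) × Bool)} (hU : U ⊆ cornersOf F \ mdl1aV F Ch)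
    (hP : P ⊆ rswInt Ch) :
    rswWt t F b ⟨ξ.1 ∪ U, ∅, ξ.2 ∪ P⟩ = wbm99C t F Ch b ξ * ∏ e ∈ rswInt Ch, rswFac t ⟨ξ.1 ∪ U, ∅, ξ.2 ∪ P⟩ e := by
  classical
  have hUV : ∀ v ∈ mdl1aV F Ch, v ∉ U := fun v hv hvU => (Finset.mem_sdiff.1 (hU hvU)).2 hv
  have hbc : RswBc F b ⟨ξ.1 ∪ U, ∅, ξ.2 ∪ P⟩ ↔ RswBc F b ⟨ξ.1, ∅, ξ.2⟩ := by
    unfold RswBc
    refine forall_congr' fun v => forall_congr' fun hv => forall_congr' fun hp => ?_
    have hvV : v ∈ mdl1aV F Ch := mdl1a_mem_V.2 ⟨hv, fun h => hp (mdl1_poly_mono hCh (not_not.2 h) |> fun h' => by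
      exact absurd hp h')⟩
    have := hUV v hvV
    simp only [Finset.mem_union]
    tauto
  have hok := mdl1a_ok hξ
  have hpins := mdl1a_pins hξ
  have h2 := Finset.mem_powerset.1 (Finset.mem_product.1 hξ).2
  have hends : ∀ e ∈ mdl1aE F Ch, e.1 ∈ mdl1aV F Ch ∧ rswEnd e ∈ mdl1aV F Ch := by
    intro e he
    have he' : e ∈ (mdl1aK F Ch ξ).Oo ∪ (mdl1aK F Ch ξ).Oc := by
      have : (mdl1aK F Ch ξ).Oo ∪ (mdl1aK F Ch ξ).Oc = mdl1aE F Ch := Finset.union_sdiff_of_subset h2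
      rw [this]; exact he
    have := hok e he'
    rwa [hpins] at this
  have hprod : ∏ e ∈ rswInt F, rswFac t ⟨ξ.1 ∪ U, ∅, ξ.2 ∪ P⟩ e =
      (∏ e ∈ mdl1aE F Ch, rswFac t ⟨ξ.1, ∅, ξ.2⟩ e) * ∏ e ∈ rswInt Ch, rswFac t ⟨ξ.1 ∪ U, ∅, ξ.2 ∪ P⟩ e := by
    rw [← Finset.prod_sdiff (rsk_int_mono hCh)]
    congr 1
    refine Finset.prod_congr rfl fun e he => ?_
    have he' : e ∈ mdl1aE F Ch := he
    have hePn : e ∉ P := fun h => (mdl1a_mem_E.1 he').2 (hP h)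
    have a1 := hUV _ (hends e he').1
    have a2 := hUV _ (hends e he').2
    refine wbm99_fac_congr t ?_ ?_ ?_ <;> simp only [Finset.mem_union] <;> tauto
  unfold rswWt wbm99C
  by_cases hB : RswBc F b ⟨ξ.1, ∅, ξ.2⟩
  · rw [if_pos (hbc.2 hB), if_pos hB, hprod, one_mul]
  · rw [if_neg (fun h => hB (hbc.1 h)), if_neg hB, zero_mul, zero_mul]

theorem wbm99_Z' (t : ℝ) {F Ch : Finset (ℤ × ℤ)} (hCh : Ch ⊆ F) (b : Bool) {η : Finset (ℤ × ℤ) × Finset ((ℤ × ℤ) × Bool)}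
    (hη : η ∈ mdl1aT F Ch) (Y : RswCfg → ℝ) (hY : ∀ S D O, Y ⟨S, D, O⟩ = Y ⟨S, ∅, O⟩) :
    mdlSumK t F b (mdl1aK F Ch η) Y =
      wbm99C t F Ch b η * ∑ p ∈ (cornersOf F \ mdl1aV F Ch).powerset ×ˢ (rswInt Ch).powerset,
        (∏ e ∈ rswInt Ch, rswFac t ⟨η.1 ∪ p.1, ∅, η.2 ∪ p.2⟩ e) * Y ⟨η.1 ∪ p.1, ∅, η.2 ∪ p.2⟩ *
          ((wbm99N F (η.2 ∪ p.2)).card : ℝ) := by
  rw [wbm99_Z t b hη Y hY, wbm99_sdiff_E hCh, Finset.sum_product, Finset.mul_sum]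
  refine Finset.sum_congr rfl fun U hU => ?_
  rw [Finset.mul_sum]
  refine Finset.sum_congr rfl fun P hP => ?_
  rw [wbm99_wt t hCh b hη (Finset.mem_powerset.1 hU) (Finset.mem_powerset.1 hP)]
  ring

/-! ## 5. (MARKOV) -/

theorem wbm99_not_mem {F Ch : Finset (ℤ × ℤ)} {ξ : Finset (ℤ × ℤ) × Finset ((ℤ × ℤ) × Bool)} (hξ : ξ ∈ mdl1aT F Ch)
    {e : (ℤ × ℤ) × Bool} (he : e ∈ rswInt Ch) : e ∉ ξ.2 :=
  fun h => (mdl1a_mem_E.1 (Finset.mem_powerset.1 (Finset.mem_product.1 hξ).2 h)).2 he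

theorem wbm99_union_in {O O' P : Finset ((ℤ × ℤ) × Bool)} {e : (ℤ × ℤ) × Bool} (h : e ∉ O) (h' : e ∉ O') :
    e ∈ O ∪ P ↔ e ∈ O' ∪ P := by
  rw [Finset.mem_union, Finset.mem_union]
  exact ⟨fun a => a.elim (fun x => absurd x h) Or.inr, fun a => a.elim (fun x => absurd x h') Or.inr⟩

theorem wbm99_union_out {O P Q : Finset ((ℤ × ℤ) × Bool)} {e : (ℤ × ℤ) × Bool} (h : e ∉ P) (h' : e ∉ Q) :
    e ∈ O ∪ P ↔ e ∈ O ∪ Q := by
  rw [Finset.mem_union, Finset.mem_union]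
  exact ⟨fun a => a.elim Or.inl (fun x => absurd x h), fun a => a.elim Or.inl (fun x => absurd x h')⟩

theorem wbm99_cross' {F Ch : Finset (ℤ × ℤ)} {ξ ξ' : Finset (ℤ × ℤ) × Finset ((ℤ × ℤ) × Bool)} {m : ℕ}
    (hξ : ξ ∈ mdl1aT F Ch) (hξ' : ξ' ∈ mdl1aT F Ch) (hO : ∀ e ∈ mdl41DisSet F Ch, (e ∈ ξ.2 ↔ e ∈ ξ'.2))
    (hm : (mdl41DisSet F Ch \ ξ.2).card ≤ m) {P Q : Finset ((ℤ × ℤ) × Bool)} (hP : P ⊆ rswInt Ch) (hQ : Q ⊆ rswInt Ch) :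
    ((wbm99N F (ξ'.2 ∪ P)).card : ℝ) * ((wbm99N F (ξ.2 ∪ Q)).card : ℝ) ≤
      4 ^ m * (((wbm99N F (ξ.2 ∪ P)).card : ℝ) * ((wbm99N F (ξ'.2 ∪ Q)).card : ℝ)) := by
  have := wbm99_cross (F := F) (Ch := Ch) (O1 := ξ.2 ∪ P) (O1' := ξ'.2 ∪ P) (O2 := ξ.2 ∪ Q) (O2' := ξ'.2 ∪ Q) (m := m)
    (fun e he => wbm99_union_in (wbm99_not_mem hξ he) (wbm99_not_mem hξ' he))
    (fun e he => wbm99_union_in (wbm99_not_mem hξ' he) (wbm99_not_mem hξ he))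
    (fun e _ he => wbm99_union_out (fun h => he (hP h)) (fun h => he (hQ h)))
    (fun e _ he => wbm99_union_out (fun h => he (hQ h)) (fun h => he (hP h)))
    ((Finset.card_le_card (fun e he => by
      rw [Finset.mem_sdiff, Finset.mem_union] at he
      exact Finset.mem_sdiff.2 ⟨he.1, fun h => he.2 (Or.inl h)⟩)).trans hm)
    ((Finset.card_le_card (fun e he => by
      rw [Finset.mem_sdiff, Finset.mem_union] at he
      exact Finset.mem_sdiff.2 ⟨he.1, fun h => he.2 (Or.inl ((hO e he.1).1 h))⟩)).trans hm)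
  exact_mod_cast this

theorem wbm99_in_a (t : ℝ) {F Ch : Finset (ℤ × ℤ)} {ξ ξ' : Finset (ℤ × ℤ) × Finset ((ℤ × ℤ) × Bool)}
    (hξ : ξ ∈ mdl1aT F Ch) (hξ' : ξ' ∈ mdl1aT F Ch) (hS : ∀ v ∈ cornersOf Ch, (v ∈ ξ.1 ↔ v ∈ ξ'.1))
    (p : Finset (ℤ × ℤ) × Finset ((ℤ × ℤ) × Bool)) :
    ∏ e ∈ rswInt Ch, rswFac t ⟨ξ'.1 ∪ p.1, ∅, ξ'.2 ∪ p.2⟩ e = ∏ e ∈ rswInt Ch, rswFac t ⟨ξ.1 ∪ p.1, ∅, ξ.2 ∪ p.2⟩ e := by
  refine Finset.prod_congr rfl fun e he => ?_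
  have a3 := hS e.1 (rsk_int_fst he)
  have a4 := hS (rswEnd e) (rsk_int_end he)
  refine wbm99_fac_congr t (wbm99_union_in (wbm99_not_mem hξ' he) (wbm99_not_mem hξ he)) ?_ ?_
  · rw [Finset.mem_union, Finset.mem_union, a3]
  · rw [Finset.mem_union, Finset.mem_union, a4]

theorem wbm99_in_x {F Ch : Finset (ℤ × ℤ)} {ξ ξ' : Finset (ℤ × ℤ) × Finset ((ℤ × ℤ) × Bool)}
    (hξ : ξ ∈ mdl1aT F Ch) (hξ' : ξ' ∈ mdl1aT F Ch) (hS : ∀ v ∈ cornersOf Ch, (v ∈ ξ.1 ↔ v ∈ ξ'.1))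
    {X : RswCfg → ℝ} (hXin : RskInside Ch X) (p : Finset (ℤ × ℤ) × Finset ((ℤ × ℤ) × Bool)) :
    X ⟨ξ'.1 ∪ p.1, ∅, ξ'.2 ∪ p.2⟩ = X ⟨ξ.1 ∪ p.1, ∅, ξ.2 ∪ p.2⟩ := by
  rw [← hXin ⟨ξ'.1 ∪ p.1, ∅, ξ'.2 ∪ p.2⟩, ← hXin ⟨ξ.1 ∪ p.1, ∅, ξ.2 ∪ p.2⟩]
  congr 1
  unfold rskIn
  have b1 : (ξ'.1 ∪ p.1) ∩ cornersOf Ch = (ξ.1 ∪ p.1) ∩ cornersOf Ch := by
    ext v
    rw [Finset.mem_inter, Finset.mem_inter, Finset.mem_union, Finset.mem_union]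
    constructor
    · rintro ⟨h, hv⟩
      rw [← hS v hv] at h
      exact ⟨h, hv⟩
    · rintro ⟨h, hv⟩
      rw [hS v hv] at h
      exact ⟨h, hv⟩
  have b2 : (ξ'.2 ∪ p.2) ∩ rswInt Ch = (ξ.2 ∪ p.2) ∩ rswInt Ch := by
    ext e
    rw [Finset.mem_inter, Finset.mem_inter]
    constructor
    · rintro ⟨h, he⟩
      exact ⟨(wbm99_union_in (wbm99_not_mem hξ' he) (wbm99_not_mem hξ he)).1 h, he⟩
    · rintro ⟨h, he⟩
      exact ⟨(wbm99_union_in (wbm99_not_mem hξ he) (wbm99_not_mem hξ' he)).1 h, he⟩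
  simp only [b1, b2]

theorem wbm99_sum_ineq {ι : Type*} (I : Finset ι) (a x n n' : ι → ℝ) (c : ℝ) (ha : ∀ p, 0 ≤ a p) (hx : ∀ p, 0 ≤ x p)
    (hc : ∀ p ∈ I, ∀ q ∈ I, n' p * n q ≤ c * (n p * n' q)) :
    (∑ p ∈ I, a p * x p * n' p) * (∑ q ∈ I, a q * 1 * n q) ≤ c * ((∑ p ∈ I, a p * x p * n p) * (∑ q ∈ I, a q * 1 * n' q)) := by
  rw [Finset.sum_mul_sum, Finset.sum_mul_sum, Finset.mul_sum]
  refine Finset.sum_le_sum fun p hp => ?_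
  rw [Finset.mul_sum]
  refine Finset.sum_le_sum fun q hq => ?_
  have hk := mul_le_mul_of_nonneg_left (hc p hp q hq) (mul_nonneg (mul_nonneg (ha p) (hx p)) (ha q))
  calc a p * x p * n' p * (a q * 1 * n q) = a p * x p * a q * (n' p * n q) := by ring
    _ ≤ a p * x p * a q * (c * (n p * n' q)) := hk
    _ = c * (a p * x p * n p * (a q * 1 * n' q)) := by ring

/-- **(MARKOV)** = `Wb81Markov t`, verbatim. -/
theorem wbm99_markov {t : ℝ} (h0 : 0 < t) (h1 : t < 1) : Wb81Markov t := by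
  intro F Ch b ξ ξ' m hCh hξ hξ' hS hO hm X hX0 hXin hXD
  rw [wbm99_Z' t hCh b hξ' X hXD, wbm99_Z' t hCh b hξ (fun _ => 1) (fun _ _ _ => rfl), wbm99_Z' t hCh b hξ X hXD,
    wbm99_Z' t hCh b hξ' (fun _ => 1) (fun _ _ _ => rfl)]
  have hC := wbm99_C_nonneg h0.le h1.le F Ch b ξ
  have hC' := wbm99_C_nonneg h0.le h1.le F Ch b ξ'
  simp only [wbm99_in_a t hξ hξ' hS, wbm99_in_x hξ hξ' hS hXin]
  have hsum := wbm99_sum_ineq ((cornersOf F \ mdl1aV F Ch).powerset ×ˢ (rswInt Ch).powerset)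
    (fun p => ∏ e ∈ rswInt Ch, rswFac t ⟨ξ.1 ∪ p.1, ∅, ξ.2 ∪ p.2⟩ e) (fun p => X ⟨ξ.1 ∪ p.1, ∅, ξ.2 ∪ p.2⟩)
    (fun p => ((wbm99N F (ξ.2 ∪ p.2)).card : ℝ)) (fun p => ((wbm99N F (ξ'.2 ∪ p.2)).card : ℝ)) (4 ^ m)
    (fun p => Finset.prod_nonneg fun e _ => wbm99_fac_nonneg h0.le h1.le _ e) (fun p => hX0 _)
    (fun p hp q hq => wbm99_cross' hξ hξ' hO hm (Finset.mem_powerset.1 (Finset.mem_product.1 hp).2)
      (Finset.mem_powerset.1 (Finset.mem_product.1 hq).2))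
  have hfin := mul_le_mul_of_nonneg_left hsum (mul_nonneg hC hC')
  beta_reduce at hfin
  generalize (∑ p ∈ (cornersOf F \ mdl1aV F Ch).powerset ×ˢ (rswInt Ch).powerset,
    (∏ e ∈ rswInt Ch, rswFac t ⟨ξ.1 ∪ p.1, ∅, ξ.2 ∪ p.2⟩ e) * X ⟨ξ.1 ∪ p.1, ∅, ξ.2 ∪ p.2⟩ * ((wbm99N F (ξ'.2 ∪ p.2)).card : ℝ)) = A1 at hfin ⊢
  generalize (∑ p ∈ (cornersOf F \ mdl1aV F Ch).powerset ×ˢ (rswInt Ch).powerset,
    (∏ e ∈ rswInt Ch, rswFac t ⟨ξ.1 ∪ p.1, ∅, ξ.2 ∪ p.2⟩ e) * 1 * ((wbm99N F (ξ.2 ∪ p.2)).card : ℝ)) = A2 at hfin ⊢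
  generalize (∑ p ∈ (cornersOf F \ mdl1aV F Ch).powerset ×ˢ (rswInt Ch).powerset,
    (∏ e ∈ rswInt Ch, rswFac t ⟨ξ.1 ∪ p.1, ∅, ξ.2 ∪ p.2⟩ e) * X ⟨ξ.1 ∪ p.1, ∅, ξ.2 ∪ p.2⟩ * ((wbm99N F (ξ.2 ∪ p.2)).card : ℝ)) = A3 at hfin ⊢
  generalize (∑ p ∈ (cornersOf F \ mdl1aV F Ch).powerset ×ˢ (rswInt Ch).powerset,
    (∏ e ∈ rswInt Ch, rswFac t ⟨ξ.1 ∪ p.1, ∅, ξ.2 ∪ p.2⟩ e) * 1 * ((wbm99N F (ξ'.2 ∪ p.2)).card : ℝ)) = A4 at hfin ⊢
  nlinarith [hfin]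

end Claimed.Agent.R292
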